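import Vale.Agent.P088.MathlibUsed

set_option linter.all false

section

open Bundle Manifold MeasureTheory Set
open scoped ContDiff

noncomputable section

namespace Vale.Agent.P088

/-- The fibre `ℂ^N` with its standard Hermitian product. -/
abbrev Fib (N : ℕ) : Type := EuclideanSpace ℂ (Fin N)

/-- Complex linear endomorphisms of `ℂ^N`. -/
abbrev EndF (N : ℕ) : Type := Fib N →L[ℂ] Fib N

/-! Shortcut instances: they only speed up the instance search. -/

instance sc1 (N : ℕ) : ContinuousSMul ℂ (Fib N) := IsBoundedSMul.continuousSMul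
instance sc2 (N : ℕ) : ContinuousSMul ℝ (Fib N) := IsBoundedSMul.continuousSMul
instance sc3 (N : ℕ) : NormedSpace ℝ (EndF N) := ContinuousLinearMap.toNormedSpace
instance sc4 (N : ℕ) : CompleteSpace (EndF N) := inferInstance
instance sc5 (N : ℕ) : T2Space (EndF N) := inferInstance
instance sc6 (N : ℕ) : Module ℝ (EndF N) := ContinuousLinearMap.module
instance sc7 (N : ℕ) : AddCommMonoid (EndF N) := ContinuousLinearMap.addCommMonoid

variable {n N : ℕ} {H : Type*} [TopologicalSpace H]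
  (I : ModelWithCorners ℝ (EuclideanSpace ℝ (Fin n)) H)
  {M : Type*} [TopologicalSpace M] [ChartedSpace H M] [IsManifold I ∞ M]

/-- The `i`-th coordinate vector at `x` of the preferred chart at `p`. -/
def coordVec (p x : M) (i : Fin n) : TangentSpace I x :=
  tangentCoordChange I p x x (EuclideanSpace.single i (1 : ℝ))

/-- A Riemannian metric on `M`, smooth up to the boundary: its coefficients are smooth in all
charts. -/
structure Metric (M : Type*) [TopologicalSpace M] [ChartedSpace H M] [IsManifold I ∞ M] where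
  inner : ∀ x : M, TangentSpace I x →L[ℝ] TangentSpace I x →L[ℝ] ℝ
  symm : ∀ (x : M) (v w : TangentSpace I x), inner x v w = inner x w v
  pos : ∀ (x : M) (v : TangentSpace I x), v ≠ 0 → 0 < inner x v v
  smooth : ∀ (p : M) (i j : Fin n), ContMDiffOn I 𝓘(ℝ, ℝ) ∞
    (fun x => inner x (coordVec I p x i) (coordVec I p x j)) (extChartAt I p).source

variable {I} in
/-- The matrix `g_{ij}(x)` of the metric in the preferred chart at `p`. -/
def gram (g : Metric I M) (p x : M) : Matrix (Fin n) (Fin n) ℝ :=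
  Matrix.of fun i j => g.inner x (coordVec I p x i) (coordVec I p x j)

variable {I} in
/-- `μ` is the Riemannian volume of `g`: in every preferred chart it is `√(det g_{ij}) dy`. -/
def IsRiemannianVolume [MeasurableSpace M] (g : Metric I M) (μ : Measure M) : Prop :=
  ∀ (p : M) (s : Set M), MeasurableSet s → s ⊆ (extChartAt I p).source →
    μ s = ∫⁻ y in (extChartAt I p) '' s,
      ENNReal.ofReal (Real.sqrt (gram g p ((extChartAt I p).symm y)).det)

/-- A smooth unitary connection `d + A` on the trivial bundle `M × ℂ^N`: a `1`-form `A` with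
values in skew-adjoint endomorphisms, whose coefficients in all charts are smooth. -/
structure Connection (N : ℕ) (M : Type*) [TopologicalSpace M]
    [ChartedSpace H M] [IsManifold I ∞ M] where
  form : ∀ x : M, TangentSpace I x →L[ℝ] EndF N
  smooth : ∀ (p : M) (i : Fin n), ContMDiffOn I 𝓘(ℝ, EndF N) ∞
    (fun x => form x (coordVec I p x i)) (extChartAt I p).source
  skew : ∀ (x : M) (v : TangentSpace I x),
    ContinuousLinearMap.adjoint (form x v) = -form x v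

/-- The differential `du_x : T_x M → F` of a map `u : M → F` into a normed space. -/
def dmap {F : Type*} [NormedAddCommGroup F] [NormedSpace ℝ F] (u : M → F) (x : M) :
    TangentSpace I x →L[ℝ] F :=
  mfderiv I 𝓘(ℝ, F) u x

/-- The zero connection, `d_A = d` on `M × ℂ^N`. -/
def zeroConn (N : ℕ) (M : Type*) [TopologicalSpace M] [ChartedSpace H M] [IsManifold I ∞ M] :
    Connection I N M where
  form := fun _ => 0
  smooth := fun _ _ => contMDiffOn_const
  skew := fun _ _ => (map_zero ContinuousLinearMap.adjoint).trans neg_zero.symm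

variable {I}

/-- The covariant derivative `(d_A u)_x(v) = du_x(v) + A_x(v) u(x)`. -/
def cov (A : Connection I N M) (u : M → Fib N) (x : M) (v : TangentSpace I x) : Fib N :=
  dmap I u x v + A.form x v (u x)

/-- The pointwise product `⟨d_A u, d_A v⟩_g` at `x`, that is `∑ g^{ij} ⟨(d_A u)_i, (d_A v)_j⟩`. -/
def pairing (g : Metric I M) (A : Connection I N M) (u v : M → Fib N) (x : M) : ℂ :=
  ∑ i, ∑ j, (((gram g x x)⁻¹ i j : ℝ) : ℂ) *
    inner ℂ (cov A u x (coordVec I x x i)) (cov A v x (coordVec I x x j))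

/-- The form `∫_M ⟨d_A u, d_A v⟩_g dV_g`. -/
def energy [MeasurableSpace M] (g : Metric I M) (μ : Measure M) (A : Connection I N M)
    (u v : M → Fib N) : ℂ :=
  ∫ x, pairing g A u v x ∂μ

/-- `u` is smooth, `u = f` on `∂M` and `d_A^* d_A u = 0` in `M`. -/
structure IsHarmonicExt [MeasurableSpace M] (g : Metric I M) (μ : Measure M)
    (A : Connection I N M) (f u : M → Fib N) : Prop where
  smooth : ContMDiff I 𝓘(ℝ, Fib N) ∞ u
  boundary : ∀ x ∈ I.boundary M, u x = f x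
  weak : ∀ φ : M → Fib N, ContMDiff I 𝓘(ℝ, Fib N) ∞ φ →
    (∀ x ∈ I.boundary M, φ x = 0) → energy g μ A u φ = 0

variable (I) in
/-- Boundary data `f ∈ C_c^∞(Γ; ℂ^N)`, given as the restriction to `∂M` of a smooth function. -/
structure IsBdryData (Γ : Set M) (f : M → Fib N) : Prop where
  smooth : ContMDiff I 𝓘(ℝ, Fib N) ∞ f
  supp : closure {x ∈ I.boundary M | f x ≠ 0} ⊆ Γ

/-- The data on `Γ` of `(g₁, A₁)` and `(g₂, A₂)` are equal: for all `f, h ∈ C_c^∞(Γ; ℂ^N)`,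
`∫ ⟨d_{A₁} u_f, d_{A₁} u_h⟩ dV_{g₁} = ∫ ⟨d_{A₂} u_f, d_{A₂} u_h⟩ dV_{g₂}`, where `u_f, u_h` are
the solutions of the two Dirichlet problems. -/
def SameData [MeasurableSpace M] (Γ : Set M) (g₁ : Metric I M) (μ₁ : Measure M)
    (A₁ : Connection I N M) (g₂ : Metric I M) (μ₂ : Measure M) (A₂ : Connection I N M) : Prop :=
  ∀ f h : M → Fib N, IsBdryData I Γ f → IsBdryData I Γ h →
    ∃ u₁ v₁ u₂ v₂ : M → Fib N,
      IsHarmonicExt g₁ μ₁ A₁ f u₁ ∧ IsHarmonicExt g₁ μ₁ A₁ h v₁ ∧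
      IsHarmonicExt g₂ μ₂ A₂ f u₂ ∧ IsHarmonicExt g₂ μ₂ A₂ h v₂ ∧
      energy g₁ μ₁ A₁ u₁ v₁ = energy g₂ μ₂ A₂ u₂ v₂

variable (I) in
/-- A smooth map `M → U(N)`. -/
structure IsSmoothUnitary (U : M → EndF N) : Prop where
  smooth : ContMDiff I 𝓘(ℝ, EndF N) ∞ U
  unitary : ∀ x, U x ∈ unitary (EndF N)

/-- The connection `U⁻¹ (Φ^* A) U + U⁻¹ dU` evaluated at `x` on `v`. -/
def gaugeForm (A : Connection I N M) (Φ : M → M) (U : M → EndF N) (x : M)
    (v : TangentSpace I x) : EndF N :=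
  ContinuousLinearMap.adjoint (U x) ∘L (A.form (Φ x) (mfderiv I I Φ x v)) ∘L (U x) +
    ContinuousLinearMap.adjoint (U x) ∘L (dmap I U x v)

/-- The conclusion of Q1: `(g₂, A₂)` is the pull back of `(g₁, A₁)` by a diffeomorphism `Φ` of `M`
and a gauge transformation `U : M → U(N)` with `Φ|_Γ = Id` and `U|_Γ = I`. -/
def GaugeEquivalent (Γ : Set M) (g₁ : Metric I M) (A₁ : Connection I N M)
    (g₂ : Metric I M) (A₂ : Connection I N M) : Prop :=
  ∃ (Φ : Diffeomorph I I M M ∞) (U : M → EndF N),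
    IsSmoothUnitary I U ∧ (∀ x ∈ Γ, Φ x = x ∧ U x = 1) ∧
    (∀ (x : M) (v w : TangentSpace I x), g₂.inner x v w =
      g₁.inner (Φ x) (mfderiv I I Φ x v) (mfderiv I I Φ x w)) ∧
    (∀ (x : M) (v : TangentSpace I x), A₂.form x v = gaugeForm A₁ Φ U x v)

end Vale.Agent.P088
end
end

section

/-!
# P088-EYM: common local definitions

Everything local lives on subsets `D` (relatively open) of the closed half space `Hs n`.
-/

open MeasureTheory Set
open scoped ContDiff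

noncomputable section

namespace Vale.Agent.P088.EYM

/-- The model space. -/
abbrev E (n : ℕ) : Type := EuclideanSpace ℝ (Fin n)

variable {n N : ℕ} [NeZero n]

variable (n) in
/-- The closed half space `{x | 0 ≤ x 0}`. -/
def Hs : Set (E n) := {x | 0 ≤ x 0}

/-- The `i`-th unit vector. -/
abbrev ev (i : Fin n) : E n := EuclideanSpace.single i (1 : ℝ)

/-- The partial derivative `∂_i f (x)` on the closed half space (one-sided at the boundary). -/
def pd {F : Type*} [NormedAddCommGroup F] [NormedSpace ℝ F] (i : Fin n) (f : E n → F)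
    (x : E n) : F := fderivWithin ℝ f (Hs n) x (ev i)

/-- `D` is relatively open in the closed half space. -/
def RelOpen (D : Set (E n)) : Prop := ∃ O : Set (E n), IsOpen O ∧ D = O ∩ Hs n

/-- Local data: a metric `g`, a connection matrix `B` and a Hermitian form `h`. -/
structure LD (n N : ℕ) where
  g : E n → Matrix (Fin n) (Fin n) ℝ
  B : Fin n → E n → EndF N
  h : E n → EndF N

/-- `(g, B, h)` is smooth on `D`, `g` is a metric, `h` a Hermitian form preserved by `d + B`. -/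
structure LD.Ok (L : LD n N) (D : Set (E n)) : Prop where
  g_smooth : ∀ i j, ContDiffOn ℝ ∞ (fun x => L.g x i j) D
  g_pos : ∀ x ∈ D, (L.g x).PosDef
  B_smooth : ∀ i, ContDiffOn ℝ ∞ (L.B i) D
  h_smooth : ContDiffOn ℝ ∞ L.h D
  h_adj : ∀ x ∈ D, ContinuousLinearMap.adjoint (L.h x) = L.h x
  h_pos : ∀ x ∈ D, ∀ v : Fib N, v ≠ 0 → 0 < (inner ℂ v (L.h x v) : ℂ).re
  compat : ∀ x ∈ D, ∀ j, pd j L.h x = ContinuousLinearMap.adjoint (L.B j x) * L.h x +
    L.h x * L.B j x

/-- `√(det g) g^{jk}`. -/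
def gg (g : E n → Matrix (Fin n) (Fin n) ℝ) (j k : Fin n) (x : E n) : ℝ :=
  Real.sqrt (g x).det * (g x)⁻¹ j k

/-- `(∂_j + B_j) c (x)`. -/
def nab (L : LD n N) (j : Fin n) (c : E n → Fib N) (x : E n) : Fib N :=
  pd j c x + L.B j x (c x)

/-- The flux `∑_k √(det g) g^{jk} (∂_k + B_k) c`. -/
def flux (L : LD n N) (j : Fin n) (c : E n → Fib N) (x : E n) : Fib N :=
  ∑ k, gg L.g j k x • nab L k c x

/-- The operator `∑_j (∂_j + B_j) (flux_j c)`. -/
def Lop (L : LD n N) (c : E n → Fib N) (x : E n) : Fib N :=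
  ∑ j, (pd j (flux L j c) x + L.B j x (flux L j c x))

/-- The energy density `∑ √(det g) g^{jk} ⟨(∂_j + B_j) c, h (∂_k + B_k) d⟩`. -/
def ed (L : LD n N) (c d : E n → Fib N) (x : E n) : ℂ :=
  ∑ j, ∑ k, (gg L.g j k x : ℂ) * inner ℂ (nab L j c x) (L.h x (nab L k d x))

/-- The energy form over `D`. -/
def En (L : LD n N) (D : Set (E n)) (c d : E n → Fib N) : ℂ := ∫ x in D, ed L c d x

/-- `c` is a smooth solution on `D`. -/
def Sol (L : LD n N) (D : Set (E n)) (c : E n → Fib N) : Prop :=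
  ContDiffOn ℝ ∞ c D ∧ ∀ x ∈ D, Lop L c x = 0

/-! ### Curvature -/

/-- The Christoffel symbol `Γ^k_{ij}`. -/
def chr (g : E n → Matrix (Fin n) (Fin n) ℝ) (k i j : Fin n) (x : E n) : ℝ :=
  (1 / 2) * ∑ l, (g x)⁻¹ k l * (pd i (fun y => g y l j) x + pd j (fun y => g y l i) x -
    pd l (fun y => g y i j) x)

/-- The Ricci tensor `R_{jk} = ∂_i Γ^i_{jk} - ∂_j Γ^i_{ik} + Γ^i_{il} Γ^l_{jk} - Γ^i_{jl} Γ^l_{ik}`. -/
def ric (g : E n → Matrix (Fin n) (Fin n) ℝ) (j k : Fin n) (x : E n) : ℝ :=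
  ∑ i, (pd i (chr g i j k) x - pd j (chr g i i k) x +
    ∑ l, (chr g i i l x * chr g l j k x - chr g i j l x * chr g l i k x))

/-- The curvature `F_{ij} = ∂_i B_j - ∂_j B_i + [B_i, B_j]`. -/
def cur (B : Fin n → E n → EndF N) (i j : Fin n) (x : E n) : EndF N :=
  pd i (B j) x - pd j (B i) x + (B i x * B j x - B j x * B i x)

/-- The trace of an endomorphism of `ℂ^N`. -/
def trE (T : EndF N) : ℂ := LinearMap.trace ℂ (Fib N) (T : Fib N →ₗ[ℂ] Fib N)

/-- `T_{jk} = - ∑ g^{ab} Re tr (F_{ja} F_{kb})`. -/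
def Tst (L : LD n N) (j k : Fin n) (x : E n) : ℝ :=
  -∑ a, ∑ b, (L.g x)⁻¹ a b * (trE (cur L.B j a x * cur L.B k b x)).re

/-- The right hand side `κ g_{jk} + α T_{jk} + β (∑ g^{ab} T_{ab}) g_{jk}` of the Einstein
equation. -/
def rhsE (κ α β : ℝ) (L : LD n N) (j k : Fin n) (x : E n) : ℝ :=
  κ * L.g x j k + α * Tst L j k x + β * (∑ a, ∑ b, (L.g x)⁻¹ a b * Tst L a b x) * L.g x j k

/-- The Yang-Mills expression
`g^{ij} (∂_i F_{jk} - Γ^l_{ij} F_{lk} - Γ^l_{ik} F_{jl} + [B_i, F_{jk}])`. -/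
def ymE (L : LD n N) (k : Fin n) (x : E n) : EndF N :=
  ∑ i, ∑ j, (L.g x)⁻¹ i j • (pd i (cur L.B j k) x -
    ∑ l, (chr L.g l i j x • cur L.B l k x + chr L.g l i k x • cur L.B j l x) +
    (L.B i x * cur L.B j k x - cur L.B j k x * L.B i x))

/-- The Einstein and Yang-Mills equations on `D`. -/
structure EYMeq (κ α β : ℝ) (L : LD n N) (D : Set (E n)) : Prop where
  ein : ∀ x ∈ D, ∀ j k, ric L.g j k x = rhsE κ α β L j k x
  ym : ∀ x ∈ D, ∀ k, ymE L k x = 0

/-! ### Pull back -/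

/-- The Jacobian matrix `∂_j X_i`. -/
def Jac (X : E n → E n) (x : E n) : Matrix (Fin n) (Fin n) ℝ :=
  Matrix.of fun i j => pd j (fun y => X y i) x

/-- `X : D → D'` is a diffeomorphism with inverse `Y`. -/
structure IsDiffeo (D D' : Set (E n)) (X Y : E n → E n) : Prop where
  mapsX : MapsTo X D D'
  mapsY : MapsTo Y D' D
  inv1 : ∀ x ∈ D, Y (X x) = x
  inv2 : ∀ y ∈ D', X (Y y) = y
  smX : ContDiffOn ℝ ∞ X D
  smY : ContDiffOn ℝ ∞ Y D'

/-- `L` on `D` is the pull back of `L'` on `D'` by the diffeomorphism `X` (inverse `Y`) and the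
frame `S`: sections correspond by `u = S (c ∘ X)`. -/
structure IsPull (L L' : LD n N) (D D' : Set (E n)) (X Y : E n → E n) (S : E n → EndF N) :
    Prop where
  diffeo : IsDiffeo D D' X Y
  smS : ContDiffOn ℝ ∞ S D
  unit : ∀ x ∈ D, IsUnit (S x)
  g_eq : ∀ x ∈ D, L.g x = (Jac X x).transpose * L'.g (X x) * Jac X x
  B_eq : ∀ x ∈ D, ∀ j, pd j S x + L.B j x * S x = S x * ∑ k, Jac X x k j • L'.B k (X x)
  h_eq : ∀ x ∈ D, ContinuousLinearMap.adjoint (S x) * L.h x * S x = L'.h (X x)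

/-! ### Models: local data in solution coordinates and a solution frame -/

/-- A model: local data and `n` distinguished sections. -/
structure Model (n N : ℕ) extends LD n N where
  c : Fin n → E n → Fib N

/-- `W` is a model on `D`: the constant sections and the `c_a` are solutions, the real part of the
component `j0` of `c_a` is the coordinate `x_a`, and the Einstein and Yang-Mills equations hold. -/
structure IsModel (κ α β : ℝ) (j0 : Fin N) (W : Model n N) (D : Set (E n)) : Prop where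
  ok : W.toLD.Ok D
  frame : ∀ v : Fib N, Sol W.toLD D (fun _ => v)
  sol : ∀ a, Sol W.toLD D (W.c a)
  re : ∀ a, ∀ x ∈ D, (W.c a x j0).re = x a
  eqs : EYMeq κ α β W.toLD D

/-- Two models are equal on `D`. -/
structure EqOnM (W₁ W₂ : Model n N) (D : Set (E n)) : Prop where
  g : ∀ x ∈ D, W₁.g x = W₂.g x
  B : ∀ x ∈ D, ∀ j, W₁.B j x = W₂.B j x
  h : ∀ x ∈ D, W₁.h x = W₂.h x
  c : ∀ x ∈ D, ∀ a, W₁.c a x = W₂.c a x

/-- The half ball of radius `r` about `z`. -/
def HB (z : E n) (r : ℝ) : Set (E n) := Metric.ball z r ∩ Hs n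

end Vale.Agent.P088.EYM
end
end

section

/-!
# P088-EYM: interface statements between the blocks

Block A (helper460): local analysis.  Block B (helper732): algebra, pull backs, models.
Block D (helper809): boundary determination.  Block C (helper88): manifold part, uses all these.
-/

open MeasureTheory Set Filter Topology
open scoped ContDiff

noncomputable section

namespace Vale.Agent.P088.EYM

variable {n N : ℕ} [NeZero n]

/-- A test function (or test section) on `O`. -/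
def Tst0 {F : Type*} [NormedAddCommGroup F] [NormedSpace ℝ F] (O : Set (E n)) (φ : E n → F) :
    Prop := ContDiff ℝ ∞ φ ∧ HasCompactSupport φ ∧ tsupport φ ⊆ O

/-- `∫_K ‖c‖² + ∑ ‖∂_j c‖²`. -/
def H1 (K : Set (E n)) (c : E n → Fib N) : ℝ :=
  ∫ x in K, (‖c x‖ ^ 2 + ∑ j, ‖pd j c x‖ ^ 2)

/-! ### Block A -/

/-- weak implies strong, interior. -/
def AWeakStrong_statement : Prop :=
  ∀ (n N : ℕ) [NeZero n] (L : LD n N) (D : Set (E n)), IsOpen D → D ⊆ Hs n → L.Ok D →
    ∀ c : E n → Fib N, ContDiffOn ℝ ∞ c D →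
      (∀ ψ : E n → Fib N, Tst0 D ψ → En L D c ψ = 0) → ∀ x ∈ D, Lop L c x = 0

/-- interior estimate for smooth solutions. -/
def AInt_statement : Prop :=
  ∀ (n N : ℕ) [NeZero n] (L : LD n N) (D : Set (E n)), IsOpen D → D ⊆ Hs n → L.Ok D →
    ∀ (z : E n) (r : ℝ), 0 < r → Metric.closedBall z r ⊆ D →
      ∃ C : ℝ, ∀ c : E n → Fib N, Sol L D c → ∀ x ∈ Metric.ball z (r / 2),
        (‖c x‖ + ∑ j, ‖pd j c x‖) ^ 2 ≤ C * ∫ y in Metric.ball z r, ‖c y‖ ^ 2

/-- local solutions with prescribed 1-jet. -/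
def ASolve_statement : Prop :=
  ∀ (n N : ℕ) [NeZero n] (L : LD n N) (D : Set (E n)), IsOpen D → D ⊆ Hs n → L.Ok D →
    ∀ z ∈ D, ∀ (a : Fib N) (b : Fin n → Fib N), ∃ r > 0, Metric.ball z r ⊆ D ∧
      ∃ v : E n → Fib N, ContDiffOn ℝ 2 v (Metric.ball z r) ∧
        (∀ x ∈ Metric.ball z r, Lop L v x = 0) ∧ v z = a ∧ ∀ j, pd j v z = b j

/-- unique continuation for limits of sequences, interior. -/
def AUcpInt_statement : Prop :=
  ∀ (n N : ℕ) [NeZero n] (L : LD n N) (D : Set (E n)), IsOpen D → D ⊆ Hs n → L.Ok D →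
    IsPreconnected D → ∀ w : ℕ → E n → Fib N, (∀ k, ContDiffOn ℝ ∞ (w k) D) →
    (∀ K, IsCompact K → K ⊆ D → ∀ ε > 0, ∃ k₀, ∀ k ≥ k₀, ∀ l ≥ k₀,
      H1 K (fun x => w k x - w l x) ≤ ε) →
    (∀ ψ : E n → Fib N, Tst0 D ψ → Tendsto (fun k => En L D (w k) ψ) atTop (𝓝 0)) →
    ∀ (z' : E n) (r' : ℝ), 0 < r' → Metric.closedBall z' r' ⊆ D →
      Tendsto (fun k => ∫ x in Metric.ball z' r', ‖w k x‖ ^ 2) atTop (𝓝 0) →
      ∀ K, IsCompact K → K ⊆ D → Tendsto (fun k => ∫ x in K, ‖w k x‖ ^ 2) atTop (𝓝 0)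

/-- unique continuation for limits of sequences, from the boundary (zero Cauchy data in the
weak sense: zero boundary values, and test functions need not vanish at the boundary). -/
def AUcpBd_statement : Prop :=
  ∀ (n N : ℕ) [NeZero n] (L : LD n N) (z : E n) (r : ℝ), 0 < r → z 0 = 0 → L.Ok (HB z r) →
    ∀ w : ℕ → E n → Fib N, (∀ k, ContDiffOn ℝ ∞ (w k) (HB z r)) →
    (∀ k, ∀ x ∈ HB z r, x 0 = 0 → w k x = 0) →
    (∀ ε > 0, ∃ k₀, ∀ k ≥ k₀, ∀ l ≥ k₀, H1 (HB z r) (fun x => w k x - w l x) ≤ ε) →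
    (∀ k, IntegrableOn (fun x => ‖w k x‖ ^ 2 + ∑ j, ‖pd j (w k) x‖ ^ 2) (HB z r)) →
    (∀ ψ : E n → Fib N, Tst0 (Metric.ball z r) ψ →
      Tendsto (fun k => En L (HB z r) (w k) ψ) atTop (𝓝 0)) →
    ∃ r' > 0, r' ≤ r ∧ Tendsto (fun k => ∫ x in HB z r', ‖w k x‖ ^ 2) atTop (𝓝 0)

/-- Green's formula, the second function vanishes on the flat boundary; the first one has compact
support. -/
def AGreen_statement : Prop :=
  ∀ (n N : ℕ) [NeZero n] (L : LD n N) (z : E n) (r : ℝ), 0 < r → L.Ok (HB z r) →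
    ∀ c d : E n → Fib N, ContDiffOn ℝ 2 c (HB z r) → ContDiffOn ℝ 1 d (HB z r) →
      (∃ r' < r, ∀ x ∈ HB z r, x ∉ Metric.ball z r' → c x = 0) →
      (∀ x ∈ HB z r, x 0 = 0 → d x = 0) →
      En L (HB z r) c d = - ∫ x in HB z r, inner ℂ (Lop L c x) (L.h x (d x))

/-- Equality of the energies with all test sections gives equality of the fluxes. -/
def AFlux_statement : Prop :=
  ∀ (n N : ℕ) [NeZero n] (L₁ L₂ : LD n N) (z : E n) (r : ℝ), 0 < r → z 0 = 0 →
    L₁.Ok (HB z r) → L₂.Ok (HB z r) → (∀ x ∈ HB z r, x 0 = 0 → L₁.h x = L₂.h x) →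
    ∀ d₁ d₂ : E n → Fib N, Sol L₁ (HB z r) d₁ → Sol L₂ (HB z r) d₂ →
      (∀ c : E n → Fib N, Tst0 (Metric.ball z r) c →
        En L₁ (HB z r) c d₁ = En L₂ (HB z r) c d₂) →
      ∀ x ∈ HB z r, x 0 = 0 → flux L₁ 0 d₁ x = flux L₂ 0 d₂ x

/-- Hardy's inequality on the half ball. -/
def AHardy_statement : Prop :=
  ∀ (n N : ℕ) [NeZero n] (L : LD n N) (z : E n) (r : ℝ), z 0 = 0 → L.Ok (HB z r) →
    ∀ r', 0 < r' → r' < r → ∃ C : ℝ, ∀ c : E n → Fib N, ContDiffOn ℝ ∞ c (HB z r) →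
      (∀ x ∈ HB z r, x 0 = 0 → c x = 0) →
      IntegrableOn (fun x => ‖c x‖ ^ 2 / (x 0) ^ 2) (HB z r') ∧
      ∫ x in HB z r', ‖c x‖ ^ 2 / (x 0) ^ 2 ≤ C * (En L (HB z r') c c).re

/-- Local Poincaré inequalities for sections. -/
def APoincare_statement : Prop :=
  ∀ (n N : ℕ) [NeZero n] (L : LD n N) (z : E n) (r r' : ℝ), 0 < r' → r' < r → z ∈ Hs n →
    L.Ok (HB z r) →
    (z 0 = 0 → ∃ C : ℝ, ∀ c : E n → Fib N, ContDiffOn ℝ ∞ c (HB z r) →
      (∀ x ∈ HB z r, x 0 = 0 → c x = 0) →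
      ∫ x in HB z r', ‖c x‖ ^ 2 ≤ C * (En L (HB z r') c c).re) ∧
    (∀ (z'' : E n) (r'' : ℝ), 0 < r'' → HB z'' r'' ⊆ HB z r' → z'' ∈ Hs n →
      ∃ C : ℝ, ∀ c : E n → Fib N, ContDiffOn ℝ ∞ c (HB z r) →
      ∫ x in HB z r', ‖c x‖ ^ 2 ≤ C * (∫ x in HB z'' r'', ‖c x‖ ^ 2 + (En L (HB z r') c c).re))

/-- unique continuation for smooth solutions, interior. -/
def LinInt_statement : Prop :=
  ∀ (n N : ℕ) [NeZero n] (L : LD n N) (D : Set (E n)), IsOpen D → D ⊆ Hs n → L.Ok D →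
    IsPreconnected D → ∀ c : E n → Fib N, Sol L D c → ∀ U : Set (E n), IsOpen U → U ⊆ D →
      U.Nonempty → (∀ x ∈ U, c x = 0) → ∀ x ∈ D, c x = 0

/-- unique continuation for smooth solutions from the boundary. -/
def LinBd_statement : Prop :=
  ∀ (n N : ℕ) [NeZero n] (L : LD n N) (z : E n) (r : ℝ), 0 < r → z 0 = 0 → L.Ok (HB z r) →
    ∀ c : E n → Fib N, Sol L (HB z r) c → (∀ x ∈ HB z r, x 0 = 0 → c x = 0 ∧ flux L 0 c x = 0) →
      ∀ x ∈ HB z r, c x = 0

/-- `C¹` test sections are limits of smooth ones. -/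
def ADens_statement : Prop :=
  ∀ (n N : ℕ) [NeZero n] (O : Set (E n)) (φ : E n → Fib N), IsOpen O → O ⊆ Hs n →
    ContDiff ℝ 1 φ → HasCompactSupport φ → tsupport φ ⊆ O →
    ∃ (K : Set (E n)) (ψ : ℕ → E n → Fib N), IsCompact K ∧ K ⊆ O ∧
      (∀ m, Tst0 O (ψ m) ∧ tsupport (ψ m) ⊆ K) ∧
      ∀ ε > 0, ∃ m₀, ∀ m ≥ m₀, ∀ x, ‖ψ m x - φ x‖ ≤ ε ∧ ∀ j, ‖pd j (ψ m) x - pd j φ x‖ ≤ ε

/-- Extension to the flat boundary of a bounded solution of a total differential system; the first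
component stays in a half ball. -/
def AExtSys_statement : Prop :=
  ∀ (n : ℕ) [NeZero n] (G : Type) [NormedAddCommGroup G] [NormedSpace ℝ G] [CompleteSpace G]
    (z z' : E n) (r r' r'' : ℝ), 0 < r → r'' < r' → z ∈ Hs n →
    ∀ Λ : E n × E n × G → E n →L[ℝ] E n × G,
    ContDiffOn ℝ ∞ Λ (HB z r ×ˢ HB z' r' ×ˢ (univ : Set G)) → ∀ s : E n → E n × G,
    (∀ y ∈ HB z r, 0 < y 0 → HasFDerivAt s (Λ (y, s y)) y) →
    (∀ y ∈ HB z r, 0 < y 0 → (s y).1 ∈ Metric.closedBall z' r'' ∩ Hs n) →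
    (∃ C : ℝ, ∀ y ∈ HB z r, 0 < y 0 → ‖Λ (y, s y)‖ ≤ C) →
    ∃ s' : E n → E n × G, ContDiffOn ℝ ∞ s' (HB z r) ∧ (∀ y ∈ HB z r, 0 < y 0 → s' y = s y) ∧
      ∀ y ∈ HB z r, (s' y).1 ∈ Metric.closedBall z' r'' ∩ Hs n

/-! ### Block B -/

/-- inverse of a pull back -/
def BSymm_statement : Prop :=
  ∀ (n N : ℕ) [NeZero n] (L L' : LD n N) (D D' : Set (E n)) (X Y : E n → E n)
    (S : E n → EndF N), RelOpen D → RelOpen D' → IsPull L L' D D' X Y S →
    IsPull L' L D' D Y X (fun y => Ring.inverse (S (Y y)))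

/-- composition of pull backs: `u = S (c ∘ X)`, `c = S' (d ∘ X')`. -/
def BComp_statement : Prop :=
  ∀ (n N : ℕ) [NeZero n] (L L' L'' : LD n N) (D D' D'' : Set (E n)) (X Y X' Y' : E n → E n)
    (S S' : E n → EndF N), RelOpen D → RelOpen D' → RelOpen D'' → IsPull L L' D D' X Y S →
    IsPull L' L'' D' D'' X' Y' S' →
    IsPull L L'' D D'' (X' ∘ X) (Y ∘ Y') (fun x => S x * S' (X x))

/-- invariance of the energy -/
def BEnergy_statement : Prop :=
  ∀ (n N : ℕ) [NeZero n] (L L' : LD n N) (D D' : Set (E n)) (X Y : E n → E n)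
    (S : E n → EndF N), RelOpen D → RelOpen D' → L.Ok D → L'.Ok D' → IsPull L L' D D' X Y S →
    ∀ c d : E n → Fib N, ContDiffOn ℝ 1 c D' → ContDiffOn ℝ 1 d D' →
      En L D (fun x => S x (c (X x))) (fun x => S x (d (X x))) = En L' D' c d

/-- solutions correspond -/
def BSol_statement : Prop :=
  ∀ (n N : ℕ) [NeZero n] (L L' : LD n N) (D D' : Set (E n)) (X Y : E n → E n)
    (S : E n → EndF N), RelOpen D → RelOpen D' → L.Ok D → L'.Ok D' → IsPull L L' D D' X Y S →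
    ∀ c : E n → Fib N, Sol L D (fun x => S x (c (X x))) → ContDiffOn ℝ ∞ c D' → Sol L' D' c

/-- transport of the structure: the pushed forward data exist, are smooth, and solve the Einstein
and Yang-Mills equations. -/
def BPush_statement : Prop :=
  ∀ (n N : ℕ) [NeZero n] (L : LD n N) (D D' : Set (E n)) (X Y : E n → E n)
    (S : E n → EndF N), RelOpen D → RelOpen D' → L.Ok D → IsDiffeo D D' X Y →
    ContDiffOn ℝ ∞ S D → (∀ x ∈ D, IsUnit (S x)) →
    ∃ L' : LD n N, L'.Ok D' ∧ IsPull L L' D D' X Y S ∧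
      ∀ κ α β, EYMeq κ α β L D → EYMeq κ α β L' D'

/-- The Christoffel symbols of a pull back (used for the extension to the boundary). -/
def BChr_statement : Prop :=
  ∀ (n : ℕ) [NeZero n] (g g' : E n → Matrix (Fin n) (Fin n) ℝ) (D D' : Set (E n))
    (X : E n → E n), IsOpen D → D ⊆ Hs n → IsOpen D' → D' ⊆ Hs n → MapsTo X D D' →
    ContDiffOn ℝ ∞ X D → (∀ i j, ContDiffOn ℝ ∞ (fun x => g x i j) D) →
    (∀ i j, ContDiffOn ℝ ∞ (fun x => g' x i j) D') → (∀ x ∈ D, (g x).PosDef) →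
    (∀ x ∈ D', (g' x).PosDef) → (∀ x ∈ D, g x = (Jac X x).transpose * g' (X x) * Jac X x) →
    ∀ x ∈ D, ∀ i j k, pd i (fun y => Jac X y k j) x =
      ∑ l, chr g l i j x * Jac X x k l -
        ∑ a, ∑ b, chr g' k a b (X x) * Jac X x a i * Jac X x b j

/-- a diffeomorphism of relatively open sets maps interior points to interior points. -/
def BIntr_statement : Prop :=
  ∀ (n : ℕ) [NeZero n] (D D' : Set (E n)) (X Y : E n → E n), RelOpen D → RelOpen D' →
    IsDiffeo D D' X Y → ∀ x ∈ D, 0 < x 0 → 0 < X x 0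

/-- The solution coordinates. -/
def Xco (j0 : Fin N) (S : E n → EndF N) (T : Fin n → E n → Fib N) (x : E n) : E n :=
  WithLp.toLp 2 fun a => ((Ring.inverse (S x)) (T a x) j0).re

/-- Existence of a model near `z` in solution coordinates. -/
def BModel_statement : Prop :=
  ∀ (n N : ℕ) [NeZero n] (L : LD n N) (D : Set (E n)) (κ α β : ℝ) (j0 : Fin N), RelOpen D →
    L.Ok D → EYMeq κ α β L D → ∀ (S : E n → EndF N) (T : Fin n → E n → Fib N),
    ContDiffOn ℝ ∞ S D → (∀ v, Sol L D (fun x => S x v)) → (∀ a, Sol L D (T a)) →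
    ∀ z ∈ D, IsUnit (S z) → (Jac (Xco j0 S T) z).det ≠ 0 →
    ((0 < z 0 ∧ 0 < Xco j0 S T z 0) ∨
      (z 0 = 0 ∧ 0 < pd 0 (fun x => Xco j0 S T x 0) z ∧
        ∃ r > 0, ∀ x ∈ HB z r, x 0 = 0 → Xco j0 S T x 0 = 0)) →
    ∃ (Y : E n → E n) (W : Model n N) (r₀ : ℝ), 0 < r₀ ∧ ∀ r, 0 < r → r ≤ r₀ →
      ∃ D₁ ⊆ D, RelOpen D₁ ∧ z ∈ D₁ ∧
        IsPull L W.toLD D₁ (HB (Xco j0 S T z) r) (Xco j0 S T) Y S ∧
        IsModel κ α β j0 W (HB (Xco j0 S T z) r) ∧
        ∀ x ∈ D₁, ∀ a, T a x = S x (W.c a (Xco j0 S T x))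

/-- Rigidity of models, interior. -/
def BRigInt_statement : Prop :=
  ∀ (n N : ℕ) [NeZero n] (κ α β : ℝ) (j0 : Fin N) (W₁ W₂ : Model n N) (D : Set (E n)),
    3 ≤ n → IsOpen D → D ⊆ {x | 0 < x 0} → IsPreconnected D →
    IsModel κ α β j0 W₁ D → IsModel κ α β j0 W₂ D → ∀ U : Set (E n), IsOpen U → U ⊆ D →
    U.Nonempty → EqOnM W₁ W₂ U → EqOnM W₁ W₂ D

/-- Equality of the 1-jets of `(g, B, c, ∂c)` and of `h` at `x`. -/
structure JetEq (W₁ W₂ : Model n N) (x : E n) : Prop where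
  g : W₁.g x = W₂.g x
  dg : ∀ i j k, pd k (fun y => W₁.g y i j) x = pd k (fun y => W₂.g y i j) x
  B : ∀ i, W₁.B i x = W₂.B i x
  dB : ∀ i k, pd k (W₁.B i) x = pd k (W₂.B i) x
  h : W₁.h x = W₂.h x
  c : ∀ a, W₁.c a x = W₂.c a x
  dc : ∀ a k, pd k (W₁.c a) x = pd k (W₂.c a) x
  ddc : ∀ a k l, pd k (pd l (W₁.c a)) x = pd k (pd l (W₂.c a)) x

/-- Rigidity of models, from the boundary. -/
def BRigBd_statement : Prop :=
  ∀ (n N : ℕ) [NeZero n] (κ α β : ℝ) (j0 : Fin N) (W₁ W₂ : Model n N) (z : E n) (r : ℝ),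
    3 ≤ n → 0 < r → z 0 = 0 → IsModel κ α β j0 W₁ (HB z r) → IsModel κ α β j0 W₂ (HB z r) →
    (∀ x ∈ HB z r, x 0 = 0 → JetEq W₁ W₂ x) → EqOnM W₁ W₂ (HB z r)

/-! ### Block D -/

/-- `(∫ x₀² |L c|²)^{1/2}`. -/
def Rem (L : LD n N) (z : E n) (r : ℝ) (c : E n → Fib N) : ℝ :=
  Real.sqrt (∫ x in HB z r, (x 0) ^ 2 * ‖Lop L c x‖ ^ 2)

/-- Smooth sections on the half ball with compact support (they need not vanish on the flat
boundary; the values outside the half ball are irrelevant). -/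
def TstH (z : E n) (r : ℝ) (c : E n → Fib N) : Prop :=
  ContDiffOn ℝ ∞ c (HB z r) ∧ ∃ r' < r, ∀ x ∈ HB z r, x ∉ Metric.ball z r' → c x = 0

/-- The energy relation. -/
structure ERel (L₁ L₂ : LD n N) (z : E n) (r : ℝ) (C : ℝ) : Prop where
  abs : ∀ c d : E n → Fib N, TstH z r c → TstH z r d →
    ‖En L₁ (HB z r) c d - En L₂ (HB z r) c d‖ ≤
      C * (Rem L₁ z r c + Rem L₂ z r c) * (Rem L₁ z r d + Rem L₂ z r d)
  low : ∀ c : E n → Fib N, TstH z r c →
    (En L₂ (HB z r) c c).re - C * Rem L₂ z r c ^ 2 ≤ (En L₁ (HB z r) c c).re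
  low' : ∀ c : E n → Fib N, TstH z r c →
    (En L₁ (HB z r) c c).re - C * Rem L₁ z r c ^ 2 ≤ (En L₂ (HB z r) c c).re

/-- Boundary determination. -/
def DBd_statement : Prop :=
  ∀ (n N : ℕ) [NeZero n] (κ₁ κ₂ α β : ℝ) (j0 : Fin N) (W₁ W₂ : Model n N) (z : E n) (r C : ℝ),
    3 ≤ n → 0 < r → z 0 = 0 → IsModel κ₁ α β j0 W₁ (HB z r) → IsModel κ₂ α β j0 W₂ (HB z r) →
    (∀ x ∈ HB z r, x 0 = 0 → W₁.h x = 1 ∧ W₂.h x = 1) →
    (∀ x ∈ HB z r, x 0 = 0 → ∀ a, W₁.c a x = W₂.c a x) →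
    (∀ x ∈ HB z r, x 0 = 0 → ∀ v : Fib N,
      flux W₁.toLD 0 (fun _ => v) x = flux W₂.toLD 0 (fun _ => v) x) →
    (∀ x ∈ HB z r, x 0 = 0 → ∀ a, flux W₁.toLD 0 (W₁.c a) x = flux W₂.toLD 0 (W₂.c a) x) →
    ERel W₁.toLD W₂.toLD z r C →
    κ₁ = κ₂ ∧ ∀ x ∈ HB z r, x 0 = 0 → JetEq W₁ W₂ x

end Vale.Agent.P088.EYM
end
end

section

open Bundle Manifold MeasureTheory Set Filter
open scoped ContDiff Topology

noncomputable section

namespace Vale.Agent.P088

set_option linter.unusedSectionVars false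

variable {n N : ℕ} {H : Type*} [TopologicalSpace H]
  (I : ModelWithCorners ℝ (EuclideanSpace ℝ (Fin n)) H)
  {M : Type*} [TopologicalSpace M] [ChartedSpace H M] [IsManifold I ∞ M]
variable {F : Type*} [NormedAddCommGroup F] [NormedSpace ℝ F]

/-- Coordinate change at `x` from the chart at `p` to the fibre `T_x M`. -/
def cc (p x : M) : EuclideanSpace ℝ (Fin n) →L[ℝ] EuclideanSpace ℝ (Fin n) :=
  tangentCoordChange I p x x

theorem coordVec_eq (p x : M) (i : Fin n) :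
    coordVec I p x i = cc I p x (EuclideanSpace.single i (1 : ℝ)) := rfl

/-- local expression of a map -/
def lu (p : M) (u : M → F) : EuclideanSpace ℝ (Fin n) → F := fun y => u ((extChartAt I p).symm y)

set_option backward.isDefEq.respectTransparency false in
theorem dmap_eq {x : M} {u : M → F} (hu : MDifferentiableAt I 𝓘(ℝ, F) u x) :
    dmap I u x = fderivWithin ℝ (lu I x u) (range I) (extChartAt I x x) := by
  unfold dmap lu
  rw [mfderiv, if_pos hu]
  rfl

theorem hasFDerivWithinAt_lu_self {x : M} {u : M → F} (hu : MDifferentiableAt I 𝓘(ℝ, F) u x) :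
    HasFDerivWithinAt (lu I x u) (fderivWithin ℝ (lu I x u) (range I) (extChartAt I x x)) (range I)
      (extChartAt I x x) := by
  have := hu.differentiableWithinAt_writtenInExtChartAt
  exact this.hasFDerivWithinAt

theorem hasFDerivWithinAt_lu {p x : M} {u : M → F} (hx : x ∈ (extChartAt I p).source)
    (hu : MDifferentiableAt I 𝓘(ℝ, F) u x) :
    HasFDerivWithinAt (lu I p u) ((fderivWithin ℝ (lu I x u) (range I) (extChartAt I x x)) ∘L (cc I p x))
      (range I) (extChartAt I p x) := by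
  have h1 := hasFDerivWithinAt_lu_self I hu
  have h2 := hasFDerivWithinAt_tangentCoordChange (I := I) (x := p) (y := x) (z := x)
    ⟨hx, mem_extChartAt_source x⟩
  have h3 : HasFDerivWithinAt (lu I x u) (fderivWithin ℝ (lu I x u) (range I) (extChartAt I x x)) (range I)
      (((extChartAt I x) ∘ (extChartAt I p).symm) (extChartAt I p x)) := by
    rw [Function.comp_apply, (extChartAt I p).left_inv hx]
    exact h1
  have h4 := HasFDerivWithinAt.comp (extChartAt I p x) h3 h2 (t := range I) ?_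
  · refine h4.congr_of_eventuallyEq ?_ ?_
    · have : (extChartAt I p).symm ⁻¹' (extChartAt I x).source ∈ 𝓝[range I] (extChartAt I p x) := by
        apply mem_nhdsWithin_of_mem_nhds
        exact extChartAt_preimage_mem_nhds' hx (extChartAt_source_mem_nhds x)
      filter_upwards [this] with y hy
      simp only [lu, Function.comp_apply]
      rw [(extChartAt I x).left_inv hy]
    · simp only [lu, Function.comp_apply]
      rw [(extChartAt I p).left_inv hx, (extChartAt I x).left_inv (mem_extChartAt_source x)]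
  · intro y _
    simp only [Function.comp_apply, extChartAt_coe]
    exact mem_range_self _

theorem dmap_cc {p x : M} {u : M → F} (hx : x ∈ (extChartAt I p).source)
    (hu : MDifferentiableAt I 𝓘(ℝ, F) u x) (v : EuclideanSpace ℝ (Fin n)) :
    dmap I u x (cc I p x v) = fderivWithin ℝ (lu I p u) (range I) (extChartAt I p x) v := by
  have h := hasFDerivWithinAt_lu I hx hu
  have hud : UniqueDiffWithinAt ℝ (range I) (extChartAt I p x) :=
    I.uniqueDiffOn _ (by rw [extChartAt_coe]; exact mem_range_self _)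
  rw [h.fderivWithin hud, dmap_eq I hu]
  rfl

theorem dmap_coordVec {p x : M} {u : M → F} (hx : x ∈ (extChartAt I p).source)
    (hu : MDifferentiableAt I 𝓘(ℝ, F) u x) (i : Fin n) :
    dmap I u x (coordVec I p x i) =
      fderivWithin ℝ (lu I p u) (range I) (extChartAt I p x) (EuclideanSpace.single i 1) :=
  dmap_cc I hx hu _

theorem cc_inv_left {p x : M} (hx : x ∈ (extChartAt I p).source) (v : EuclideanSpace ℝ (Fin n)) :
    tangentCoordChange I x p x (cc I p x v) = v := by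
  unfold cc
  rw [tangentCoordChange_comp ⟨⟨hx, mem_extChartAt_source x⟩, hx⟩]
  exact tangentCoordChange_self hx

theorem cc_inv_right {p x : M} (hx : x ∈ (extChartAt I p).source) (v : EuclideanSpace ℝ (Fin n)) :
    cc I p x (tangentCoordChange I x p x v) = v := by
  unfold cc
  rw [tangentCoordChange_comp ⟨⟨mem_extChartAt_source x, hx⟩, mem_extChartAt_source x⟩]
  exact tangentCoordChange_self (mem_extChartAt_source x)

theorem cc_self (x : M) (v : EuclideanSpace ℝ (Fin n)) : cc I x x v = v :=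
  tangentCoordChange_self (mem_extChartAt_source x)

end Vale.Agent.P088
end
end

section

/-!
# P088-EYM, block C: manifold definitions
-/

open Bundle Manifold MeasureTheory Set Filter Topology
open scoped ContDiff

noncomputable section

namespace Vale.Agent.P088.EYM

universe u

variable {n N : ℕ} [NeZero n] {M : Type u} [TopologicalSpace M]
  [ChartedSpace (EuclideanHalfSpace n) M] [IsManifold (𝓡∂ n) ∞ M]

variable (n) in
/-- The chart at `p` (with values in the half space of `E n`). -/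
abbrev xc (p : M) : PartialEquiv M (E n) := extChartAt (𝓡∂ n) p

variable (n) in
/-- The domain of coordinates of the chart at `p`. -/
abbrev tg (p : M) : Set (E n) := (xc n p).target

/-- The local data of `(g, A)` in the chart at `p`. -/
def locM (g : Metric (𝓡∂ n) M) (A : Connection (𝓡∂ n) N M) (p : M) : LD n N where
  g := fun y => gram g p ((xc n p).symm y)
  B := fun i y => A.form ((xc n p).symm y) (coordVec (𝓡∂ n) p ((xc n p).symm y) i)
  h := fun _ => 1

/-- The Einstein and Yang-Mills equations on `M`. -/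
def EYMm (κ α β : ℝ) (g : Metric (𝓡∂ n) M) (A : Connection (𝓡∂ n) N M) : Prop :=
  ∀ p : M, EYMeq κ α β (locM g A p) (tg n p)

/-- A metric, its volume and a unitary connection. -/
structure One (n N : ℕ) [NeZero n] (M : Type u) [TopologicalSpace M]
    [ChartedSpace (EuclideanHalfSpace n) M] [IsManifold (𝓡∂ n) ∞ M] [MeasurableSpace M] where
  g : Metric (𝓡∂ n) M
  μ : Measure M
  A : Connection (𝓡∂ n) N M
  hμ : IsRiemannianVolume g μ

variable [MeasurableSpace M]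

/-- The energy form. -/
def One.E (P : One n N M) (u v : M → Fib N) : ℂ := energy P.g P.μ P.A u v

/-- `u` is the harmonic extension of `f`. -/
def One.Harm (P : One n N M) (f u : M → Fib N) : Prop := IsHarmonicExt P.g P.μ P.A f u

/-- The local data in the chart at `p`. -/
def One.loc (P : One n N M) (p : M) : LD n N := locM P.g P.A p

/-- Solvability of the Dirichlet problem for all data on `Γ`. -/
def One.HasSol (P : One n N M) (Γ : Set M) : Prop :=
  ∀ f, IsBdryData (𝓡∂ n) Γ f → ∃ u, P.Harm f u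

/-- The solutions with boundary data in `C_c^∞(Γ)`. -/
def One.U (P : One n N M) (Γ : Set M) : Set (M → Fib N) :=
  {u | ∃ f, IsBdryData (𝓡∂ n) Γ f ∧ P.Harm f u}

variable (n) in
/-- Smooth sections. -/
def SmS (u : M → Fib N) : Prop := ContMDiff (𝓡∂ n) 𝓘(ℝ, Fib N) ∞ u

/-- Pairs of solutions with the same boundary data in `C_c^∞(Γ)`. -/
def PP (P Q : One n N M) (Γ : Set M) : Set ((M → Fib N) × (M → Fib N)) :=
  {u | ∃ f, IsBdryData (𝓡∂ n) Γ f ∧ P.Harm f u.1 ∧ Q.Harm f u.2}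

/-- `Γ` is a relatively open subset of the boundary. -/
def RelBd (n : ℕ) [NeZero n] {M : Type u} [TopologicalSpace M]
    [ChartedSpace (EuclideanHalfSpace n) M] (Γ : Set M) : Prop :=
  ∃ O : Set M, IsOpen O ∧ Γ = O ∩ (𝓡∂ n).boundary M

/-- The interior of `M`. -/
abbrev Mi (n : ℕ) [NeZero n] (M : Type u) [TopologicalSpace M]
    [ChartedSpace (EuclideanHalfSpace n) M] : Set M := (𝓡∂ n).interior M

/-- A local match: near `O`, `Q` is the pull back of `P` by `φ` and the gauge `V`, and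
corresponding solutions are matched. -/
structure LMatch (P Q : One n N M) (Γ : Set M) (O : Set M) (φ : M → M) (V : M → EndF N) :
    Prop where
  isOpen : IsOpen O
  sub : O ⊆ Mi n M
  maps : MapsTo φ O (Mi n M)
  smφ : ContMDiffOn (𝓡∂ n) (𝓡∂ n) ∞ φ O
  smV : ContMDiffOn (𝓡∂ n) 𝓘(ℝ, EndF N) ∞ V O
  unit : ∀ x ∈ O, V x ∈ unitary (EndF N)
  met : ∀ x ∈ O, ∀ v w : TangentSpace (𝓡∂ n) x, Q.g.inner x v w =
    P.g.inner (φ x) (mfderiv (𝓡∂ n) (𝓡∂ n) φ x v) (mfderiv (𝓡∂ n) (𝓡∂ n) φ x w)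
  con : ∀ x ∈ O, ∀ v : TangentSpace (𝓡∂ n) x,
    dmap (𝓡∂ n) V x v + Q.A.form x v ∘L V x =
      V x ∘L P.A.form (φ x) (mfderiv (𝓡∂ n) (𝓡∂ n) φ x v)
  sol : ∀ u ∈ PP P Q Γ, ∀ x ∈ O, u.2 x = V x (u.1 (φ x))

/-- The 1-jet of `u` at `x` in the chart at `x` is `(a, b)`. -/
def HasJet (u : M → Fib N) (x : M) (a : Fib N) (b : Fin n → Fib N) : Prop :=
  u x = a ∧ ∀ i, pd i (lu (𝓡∂ n) x u) (xc n x x) = b i

/-- The equality of the data. -/
def SameD (P Q : One n N M) (Γ : Set M) : Prop :=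
  Vale.Agent.P088.SameData Γ P.g P.μ P.A Q.g Q.μ Q.A

end Vale.Agent.P088.EYM
end
end

section

/-!
# P088-EYM: calculus of the one-sided partial derivative `pd` on relatively open subsets of the
closed half space (sums, products, chain rule, symmetric second derivatives)
-/

open Set Filter
open scoped ContDiff Topology

noncomputable section

namespace Vale.Agent.P088.EYM

set_option linter.unusedSectionVars false

variable {n : ℕ} [NeZero n]
variable {F G : Type*} [NormedAddCommGroup F] [NormedSpace ℝ F] [NormedAddCommGroup G] [NormedSpace ℝ G]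

theorem ev_apply (i j : Fin n) : (ev i : E n) j = if j = i then 1 else 0 := by
  simp

theorem en_expand (v : E n) : v = ∑ i, v i • ev i := by
  ext k
  simp only [WithLp.ofLp_sum, WithLp.ofLp_smul, PiLp.ofLp_single, Finset.sum_apply, Pi.smul_apply, Pi.single_apply, smul_eq_mul, mul_ite, mul_one, mul_zero, Finset.sum_ite_eq, Finset.mem_univ, ↓reduceIte]

theorem convex_Hs : Convex ℝ (Hs n) := by
  intro x hx y hy a b ha hb _
  simp only [Hs, mem_ofPred_eq] at *
  simp only [PiLp.add_apply, PiLp.smul_apply, smul_eq_mul]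
  positivity

theorem continuous_coord (i : Fin n) : Continuous (fun x : E n => x i) :=
  (EuclideanSpace.proj (𝕜 := ℝ) i).continuous

theorem isClosed_Hs : IsClosed (Hs n) := isClosed_le continuous_const (continuous_coord 0)

theorem open_pos_subset : {x : E n | 0 < x 0} ⊆ interior (Hs n) := by
  refine interior_maximal (fun x hx => ?_) (isOpen_lt continuous_const (continuous_coord 0))
  exact le_of_lt (show 0 < x 0 from hx)

theorem interior_Hs_nonempty : (interior (Hs n)).Nonempty :=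
  ⟨ev 0, open_pos_subset (by simp only [mem_ofPred_eq, PiLp.single_eq_same, zero_lt_one])⟩

theorem uniqueDiffOn_Hs : UniqueDiffOn ℝ (Hs n) :=
  uniqueDiffOn_convex convex_Hs interior_Hs_nonempty

theorem Hs_subset_closure : Hs n ⊆ closure (interior (Hs n)) := by
  have := convex_Hs (n := n).closure_interior_eq_closure_of_nonempty_interior interior_Hs_nonempty
  rw [this]
  exact subset_closure

theorem RelOpen.subset {D : Set (E n)} (hD : RelOpen D) : D ⊆ Hs n := by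
  obtain ⟨O, -, rfl⟩ := hD; exact inter_subset_right

theorem RelOpen.nhdsWithin {D : Set (E n)} (hD : RelOpen D) {x : E n} (hx : x ∈ D) : 𝓝[D] x = 𝓝[Hs n] x := by
  obtain ⟨O, hO, rfl⟩ := hD
  rw [inter_comm]
  exact (nhdsWithin_inter_of_mem' (mem_nhdsWithin_of_mem_nhds (hO.mem_nhds hx.1)))

theorem RelOpen.mem_nhds {D : Set (E n)} (hD : RelOpen D) {x : E n} (hx : x ∈ D) : D ∈ 𝓝[Hs n] x := by
  rw [← hD.nhdsWithin hx]; exact self_mem_nhdsWithin

theorem RelOpen.uniqueDiffOn {D : Set (E n)} (hD : RelOpen D) : UniqueDiffOn ℝ D := by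
  obtain ⟨O, hO, rfl⟩ := hD
  rw [inter_comm]
  exact uniqueDiffOn_Hs.inter hO

theorem RelOpen.fderivWithin_eq {D : Set (E n)} (hD : RelOpen D) {x : E n} (hx : x ∈ D) (f : E n → F) :
    fderivWithin ℝ f D x = fderivWithin ℝ f (Hs n) x := by
  obtain ⟨O, hO, rfl⟩ := hD
  rw [inter_comm]
  exact fderivWithin_inter (hO.mem_nhds hx.1)

theorem RelOpen.hasD {D : Set (E n)} (hD : RelOpen D) {x : E n} (hx : x ∈ D) {f : E n → F} {m : WithTop ℕ∞}
    (hf : ContDiffOn ℝ m f D) (hm : m ≠ 0) :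
    HasFDerivWithinAt f (fderivWithin ℝ f (Hs n) x) (Hs n) x := by
  have h1 := ((hf.differentiableOn hm) x hx).hasFDerivWithinAt
  rw [hD.fderivWithin_eq hx] at h1
  exact h1.mono_of_mem_nhdsWithin (hD.mem_nhds hx)

theorem RelOpen.contDiffWithinAt {D : Set (E n)} (hD : RelOpen D) {x : E n} (hx : x ∈ D) {f : E n → F}
    {m : WithTop ℕ∞} (hf : ContDiffOn ℝ m f D) : ContDiffWithinAt ℝ m f (Hs n) x :=
  (hf x hx).mono_of_mem_nhdsWithin (hD.mem_nhds hx)

theorem RelOpen.contDiffOn_of {D : Set (E n)} (hD : RelOpen D) {f : E n → F}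
    {m : WithTop ℕ∞} (hf : ∀ x ∈ D, ContDiffWithinAt ℝ m f (Hs n) x) : ContDiffOn ℝ m f D :=
  fun x hx => (hf x hx).mono hD.subset

theorem RelOpen.univ_inter {D : Set (E n)} (hD : RelOpen D) {O : Set (E n)} (hO : IsOpen O) : RelOpen (O ∩ D) := by
  obtain ⟨O', hO', rfl⟩ := hD
  exact ⟨O ∩ O', hO.inter hO', by rw [inter_assoc]⟩

theorem RelOpen.fderiv_smooth {D : Set (E n)} (hD : RelOpen D) {f : E n → F} (hf : ContDiffOn ℝ ∞ f D) :
    ContDiffOn ℝ ∞ (fun x => fderivWithin ℝ f (Hs n) x) D := by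
  refine (hf.fderivWithin hD.uniqueDiffOn (m := ∞) (by simp)).congr fun x hx => ?_
  exact (hD.fderivWithin_eq hx f).symm

theorem RelOpen.pd_smooth {D : Set (E n)} (hD : RelOpen D) {f : E n → F} (hf : ContDiffOn ℝ ∞ f D) (i : Fin n) :
    ContDiffOn ℝ ∞ (pd i f) D :=
  (hD.fderiv_smooth hf).clm_apply contDiffOn_const

theorem pd_of_has {f : E n → F} {x : E n} (hx : x ∈ Hs n) {L : E n →L[ℝ] F}
    (h : HasFDerivWithinAt f L (Hs n) x) (i : Fin n) : pd i f x = L (ev i) := by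
  unfold pd
  rw [h.fderivWithin (uniqueDiffOn_Hs x hx)]

theorem fderivWithin_eq_sum {f : E n → F} {x : E n} (v : E n) :
    fderivWithin ℝ f (Hs n) x v = ∑ i, v i • pd i f x := by
  conv_lhs => rw [en_expand v]
  simp [pd, map_sum]

theorem RelOpen.pd_congr {D : Set (E n)} (hD : RelOpen D) {f g : E n → F} (h : EqOn f g D) {x : E n}
    (hx : x ∈ D) (i : Fin n) : pd i f x = pd i g x := by
  unfold pd
  rw [← hD.fderivWithin_eq hx, ← hD.fderivWithin_eq hx, fderivWithin_congr h (h hx)]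

theorem RelOpen.pd_add {D : Set (E n)} (hD : RelOpen D) {f g : E n → F} (hf : ContDiffOn ℝ ∞ f D)
    (hg : ContDiffOn ℝ ∞ g D) {x : E n} (hx : x ∈ D) (i : Fin n) :
    pd i (fun y => f y + g y) x = pd i f x + pd i g x :=
  pd_of_has (hD.subset hx) ((hD.hasD hx hf (by simp)).add (hD.hasD hx hg (by simp))) i

theorem RelOpen.pd_sub {D : Set (E n)} (hD : RelOpen D) {f g : E n → F} (hf : ContDiffOn ℝ ∞ f D)
    (hg : ContDiffOn ℝ ∞ g D) {x : E n} (hx : x ∈ D) (i : Fin n) :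
    pd i (fun y => f y - g y) x = pd i f x - pd i g x :=
  pd_of_has (hD.subset hx) ((hD.hasD hx hf (by simp)).sub (hD.hasD hx hg (by simp))) i

theorem pd_const (c : F) (x : E n) (i : Fin n) : pd i (fun _ => c) x = 0 := by
  unfold pd
  rw [fderivWithin_const_apply]
  rfl

theorem RelOpen.pd_sum {D : Set (E n)} (hD : RelOpen D) {ι : Type*} (s : Finset ι) {f : ι → E n → F}
    (hf : ∀ k ∈ s, ContDiffOn ℝ ∞ (f k) D) {x : E n} (hx : x ∈ D) (i : Fin n) :
    pd i (fun y => ∑ k ∈ s, f k y) x = ∑ k ∈ s, pd i (f k) x := by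
  have h := HasFDerivWithinAt.fun_sum (u := s) (A := f) (A' := fun k => fderivWithin ℝ (f k) (Hs n) x)
    (fun k hk => hD.hasD hx (hf k hk) (by simp))
  rw [pd_of_has (hD.subset hx) h i]
  simp only [sum_apply, pd]

theorem RelOpen.pd_clm {D : Set (E n)} (hD : RelOpen D) (L : F →L[ℝ] G) {f : E n → F} (hf : ContDiffOn ℝ ∞ f D)
    {x : E n} (hx : x ∈ D) (i : Fin n) : pd i (fun y => L (f y)) x = L (pd i f x) :=
  pd_of_has (hD.subset hx) (L.hasFDerivAt.comp_hasFDerivWithinAt x (hD.hasD hx hf (by simp))) i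

theorem RelOpen.pd_const_smul {D : Set (E n)} (hD : RelOpen D) (c : ℝ) {f : E n → F} (hf : ContDiffOn ℝ ∞ f D)
    {x : E n} (hx : x ∈ D) (i : Fin n) : pd i (fun y => c • f y) x = c • pd i f x :=
  pd_of_has (hD.subset hx) ((hD.hasD hx hf (by simp)).const_smul c) i

theorem RelOpen.pd_smul {D : Set (E n)} (hD : RelOpen D) {a : E n → ℝ} {f : E n → F}
    (ha : ContDiffOn ℝ ∞ a D) (hf : ContDiffOn ℝ ∞ f D) {x : E n} (hx : x ∈ D) (i : Fin n) :
    pd i (fun y => a y • f y) x = a x • pd i f x + pd i a x • f x := by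
  have h : HasFDerivWithinAt (fun y => a y • f y) _ (Hs n) x :=
    (hD.hasD hx ha (by simp)).smul (hD.hasD hx hf (by simp))
  rw [pd_of_has (hD.subset hx) h i]
  simp only [add_apply, smul_apply, ContinuousLinearMap.smulRight_apply, pd]

section Ring

variable {𝔸 : Type*} [NormedRing 𝔸] [NormedSpace ℝ 𝔸] [IsScalarTower ℝ 𝔸 𝔸] [SMulCommClass ℝ 𝔸 𝔸]

variable (𝔸) in
/-- the algebra structure behind a compatible normed space structure on a normed ring -/
@[reducible] def algOf : NormedAlgebra ℝ 𝔸 :=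
  { Algebra.ofModule (R := ℝ) (A := 𝔸) smul_mul_assoc mul_smul_comm with
    norm_smul_le := norm_smul_le }

theorem smooth_mul {D : Set (E n)} {m : WithTop ℕ∞} {a b : E n → 𝔸} (ha : ContDiffOn ℝ m a D)
    (hb : ContDiffOn ℝ m b D) : ContDiffOn ℝ m (fun x => a x * b x) D := by
  let _ := algOf 𝔸
  exact ha.mul hb

theorem RelOpen.pd_mul {D : Set (E n)} (hD : RelOpen D)
    {a f : E n → 𝔸}
    (ha : ContDiffOn ℝ ∞ a D) (hf : ContDiffOn ℝ ∞ f D) {x : E n} (hx : x ∈ D) (i : Fin n) :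
    pd i (fun y => a y * f y) x = a x * pd i f x + pd i a x * f x := by
  let _ := algOf 𝔸
  have h : HasFDerivWithinAt (fun y => a y * f y) _ (Hs n) x :=
    (hD.hasD hx ha (by simp)).mul' (hD.hasD hx hf (by simp))
  rw [pd_of_has (hD.subset hx) h i]
  simp only [add_apply, smul_apply, smul_eq_mul, MulOpposite.smul_eq_mul_unop, MulOpposite.unop_op, pd]

theorem smooth_ringInverse [CompleteSpace 𝔸] {D : Set (E n)} {m : WithTop ℕ∞} {a : E n → 𝔸}
    (ha : ContDiffOn ℝ m a D) (hu : ∀ x ∈ D, IsUnit (a x)) :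
    ContDiffOn ℝ m (fun x => Ring.inverse (a x)) D := by
  let _ := algOf 𝔸
  intro x hx
  obtain ⟨u, hu⟩ := hu x hx
  have h1 : ContDiffAt ℝ m (Ring.inverse : 𝔸 → 𝔸) (a x) := by
    rw [← hu]; exact contDiffAt_ringInverse ℝ u
  exact h1.comp_contDiffWithinAt x (ha x hx)

end Ring

theorem RelOpen.pd_comm {D : Set (E n)} (hD : RelOpen D) {f : E n → F} (hf : ContDiffOn ℝ ∞ f D)
    {x : E n} (hx : x ∈ D) (i j : Fin n) : pd i (pd j f) x = pd j (pd i f) x := by
  have hs : IsSymmSndFDerivWithinAt ℝ f (Hs n) x :=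
    (hD.contDiffWithinAt hx hf).isSymmSndFDerivWithinAt
      (by
        rw [minSmoothness_of_isRCLikeNormedField]
        exact WithTop.coe_le_coe.2 (le_top (a := (2 : ℕ∞)))) uniqueDiffOn_Hs
      (Hs_subset_closure (hD.subset hx)) (hD.subset hx)
  have key : ∀ k l : Fin n, pd k (pd l f) x =
      fderivWithin ℝ (fderivWithin ℝ f (Hs n)) (Hs n) x (ev k) (ev l) := by
    intro k l
    have h1 := (hD.hasD hx (hD.fderiv_smooth hf) (by simp)).clm_apply
      (hasFDerivWithinAt_const (ev l) x (Hs n))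
    rw [show pd l f = fun y => (fun x => fderivWithin ℝ f (Hs n) x) y (ev l) from rfl,
      pd_of_has (hD.subset hx) h1 k]
    simp
  rw [key, key, hs]

/-- chain rule for maps between (subsets of) half spaces -/
theorem RelOpen.pd_comp {D D' : Set (E n)} (hD : RelOpen D) (hD' : RelOpen D') {Y : E n → E n}
    (hY : ContDiffOn ℝ ∞ Y D) (hm : MapsTo Y D D') {f : E n → F} (hf : ContDiffOn ℝ ∞ f D')
    {x : E n} (hx : x ∈ D) (i : Fin n) :
    pd i (fun y => f (Y y)) x = ∑ k, pd i (fun y => Y y k) x • pd k f (Y x) := by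
  have h1 : HasFDerivWithinAt Y (fderivWithin ℝ Y (Hs n) x) D x := (hD.hasD hx hY (by simp)).mono hD.subset
  have h2 := (hD'.hasD (hm hx) hf (by simp)).comp x h1 (fun y hy => hD'.subset (hm hy))
  have h3 : HasFDerivWithinAt (fun y => f (Y y)) _ (Hs n) x := h2.mono_of_mem_nhdsWithin (hD.mem_nhds hx)
  rw [pd_of_has (hD.subset hx) h3 i]
  simp only [ContinuousLinearMap.comp_apply]
  rw [fderivWithin_eq_sum]
  refine Finset.sum_congr rfl fun k _ => ?_
  congr 1
  exact (hD.pd_clm (EuclideanSpace.proj (𝕜 := ℝ) k) hY hx i).symm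

theorem coord_smooth {D : Set (E n)} {Y : E n → E n} (hY : ContDiffOn ℝ ∞ Y D) (k : Fin n) :
    ContDiffOn ℝ ∞ (fun y => Y y k) D :=
  (EuclideanSpace.proj (𝕜 := ℝ) k).contDiff.comp_contDiffOn hY

section EndF

variable {N : ℕ}

instance instTowerEndF : IsScalarTower ℝ (EndF N) (EndF N) :=
  ⟨fun c S T => by ext1 w; rfl⟩

instance instCommEndF : SMulCommClass ℝ (EndF N) (EndF N) :=
  ⟨fun c S T => by
    ext1 w
    show c • (S (T w)) = S (c • T w)
    exact (ContinuousLinearMap.map_smul_of_tower S c (T w)).symm⟩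

/-- evaluation of a smooth family of endomorphisms on a smooth section -/
theorem smooth_eval {D : Set (E n)} {m : WithTop ℕ∞} {S : E n → EndF N} {c : E n → Fib N}
    (hS : ContDiffOn ℝ m S D) (hc : ContDiffOn ℝ m c D) : ContDiffOn ℝ m (fun x => S x (c x)) D := by
  have h : IsBoundedBilinearMap ℝ (fun p : EndF N × Fib N => p.1 p.2) :=
    { add_left := fun x y z => rfl
      smul_left := fun c x y => rfl
      add_right := fun x y z => map_add x y z
      smul_right := fun c x y => ContinuousLinearMap.map_smul_of_tower _ _ _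
      bound := ⟨1, one_pos, fun x y => by rw [one_mul]; exact x.le_opNorm y⟩ }
  exact h.contDiff.comp_contDiffOn (hS.prodMk hc)

theorem RelOpen.pd_eval {D : Set (E n)} (hD : RelOpen D) {m m' : WithTop ℕ∞} {S : E n → EndF N}
    {c : E n → Fib N} (hS : ContDiffOn ℝ m S D) (hc : ContDiffOn ℝ m' c D) (hm : m ≠ 0)
    (hm' : m' ≠ 0) {x : E n} (hx : x ∈ D) (i : Fin n) :
    pd i (fun y => S y (c y)) x = S x (pd i c x) + pd i S x (c x) := by
  have h : IsBoundedBilinearMap ℝ (fun p : EndF N × Fib N => p.1 p.2) :=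
    { add_left := fun x y z => rfl
      smul_left := fun c x y => rfl
      add_right := fun x y z => map_add x y z
      smul_right := fun c x y => ContinuousLinearMap.map_smul_of_tower _ _ _
      bound := ⟨1, one_pos, fun x y => by rw [one_mul]; exact x.le_opNorm y⟩ }
  have h1 := (h.hasFDerivAt (S x, c x)).comp_hasFDerivWithinAt x
    ((hD.hasD hx hS hm).prodMk (hD.hasD hx hc hm'))
  have h2 : HasFDerivWithinAt (fun y => S y (c y)) _ (Hs n) x := h1
  rw [pd_of_has (hD.subset hx) h2 i]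
  rfl

/-- the adjoint as a real continuous linear map -/
def adjRE : EndF N →L[ℝ] EndF N :=
  LinearMap.mkContinuous
    { toFun := fun T => ContinuousLinearMap.adjoint T
      map_add' := fun x y => map_add _ x y
      map_smul' := fun c x => by
        have h1 : c • x = (c : ℂ) • x := by ext1 w; exact (Complex.coe_smul c (x w)).symm
        have h2 : c • ContinuousLinearMap.adjoint x = (c : ℂ) • ContinuousLinearMap.adjoint x := by
          ext1 w; exact (Complex.coe_smul c _).symm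
        rw [h1, RingHom.id_apply, h2, map_smulₛₗ, Complex.conj_ofReal] } 1
    (fun T => by
      rw [one_mul]
      exact (ContinuousLinearMap.adjoint.norm_map T).le)

theorem adjRE_apply (T : EndF N) : adjRE T = ContinuousLinearMap.adjoint T := rfl

theorem smooth_adj {D : Set (E n)} {m : WithTop ℕ∞} {S : E n → EndF N} (hS : ContDiffOn ℝ m S D) :
    ContDiffOn ℝ m (fun x => ContinuousLinearMap.adjoint (S x)) D :=
  adjRE.contDiff.comp_contDiffOn hS

theorem RelOpen.pd_adj {D : Set (E n)} (hD : RelOpen D) {S : E n → EndF N} (hS : ContDiffOn ℝ ∞ S D)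
    {x : E n} (hx : x ∈ D) (i : Fin n) :
    pd i (fun y => ContinuousLinearMap.adjoint (S y)) x = ContinuousLinearMap.adjoint (pd i S x) :=
  hD.pd_clm adjRE hS hx i

theorem adj_mulE (S T : EndF N) : ContinuousLinearMap.adjoint (S * T) =
    ContinuousLinearMap.adjoint T * ContinuousLinearMap.adjoint S :=
  ContinuousLinearMap.adjoint_comp S T

end EndF

end Vale.Agent.P088.EYM
end
end

section

/-!
# P088-EYM, block B: auxiliary definitions
-/

open MeasureTheory Set Filter Topology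
open scoped ContDiff

noncomputable section

namespace Vale.Agent.P088.EYM

variable {n N : ℕ} [NeZero n]

/-- The entries of `g` are smooth on `D`. -/
def SmM (g : E n → Matrix (Fin n) (Fin n) ℝ) (D : Set (E n)) : Prop :=
  ∀ i j, ContDiffOn ℝ ∞ (fun x => g x i j) D

/-- The Christoffel matrices `(Γ_j)^a_b`. -/
def mchr (g : E n → Matrix (Fin n) (Fin n) ℝ) (j : Fin n) (x : E n) : Matrix (Fin n) (Fin n) ℝ :=
  Matrix.of fun a b => chr g a j b x

/-- Entrywise partial derivative. -/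
def pdM (i : Fin n) (g : E n → Matrix (Fin n) (Fin n) ℝ) (x : E n) : Matrix (Fin n) (Fin n) ℝ :=
  Matrix.of fun a b => pd i (fun y => g y a b) x

/-- The second covariant derivative
`∇²_{jk} c = (∂_j + B_j)(∂_k + B_k) c - Γ^l_{jk} (∂_l + B_l) c`. -/
def hess (L : LD n N) (j k : Fin n) (c : E n → Fib N) (x : E n) : Fib N :=
  pd j (nab L k c) x + L.B j x (nab L k c x) - ∑ l, chr L.g l j k x • nab L l c x

/-- The covariant derivative `∇_i F_{jk}` of the curvature. -/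
def covF (L : LD n N) (i j k : Fin n) (x : E n) : EndF N :=
  pd i (cur L.B j k) x -
    ∑ l, (chr L.g l i j x • cur L.B l k x + chr L.g l i k x • cur L.B j l x) +
    (L.B i x * cur L.B j k x - cur L.B j k x * L.B i x)

/-- `g` is the pull back of `g'` by `X` on `D`. -/
def GPull (g g' : E n → Matrix (Fin n) (Fin n) ℝ) (D : Set (E n)) (X : E n → E n) : Prop :=
  ∀ x ∈ D, g x = (Jac X x).transpose * g' (X x) * Jac X x

/-- `H^a = Re (2 ∑ g^{jk} B_j ∂_k c_a)_{j0}` -/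
def Hco (W : Model n N) (j0 : Fin N) (a : Fin n) (x : E n) : ℝ :=
  ((∑ j, ∑ k, (2 * (W.g x)⁻¹ j k) • W.B j x (pd k (W.c a) x)) j0).re

/-- `Γ_j = g_{jl} g^{ab} Γ^l_{ab}` -/
def lchr (g : E n → Matrix (Fin n) (Fin n) ℝ) (j : Fin n) (x : E n) : ℝ :=
  ∑ l, g x j l * ∑ a, ∑ b, (g x)⁻¹ a b * chr g l a b x

/-- The space of the values of `W = (g, B, h, c, ∂c)`. -/
abbrev VV (n N : ℕ) : Type :=
  (Fin n → Fin n → ℝ) × (Fin n → EndF N) × EndF N × (Fin n → Fib N) × (Fin n → Fin n → Fib N)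

/-- `W = (g, B, h, c, ∂c)` -/
def Wv (W : Model n N) (x : E n) : VV n N :=
  (fun i j => W.g x i j, fun i => W.B i x, W.h x, fun a => W.c a x, fun a k => pd k (W.c a) x)

/-- The size of `W₁ - W₂` and of its first derivatives. -/
def om (W₁ W₂ : Model n N) (x : E n) : ℝ :=
  ‖Wv W₁ x - Wv W₂ x‖ + ∑ j, ‖pd j (fun y => Wv W₁ y - Wv W₂ y) x‖

/-- `f₁` and `f₂` are bounded and `f₁ - f₂ = O(w)` along `l`. -/
structure Sim {V : Type*} [NormedAddCommGroup V] (l : Filter (E n)) (w : E n → ℝ)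
    (f₁ f₂ : E n → V) : Prop where
  b₁ : f₁ =O[l] (fun _ => (1 : ℝ))
  b₂ : f₂ =O[l] (fun _ => (1 : ℝ))
  d : (fun x => f₁ x - f₂ x) =O[l] w

/-- `f₁`, `f₂` are smooth on `D`, and `(f₁, f₂)`, `(∂_j f₁, ∂_j f₂)` are similar near `z`. -/
structure Sim1 {V : Type*} [NormedAddCommGroup V] [NormedSpace ℝ V] (D : Set (E n)) (z : E n)
    (w : E n → ℝ) (f₁ f₂ : E n → V) : Prop where
  s₁ : ContDiffOn ℝ ∞ f₁ D
  s₂ : ContDiffOn ℝ ∞ f₂ D
  sim : Sim (𝓝[Hs n] z) w f₁ f₂
  dsim : ∀ j, Sim (𝓝[Hs n] z) w (pd j f₁) (pd j f₂)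

end Vale.Agent.P088.EYM
end
end

section

/-!
# P088-EYM: Jacobi formula, derivative of `√det g`, the operator `Lop` in non-divergence form
-/

open MeasureTheory Set Filter Topology
open scoped ContDiff

noncomputable section

namespace Vale.Agent.P088.EYM

set_option linter.unusedSectionVars false
set_option linter.unusedVariables false

variable {n N : ℕ} [NeZero n]

theorem Jacobi_det_smooth {D : Set (E n)} {g : E n → Matrix (Fin n) (Fin n) ℝ} (hg : SmM g D) :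
    ContDiffOn ℝ ∞ (fun x => (g x).det) D := by
  simp only [Matrix.det_apply]
  refine ContDiffOn.sum fun σ _ => ?_
  exact (contDiffOn_prod fun l _ => hg (σ l) l).const_smul (Equiv.Perm.sign σ : ℤˣ)

theorem Jacobi_adj_smooth {D : Set (E n)} {g : E n → Matrix (Fin n) (Fin n) ℝ} (hg : SmM g D)
    (a b : Fin n) : ContDiffOn ℝ ∞ (fun x => (g x).adjugate a b) D := by
  simp only [Matrix.adjugate_apply]
  refine Jacobi_det_smooth (g := fun x => (g x).updateRow b (Pi.single a 1)) fun i j => ?_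
  by_cases h : i = b
  · subst h
    simp only [Matrix.updateRow_self]
    exact contDiffOn_const
  · simp only [Matrix.updateRow_ne h]
    exact hg i j

theorem Jacobi_inv_apply {A : Matrix (Fin n) (Fin n) ℝ} (a b : Fin n) :
    A⁻¹ a b = (A.det)⁻¹ * A.adjugate a b := by
  rw [Matrix.inv_def, Ring.inverse_eq_inv']
  rfl

theorem RelOpen.smM_inv {D : Set (E n)} (hD : RelOpen D) {g : E n → Matrix (Fin n) (Fin n) ℝ}
    (hg : SmM g D) (hp : ∀ x ∈ D, (g x).PosDef) : SmM (fun x => (g x)⁻¹) D := by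
  intro i j
  simp only [Jacobi_inv_apply]
  exact ((Jacobi_det_smooth hg).inv fun x hx => (hp x hx).det_pos.ne').mul
    (Jacobi_adj_smooth hg i j)

theorem RelOpen.pd_minv {D : Set (E n)} (hD : RelOpen D) {g : E n → Matrix (Fin n) (Fin n) ℝ}
    (hg : SmM g D) (hp : ∀ x ∈ D, (g x).PosDef) {x : E n} (hx : x ∈ D) (i a b : Fin n) :
    pd i (fun y => (g y)⁻¹ a b) x =
      -∑ c, ∑ d, (g x)⁻¹ a c * pd i (fun y => g y c d) x * (g x)⁻¹ d b := by
  have hi := hD.smM_inv hg hp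
  set P : Matrix (Fin n) (Fin n) ℝ := pdM i (fun y => (g y)⁻¹) x with hP
  set Q : Matrix (Fin n) (Fin n) ℝ := pdM i g x with hQ
  have hu : IsUnit (g x).det := isUnit_iff_ne_zero.2 (hp x hx).det_pos.ne'
  have h0 : P * g x + (g x)⁻¹ * Q = 0 := by
    ext a b
    have h1 : pd i (fun y => ∑ c, (g y)⁻¹ a c * g y c b) x = 0 := by
      rw [hD.pd_congr (g := fun _ => (1 : Matrix (Fin n) (Fin n) ℝ) a b) ?_ hx i, pd_const]
      intro y hy
      have := Matrix.nonsing_inv_mul (g y) (isUnit_iff_ne_zero.2 (hp y hy).det_pos.ne')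
      show ∑ c, (g y)⁻¹ a c * g y c b = _
      rw [← this, Matrix.mul_apply]
    rw [hD.pd_sum _ (fun c _ => smooth_mul (hi a c) (hg c b)) hx i] at h1
    rw [Matrix.add_apply, Matrix.mul_apply, Matrix.mul_apply, ← Finset.sum_add_distrib,
      Matrix.zero_apply, ← h1]
    refine Finset.sum_congr rfl fun c _ => ?_
    rw [hD.pd_mul (hi a c) (hg c b) hx i]
    simp only [hP, hQ, pdM, Matrix.of_apply]
    ring
  have h2 : P = -((g x)⁻¹ * Q * (g x)⁻¹) := by
    have h3 : P * g x = -((g x)⁻¹ * Q) := eq_neg_of_add_eq_zero_left h0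
    have h4 : P * g x * (g x)⁻¹ = P := by
      rw [Matrix.mul_assoc, Matrix.mul_nonsing_inv _ hu, Matrix.mul_one]
    rw [← h4, h3, Matrix.neg_mul]
  have h5 : pd i (fun y => (g y)⁻¹ a b) x = P a b := rfl
  rw [h5, h2, Matrix.neg_apply, Matrix.mul_apply, Finset.sum_comm]
  congr 1
  refine Finset.sum_congr rfl fun d _ => ?_
  rw [Matrix.mul_apply, Finset.sum_mul]
  rfl

theorem RelOpen.gg_smooth {D : Set (E n)} (hD : RelOpen D) {g : E n → Matrix (Fin n) (Fin n) ℝ}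
    (hg : SmM g D) (hp : ∀ x ∈ D, (g x).PosDef) (j k : Fin n) : ContDiffOn ℝ ∞ (gg g j k) D :=
  ((Jacobi_det_smooth hg).sqrt fun x hx => (hp x hx).det_pos.ne').mul (hD.smM_inv hg hp j k)

/-- Jacobi formula -/
theorem Jacobi_pd_det {D : Set (E n)} (hD : RelOpen D) {g : E n → Matrix (Fin n) (Fin n) ℝ}
    (hg : SmM g D) {x : E n} (hx : x ∈ D) (i : Fin n) :
    pd i (fun y => (g y).det) x =
      ∑ a, ∑ b, (g x).adjugate a b * pd i (fun y => g y b a) x := by
  have h1 : HasFDerivWithinAt (fun y => (g y).det)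
      (∑ σ : Equiv.Perm (Fin n), (Equiv.Perm.sign σ : ℤˣ) • ∑ l ∈ Finset.univ,
        (∏ m ∈ Finset.univ.erase l, g x (σ m) m) • fderivWithin ℝ (fun y => g y (σ l) l) (Hs n) x)
      (Hs n) x := by
    simp only [Matrix.det_apply]
    refine HasFDerivWithinAt.fun_sum fun σ _ => ?_
    exact (HasFDerivWithinAt.finsetProd (fun l _ => hD.hasD hx (hg (σ l) l) (by simp))).const_smul
      (Equiv.Perm.sign σ : ℤˣ)
  rw [pd_of_has (hD.subset hx) h1 i]
  have h2 : ∀ l : Fin n, ∑ b, (g x).adjugate l b * pd i (fun y => g y b l) x =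
      ∑ σ : Equiv.Perm (Fin n), (Equiv.Perm.sign σ : ℤˣ) •
        ((∏ m ∈ Finset.univ.erase l, g x (σ m) m) * pd i (fun y => g y (σ l) l) x) := by
    intro l
    have h3 : ∑ b, (g x).adjugate l b * pd i (fun y => g y b l) x =
        ((g x).updateCol l (fun b => pd i (fun y => g y b l) x)).det := by
      rw [← Matrix.cramer_apply, Matrix.cramer_eq_adjugate_mulVec]
      rfl
    rw [h3, Matrix.det_apply]
    refine Finset.sum_congr rfl fun σ _ => ?_
    congr 1
    rw [← Finset.prod_erase_mul _ _ (Finset.mem_univ l), Matrix.updateCol_self]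
    congr 1
    refine Finset.prod_congr rfl fun m hm => ?_
    rw [Matrix.updateCol_ne (Finset.ne_of_mem_erase hm)]
  simp only [h2]
  rw [Finset.sum_comm]
  simp only [_root_.sum_apply, Finset.smul_sum]
  rfl

theorem RelOpen.pd_sqrt_det {D : Set (E n)} (hD : RelOpen D) {g : E n → Matrix (Fin n) (Fin n) ℝ}
    (hg : SmM g D) (hp : ∀ x ∈ D, (g x).PosDef) {x : E n} (hx : x ∈ D) (i : Fin n) :
    pd i (fun y => Real.sqrt (g y).det) x =
      (1 / 2) * Real.sqrt (g x).det * ∑ a, ∑ b, (g x)⁻¹ a b * pd i (fun y => g y a b) x := by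
  have hdet := (hp x hx).det_pos
  have h1 := (hD.hasD hx (Jacobi_det_smooth hg) (by simp)).sqrt hdet.ne'
  rw [pd_of_has (hD.subset hx) h1 i]
  have h2 : fderivWithin ℝ (fun y => (g y).det) (Hs n) x (ev i) =
      pd i (fun y => (g y).det) x := rfl
  have hsym : ∀ a b, pd i (fun y => g y b a) x = pd i (fun y => g y a b) x := fun a b =>
    hD.pd_congr (fun y hy => by
      have := (hp y hy).isHermitian.apply a b
      simpa using this) hx i
  rw [_root_.smul_apply, smul_eq_mul, h2, Jacobi_pd_det hD hg hx i]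
  simp only [hsym, Jacobi_inv_apply]
  have h3 : ∑ a, ∑ b, (g x).det⁻¹ * (g x).adjugate a b * pd i (fun y => g y a b) x =
      (g x).det⁻¹ * ∑ a, ∑ b, (g x).adjugate a b * pd i (fun y => g y a b) x := by
    rw [Finset.mul_sum]
    refine Finset.sum_congr rfl fun a _ => ?_
    rw [Finset.mul_sum]
    exact Finset.sum_congr rfl fun b _ => by ring
  rw [h3]
  have hs : Real.sqrt (g x).det ≠ 0 := (Real.sqrt_pos.2 hdet).ne'
  have hs2 : (g x).det = Real.sqrt (g x).det * Real.sqrt (g x).det :=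
    (Real.mul_self_sqrt hdet.le).symm
  rw [← mul_assoc]
  congr 1
  generalize hs3 : Real.sqrt (g x).det = s at *
  rw [hs2]
  (clear * - hs; field_simp)

theorem Jacobi_inv_symm {A : Matrix (Fin n) (Fin n) ℝ} (hA : A.PosDef) (a b : Fin n) :
    A⁻¹ a b = A⁻¹ b a := by
  have := hA.inv.isHermitian.apply b a
  simpa only [star_trivial] using this

theorem Jacobi_pd_symm {D : Set (E n)} (hD : RelOpen D) {g : E n → Matrix (Fin n) (Fin n) ℝ}
    (hp : ∀ x ∈ D, (g x).PosDef) {x : E n} (hx : x ∈ D) (i a b : Fin n) :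
    pd i (fun y => g y b a) x = pd i (fun y => g y a b) x :=
  hD.pd_congr (fun y hy => by
    have := (hp y hy).isHermitian.apply a b
    simpa using this) hx i

/-- `∑_j ∂_j (√det g g^{jk}) = - √det g ∑ g^{ij} Γ^k_{ij}` -/
theorem RelOpen.sum_pd_gg {D : Set (E n)} (hD : RelOpen D) {g : E n → Matrix (Fin n) (Fin n) ℝ}
    (hg : SmM g D) (hp : ∀ x ∈ D, (g x).PosDef) {x : E n} (hx : x ∈ D) (k : Fin n) :
    ∑ j, pd j (gg g j k) x = -(Real.sqrt (g x).det * ∑ i, ∑ j, (g x)⁻¹ i j * chr g k i j x) := by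
  have hi := hD.smM_inv hg hp
  have hs : ContDiffOn ℝ ∞ (fun y => Real.sqrt (g y).det) D :=
    (Jacobi_det_smooth hg).sqrt fun x hx => (hp x hx).det_pos.ne'
  have h1 : ∀ j, pd j (gg g j k) x = Real.sqrt (g x).det *
      (-(∑ c, ∑ d, (g x)⁻¹ j c * pd j (fun y => g y c d) x * (g x)⁻¹ d k) +
        (1 / 2) * ∑ a, ∑ b, (g x)⁻¹ a b * pd j (fun y => g y a b) x * (g x)⁻¹ j k) := by
    intro j
    have h2 := hD.pd_mul hs (hi j k) hx j
    have h3 : pd j (gg g j k) x = pd j (fun y => Real.sqrt (g y).det * (g y)⁻¹ j k) x := rfl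
    rw [h3, h2, hD.pd_minv hg hp hx, hD.pd_sqrt_det hg hp hx]
    have h4 : ∑ a, ∑ b, (g x)⁻¹ a b * pd j (fun y => g y a b) x * (g x)⁻¹ j k =
        (∑ a, ∑ b, (g x)⁻¹ a b * pd j (fun y => g y a b) x) * (g x)⁻¹ j k := by
      simp only [Finset.sum_mul]
    rw [h4]
    ring
  simp only [h1]
  rw [← Finset.mul_sum, ← mul_neg]
  congr 1
  have hsym := Jacobi_pd_symm hD hp hx
  have hisym := Jacobi_inv_symm (hp x hx)
  have e1 : ∑ i, ∑ j, (g x)⁻¹ i j * chr g k i j x =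
      (1 / 2) * ∑ i, ∑ j, ∑ l, (g x)⁻¹ i j * (g x)⁻¹ k l * pd i (fun y => g y l j) x +
      (1 / 2) * ∑ i, ∑ j, ∑ l, (g x)⁻¹ i j * (g x)⁻¹ k l * pd j (fun y => g y l i) x -
      (1 / 2) * ∑ i, ∑ j, ∑ l, (g x)⁻¹ i j * (g x)⁻¹ k l * pd l (fun y => g y i j) x := by
    simp only [chr, Finset.mul_sum]
    rw [← Finset.sum_add_distrib, ← Finset.sum_sub_distrib]
    refine Finset.sum_congr rfl fun i _ => ?_
    rw [← Finset.sum_add_distrib, ← Finset.sum_sub_distrib]
    refine Finset.sum_congr rfl fun j _ => ?_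
    rw [← Finset.sum_add_distrib, ← Finset.sum_sub_distrib]
    refine Finset.sum_congr rfl fun l _ => ?_
    ring
  have e2 : ∑ i, ∑ j, ∑ l, (g x)⁻¹ i j * (g x)⁻¹ k l * pd j (fun y => g y l i) x =
      ∑ i, ∑ j, ∑ l, (g x)⁻¹ i j * (g x)⁻¹ k l * pd i (fun y => g y l j) x := by
    rw [Finset.sum_comm]
    refine Finset.sum_congr rfl fun i _ => Finset.sum_congr rfl fun j _ => ?_
    rw [hisym j i]
  have e3 : ∑ j, ∑ c, ∑ d, (g x)⁻¹ j c * pd j (fun y => g y c d) x * (g x)⁻¹ d k =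
      ∑ i, ∑ j, ∑ l, (g x)⁻¹ i j * (g x)⁻¹ k l * pd i (fun y => g y l j) x := by
    refine Finset.sum_congr rfl fun i _ => Finset.sum_congr rfl fun j _ =>
      Finset.sum_congr rfl fun l _ => ?_
    rw [hisym l k, hsym i j l]
    ring
  have e4 : ∑ j, ∑ a, ∑ b, (g x)⁻¹ a b * pd j (fun y => g y a b) x * (g x)⁻¹ j k =
      ∑ i, ∑ j, ∑ l, (g x)⁻¹ i j * (g x)⁻¹ k l * pd l (fun y => g y i j) x := by
    rw [Finset.sum_comm]
    refine Finset.sum_congr rfl fun a _ => ?_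
    rw [Finset.sum_comm]
    refine Finset.sum_congr rfl fun b _ => Finset.sum_congr rfl fun l _ => ?_
    rw [hisym l k]
    ring
  rw [Finset.sum_add_distrib, ← Finset.mul_sum, Finset.sum_neg_distrib, e3, e4, e1, e2]
  ring

theorem Jacobi_nab_smooth {D : Set (E n)} (hD : RelOpen D) {L : LD n N} (hL : L.Ok D)
    {c : E n → Fib N} (hc : ContDiffOn ℝ ∞ c D) (k : Fin n) : ContDiffOn ℝ ∞ (nab L k c) D :=
  (hD.pd_smooth hc k).add (smooth_eval (hL.B_smooth k) hc)

theorem Lop_eq_hess {D : Set (E n)} (hD : RelOpen D) {L : LD n N} (hL : L.Ok D) {c : E n → Fib N}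
    (hc : ContDiffOn ℝ ∞ c D) {x : E n} (hx : x ∈ D) :
    Lop L c x = Real.sqrt (L.g x).det • ∑ j, ∑ k, (L.g x)⁻¹ j k • hess L j k c x := by
  have hgg := hD.gg_smooth hL.g_smooth hL.g_pos
  have hnab := Jacobi_nab_smooth hD hL hc
  have h1 : ∀ j, pd j (flux L j c) x + L.B j x (flux L j c x) =
      ∑ k, (gg L.g j k x • (pd j (nab L k c) x + L.B j x (nab L k c x)) +
        pd j (gg L.g j k) x • nab L k c x) := by
    intro j
    have h2 : pd j (flux L j c) x = ∑ k, (gg L.g j k x • pd j (nab L k c) x +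
        pd j (gg L.g j k) x • nab L k c x) := by
      have h3 : pd j (flux L j c) x = pd j (fun y => ∑ k, gg L.g j k y • nab L k c y) x := rfl
      rw [h3, hD.pd_sum Finset.univ (f := fun k y => gg L.g j k y • nab L k c y)
        (fun k _ => (hgg j k).smul (hnab k)) hx j]
      exact Finset.sum_congr rfl fun k _ => hD.pd_smul (hgg j k) (hnab k) hx j
    have h4 : L.B j x (flux L j c x) = ∑ k, gg L.g j k x • L.B j x (nab L k c x) := by
      unfold flux
      rw [map_sum]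
      exact Finset.sum_congr rfl fun k _ => ContinuousLinearMap.map_smul_of_tower _ _ _
    rw [h2, h4, ← Finset.sum_add_distrib]
    refine Finset.sum_congr rfl fun k _ => ?_
    rw [smul_add]
    abel
  unfold Lop
  simp only [h1]
  have h5 : ∑ j, ∑ k, (gg L.g j k x • (pd j (nab L k c) x + L.B j x (nab L k c x)) +
        pd j (gg L.g j k) x • nab L k c x) =
      ∑ j, ∑ k, gg L.g j k x • (pd j (nab L k c) x + L.B j x (nab L k c x)) +
      ∑ k, (∑ j, pd j (gg L.g j k) x) • nab L k c x := by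
    simp only [Finset.sum_add_distrib, Finset.sum_smul]
    congr 1
    rw [Finset.sum_comm]
  rw [h5]
  simp only [hD.sum_pd_gg hL.g_smooth hL.g_pos hx]
  have h6 : ∑ j, ∑ k, (L.g x)⁻¹ j k • hess L j k c x =
      ∑ j, ∑ k, (L.g x)⁻¹ j k • (pd j (nab L k c) x + L.B j x (nab L k c x)) -
      ∑ l, (∑ i, ∑ j, (L.g x)⁻¹ i j * chr L.g l i j x) • nab L l c x := by
    have h7 : ∑ l, (∑ i, ∑ j, (L.g x)⁻¹ i j * chr L.g l i j x) • nab L l c x =
        ∑ i, ∑ j, (L.g x)⁻¹ i j • ∑ l, chr L.g l i j x • nab L l c x := by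
      simp only [Finset.sum_smul, Finset.smul_sum, smul_smul]
      rw [Finset.sum_comm]
      refine Finset.sum_congr rfl fun i _ => ?_
      rw [Finset.sum_comm]
    rw [h7, ← Finset.sum_sub_distrib]
    refine Finset.sum_congr rfl fun i _ => ?_
    rw [← Finset.sum_sub_distrib]
    refine Finset.sum_congr rfl fun j _ => ?_
    unfold hess
    rw [smul_sub]
  rw [h6, smul_sub, sub_eq_add_neg]
  congr 1
  · simp only [Finset.smul_sum, smul_smul, gg]
  · rw [Finset.smul_sum, ← Finset.sum_neg_distrib]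
    refine Finset.sum_congr rfl fun k _ => ?_
    rw [neg_smul, smul_smul]

end Vale.Agent.P088.EYM
end
end

section

/-!
# P088-EYM, block D (boundary determination): definitions

`G` is the density `√(det g) g^{jk}`, `B` the connection matrices, `h` the Hermitian form.
-/

open MeasureTheory Set Filter Topology
open scoped ContDiff

noncomputable section

namespace Vale.Agent.P088.EYM

variable {n : ℕ} [NeZero n] {N : ℕ}

/-- the `∂_0`-derivatives of order `< k` of `f` vanish on `D ∩ {x_0 = 0}` -/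
def Van {F : Type*} [NormedAddCommGroup F] [NormedSpace ℝ F] (D : Set (E n)) (k : ℕ)
    (f : E n → F) : Prop := ∀ i < k, ∀ x ∈ D, x 0 = 0 → (pd (0 : Fin n))^[i] f x = 0

/-- scaling of the coordinate `x_0` -/
def sc (s : ℝ) (x : E n) : E n := x + ((s - 1) * x 0) • ev 0

/-- test functions -/
def TstD (D : Set (E n)) (c : E n → Fib N) : Prop :=
  ContDiffOn ℝ ∞ c D ∧ ∃ K, IsCompact K ∧ K ⊆ D ∧ ∀ x ∈ Hs n, x ∉ K → c x = 0

/-- the operator `∂_j (G^{jk} ∂_k c) + 2 G^{jk} B_j ∂_k c` -/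
def LopR (G : E n → Matrix (Fin n) (Fin n) ℝ) (B : Fin n → E n → EndF N) (c : E n → Fib N)
    (x : E n) : Fib N :=
  (∑ j, pd j (fun y => ∑ k, G y j k • pd k c y) x) +
    (2 : ℝ) • ∑ j, ∑ k, G x j k • B j x (pd k c x)

/-- covariant derivative `(∂_j + B_j) c` -/
def DcB (B : Fin n → E n → EndF N) (j : Fin n) (c : E n → Fib N) (x : E n) : Fib N :=
  pd j c x + B j x (c x)

/-- energy form -/
def EnD (D : Set (E n)) (G : E n → Matrix (Fin n) (Fin n) ℝ) (B : Fin n → E n → EndF N)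
    (h : E n → EndF N) (c c' : E n → Fib N) : ℂ :=
  ∫ x in D, ∑ j, ∑ k, (G x j k : ℂ) * inner ℂ (DcB B j c x) (h x (DcB B k c' x))

/-- `‖x_0 L c‖²` -/
def RsqD (D : Set (E n)) (G : E n → Matrix (Fin n) (Fin n) ℝ) (B : Fin n → E n → EndF N)
    (c : E n → Fib N) : ℝ :=
  ∫ x in D, (x 0) ^ 2 * ‖LopR G B c x‖ ^ 2

/-- smooth symmetric positive definite coefficients -/
structure GOk (D : Set (E n)) (G : E n → Matrix (Fin n) (Fin n) ℝ) : Prop where
  smG : ∀ j k, ContDiffOn ℝ ∞ (fun x => G x j k) D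
  symm : ∀ x ∈ D, ∀ j k, G x j k = G x k j
  pos : ∀ x ∈ D, (G x).PosDef

/-- local data of a pair (metric, connection) in a solution frame -/
structure CoefD (D : Set (E n)) (G : E n → Matrix (Fin n) (Fin n) ℝ) (B : Fin n → E n → EndF N)
    (h : E n → EndF N) : Prop extends GOk D G where
  smB : ∀ j, ContDiffOn ℝ ∞ (B j) D
  smh : ContDiffOn ℝ ∞ h D
  dh : ∀ x ∈ D, ∀ j, pd j h x = ContinuousLinearMap.adjoint (B j x) * h x + h x * B j x
  h1 : ∀ x ∈ D, x 0 = 0 → h x = 1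
  frame : ∀ x ∈ D, (∑ j, pd j (fun y => ∑ k, G y j k • B k y) x) +
    ∑ j, ∑ k, G x j k • (B j x * B k x) = 0

/-- solutions whose component `j0` has real parts the coordinate functions -/
structure SolD (D : Set (E n)) (G : E n → Matrix (Fin n) (Fin n) ℝ) (B : Fin n → E n → EndF N)
    (c : Fin n → E n → Fib N) (j0 : Fin N) : Prop where
  sm : ∀ a, ContDiffOn ℝ ∞ (c a) D
  coord : ∀ a, ∀ x ∈ D, (c a x j0).re = x a
  eq : ∀ a, ∀ x ∈ D, LopR G B (c a) x = 0

/-- energy relations -/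
structure ERelD (D : Set (E n)) (G₁ : E n → Matrix (Fin n) (Fin n) ℝ)
    (B₁ : Fin n → E n → EndF N) (h₁ : E n → EndF N) (G₂ : E n → Matrix (Fin n) (Fin n) ℝ)
    (B₂ : Fin n → E n → EndF N) (h₂ : E n → EndF N) : Prop where
  rel : ∃ C : ℝ, ∀ c c' : E n → Fib N, TstD D c → TstD D c' →
    ‖EnD D G₁ B₁ h₁ c c' - EnD D G₂ B₂ h₂ c c'‖ ≤
      C * (√(RsqD D G₁ B₁ c) + √(RsqD D G₂ B₂ c)) *
        (√(RsqD D G₁ B₁ c') + √(RsqD D G₂ B₂ c'))
  le12 : ∃ C : ℝ, ∀ c : E n → Fib N, TstD D c →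
    (EnD D G₂ B₂ h₂ c c).re ≤ (EnD D G₁ B₁ h₁ c c).re + C * RsqD D G₂ B₂ c
  le21 : ∃ C : ℝ, ∀ c : E n → Fib N, TstD D c →
    (EnD D G₁ B₁ h₁ c c).re ≤ (EnD D G₂ B₂ h₂ c c).re + C * RsqD D G₁ B₁ c

/-- `ρ(G, ξ)` -/
def rho (A : Matrix (Fin n) (Fin n) ℝ) (ξ : Fin n → ℝ) : ℝ :=
  √(((∑ j, ∑ k, A j k * ξ j * ξ k) - (∑ k, A 0 k * ξ k) ^ 2 / A 0 0) / A 0 0)

/-- `β(G, ξ)` -/
def bet (A : Matrix (Fin n) (Fin n) ℝ) (ξ : Fin n → ℝ) : ℝ := (∑ k, A 0 k * ξ k) / A 0 0

/-- the covector `(-ρ - iβ, iξ)` -/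
def zz (A : Matrix (Fin n) (Fin n) ℝ) (ξ : Fin n → ℝ) (j : Fin n) : ℂ :=
  Complex.I * ξ j - if j = 0 then ((rho A ξ : ℂ) + Complex.I * bet A ξ) else 0

/-- eikonal expression -/
def eik (G : E n → Matrix (Fin n) (Fin n) ℝ) (ψ : E n → ℂ) (x : E n) : ℂ :=
  ∑ j, ∑ k, (G x j k : ℂ) * pd j ψ x * pd k ψ x

/-- transport operator -/
def Mop (G : E n → Matrix (Fin n) (Fin n) ℝ) (B : Fin n → E n → EndF N) (ψ : E n → ℂ)
    (a : E n → Fib N) (x : E n) : Fib N :=
  (∑ j, pd j (fun y => ∑ k, (G y j k : ℂ) * pd k ψ y) x) • a x +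
    (2 : ℂ) • (∑ j, ∑ k, ((G x j k : ℂ) * pd k ψ x) • pd j a x) +
    (2 : ℂ) • (∑ j, ∑ k, ((G x j k : ℂ) * pd k ψ x) • B j x (a x))

/-- the phase `ψ` belongs to `G` and `ξ` -/
structure IsPhase (D : Set (E n)) (G : E n → Matrix (Fin n) (Fin n) ℝ) (ξ : Fin n → ℝ)
    (ψ : E n → ℂ) : Prop where
  sm : ContDiffOn ℝ ∞ ψ D
  re0 : ∀ x ∈ D, x 0 = 0 → (ψ x).re = 0
  grad : ∀ x ∈ D, x 0 = 0 → ∀ j, pd j ψ x = zz (G x) ξ j
  eik2 : Van D 2 (eik G ψ)

/-- oscillating test function -/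
def osc (ψ : E n → ℂ) (a : E n → Fib N) (t : ℝ) (x : E n) : Fib N :=
  Complex.exp (t * ψ x) • a x

/-- coefficient of `t²` in the energy density of two oscillating functions -/
def Q2 (G : E n → Matrix (Fin n) (Fin n) ℝ) (h : E n → EndF N) (ψ : E n → ℂ)
    (a a' : E n → Fib N) (x : E n) : ℂ :=
  ∑ j, ∑ k, (G x j k : ℂ) * ((starRingEnd ℂ) (pd j ψ x) * pd k ψ x * inner ℂ (a x) (h x (a' x)))

/-- coefficient of `t` -/
def Q1 (G : E n → Matrix (Fin n) (Fin n) ℝ) (B : Fin n → E n → EndF N) (h : E n → EndF N)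
    (ψ : E n → ℂ) (a a' : E n → Fib N) (x : E n) : ℂ :=
  ∑ j, ∑ k, (G x j k : ℂ) * ((starRingEnd ℂ) (pd j ψ x) * inner ℂ (a x) (h x (DcB B k a' x)) +
    pd k ψ x * inner ℂ (DcB B j a x) (h x (a' x)))

/-- coefficient of `1` -/
def Q0 (G : E n → Matrix (Fin n) (Fin n) ℝ) (B : Fin n → E n → EndF N) (h : E n → EndF N)
    (a a' : E n → Fib N) (x : E n) : ℂ :=
  ∑ j, ∑ k, (G x j k : ℂ) * inner ℂ (DcB B j a x) (h x (DcB B k a' x))

/-- oscillating integral -/
def II (D : Set (E n)) (ψ : E n → ℂ) (t : ℝ) (q : E n → ℂ) : ℂ :=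
  ∫ x in D, (Real.exp (2 * t * (ψ x).re) : ℂ) * q x

/-- smooth cutoff functions supported in a ball -/
def Bump (p : E n) (r : ℝ) (χ : E n → ℝ) : Prop :=
  ContDiff ℝ ∞ χ ∧ ∀ x, x ∉ Metric.closedBall p r → χ x = 0

/-- weight of the limit integrals -/
def wt (G : E n → Matrix (Fin n) (Fin n) ℝ) (ξ : Fin n → ℝ) (x : E n) : ℝ :=
  Real.exp (-(2 * rho (G (sc 0 x)) ξ * x 0))

/-- limit integrals -/
def JJ (G : E n → Matrix (Fin n) (Fin n) ℝ) (ξ : Fin n → ℝ) (k : ℕ) (f : E n → ℂ) : ℂ :=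
  ∫ x in Hs n, (((x 0) ^ k * wt G ξ x : ℝ) : ℂ) * f (sc 0 x)

/-- the matrix `√(det g) g^{-1}` -/
def GM (g : E n → Matrix (Fin n) (Fin n) ℝ) (x : E n) : Matrix (Fin n) (Fin n) ℝ :=
  Matrix.of fun j k => gg g j k x

end Vale.Agent.P088.EYM
end
end

section

/-!
# P088-EYM, block D, D1a: calculus of `pd`, bilinear maps, tangential and vertical derivatives
-/

set_option linter.all false

open MeasureTheory Set Filter Topology
open scoped ContDiff

noncomputable section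

namespace Vale.Agent.P088.EYM

variable {n : ℕ} [NeZero n] {N : ℕ}
variable {F : Type*} [NormedAddCommGroup F] [NormedSpace ℝ F]
variable {F' : Type*} [NormedAddCommGroup F'] [NormedSpace ℝ F']
variable {F'' : Type*} [NormedAddCommGroup F''] [NormedSpace ℝ F'']
variable {D : Set (E n)}

theorem dc_meas (hD : RelOpen D) : MeasurableSet D := by
  obtain ⟨O, hO, rfl⟩ := hD
  exact hO.measurableSet.inter isClosed_Hs.measurableSet

theorem dc_pd_bil (hD : RelOpen D) {b : F × F' → F''} (hb : IsBoundedBilinearMap ℝ b)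
    {f : E n → F} {g : E n → F'} (hf : ContDiffOn ℝ ∞ f D) (hg : ContDiffOn ℝ ∞ g D) {x : E n}
    (hx : x ∈ D) (i : Fin n) :
    pd i (fun y => b (f y, g y)) x = b (pd i f x, g x) + b (f x, pd i g x) := by
  have h1 := (hb.hasFDerivAt (f x, g x)).comp_hasFDerivWithinAt x
    ((hD.hasD hx hf (by simp)).prodMk (hD.hasD hx hg (by simp)))
  have h2 : HasFDerivWithinAt (fun y => b (f y, g y)) _ (Hs n) x := h1
  rw [pd_of_has (hD.subset hx) h2 i]
  simp only [ContinuousLinearMap.comp_apply, ContinuousLinearMap.prod_apply,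
    IsBoundedBilinearMap.deriv_apply]
  rw [add_comm]
  rfl

theorem dc_smooth_bil {b : F × F' → F''} (hb : IsBoundedBilinearMap ℝ b)
    {f : E n → F} {g : E n → F'} (hf : ContDiffOn ℝ ∞ f D) (hg : ContDiffOn ℝ ∞ g D) :
    ContDiffOn ℝ ∞ (fun y => b (f y, g y)) D :=
  hb.contDiff.comp_contDiffOn (hf.prodMk hg)

theorem dc_smooth_clm (A : F →L[ℝ] F') {f : E n → F} (hf : ContDiffOn ℝ ∞ f D) :
    ContDiffOn ℝ ∞ (fun y => A (f y)) D :=
  A.contDiff.comp_contDiffOn hf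

theorem dc_smooth_sum {ι : Type*} (s : Finset ι) {f : ι → E n → F}
    (hf : ∀ j ∈ s, ContDiffOn ℝ ∞ (f j) D) : ContDiffOn ℝ ∞ (fun y => ∑ j ∈ s, f j y) D :=
  ContDiffOn.sum hf

theorem dc_smooth_coord (j : Fin n) : ContDiffOn ℝ ∞ (fun y : E n => y j) D :=
  (EuclideanSpace.proj (𝕜 := ℝ) j).contDiff.contDiffOn

theorem dc_pd_coord {x : E n} (hx : x ∈ Hs n) (i j : Fin n) :
    pd i (fun y : E n => y j) x = if i = j then 1 else 0 := by
  have h1 : HasFDerivWithinAt (fun y : E n => y j) (EuclideanSpace.proj (𝕜 := ℝ) j) (Hs n) x :=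
    (EuclideanSpace.proj (𝕜 := ℝ) j).hasFDerivWithinAt
  rw [pd_of_has hx h1 i]
  simp only [PiLp.proj_apply, PiLp.single_apply, eq_comm]

theorem dc_pd_exp (hD : RelOpen D) {ψ : E n → ℂ} (hψ : ContDiffOn ℝ ∞ ψ D) {x : E n}
    (hx : x ∈ D) (i : Fin n) :
    pd i (fun y => Complex.exp (ψ y)) x = Complex.exp (ψ x) * pd i ψ x := by
  have h1 := (hD.hasD hx hψ (by simp)).cexp
  rw [pd_of_has (hD.subset hx) h1 i]
  rfl

/-- `x + s e_j` stays in `D` for small `s` if `j ≠ 0` -/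
theorem dc_tan_mem (hD : RelOpen D) {x : E n} (hx : x ∈ D) {j : Fin n} (hj : j ≠ 0) :
    ∀ᶠ s : ℝ in 𝓝 0, x + s • ev j ∈ D := by
  obtain ⟨O, hO, rfl⟩ := hD
  have hc : Continuous fun s : ℝ => x + s • (ev j : E n) := by fun_prop
  have h1 : ∀ᶠ s : ℝ in 𝓝 0, x + s • (ev j : E n) ∈ O := by
    refine hc.continuousAt.eventually_mem ?_
    simpa only [zero_smul, add_zero] using hO.mem_nhds hx.1
  filter_upwards [h1] with s hs
  refine ⟨hs, ?_⟩
  have h2 : (0 : ℝ) ≤ x 0 := hx.2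
  show (0 : ℝ) ≤ (x + s • ev j) 0
  simpa only [PiLp.add_apply, PiLp.smul_apply, ne_eq, hj.symm, not_false_eq_true, PiLp.single_eq_of_ne,     smul_eq_mul, mul_zero, add_zero] using h2

/-- tangential derivatives of a function vanishing on the face vanish on the face -/
theorem dc_pd_tan (hD : RelOpen D) {f : E n → F} (hf : ContDiffOn ℝ ∞ f D)
    (h0 : ∀ x ∈ D, x 0 = 0 → f x = 0) {j : Fin n} (hj : j ≠ 0) :
    ∀ x ∈ D, x 0 = 0 → pd j f x = 0 := by
  intro x hx hx0
  have h1 := hD.hasD hx hf (by simp)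
  have hc : HasDerivAt (fun s : ℝ => x + s • (ev j : E n)) (ev j : E n) 0 := by
    have := ((hasDerivAt_id (0 : ℝ)).smul_const (ev j : E n)).const_add x
    simpa using this
  have hx00 : x + (0 : ℝ) • (ev j : E n) = x := by simp
  have hm : ∀ s : ℝ, x + s • (ev j : E n) ∈ Hs n := by
    intro s
    show (0 : ℝ) ≤ (x + s • ev j) 0
    simp [hj.symm, hx0]
  have h1' : HasFDerivWithinAt f (fderivWithin ℝ f (Hs n) x) (Hs n) (x + (0 : ℝ) • (ev j : E n)) := by
    rw [hx00]; exact h1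
  have h2 : HasDerivWithinAt (fun s : ℝ => f (x + s • (ev j : E n)))
      (fderivWithin ℝ f (Hs n) x (ev j)) univ 0 :=
    h1'.comp_hasDerivWithinAt (0 : ℝ) hc.hasDerivWithinAt (fun s _ => hm s)
  rw [hasDerivWithinAt_univ] at h2
  have h3 : (fun s : ℝ => f (x + s • (ev j : E n))) =ᶠ[𝓝 0] fun _ => 0 := by
    filter_upwards [dc_tan_mem hD hx hj] with s hs
    refine h0 _ hs ?_
    simp only [PiLp.add_apply, hx0, PiLp.smul_apply, ne_eq, hj.symm, not_false_eq_true, PiLp.single_eq_of_ne, smul_eq_mul, mul_zero, add_zero]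
  have h4 := (hasDerivAt_const (0 : ℝ) (0 : F)).congr_of_eventuallyEq h3
  exact h2.unique h4

/-- if `f` vanishes in `Hs n` off the closed set `K` then so does `pd i f` -/
theorem dc_pd_supp {f : E n → F} {K : Set (E n)} (hK : IsClosed K)
    (h : ∀ x ∈ Hs n, x ∉ K → f x = 0) (i : Fin n) : ∀ x ∈ Hs n, x ∉ K → pd i f x = 0 := by
  intro x hx hxK
  have hD : RelOpen (Kᶜ ∩ Hs n) := ⟨Kᶜ, hK.isOpen_compl, rfl⟩
  have h1 : EqOn f (fun _ => (0 : F)) (Kᶜ ∩ Hs n) := fun y hy => h y hy.2 hy.1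
  rw [hD.pd_congr h1 ⟨hxK, hx⟩ i, pd_const]

theorem dc_bil_smul : IsBoundedBilinearMap ℝ (fun p : ℝ × F => p.1 • p.2) :=
  isBoundedBilinearMap_smul

theorem dc_bil_mulR : IsBoundedBilinearMap ℝ (fun p : ℝ × ℝ => p.1 * p.2) :=
  isBoundedBilinearMap_mul

theorem dc_bil_mulC : IsBoundedBilinearMap ℝ (fun p : ℂ × ℂ => p.1 * p.2) :=
  isBoundedBilinearMap_mul

theorem dc_bil_smulC : IsBoundedBilinearMap ℝ (fun p : ℂ × Fib N => p.1 • p.2) :=
  isBoundedBilinearMap_smul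

theorem dc_bil_app : IsBoundedBilinearMap ℝ (fun p : EndF N × Fib N => p.1 p.2) :=
  { add_left := fun x y z => rfl
    smul_left := fun c x y => rfl
    add_right := fun x y z => map_add x y z
    smul_right := fun c x y => ContinuousLinearMap.map_smul_of_tower _ _ _
    bound := ⟨1, one_pos, fun x y => by rw [one_mul]; exact x.le_opNorm y⟩ }

theorem dc_bil_mul : IsBoundedBilinearMap ℝ (fun p : EndF N × EndF N => p.1 * p.2) :=
  { add_left := fun x y z => add_mul x y z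
    smul_left := fun c x y => smul_mul_assoc c x y
    add_right := fun x y z => mul_add x y z
    smul_right := fun c x y => mul_smul_comm c x y
    bound := ⟨1, one_pos, fun x y => by rw [one_mul]; exact norm_mul_le x y⟩ }

theorem dc_bil_inner :
    IsBoundedBilinearMap ℝ (fun p : Fib N × Fib N => (inner ℂ p.1 p.2 : ℂ)) :=
  isBoundedBilinearMap_inner

end Vale.Agent.P088.EYM
end
end

section

/-!
# P088-EYM, block D: scaling of the coordinate `x_0` in integrals over the half space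
-/

open MeasureTheory Set Filter Topology
open scoped ContDiff

noncomputable section

namespace Vale.Agent.P088.EYM

variable {n : ℕ} [NeZero n]
variable {F : Type*} [NormedAddCommGroup F] [NormedSpace ℝ F]

theorem ds_sc_zero (s : ℝ) (x : E n) : sc s x 0 = s * x 0 := by
  simp only [sc, PiLp.add_apply, PiLp.smul_apply, PiLp.single_eq_same, smul_eq_mul, mul_one]; ring

theorem ds_sc_ne (s : ℝ) (x : E n) {i : Fin n} (hi : i ≠ 0) : sc s x i = x i := by
  simp [sc, hi]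

theorem ds_sc_apply (s : ℝ) (x : E n) (i : Fin n) :
    sc s x i = (if i = 0 then s else 1) * x i := by
  by_cases hi : i = 0
  · subst hi; rw [ds_sc_zero]; simp
  · rw [ds_sc_ne s x hi]; simp [hi]

theorem ds_sc_sc (s t : ℝ) (x : E n) : sc s (sc t x) = sc (s * t) x := by
  ext i
  rw [ds_sc_apply, ds_sc_apply, ds_sc_apply]
  by_cases hi : i = 0
  · simp only [hi, ↓reduceIte]; ring
  · simp [hi]

theorem ds_sc_one (x : E n) : sc 1 x = x := by
  ext i
  rw [ds_sc_apply]; simp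

/-- `sc s` as a continuous linear map -/
def ds_L (n : ℕ) [NeZero n] (s : ℝ) : E n →L[ℝ] E n :=
  ContinuousLinearMap.id ℝ (E n) +
    ((s - 1) • (EuclideanSpace.proj (𝕜 := ℝ) (0 : Fin n))).smulRight (ev 0)

theorem ds_L_apply (s : ℝ) (x : E n) : ds_L n s x = sc s x := by
  simp only [ds_L, add_apply, ContinuousLinearMap.id_apply, ContinuousLinearMap.smulRight_apply, smul_apply, PiLp.proj_apply, smul_eq_mul, sc]

theorem ds_L_det (s : ℝ) : (ds_L n s).det = s := by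
  rw [ContinuousLinearMap.det, ← LinearMap.det_toMatrix (EuclideanSpace.basisFun (Fin n) ℝ).toBasis]
  have h : LinearMap.toMatrix (EuclideanSpace.basisFun (Fin n) ℝ).toBasis
      (EuclideanSpace.basisFun (Fin n) ℝ).toBasis (ds_L n s : E n →ₗ[ℝ] E n) =
      Matrix.diagonal fun i => if i = 0 then s else 1 := by
    ext i j
    rw [LinearMap.toMatrix_apply, Matrix.diagonal_apply]
    simp only [OrthonormalBasis.coe_toBasis, EuclideanSpace.basisFun_apply,
      OrthonormalBasis.coe_toBasis_repr_apply, EuclideanSpace.basisFun_repr,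
      ContinuousLinearMap.coe_coe, ds_L_apply]
    rw [ds_sc_apply]
    by_cases hij : i = j
    · subst hij; simp
    · simp [hij]
  rw [h, Matrix.det_diagonal]
  simp only [Finset.prod_ite_eq', Finset.mem_univ, ↓reduceIte]

theorem ds_measurable_Hs : MeasurableSet (Hs n) := isClosed_Hs.measurableSet

theorem ds_image_Hs {s : ℝ} (hs : 0 < s) : sc s '' Hs n = Hs n := by
  ext x
  constructor
  · rintro ⟨y, hy, rfl⟩
    change 0 ≤ sc s y 0
    rw [ds_sc_zero]
    exact mul_nonneg hs.le hy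
  · intro hx
    refine ⟨sc s⁻¹ x, ?_, ?_⟩
    · change 0 ≤ sc s⁻¹ x 0
      rw [ds_sc_zero]
      exact mul_nonneg (inv_nonneg.2 hs.le) hx
    · rw [ds_sc_sc, mul_inv_cancel₀ hs.ne', ds_sc_one]

theorem ds_integral_scale (f : E n → F) {s : ℝ} (hs : 0 < s) :
    ∫ x in Hs n, f x = s • ∫ x in Hs n, f (sc s x) := by
  have h := integral_image_eq_integral_abs_det_fderiv_smul (volume : Measure (E n))
    (s := Hs n) (f := sc s) (f' := fun _ => ds_L n s) ds_measurable_Hs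
    (fun x _ => by
      have := (ds_L n s).hasFDerivWithinAt (s := Hs n) (x := x)
      have e : ⇑(ds_L n s) = sc s := funext fun x => ds_L_apply s x
      rwa [e] at this)
    (fun x _ y _ hxy => by
      have h2 : sc s⁻¹ (sc s x) = sc s⁻¹ (sc s y) := by rw [hxy]
      rwa [ds_sc_sc, ds_sc_sc, inv_mul_cancel₀ hs.ne', ds_sc_one, ds_sc_one] at h2) f
  rw [ds_image_Hs hs] at h
  rw [h, ds_L_det, abs_of_pos hs, integral_smul]

theorem ds_continuous_sc (s : ℝ) : Continuous (sc s : E n → E n) := by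
  have e : (sc s : E n → E n) = ⇑(ds_L n s) := funext fun x => (ds_L_apply s x).symm
  rw [e]; exact (ds_L n s).continuous

theorem ds_measurable_dom (R : ℝ) : MeasurableSet {x : E n | x ∈ Hs n ∧ ‖sc 0 x‖ ≤ R} :=
  (isClosed_Hs.inter (isClosed_le (ds_continuous_sc 0).norm continuous_const)).measurableSet

theorem ds_norm_le {x : E n} (hx : x ∈ Hs n) : ‖x‖ ≤ ‖sc 0 x‖ + x 0 := by
  have h0 : (0 : ℝ) ≤ x 0 := hx
  have e : x = sc 0 x + (x 0) • ev 0 := by
    simp only [sc, zero_sub, neg_mul, one_mul, neg_smul, neg_add_cancel_right]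
  have h1 : ‖x‖ ≤ ‖sc 0 x‖ + ‖(x 0) • (ev 0 : E n)‖ := by
    conv_lhs => rw [e]
    exact norm_add_le _ _
  rw [norm_smul, PiLp.norm_single, norm_one, mul_one, Real.norm_eq_abs,
    abs_of_nonneg h0] at h1
  exact h1

theorem ds_bound_aux {δ : ℝ} (hδ : 0 < δ) (R : ℝ) (k m : ℕ) : ∃ C : ℝ, ∀ t : ℝ, 0 ≤ t →
    (1 + |R| + t) ^ m * (t ^ k * Real.exp (-(δ * t))) ≤ C := by
  refine ⟨((m + k).factorial : ℝ) / δ ^ (m + k) * Real.exp (δ * (1 + |R|)), fun t ht => ?_⟩
  have hR := abs_nonneg R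
  set u := 1 + |R| + t with hu
  have hu0 : 0 ≤ u := by positivity
  have h1 : (δ * u) ^ (m + k) / ((m + k).factorial : ℝ) ≤ Real.exp (δ * u) :=
    Real.pow_div_factorial_le_exp _ (by positivity) _
  have h2 : t ^ k ≤ u ^ k := pow_le_pow_left₀ ht (by linarith only [hR]) k
  have h3 : u ^ (m + k) ≤ ((m + k).factorial : ℝ) / δ ^ (m + k) * Real.exp (δ * u) := by
    rw [div_le_iff₀ (by positivity), mul_pow] at h1
    rw [div_mul_eq_mul_div, le_div_iff₀ (by positivity)]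
    linarith only [h1]
  calc u ^ m * (t ^ k * Real.exp (-(δ * t)))
      ≤ u ^ m * (u ^ k * Real.exp (-(δ * t))) := by (clear * - h2 ht; gcongr)
    _ = u ^ (m + k) * Real.exp (-(δ * t)) := by ring
    _ ≤ (((m + k).factorial : ℝ) / δ ^ (m + k) * Real.exp (δ * u)) * Real.exp (-(δ * t)) := by
        (clear * - h3; gcongr)
    _ = ((m + k).factorial : ℝ) / δ ^ (m + k) * Real.exp (δ * (1 + |R|)) := by
        rw [mul_assoc, ← Real.exp_add]
        congr 2
        rw [hu]; ring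

theorem ds_integrable_dom (R : ℝ) {δ : ℝ} (hδ : 0 < δ) (k : ℕ) :
    IntegrableOn (fun x : E n => (x 0) ^ k * Real.exp (-(δ * x 0)))
      {x | x ∈ Hs n ∧ ‖sc 0 x‖ ≤ R} := by
  obtain ⟨C, hC⟩ := ds_bound_aux hδ R k (n + 1)
  have hint : Integrable (fun x : E n => C * (1 + ‖x‖) ^ (-((n + 1 : ℕ) : ℝ))) volume := by
    refine (integrable_one_add_norm (μ := (volume : Measure (E n))) ?_).const_mul C
    rw [finrank_euclideanSpace, Fintype.card_fin]
    push_cast
    linarith only []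
  refine Integrable.mono' hint.integrableOn ?_ ?_
  · have : Continuous (fun x : E n => (x 0) ^ k * Real.exp (-(δ * x 0))) := by
      have := continuous_coord (n := n) 0
      (clear R hδ C hC hint this; fun_prop)
    exact this.aestronglyMeasurable
  · rw [ae_restrict_iff' (ds_measurable_dom R)]
    refine Eventually.of_forall fun x hx => ?_
    obtain ⟨hx1, hx2⟩ := hx
    have h0 : (0 : ℝ) ≤ x 0 := hx1
    have h1 : 1 + ‖x‖ ≤ 1 + |R| + x 0 := by
      have := ds_norm_le hx1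
      have := le_abs_self R
      (clear δ hδ k C hC hint h0; linarith)
    have hpos : (0 : ℝ) < 1 + ‖x‖ := by (clear * -; positivity)
    rw [Real.norm_eq_abs, abs_of_nonneg (by (clear R hδ C hC hint hx2 h1 hpos; positivity)), Real.rpow_neg hpos.le, Real.rpow_natCast,
      ← div_eq_mul_inv, le_div_iff₀ (by positivity), mul_comm]
    refine le_trans ?_ (hC (x 0) h0)
    gcongr

theorem ds_pow_exp_bound {K : Set (E n)} (hK : IsCompact K) (hKH : K ⊆ Hs n) {δ : ℝ} (hδ : 0 < δ)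
    (m : ℕ) : ∃ C : ℝ, 0 ≤ C ∧ ∀ t : ℝ, 1 ≤ t →
      ∫ x in K, (x 0) ^ m * Real.exp (-(δ * t * x 0)) ≤ C / t ^ (m + 1) := by
  obtain ⟨R, hR⟩ : ∃ R : ℝ, ∀ x ∈ K, ‖sc 0 x‖ ≤ R := by
    obtain ⟨R, hR⟩ := (hK.image (ds_continuous_sc 0).norm).bddAbove
    exact ⟨R, fun x hx => hR ⟨x, hx, rfl⟩⟩
  set S : Set (E n) := {x | x ∈ Hs n ∧ ‖sc 0 x‖ ≤ R} with hS
  have hSm : MeasurableSet S := ds_measurable_dom R
  have hKS : K ⊆ S := fun x hx => ⟨hKH hx, hR x hx⟩
  have hSH : S ⊆ Hs n := fun x hx => hx.1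
  refine ⟨∫ x in S, (x 0) ^ m * Real.exp (-(δ * x 0)), ?_, fun t ht => ?_⟩
  · refine setIntegral_nonneg hSm fun x hx => ?_
    have h0 : (0 : ℝ) ≤ x 0 := hx.1
    (clear K hK hKH hδ hR hS hSm hKS hSH; positivity)
  have ht0 : 0 < t := by linarith only [ht]
  have hnn : ∀ x ∈ S, 0 ≤ (x 0) ^ m * Real.exp (-(δ * t * x 0)) := fun x hx => by
    have h0 : (0 : ℝ) ≤ x 0 := hx.1
    (clear K hK hKH hδ hR hS hSm hKS hSH ht ht0; positivity)
  have h1 : ∫ x in K, (x 0) ^ m * Real.exp (-(δ * t * x 0)) ≤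
      ∫ x in S, (x 0) ^ m * Real.exp (-(δ * t * x 0)) := by
    refine setIntegral_mono_set (ds_integrable_dom R (mul_pos hδ ht0) m) ?_
      (Eventually.of_forall fun x hx => hKS hx)
    rw [EventuallyLE, ae_restrict_iff' hSm]
    exact Eventually.of_forall hnn
  have h2 : ∀ g : E n → ℝ, ∫ x in S, g x = ∫ x in Hs n, S.indicator g x := by
    intro g
    rw [setIntegral_indicator hSm, inter_eq_self_of_subset_right hSH]
  refine h1.trans (le_of_eq ?_)
  rw [h2, h2, ds_integral_scale _ (inv_pos.2 ht0), smul_eq_mul]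
  have h3 : ∫ x in Hs n, S.indicator (fun x : E n => (x 0) ^ m * Real.exp (-(δ * t * x 0)))
      (sc t⁻¹ x) = ∫ x in Hs n, (t ^ m)⁻¹ *
        S.indicator (fun x : E n => (x 0) ^ m * Real.exp (-(δ * x 0))) x := by
    refine setIntegral_congr_fun ds_measurable_Hs fun x hx => ?_
    have h0 : (0 : ℝ) ≤ x 0 := hx
    by_cases hxS : x ∈ S
    · have hyS : sc t⁻¹ x ∈ S := by
        refine ⟨?_, ?_⟩
        · change 0 ≤ sc t⁻¹ x 0
          rw [ds_sc_zero]; (clear K hK hKH δ hδ m R hR S hS hSm hKS hSH ht0 hnn h1 h2 hxS; positivity)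
        · rw [ds_sc_sc, zero_mul]; exact hxS.2
      simp only [indicator_of_mem hxS, indicator_of_mem hyS, ds_sc_zero]
      have e : δ * t * (t⁻¹ * x 0) = δ * x 0 := by (clear K hK hKH m R hR S hS hSm hKS hSH ht0 hnn h1 h2 hx h0 hxS hyS; field_simp)
      rw [e, mul_pow, inv_pow]
      ring
    · have hyS : sc t⁻¹ x ∉ S := by
        rintro ⟨-, h⟩
        rw [ds_sc_sc, zero_mul] at h
        exact hxS ⟨hx, h⟩
      simp only [indicator_of_notMem hxS, indicator_of_notMem hyS, mul_zero]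
  rw [h3, integral_const_mul]
  field_simp
  ring

end Vale.Agent.P088.EYM
end
end

section

/-!
# P088-EYM: inverse function theorem on the closed half space
-/

open MeasureTheory Set Filter Topology
open scoped ContDiff

noncomputable section

namespace Vale.Agent.P088.EYM

variable {n : ℕ} [NeZero n]

/-- projection onto the closed half space -/
def iftP (x : E n) : E n := x + (max (x 0) 0 - x 0) • ev 0

theorem iftP_zero (x : E n) : iftP x 0 = max (x 0) 0 := by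
  simp only [iftP, PiLp.add_apply, PiLp.smul_apply, PiLp.single_eq_same, smul_eq_mul, mul_one, add_sub_cancel]

theorem iftP_ne (x : E n) {i : Fin n} (hi : i ≠ 0) : iftP x i = x i := by
  simp only [iftP, PiLp.add_apply, PiLp.smul_apply, ne_eq, hi, not_false_eq_true, PiLp.single_eq_of_ne, smul_eq_mul, mul_zero, add_zero]

theorem iftP_mem (x : E n) : iftP x ∈ Hs n := by
  show 0 ≤ iftP x 0
  rw [iftP_zero]
  exact le_max_right _ _

theorem iftP_of_mem {x : E n} (hx : x ∈ Hs n) : iftP x = x := by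
  have h : 0 ≤ x 0 := hx
  simp only [iftP, max_eq_left h, sub_self, zero_smul, add_zero]

theorem iftP_lip (x y : E n) : ‖iftP x - iftP y‖ ≤ ‖x - y‖ := by
  rw [EuclideanSpace.norm_eq, EuclideanSpace.norm_eq]
  refine Real.sqrt_le_sqrt (Finset.sum_le_sum fun i _ => ?_)
  simp only [PiLp.sub_apply, Real.norm_eq_abs, sq_abs]
  by_cases hi : i = 0
  · subst hi
    rw [iftP_zero, iftP_zero, ← sq_abs, ← sq_abs (x 0 - y 0)]
    exact pow_le_pow_left₀ (abs_nonneg _) (abs_max_sub_max_le_abs _ _ _) 2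
  · rw [iftP_ne x hi, iftP_ne y hi]

theorem ift_contA {D : Set (E n)} (hD : RelOpen D) {X : E n → E n} (hX : ContDiffOn ℝ ∞ X D)
    {z : E n} (hz : z ∈ D) :
    ContinuousWithinAt (fun x => fderivWithin ℝ X (Hs n) x) (Hs n) z :=
  ((hD.fderiv_smooth hX).continuousOn z hz).mono_of_mem_nhdsWithin (hD.mem_nhds hz)

/-- the extension of `X` beyond the half space has a strict derivative -/
theorem ift_strict {D : Set (E n)} (hD : RelOpen D) {X : E n → E n} (hX : ContDiffOn ℝ ∞ X D)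
    {z : E n} (hz : z ∈ D) :
    HasStrictFDerivAt (fun x => X (iftP x) + fderivWithin ℝ X (Hs n) z (x - iftP x))
      (fderivWithin ℝ X (Hs n) z) z := by
  rw [hasStrictFDerivAt_iff_isLittleO, Asymptotics.isLittleO_iff]
  intro c hc
  have hzH : z ∈ Hs n := hD.subset hz
  have hA := ift_contA hD hX hz
  have h1 : D ∩ {x | ‖fderivWithin ℝ X (Hs n) x - fderivWithin ℝ X (Hs n) z‖ ≤ c} ∈
      𝓝[Hs n] z := by
    refine inter_mem (hD.mem_nhds hz) ?_
    have h2 := hA (Metric.closedBall_mem_nhds _ hc)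
    filter_upwards [h2] with x hx
    have h3 : dist (fderivWithin ℝ X (Hs n) x) (fderivWithin ℝ X (Hs n) z) ≤ c := hx
    rwa [dist_eq_norm] at h3
  obtain ⟨ρ, hρ, hsub⟩ := Metric.mem_nhdsWithin_iff.1 h1
  have hconv : Convex ℝ (Metric.ball z ρ ∩ Hs n) := (convex_ball z ρ).inter convex_Hs
  have hmem : ∀ a ∈ Metric.ball z ρ, iftP a ∈ Metric.ball z ρ ∩ Hs n := by
    intro a ha
    refine ⟨?_, iftP_mem a⟩
    rw [Metric.mem_ball, dist_eq_norm] at ha ⊢
    have h2 := iftP_lip a z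
    rw [iftP_of_mem hzH] at h2
    exact h2.trans_lt ha
  have hnh : Metric.ball z ρ ×ˢ Metric.ball z ρ ∈ 𝓝 (z, z) :=
    prod_mem_nhds (Metric.ball_mem_nhds z hρ) (Metric.ball_mem_nhds z hρ)
  filter_upwards [hnh] with p hp
  have h3 := hconv.norm_image_sub_le_of_norm_hasFDerivWithin_le'
    (f := X) (f' := fun x => fderivWithin ℝ X (Hs n) x) (φ := fderivWithin ℝ X (Hs n) z) (C := c)
    (fun x hx => (hD.hasD (hsub hx).1 hX (by simp)).mono inter_subset_right)
    (fun x hx => (hsub hx).2) (hmem p.2 hp.2) (hmem p.1 hp.1)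
  have h4 : X (iftP p.1) + fderivWithin ℝ X (Hs n) z (p.1 - iftP p.1) -
      (X (iftP p.2) + fderivWithin ℝ X (Hs n) z (p.2 - iftP p.2)) -
      fderivWithin ℝ X (Hs n) z (p.1 - p.2) =
      X (iftP p.1) - X (iftP p.2) - fderivWithin ℝ X (Hs n) z (iftP p.1 - iftP p.2) := by
    simp only [map_sub]
    abel
  rw [h4]
  exact h3.trans (mul_le_mul_of_nonneg_left (iftP_lip _ _) hc.le)

/-- near a boundary point the extension preserves the sign of the `0`-th coordinate -/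
theorem ift_sign {X F : E n → E n} {z : E n} {A : E n →L[ℝ] E n} (hF : HasStrictFDerivAt F A z)
    (hFX : ∀ x ∈ Hs n, F x = X x) (hz0 : z 0 = 0) (hA : 0 < (A (ev 0)) 0) {r : ℝ} (hr : 0 < r)
    (hX0 : ∀ x ∈ HB z r, x 0 = 0 → X x 0 = 0) :
    ∀ᶠ x in 𝓝 z, (0 ≤ F x 0 ↔ 0 ≤ x 0) := by
  set m := (A (ev 0)) 0 with hm
  have h1 := hF.isLittleO.def (c := m / 2) (by (clear * - hA; positivity))
  have hcont : Continuous fun x : E n => x - x 0 • ev 0 :=
    continuous_id.sub ((continuous_coord 0).smul continuous_const)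
  have hzz : z - z 0 • ev 0 = z := by rw [hz0, zero_smul, sub_zero]
  have h2 : Tendsto (fun x : E n => (x, x - x 0 • ev 0)) (𝓝 z) (𝓝 (z, z)) := by
    have h3 : ContinuousAt (fun x : E n => (x, x - x 0 • ev 0)) z :=
      (continuous_id.prodMk hcont).continuousAt
    have h4 := h3.tendsto
    rwa [hzz] at h4
  have h5 : ∀ᶠ x : E n in 𝓝 z, x - x 0 • ev 0 ∈ Metric.ball z r := by
    have h6 := hcont.continuousAt (x := z)
    have h7 : ∀ᶠ y in 𝓝 (z - z 0 • ev 0), y ∈ Metric.ball z r := by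
      rw [hzz]
      exact Metric.ball_mem_nhds z hr
    exact h6.eventually h7
  filter_upwards [h2.eventually h1, h5] with x hx hxr
  have h0 : (x - x 0 • ev 0 : E n) 0 = 0 := by simp
  have hmemH : (x - x 0 • ev 0 : E n) ∈ Hs n := le_of_eq h0.symm
  have h7 : F (x - x 0 • ev 0) 0 = 0 := by
    rw [hFX _ hmemH]
    exact hX0 _ ⟨hxr, hmemH⟩ h0
  have h8 : x - (x - x 0 • ev 0) = x 0 • (ev 0 : E n) := by abel
  rw [h8, norm_smul, map_smul] at hx
  have hev : ‖(ev 0 : E n)‖ = 1 := by simp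
  rw [hev, mul_one] at hx
  have h9 : |F x 0 - x 0 * m| ≤ m / 2 * |x 0| := by
    have h10 := (PiLp.norm_apply_le (F x - F (x - x 0 • ev 0) - x 0 • A (ev 0)) 0).trans hx
    simp only [PiLp.sub_apply, PiLp.smul_apply, smul_eq_mul, h7, sub_zero, Real.norm_eq_abs] at h10
    exact h10
  rw [abs_le] at h9
  constructor
  · intro h10
    by_contra hneg
    push Not at hneg
    rw [abs_of_neg hneg] at h9
    (clear X z hF hFX hz0 r hr hX0 hm h1 hcont hzz h2 h5 hx hxr h0 hmemH h7 h8 hev; nlinarith [h9.2])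
  · intro h10
    rw [abs_of_nonneg h10] at h9
    (clear X z hF hFX hz0 r hr hX0 hA hm h1 hcont hzz h2 h5 hx hxr h0 hmemH h7 h8 hev h10; nlinarith [h9.1])

theorem ift_equiv {D : Set (E n)} (hD : RelOpen D) {X : E n → E n} (hX : ContDiffOn ℝ ∞ X D)
    {z : E n} (hz : z ∈ D) (hdet : (Jac X z).det ≠ 0) :
    ∃ e : E n ≃L[ℝ] E n, (e : E n →L[ℝ] E n) = fderivWithin ℝ X (Hs n) z := by
  have hpd : ∀ i j, pd j (fun y => X y i) z = (pd j X z) i := fun i j =>
    hD.pd_clm (EuclideanSpace.proj (𝕜 := ℝ) i) hX hz j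
  have hinj : Function.Injective (fderivWithin ℝ X (Hs n) z) := by
    refine (injective_iff_map_eq_zero _).2 fun v hv => ?_
    have h1 : (Jac X z).mulVec (fun j => v j) = 0 := by
      funext i
      rw [Matrix.mulVec, dotProduct]
      have h2 : (fderivWithin ℝ X (Hs n) z v) i = 0 := by rw [hv]; rfl
      rw [fderivWithin_eq_sum] at h2
      have h3 : (∑ j, v j • pd j X z) i = ∑ j, v j * (pd j X z) i := by
        simp only [WithLp.ofLp_sum, WithLp.ofLp_smul, Finset.sum_apply, Pi.smul_apply, smul_eq_mul]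
      rw [h3] at h2
      rw [Pi.zero_apply, ← h2]
      refine Finset.sum_congr rfl fun j _ => ?_
      rw [Jac, Matrix.of_apply, hpd, mul_comm]
    have h4 := Matrix.eq_zero_of_mulVec_eq_zero hdet h1
    ext j
    exact congrFun h4 j
  refine ⟨(LinearEquiv.ofInjectiveEndo (fderivWithin ℝ X (Hs n) z : E n →ₗ[ℝ] E n)
    hinj).toContinuousLinearEquiv, ?_⟩
  ext v
  rfl

/-- inverse function theorem on the closed half space -/
theorem half_ift {D : Set (E n)} (hD : RelOpen D) {X : E n → E n} (hX : ContDiffOn ℝ ∞ X D)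
    {z : E n} (hz : z ∈ D) (hdet : (Jac X z).det ≠ 0)
    (hcase : (0 < z 0 ∧ 0 < X z 0) ∨ (z 0 = 0 ∧ 0 < pd 0 (fun x => X x 0) z ∧
      ∃ r > 0, ∀ x ∈ HB z r, x 0 = 0 → X x 0 = 0)) :
    ∃ (Y : E n → E n) (r₀ : ℝ), 0 < r₀ ∧ ∀ r, 0 < r → r ≤ r₀ →
      ∃ D₁ ⊆ D, RelOpen D₁ ∧ z ∈ D₁ ∧ IsDiffeo D₁ (HB (X z) r) X Y := by
  obtain ⟨e, he⟩ := ift_equiv hD hX hz hdet
  set F : E n → E n := fun x => X (iftP x) + fderivWithin ℝ X (Hs n) z (x - iftP x) with hFdef
  have hF : HasStrictFDerivAt F (e : E n →L[ℝ] E n) z := by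
    rw [he]
    exact ift_strict hD hX hz
  have hFX : ∀ x ∈ Hs n, F x = X x := by
    intro x hx
    simp only [hFdef]
    rw [iftP_of_mem hx, sub_self, map_zero, add_zero]
  have hzH : z ∈ Hs n := hD.subset hz
  have hFz : F z = X z := hFX z hzH
  obtain ⟨O, hO, hDO⟩ := id hD
  -- signs
  have hsign : ∀ᶠ x in 𝓝 z, (0 ≤ F x 0 ↔ 0 ≤ x 0) := by
    rcases hcase with ⟨h1, h2⟩ | ⟨h1, h2, r, hr, h3⟩
    · have h4 : ∀ᶠ x : E n in 𝓝 z, 0 < x 0 :=
        (continuous_coord 0).continuousAt.eventually (lt_mem_nhds h1)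
      have h5 : ContinuousAt (fun x => F x 0) z :=
        (continuous_coord 0).continuousAt.comp hF.continuousAt
      have h6 : ∀ᶠ x : E n in 𝓝 z, 0 < F x 0 := by
        refine h5.eventually (lt_mem_nhds ?_)
        show 0 < F z 0
        rw [hFz]
        exact h2
      filter_upwards [h4, h6] with x hx hx'
      exact ⟨fun _ => hx.le, fun _ => hx'.le⟩
    · refine ift_sign hF hFX h1 ?_ hr h3
      have h4 : pd 0 (fun y => X y 0) z = (pd 0 X z) 0 :=
        hD.pd_clm (EuclideanSpace.proj (𝕜 := ℝ) 0) hX hz 0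
      rw [h4] at h2
      rw [he]
      exact h2
  -- invertible derivatives
  have hinvt : ∀ᶠ x in 𝓝 z, x ∈ Hs n → (fderivWithin ℝ X (Hs n) x).IsInvertible := by
    rw [← eventually_nhdsWithin_iff]
    have h1 := ift_contA hD hX hz
    have h2 : range ((↑) : (E n ≃L[ℝ] E n) → E n →L[ℝ] E n) ∈
        𝓝 (fderivWithin ℝ X (Hs n) z) := by
      rw [← he]
      exact ContinuousLinearEquiv.nhds e
    filter_upwards [h1 h2] with x hx
    exact hx
  set P := hF.toOpenPartialHomeomorph F with hP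
  have hPF : ∀ x, P x = F x := fun _ => rfl
  have hzP : z ∈ P.source := hF.mem_toOpenPartialHomeomorph_source
  have hzO : z ∈ O := by
    rw [hDO] at hz
    exact hz.1
  have hall : ∀ᶠ x in 𝓝 z, ((0 ≤ F x 0 ↔ 0 ≤ x 0) ∧
      (x ∈ Hs n → (fderivWithin ℝ X (Hs n) x).IsInvertible)) ∧ (x ∈ P.source ∧ x ∈ O) :=
    (hsign.and hinvt).and (Filter.Eventually.and (P.open_source.mem_nhds hzP) (hO.mem_nhds hzO))
  obtain ⟨ρ, hρ, hball⟩ := Metric.eventually_nhds_iff_ball.1 hall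
  have hVsub : Metric.ball z ρ ⊆ P.source := fun x hx => (hball x hx).2.1
  have hopen : IsOpen (P '' Metric.ball z ρ) :=
    P.isOpen_image_of_subset_source Metric.isOpen_ball hVsub
  have hmem : X z ∈ P '' Metric.ball z ρ :=
    ⟨z, Metric.mem_ball_self hρ, by rw [hPF, hFz]⟩
  obtain ⟨r₀, hr₀, hr₀sub⟩ := Metric.isOpen_iff.1 hopen _ hmem
  refine ⟨P.symm, r₀, hr₀, fun r hr hrr₀ => ?_⟩
  have hsubr : Metric.ball (X z) r ⊆ P '' Metric.ball z ρ :=
    (Metric.ball_subset_ball hrr₀).trans hr₀sub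
  have hOpen1 : IsOpen (Metric.ball z ρ ∩ F ⁻¹' Metric.ball (X z) r) :=
    (P.continuousOn.mono hVsub).isOpen_inter_preimage Metric.isOpen_ball Metric.isOpen_ball
  have hDsub : (Metric.ball z ρ ∩ F ⁻¹' Metric.ball (X z) r) ∩ Hs n ⊆ D := by
    rintro x ⟨⟨hx1, -⟩, hx3⟩
    rw [hDO]
    exact ⟨(hball x hx1).2.2, hx3⟩
  have hmapsY : MapsTo P.symm (HB (X z) r)
      ((Metric.ball z ρ ∩ F ⁻¹' Metric.ball (X z) r) ∩ Hs n) := by
    rintro y ⟨hy1, hy2⟩
    obtain ⟨x, hx, rfl⟩ := hsubr hy1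
    rw [P.left_inv (hVsub hx)]
    refine ⟨⟨hx, hy1⟩, ?_⟩
    exact (hball x hx).1.1.1 hy2
  have hinv2 : ∀ y ∈ HB (X z) r, X (P.symm y) = y := by
    intro y hy
    rw [← hFX _ (hmapsY hy).2]
    obtain ⟨x, hx, rfl⟩ := hsubr hy.1
    rw [P.left_inv (hVsub hx)]
    rfl
  refine ⟨(Metric.ball z ρ ∩ F ⁻¹' Metric.ball (X z) r) ∩ Hs n, hDsub,
    ⟨_, hOpen1, rfl⟩, ⟨⟨Metric.mem_ball_self hρ, ?_⟩, hzH⟩, ?_⟩
  · rw [mem_preimage, hFz]
    exact Metric.mem_ball_self hr
  · have hSopen : RelOpen (HB (X z) r) := ⟨_, Metric.isOpen_ball, rfl⟩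
    have hkey : ∀ y ∈ HB (X z) r, HasFDerivWithinAt P.symm
        ((fderivWithin ℝ X (Hs n) (P.symm y)).inverse) (HB (X z) r) y := by
      intro y hy
      have hm := hmapsY hy
      obtain ⟨e', he'⟩ := (hball _ hm.1.1).1.2 hm.2
      have hf : HasFDerivWithinAt X (e' : E n →L[ℝ] E n) (Hs n) (P.symm y) := by
        rw [he']
        exact hD.hasD (hDsub hm) hX (by simp)
      have hyt : y ∈ P.target := by
        obtain ⟨x, hx, rfl⟩ := hsubr hy.1
        exact P.map_source (hVsub hx)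
      have hg : Tendsto P.symm (𝓝[HB (X z) r] y) (𝓝[Hs n] (P.symm y)) := by
        rw [tendsto_nhdsWithin_iff]
        refine ⟨(P.continuousAt_symm hyt).tendsto.mono_left nhdsWithin_le_nhds, ?_⟩
        filter_upwards [self_mem_nhdsWithin] with x hx
        exact (hmapsY hx).2
      have h1 := hf.of_local_left_inverse hg hy (by
        filter_upwards [self_mem_nhdsWithin] with x hx
        exact hinv2 x hx)
      rw [← he', ContinuousLinearMap.inverse_equiv]
      exact h1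
    have hsm : ∀ m : ℕ, ContDiffOn ℝ m P.symm (HB (X z) r) := by
      intro m
      induction m with
      | zero =>
        rw [Nat.cast_zero, contDiffOn_zero]
        exact fun y hy => (hkey y hy).continuousWithinAt
      | succ m ih =>
        rw [Nat.cast_succ, contDiffOn_succ_iff_hasFDerivWithinAt_of_uniqueDiffOn
          hSopen.uniqueDiffOn]
        refine ⟨fun h => absurd h (by simp), _, ?_, hkey⟩
        intro y hy
        have hm := hmapsY hy
        have h1 := (hball _ hm.1.1).1.2 hm.2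
        have h2 : ContDiffOn ℝ m (fun x => fderivWithin ℝ X (Hs n) x) D :=
          (hD.fderiv_smooth hX).of_le (by exact_mod_cast le_top)
        have h3 : ContDiffOn ℝ m (fun y => fderivWithin ℝ X (Hs n) (P.symm y)) (HB (X z) r) :=
          h2.comp ih (fun x hx => hDsub (hmapsY hx))
        exact h1.contDiffAt_map_inverse.comp_contDiffWithinAt y (h3 y hy)
    exact
      { mapsX := by
          rintro x ⟨⟨hx1, hx2⟩, hx3⟩
          rw [mem_preimage, hFX x hx3] at hx2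
          refine ⟨hx2, ?_⟩
          have h1 := (hball x hx1).1.1.2 hx3
          rw [hFX x hx3] at h1
          exact h1
        mapsY := hmapsY
        inv1 := by
          rintro x ⟨⟨hx1, -⟩, hx3⟩
          rw [← hFX x hx3]
          exact P.left_inv (hVsub hx1)
        inv2 := hinv2
        smX := hX.mono hDsub
        smY := contDiffOn_infty.2 hsm }

end Vale.Agent.P088.EYM
end
end

section

/-!
# P088-EYM, B-T11: the calculus of similar pairs of functions

`Sim l w f₁ f₂`: both functions are bounded along `l` and their difference is `O(w)`;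
`Sim1 D z w f₁ f₂`: the same for the functions and their first derivatives near `z`.
-/

open MeasureTheory Set Filter Topology
open scoped ContDiff

noncomputable section

namespace Vale.Agent.P088.EYM

set_option linter.unusedSectionVars false

variable {n N : ℕ} [NeZero n]

section SimAux

variable {V₁ V₂ V₃ : Type*} [NormedAddCommGroup V₁] [NormedAddCommGroup V₂]
  [NormedAddCommGroup V₃] {l : Filter (E n)}

/-- the norm bound for bilinear expressions -/
theorem sim_bigO_bil {B : V₁ → V₂ → V₃} (hn : ∀ a b, ‖B a b‖ ≤ ‖a‖ * ‖b‖) {u : E n → V₁}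
    {v : E n → V₂} {p q : E n → ℝ} (hu : u =O[l] p) (hv : v =O[l] q) :
    (fun x => B (u x) (v x)) =O[l] (fun x => p x * q x) := by
  have h1 : (fun x => B (u x) (v x)) =O[l] (fun x => ‖u x‖ * ‖v x‖) :=
    Asymptotics.isBigO_of_le l fun x => by
      rw [Real.norm_of_nonneg (mul_nonneg (norm_nonneg _) (norm_nonneg _))]
      exact hn _ _
  exact h1.trans (hu.norm_left.mul hv.norm_left)

/-- similarity is preserved by bounded bilinear maps -/
theorem sim_bil {w : E n → ℝ} (B : V₁ → V₂ → V₃) (hn : ∀ a b, ‖B a b‖ ≤ ‖a‖ * ‖b‖)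
    (hl : ∀ a a' b, B (a - a') b = B a b - B a' b) (hr : ∀ a b b', B a (b - b') = B a b - B a b')
    {a₁ a₂ : E n → V₁} {b₁ b₂ : E n → V₂} (ha : Sim l w a₁ a₂) (hb : Sim l w b₁ b₂) :
    Sim l w (fun x => B (a₁ x) (b₁ x)) (fun x => B (a₂ x) (b₂ x)) := by
  refine ⟨?_, ?_, ?_⟩
  · simpa only [Asymptotics.isBigO_one_iff, mul_one] using sim_bigO_bil hn ha.b₁ hb.b₁
  · simpa only [Asymptotics.isBigO_one_iff, mul_one] using sim_bigO_bil hn ha.b₂ hb.b₂
  · have h1 : (fun x => B (a₁ x) (b₁ x - b₂ x)) =O[l] w := by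
      simpa using sim_bigO_bil hn ha.b₁ hb.d
    have h2 : (fun x => B (a₁ x - a₂ x) (b₂ x)) =O[l] w := by
      simpa using sim_bigO_bil hn ha.d hb.b₂
    refine (h1.add h2).congr_left fun x => ?_
    rw [hl, hr]
    abel

end SimAux

section Sim

variable {V V' : Type*} [NormedAddCommGroup V] [NormedSpace ℝ V] [NormedAddCommGroup V']
  [NormedSpace ℝ V'] {l : Filter (E n)} {w : E n → ℝ} {f₁ f₂ h₁ h₂ : E n → V}
  {𝔸 : Type*} [NormedRing 𝔸] [NormedSpace ℝ 𝔸] [IsScalarTower ℝ 𝔸 𝔸] [SMulCommClass ℝ 𝔸 𝔸]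
  {D : Set (E n)} {z : E n}

theorem Sim.add (hf : Sim l w f₁ f₂) (hh : Sim l w h₁ h₂) :
    Sim l w (fun x => f₁ x + h₁ x) (fun x => f₂ x + h₂ x) :=
  ⟨hf.b₁.add hh.b₁, hf.b₂.add hh.b₂, (hf.d.add hh.d).congr_left fun x => by abel⟩

theorem Sim.sub (hf : Sim l w f₁ f₂) (hh : Sim l w h₁ h₂) :
    Sim l w (fun x => f₁ x - h₁ x) (fun x => f₂ x - h₂ x) :=
  ⟨hf.b₁.sub hh.b₁, hf.b₂.sub hh.b₂, (hf.d.sub hh.d).congr_left fun x => by abel⟩

theorem Sim.neg (hf : Sim l w f₁ f₂) : Sim l w (fun x => - f₁ x) (fun x => - f₂ x) :=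
  ⟨hf.b₁.neg_left, hf.b₂.neg_left, hf.d.neg_left.congr_left fun x => by abel⟩

theorem Sim.const (c : V) : Sim l w (fun _ => c) (fun _ => c) :=
  ⟨Asymptotics.isBigO_const_const c one_ne_zero l, Asymptotics.isBigO_const_const c one_ne_zero l, by
    simpa using Asymptotics.isBigO_zero w l⟩

theorem Sim.sum {ι : Type*} (s : Finset ι) {F₁ F₂ : ι → E n → V} (h : ∀ i ∈ s, Sim l w (F₁ i) (F₂ i)) :
    Sim l w (fun x => ∑ i ∈ s, F₁ i x) (fun x => ∑ i ∈ s, F₂ i x) :=
  ⟨Asymptotics.IsBigO.fun_sum fun i hi => (h i hi).b₁,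
    Asymptotics.IsBigO.fun_sum fun i hi => (h i hi).b₂,
    (Asymptotics.IsBigO.fun_sum fun i hi => (h i hi).d).congr_left fun x => by
      rw [Finset.sum_sub_distrib]⟩

theorem Sim.clm (T : V →L[ℝ] V') (hf : Sim l w f₁ f₂) :
    Sim l w (fun x => T (f₁ x)) (fun x => T (f₂ x)) :=
  ⟨(T.isBigO_comp f₁ l).trans hf.b₁, (T.isBigO_comp f₂ l).trans hf.b₂,
    ((T.isBigO_comp (fun x => f₁ x - f₂ x) l).trans hf.d).congr_left fun x => by
      rw [map_sub]⟩

theorem Sim.smul {a₁ a₂ : E n → ℝ} (ha : Sim l w a₁ a₂) (hf : Sim l w f₁ f₂) :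
    Sim l w (fun x => a₁ x • f₁ x) (fun x => a₂ x • f₂ x) :=
  sim_bil (fun (a : ℝ) (b : V) => a • b) (fun a b => norm_smul_le a b) (fun a a' b => sub_smul a a' b)
    (fun a b b' => smul_sub a b b') ha hf

theorem Sim.mul {a₁ a₂ b₁ b₂ : E n → 𝔸} (ha : Sim l w a₁ a₂) (hb : Sim l w b₁ b₂) :
    Sim l w (fun x => a₁ x * b₁ x) (fun x => a₂ x * b₂ x) :=
  sim_bil (fun (a b : 𝔸) => a * b) (fun a b => norm_mul_le a b) (fun a a' b => sub_mul a a' b)
    (fun a b b' => mul_sub a b b') ha hb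

theorem Sim.eval {a₁ a₂ : E n → EndF N} {c₁ c₂ : E n → Fib N} (ha : Sim l w a₁ a₂)
    (hc : Sim l w c₁ c₂) : Sim l w (fun x => a₁ x (c₁ x)) (fun x => a₂ x (c₂ x)) :=
  sim_bil (fun (a : EndF N) (b : Fib N) => a b) (fun a b => a.le_opNorm b)
    (fun _ _ _ => rfl) (fun a b b' => map_sub a b b') ha hc

theorem Sim.congr {f₁' f₂' : E n → V} (hf : Sim l w f₁ f₂) (h1 : f₁ =ᶠ[l] f₁') (h2 : f₂ =ᶠ[l] f₂') :
    Sim l w f₁' f₂' :=
  ⟨hf.b₁.congr' h1 EventuallyEq.rfl, hf.b₂.congr' h2 EventuallyEq.rfl,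
    hf.d.congr' (by
      filter_upwards [h1, h2] with x hx1 hx2
      rw [hx1, hx2]) EventuallyEq.rfl⟩

/-! ### first derivatives -/

theorem sim_pd (hD : RelOpen D) (hz : z ∈ D) {F₁ F₂ G₁ G₂ : E n → V}
    (h : Sim (𝓝[Hs n] z) w G₁ G₂) (h1 : EqOn G₁ F₁ D) (h2 : EqOn G₂ F₂ D) :
    Sim (𝓝[Hs n] z) w F₁ F₂ :=
  h.congr (h1.eventuallyEq_of_mem (hD.mem_nhds hz)) (h2.eventuallyEq_of_mem (hD.mem_nhds hz))

theorem Sim1.add (hD : RelOpen D) (hz : z ∈ D) (hf : Sim1 D z w f₁ f₂) (hh : Sim1 D z w h₁ h₂) :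
    Sim1 D z w (fun x => f₁ x + h₁ x) (fun x => f₂ x + h₂ x) :=
  ⟨hf.s₁.add hh.s₁, hf.s₂.add hh.s₂, hf.sim.add hh.sim, fun j =>
    sim_pd hD hz ((hf.dsim j).add (hh.dsim j)) (fun _ hx => (hD.pd_add hf.s₁ hh.s₁ hx j).symm)
      (fun _ hx => (hD.pd_add hf.s₂ hh.s₂ hx j).symm)⟩

theorem Sim1.sub (hD : RelOpen D) (hz : z ∈ D) (hf : Sim1 D z w f₁ f₂) (hh : Sim1 D z w h₁ h₂) :
    Sim1 D z w (fun x => f₁ x - h₁ x) (fun x => f₂ x - h₂ x) :=
  ⟨hf.s₁.sub hh.s₁, hf.s₂.sub hh.s₂, hf.sim.sub hh.sim, fun j =>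
    sim_pd hD hz ((hf.dsim j).sub (hh.dsim j)) (fun _ hx => (hD.pd_sub hf.s₁ hh.s₁ hx j).symm)
      (fun _ hx => (hD.pd_sub hf.s₂ hh.s₂ hx j).symm)⟩

theorem Sim1.const (c : V) : Sim1 D z w (fun _ => c) (fun _ => c) :=
  ⟨contDiffOn_const, contDiffOn_const, Sim.const c, fun j =>
    (Sim.const (0 : V)).congr (Eventually.of_forall fun x => (pd_const c x j).symm)
      (Eventually.of_forall fun x => (pd_const c x j).symm)⟩

theorem Sim1.sum (hD : RelOpen D) (hz : z ∈ D) {ι : Type*} (s : Finset ι) {F₁ F₂ : ι → E n → V}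
    (h : ∀ i ∈ s, Sim1 D z w (F₁ i) (F₂ i)) :
    Sim1 D z w (fun x => ∑ i ∈ s, F₁ i x) (fun x => ∑ i ∈ s, F₂ i x) :=
  ⟨ContDiffOn.sum fun i hi => (h i hi).s₁, ContDiffOn.sum fun i hi => (h i hi).s₂,
    Sim.sum s fun i hi => (h i hi).sim, fun j =>
    sim_pd hD hz (Sim.sum s fun i hi => (h i hi).dsim j)
      (fun _ hx => (hD.pd_sum s (fun i hi => (h i hi).s₁) hx j).symm)
      (fun _ hx => (hD.pd_sum s (fun i hi => (h i hi).s₂) hx j).symm)⟩

theorem Sim1.clm (hD : RelOpen D) (hz : z ∈ D) (T : V →L[ℝ] V') (hf : Sim1 D z w f₁ f₂) :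
    Sim1 D z w (fun x => T (f₁ x)) (fun x => T (f₂ x)) :=
  ⟨T.contDiff.comp_contDiffOn hf.s₁, T.contDiff.comp_contDiffOn hf.s₂, hf.sim.clm T, fun j =>
    sim_pd hD hz ((hf.dsim j).clm T) (fun _ hx => (hD.pd_clm T hf.s₁ hx j).symm)
      (fun _ hx => (hD.pd_clm T hf.s₂ hx j).symm)⟩

theorem Sim1.smul (hD : RelOpen D) (hz : z ∈ D) {a₁ a₂ : E n → ℝ} (ha : Sim1 D z w a₁ a₂)
    (hf : Sim1 D z w f₁ f₂) : Sim1 D z w (fun x => a₁ x • f₁ x) (fun x => a₂ x • f₂ x) :=
  ⟨ha.s₁.smul hf.s₁, ha.s₂.smul hf.s₂, ha.sim.smul hf.sim, fun j =>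
    sim_pd hD hz ((ha.sim.smul (hf.dsim j)).add ((ha.dsim j).smul hf.sim))
      (fun _ hx => (hD.pd_smul ha.s₁ hf.s₁ hx j).symm)
      (fun _ hx => (hD.pd_smul ha.s₂ hf.s₂ hx j).symm)⟩

theorem Sim1.mul (hD : RelOpen D) (hz : z ∈ D) {a₁ a₂ b₁ b₂ : E n → 𝔸} (ha : Sim1 D z w a₁ a₂)
    (hb : Sim1 D z w b₁ b₂) : Sim1 D z w (fun x => a₁ x * b₁ x) (fun x => a₂ x * b₂ x) :=
  ⟨smooth_mul ha.s₁ hb.s₁, smooth_mul ha.s₂ hb.s₂, ha.sim.mul hb.sim, fun j =>
    sim_pd hD hz ((ha.sim.mul (hb.dsim j)).add ((ha.dsim j).mul hb.sim))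
      (fun _ hx => (hD.pd_mul ha.s₁ hb.s₁ hx j).symm)
      (fun _ hx => (hD.pd_mul ha.s₂ hb.s₂ hx j).symm)⟩

theorem Sim1.eval (hD : RelOpen D) (hz : z ∈ D) {a₁ a₂ : E n → EndF N} {c₁ c₂ : E n → Fib N}
    (ha : Sim1 D z w a₁ a₂) (hc : Sim1 D z w c₁ c₂) :
    Sim1 D z w (fun x => a₁ x (c₁ x)) (fun x => a₂ x (c₂ x)) :=
  ⟨smooth_eval ha.s₁ hc.s₁, smooth_eval ha.s₂ hc.s₂, ha.sim.eval hc.sim, fun j =>
    sim_pd hD hz ((ha.sim.eval (hc.dsim j)).add ((ha.dsim j).eval hc.sim))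
      (fun _ hx => (hD.pd_eval ha.s₁ hc.s₁ (by simp) (by simp) hx j).symm)
      (fun _ hx => (hD.pd_eval ha.s₂ hc.s₂ (by simp) (by simp) hx j).symm)⟩

theorem Sim1.congr (hD : RelOpen D) (hz : z ∈ D) {f₁' f₂' : E n → V} (hf : Sim1 D z w f₁ f₂)
    (h1 : EqOn f₁ f₁' D) (h2 : EqOn f₂ f₂' D) : Sim1 D z w f₁' f₂' :=
  ⟨hf.s₁.congr fun _ hx => (h1 hx).symm, hf.s₂.congr fun _ hx => (h2 hx).symm,
    sim_pd hD hz hf.sim h1 h2, fun j =>
    sim_pd hD hz (hf.dsim j) (fun _ hx => hD.pd_congr h1 hx j) (fun _ hx => hD.pd_congr h2 hx j)⟩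

/-! ### constant multiples -/

theorem Sim1.prod (hD : RelOpen D) (hz : z ∈ D) {ι : Type*} (s : Finset ι) {F₁ F₂ : ι → E n → ℝ}
    (h : ∀ i ∈ s, Sim1 D z w (F₁ i) (F₂ i)) :
    Sim1 D z w (fun x => ∏ i ∈ s, F₁ i x) (fun x => ∏ i ∈ s, F₂ i x) := by
  classical
  induction s using Finset.induction_on with
  | empty => simpa only [Finset.prod_empty] using Sim1.const (D := D) (z := z) (w := w) (1 : ℝ)
  | insert a s ha ih =>
    simp only [Finset.prod_insert ha]
    exact (h a (Finset.mem_insert_self a s)).mul hD hz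
      (ih fun i hi => h i (Finset.mem_insert_of_mem hi))

/-! ### inverses -/

theorem sim_pd_inv (hD : RelOpen D) {a : E n → ℝ} (ha : ContDiffOn ℝ ∞ a D)
    (h0 : ∀ x ∈ D, a x ≠ 0) {x : E n} (hx : x ∈ D) (i : Fin n) :
    pd i (fun y => (a y)⁻¹) x = - (((a x)⁻¹ * (a x)⁻¹) * pd i a x) := by
  have h := (hasDerivAt_inv (h0 x hx)).comp_hasFDerivWithinAt x (hD.hasD hx ha (by simp))
  have h2 : HasFDerivWithinAt (fun y => (a y)⁻¹) _ (Hs n) x := h
  rw [pd_of_has (hD.subset hx) h2 i]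
  simp only [smul_apply, smul_eq_mul, pd]
  have := h0 x hx
  field_simp

theorem sim_bdd_inv (hD : RelOpen D) (hz : z ∈ D) {a : E n → ℝ} (ha : ContDiffOn ℝ ∞ a D)
    (h0 : ∀ x ∈ D, a x ≠ 0) : (fun x => (a x)⁻¹) =O[𝓝[Hs n] z] (fun _ => (1 : ℝ)) := by
  have h1 : ContinuousWithinAt (fun x => (a x)⁻¹) (Hs n) z :=
    ((ha.inv h0).continuousOn z hz).mono_of_mem_nhdsWithin (hD.mem_nhds hz)
  exact h1.tendsto.isBigO_one ℝ

theorem Sim1.inv (hD : RelOpen D) (hz : z ∈ D) {a₁ a₂ : E n → ℝ} (h : Sim1 D z w a₁ a₂)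
    (h₁ : ∀ x ∈ D, a₁ x ≠ 0) (h₂ : ∀ x ∈ D, a₂ x ≠ 0) :
    Sim1 D z w (fun x => (a₁ x)⁻¹) (fun x => (a₂ x)⁻¹) := by
  have hs : Sim (𝓝[Hs n] z) w (fun x => (a₁ x)⁻¹) (fun x => (a₂ x)⁻¹) := by
    refine ⟨sim_bdd_inv hD hz h.s₁ h₁, sim_bdd_inv hD hz h.s₂ h₂, ?_⟩
    have h3 : (fun x => ((a₁ x)⁻¹ * (a₂ x)⁻¹) * (a₁ x - a₂ x)) =O[𝓝[Hs n] z] w := by
      simpa only [mul_one, one_mul] using ((sim_bdd_inv hD hz h.s₁ h₁).mul (sim_bdd_inv hD hz h.s₂ h₂)).mul h.sim.d
    refine h3.neg_left.congr' ?_ EventuallyEq.rfl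
    filter_upwards [hD.mem_nhds hz] with x hx
    have e1 := h₁ x hx
    have e2 := h₂ x hx
    field_simp
    ring
  refine ⟨h.s₁.inv h₁, h.s₂.inv h₂, hs, fun j => ?_⟩
  exact sim_pd hD hz ((hs.mul hs).mul (h.dsim j)).neg
    (fun x hx => (sim_pd_inv hD h.s₁ h₁ hx j).symm) (fun x hx => (sim_pd_inv hD h.s₂ h₂ hx j).symm)

/-- the determinant -/
theorem Sim1.det (hD : RelOpen D) (hz : z ∈ D) {m : ℕ} {g₁ g₂ : E n → Matrix (Fin m) (Fin m) ℝ}
    (h : ∀ i j, Sim1 D z w (fun x => g₁ x i j) (fun x => g₂ x i j)) :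
    Sim1 D z w (fun x => (g₁ x).det) (fun x => (g₂ x).det) := by
  simp only [Matrix.det_apply']
  exact Sim1.sum hD hz _ fun σ _ => (Sim1.const _).mul hD hz (Sim1.prod hD hz _ fun i _ => h _ _)

/-- the entries of the inverse matrix -/
theorem Sim1.minv (hD : RelOpen D) (hz : z ∈ D) {g₁ g₂ : E n → Matrix (Fin n) (Fin n) ℝ}
    (hp₁ : ∀ x ∈ D, (g₁ x).PosDef) (hp₂ : ∀ x ∈ D, (g₂ x).PosDef)
    (h : ∀ i j, Sim1 D z w (fun x => g₁ x i j) (fun x => g₂ x i j)) (i j : Fin n) :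
    Sim1 D z w (fun x => (g₁ x)⁻¹ i j) (fun x => (g₂ x)⁻¹ i j) := by
  have hadj : Sim1 D z w (fun x => (g₁ x).adjugate i j) (fun x => (g₂ x).adjugate i j) := by
    simp only [Matrix.adjugate_apply]
    refine Sim1.det hD hz fun a b => ?_
    simp only [Matrix.updateRow_apply]
    by_cases hab : a = j
    · simpa only [hab, if_true] using Sim1.const (D := D) (z := z) (w := w)
        ((Pi.single i (1 : ℝ) : Fin n → ℝ) b)
    · simpa only [hab, if_false] using h a b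
  have hdet := (Sim1.det hD hz h).inv hD hz (fun x hx => (hp₁ x hx).det_pos.ne')
    (fun x hx => (hp₂ x hx).det_pos.ne')
  refine (hdet.mul hD hz hadj).congr hD hz (fun x _ => ?_) (fun x _ => ?_) <;>
  simp only [Matrix.inv_def, Ring.inverse_eq_inv', Matrix.smul_apply, smul_eq_mul]

end Sim

end Vale.Agent.P088.EYM
end
end

section

/-!
# P088-EYM: unique continuation for vector valued functions, statements (used by block B)
-/

open MeasureTheory Set Filter Topology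
open scoped ContDiff

noncomputable section

namespace Vale.Agent.P088.EYM

/-- unique continuation for smooth solutions of second order differential inequalities with real
scalar principal part, interior -/
def UcpV_statement : Prop :=
  ∀ (n : ℕ) [NeZero n] (V : Type) [NormedAddCommGroup V] [NormedSpace ℝ V]
    [FiniteDimensional ℝ V] (a : Fin n → Fin n → E n → ℝ) (O : Set (E n)), IsOpen O →
    O ⊆ {x | 0 < x 0} → IsPreconnected O → (∀ j k, ContDiffOn ℝ ∞ (a j k) O) →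
    (∀ x ∈ O, (Matrix.of fun j k => a j k x).PosDef) →
    ∀ w : E n → V, ContDiffOn ℝ ∞ w O →
    (∀ x ∈ O, ∃ C : ℝ, ∀ᶠ y in 𝓝[Hs n] x, ‖∑ j, ∑ k, a j k y • pd j (pd k w) y‖ ≤
      C * (‖w y‖ + ∑ j, ‖pd j w y‖)) →
    ∀ U : Set (E n), IsOpen U → U ⊆ O → U.Nonempty → (∀ x ∈ U, w x = 0) → ∀ x ∈ O, w x = 0

/-- the same on a half ball, from zero Cauchy data on the flat boundary -/
def UcpVBd_statement : Prop :=
  ∀ (n : ℕ) [NeZero n] (V : Type) [NormedAddCommGroup V] [NormedSpace ℝ V]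
    [FiniteDimensional ℝ V] (a : Fin n → Fin n → E n → ℝ) (z : E n) (r : ℝ), 0 < r → z 0 = 0 →
    (∀ j k, ContDiffOn ℝ ∞ (a j k) (HB z r)) →
    (∀ x ∈ HB z r, (Matrix.of fun j k => a j k x).PosDef) →
    ∀ w : E n → V, ContDiffOn ℝ ∞ w (HB z r) →
    (∀ x ∈ HB z r, ∃ C : ℝ, ∀ᶠ y in 𝓝[Hs n] x, ‖∑ j, ∑ k, a j k y • pd j (pd k w) y‖ ≤
      C * (‖w y‖ + ∑ j, ‖pd j w y‖)) →
    (∀ x ∈ HB z r, x 0 = 0 → w x = 0 ∧ ∀ j, pd j w x = 0) → ∀ x ∈ HB z r, w x = 0

end Vale.Agent.P088.EYM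
end
end

section

/-!
# P088-EYM, block D2: `|f| ≤ C x_0^k` and the leading coefficient of a function vanishing to
order `k` on the face
-/

open MeasureTheory Set Filter Topology
open scoped ContDiff

noncomputable section

namespace Vale.Agent.P088.EYM

variable {n : ℕ} [NeZero n]
variable {F : Type*} [NormedAddCommGroup F] [NormedSpace ℝ F]
variable {D : Set (E n)}

theorem dy_succ {k : ℕ} {f : E n → F} (h : Van D (k + 1) f) :
    (∀ x ∈ D, x 0 = 0 → f x = 0) ∧ Van D k (pd 0 f) := by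
  refine ⟨fun x hx hx0 => h 0 (Nat.succ_pos k) x hx hx0, fun i hi x hx hx0 => ?_⟩
  have := h (i + 1) (by omega) x hx hx0
  rwa [Function.iterate_succ_apply] at this

theorem dy_coord (x : E n) (s : ℝ) : (x + s • (ev 0 : E n)) 0 = x 0 + s := by
  simp

/-- the derivative along the vertical segment -/
theorem dy_vert (hD : RelOpen D) {f : E n → F} (hf : ContDiffOn ℝ ∞ f D) {x : E n}
    {s : ℝ} (hxs : x + s • (ev 0 : E n) ∈ D) :
    HasDerivWithinAt (fun τ : ℝ => f (x + τ • (ev 0 : E n))) (pd 0 f (x + s • (ev 0 : E n)))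
      {τ | 0 ≤ x 0 + τ} s := by
  have h1 : HasFDerivWithinAt f (fderivWithin ℝ f (Hs n) (x + s • (ev 0 : E n))) (Hs n)
      (x + s • (ev 0 : E n)) := hD.hasD hxs hf (by simp)
  have h2 : HasDerivWithinAt (fun τ : ℝ => x + τ • (ev 0 : E n)) (ev 0 : E n)
      {τ | 0 ≤ x 0 + τ} s := by
    have h3 : HasDerivAt (fun τ : ℝ => x + τ • (ev 0 : E n)) ((1 : ℝ) • (ev 0 : E n)) s :=
      ((hasDerivAt_id s).smul_const (ev 0 : E n)).const_add x
    rw [one_smul] at h3
    exact h3.hasDerivWithinAt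
  have hm : MapsTo (fun τ : ℝ => x + τ • (ev 0 : E n)) {τ | 0 ≤ x 0 + τ} (Hs n) := by
    intro τ hτ
    show 0 ≤ (x + τ • (ev 0 : E n)) 0
    rw [dy_coord]
    exact hτ
  exact h1.comp_hasDerivWithinAt s h2 hm

/-- the vertical segment below a point of a ball about a point of the face is in the ball -/
theorem dy_ball {q x : E n} (hq : q 0 = 0) {ε τ : ℝ} (hx : x ∈ Metric.closedBall q ε)
    (h0 : 0 ≤ τ) (h1 : τ ≤ x 0) :
    (x - x 0 • (ev 0 : E n)) + τ • (ev 0 : E n) ∈ Metric.closedBall q ε := by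
  rw [mem_closedBall_iff_norm] at hx ⊢
  refine le_trans ?_ hx
  rw [EuclideanSpace.norm_eq, EuclideanSpace.norm_eq]
  refine Real.sqrt_le_sqrt (Finset.sum_le_sum fun i _ => ?_)
  by_cases hi : i = 0
  · subst hi
    have e1 : ((x - x 0 • (ev 0 : E n)) + τ • (ev 0 : E n) - q) 0 = τ := by
      simp only [PiLp.sub_apply, PiLp.add_apply, PiLp.smul_apply, PiLp.single_eq_same, smul_eq_mul, mul_one, sub_self, zero_add, hq, sub_zero]
    have e2 : (x - q) 0 = x 0 := by simp only [PiLp.sub_apply, hq, sub_zero]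
    rw [e1, e2, Real.norm_eq_abs, Real.norm_eq_abs, sq_abs, sq_abs]
    exact pow_le_pow_left₀ h0 h1 2
  · have e1 : ((x - x 0 • (ev 0 : E n)) + τ • (ev 0 : E n) - q) i = (x - q) i := by
      simp only [PiLp.sub_apply, PiLp.add_apply, PiLp.smul_apply, ne_eq, hi, not_false_eq_true, PiLp.single_eq_of_ne, smul_eq_mul, mul_zero, sub_zero, add_zero]
    rw [e1]

theorem dy_face (hD : RelOpen D) {q : E n} (hq0 : q 0 = 0) {ε : ℝ}
    (hε : Metric.closedBall q ε ∩ Hs n ⊆ D) (k : ℕ) : ∀ f : E n → F, ContDiffOn ℝ ∞ f D →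
    Van D k f → ∃ C : ℝ, 0 ≤ C ∧ ∀ x ∈ Metric.closedBall q ε ∩ Hs n, ‖f x‖ ≤ C * (x 0) ^ k := by
  induction k with
  | zero =>
    intro f hf _
    have hc : IsCompact (Metric.closedBall q ε ∩ Hs n) :=
      (isCompact_closedBall q ε).inter_right isClosed_Hs
    obtain ⟨C, hC⟩ := hc.exists_bound_of_continuousOn (hf.continuousOn.mono hε)
    refine ⟨max C 0, le_max_right _ _, fun x hx => ?_⟩
    rw [pow_zero, mul_one]
    exact (hC x hx).trans (le_max_left _ _)
  | succ k ih =>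
    intro f hf hv
    obtain ⟨hv0, hv1⟩ := dy_succ hv
    obtain ⟨C, hC0, hC⟩ := ih (pd 0 f) (hD.pd_smooth hf 0) hv1
    refine ⟨C, hC0, fun x hx => ?_⟩
    have hx0 : 0 ≤ x 0 := hx.2
    set b : E n := x - x 0 • (ev 0 : E n) with hb
    have hb0 : b 0 = 0 := by simp [hb]
    have hin : ∀ τ ∈ Icc (0 : ℝ) (x 0),
        b + τ • (ev 0 : E n) ∈ Metric.closedBall q ε ∩ Hs n := by
      intro τ hτ
      refine ⟨dy_ball hq0 hx.1 hτ.1 hτ.2, ?_⟩
      show 0 ≤ (b + τ • (ev 0 : E n)) 0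
      rw [dy_coord, hb0, zero_add]
      exact hτ.1
    have hder : ∀ τ ∈ Icc (0 : ℝ) (x 0),
        HasDerivWithinAt (fun τ : ℝ => f (b + τ • (ev 0 : E n)))
          (pd 0 f (b + τ • (ev 0 : E n))) (Icc (0 : ℝ) (x 0)) τ := by
      intro τ hτ
      refine (dy_vert hD hf (hε (hin τ hτ))).mono ?_
      intro t ht
      show 0 ≤ b 0 + t
      rw [hb0, zero_add]
      exact ht.1
    have hbd : ∀ τ ∈ Icc (0 : ℝ) (x 0),
        ‖pd 0 f (b + τ • (ev 0 : E n))‖ ≤ C * (x 0) ^ k := by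
      intro τ hτ
      refine (hC _ (hin τ hτ)).trans ?_
      rw [dy_coord, hb0, zero_add]
      exact mul_le_mul_of_nonneg_left (pow_le_pow_left₀ hτ.1 hτ.2 k) hC0
    have hmv := Convex.norm_image_sub_le_of_norm_hasDerivWithin_le hder hbd (convex_Icc _ _)
      (left_mem_Icc.2 hx0) (right_mem_Icc.2 hx0)
    have e0 : b + (0 : ℝ) • (ev 0 : E n) = b := by simp
    have e1 : b + x 0 • (ev 0 : E n) = x := by rw [hb]; abel
    have hfb : f b = 0 := by
      refine hv0 b ?_ hb0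
      have := hε (hin 0 (left_mem_Icc.2 hx0))
      rwa [e0] at this
    simp only [e1, e0, hfb, sub_zero] at hmv
    rw [Real.norm_of_nonneg hx0] at hmv
    rw [pow_succ, ← mul_assoc]
    exact hmv

theorem dy_relOpen_ball (hD : RelOpen D) {q : E n} (hq : q ∈ D) :
    ∃ ε > 0, Metric.closedBall q ε ∩ Hs n ⊆ D := by
  obtain ⟨O, hO, rfl⟩ := hD
  obtain ⟨ε, hε, h⟩ := Metric.nhds_basis_closedBall.mem_iff.1 (hO.mem_nhds hq.1)
  exact ⟨ε, hε, fun x hx => ⟨h hx.1, hx.2⟩⟩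

theorem dy_van_bound (hD : RelOpen D) {k : ℕ} {f : E n → F} (hf : ContDiffOn ℝ ∞ f D)
    (h : Van D k f) {K : Set (E n)} (hK : IsCompact K) (hKD : K ⊆ D) :
    ∃ C : ℝ, 0 ≤ C ∧ ∀ x ∈ K, ‖f x‖ ≤ C * (x 0) ^ k := by
  have key : ∃ C : ℝ, 0 ≤ C ∧ ∀ x ∈ K, x ∈ Hs n → ‖f x‖ ≤ C * (x 0) ^ k := by
    refine hK.induction_on (p := fun s => ∃ C : ℝ, 0 ≤ C ∧ ∀ x ∈ s, x ∈ Hs n →
      ‖f x‖ ≤ C * (x 0) ^ k) ⟨0, le_rfl, fun x hx => absurd hx (Set.notMem_empty x)⟩ ?_ ?_ ?_
    · rintro s t hst ⟨C, hC, hb⟩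
      exact ⟨C, hC, fun x hx => hb x (hst hx)⟩
    · rintro s t ⟨C, hC, hb⟩ ⟨C', hC', hb'⟩
      refine ⟨max C C', hC.trans (le_max_left _ _), fun x hx hxH => ?_⟩
      have hp : 0 ≤ (x 0) ^ k := pow_nonneg hxH k
      rcases hx with hx | hx
      · exact (hb x hx hxH).trans (mul_le_mul_of_nonneg_right (le_max_left _ _) hp)
      · exact (hb' x hx hxH).trans (mul_le_mul_of_nonneg_right (le_max_right _ _) hp)
    · intro q hqK
      have hqD := hKD hqK
      obtain ⟨ε, hε, hsub⟩ := dy_relOpen_ball hD hqD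
      have hqH : 0 ≤ q 0 := hD.subset hqD
      rcases hqH.eq_or_lt with hq0 | hq0
      · obtain ⟨C, hC, hb⟩ := dy_face hD hq0.symm hsub k f hf h
        refine ⟨Metric.closedBall q ε, mem_nhdsWithin_of_mem_nhds
          (Metric.closedBall_mem_nhds q hε), C, hC, fun x hx hxH => hb x ⟨hx, hxH⟩⟩
      · have hc : IsCompact (Metric.closedBall q ε ∩ Hs n) :=
          (isCompact_closedBall q ε).inter_right isClosed_Hs
        obtain ⟨C, hC⟩ := hc.exists_bound_of_continuousOn (hf.continuousOn.mono hsub)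
        have hpos : 0 < (q 0 / 2) ^ k := by positivity
        refine ⟨Metric.closedBall q ε ∩ {x | q 0 / 2 < x 0}, ?_,
          max C 0 / (q 0 / 2) ^ k, by positivity, ?_⟩
        · refine mem_nhdsWithin_of_mem_nhds (inter_mem (Metric.closedBall_mem_nhds q hε) ?_)
          refine (isOpen_lt continuous_const (continuous_coord 0)).mem_nhds ?_
          show q 0 / 2 < q 0
          linarith
        · rintro x ⟨hx, hx2⟩ hxH
          have hx2' : q 0 / 2 < x 0 := hx2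
          have h1 : ‖f x‖ ≤ max C 0 := (hC x ⟨hx, hxH⟩).trans (le_max_left _ _)
          have h2 : (q 0 / 2) ^ k ≤ (x 0) ^ k := pow_le_pow_left₀ (by linarith) hx2'.le k
          have h3 : max C 0 = max C 0 / (q 0 / 2) ^ k * (q 0 / 2) ^ k := by
            field_simp
          refine h1.trans ?_
          conv_lhs => rw [h3]
          exact mul_le_mul_of_nonneg_left h2 (by positivity)
  obtain ⟨C, hC, hb⟩ := key
  exact ⟨C, hC, fun x hx => hb x hx (hD.subset (hKD hx))⟩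

theorem dy_van_lim (hD : RelOpen D) {k : ℕ} {f : E n → F} (hf : ContDiffOn ℝ ∞ f D)
    (h : Van D k f) {x : E n} (hx : x ∈ D) (hx0 : x 0 = 0) :
    Tendsto (fun s : ℝ => (s ^ k)⁻¹ • f (x + s • ev 0)) (𝓝[>] 0)
      (𝓝 ((k.factorial : ℝ)⁻¹ • (pd (0 : Fin n))^[k] f x)) := by
  obtain ⟨ε₀, hε₀, hsub⟩ := dy_relOpen_ball hD hx
  have hin : ∀ s : ℝ, 0 ≤ s → s ≤ ε₀ → x + s • (ev 0 : E n) ∈ D := by
    intro s hs hs'
    refine hsub ⟨?_, ?_⟩
    · rw [mem_closedBall_iff_norm, add_sub_cancel_left, norm_smul, Real.norm_of_nonneg hs]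
      simpa only [PiLp.norm_single, norm_one, mul_one] using hs'
    · show 0 ≤ (x + s • (ev 0 : E n)) 0
      rw [dy_coord, hx0, zero_add]
      exact hs
  induction k generalizing f with
  | zero =>
    have h1 : ContinuousWithinAt f D x := hf.continuousOn x hx
    have h2 : Tendsto (fun s : ℝ => x + s • (ev 0 : E n)) (𝓝[>] 0) (𝓝[D] x) := by
      rw [tendsto_nhdsWithin_iff]
      constructor
      · have h3 : ContinuousAt (fun s : ℝ => x + s • (ev 0 : E n)) 0 := by fun_prop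
        have h4 : Tendsto (fun s : ℝ => x + s • (ev 0 : E n)) (𝓝 0)
            (𝓝 (x + (0 : ℝ) • (ev 0 : E n))) := h3
        rw [zero_smul, add_zero] at h4
        exact h4.mono_left nhdsWithin_le_nhds
      · filter_upwards [Ioc_mem_nhdsGT hε₀] with s hs
        exact hin s hs.1.le hs.2
    have h3 := h1.tendsto.comp h2
    simpa only [pow_zero, inv_one, one_smul, Nat.factorial_zero, Nat.cast_one, Function.iterate_zero, id_eq,     Function.comp_def] using h3
  | succ k ih =>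
    obtain ⟨hv0, hv1⟩ := dy_succ h
    have hih := ih (hD.pd_smooth hf 0) hv1
    set A : F := (pd (0 : Fin n))^[k + 1] f x with hA
    have hA' : (pd (0 : Fin n))^[k] (pd 0 f) x = A := by
      rw [hA, Function.iterate_succ_apply]
    rw [hA'] at hih
    rw [Metric.tendsto_nhds] at hih ⊢
    intro ε hε
    have h1 := hih (ε / 2) (by (clear * - hε; positivity))
    obtain ⟨δ, hδ, hδ'⟩ := mem_nhdsGT_iff_exists_Ioc_subset.1 h1
    have hδ0 : (0 : ℝ) < δ := hδ
    -- the auxiliary function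
    have hmin : 0 < min δ ε₀ := lt_min hδ0 hε₀
    filter_upwards [Ioc_mem_nhdsGT hmin] with s hs
    have hs0 : 0 < s := hs.1
    have hsδ : s ≤ δ := hs.2.trans (min_le_left _ _)
    have hsε : s ≤ ε₀ := hs.2.trans (min_le_right _ _)
    have hder : ∀ τ ∈ Icc (0 : ℝ) s,
        HasDerivWithinAt (fun τ : ℝ => f (x + τ • (ev 0 : E n)) -
          (τ ^ (k + 1) / ((k + 1).factorial : ℝ)) • A)
          (pd 0 f (x + τ • (ev 0 : E n)) - (τ ^ k / (k.factorial : ℝ)) • A)
          (Icc (0 : ℝ) s) τ := by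
      intro τ hτ
      have h2 : HasDerivWithinAt (fun τ : ℝ => f (x + τ • (ev 0 : E n)))
          (pd 0 f (x + τ • (ev 0 : E n))) (Icc (0 : ℝ) s) τ := by
        refine (dy_vert hD hf (hin τ hτ.1 (hτ.2.trans hsε))).mono fun t ht => ?_
        show 0 ≤ x 0 + t
        rw [hx0, zero_add]
        exact ht.1
      have h3 : HasDerivAt (fun τ : ℝ => τ ^ (k + 1) / ((k + 1).factorial : ℝ))
          (τ ^ k / (k.factorial : ℝ)) τ := by
        have h4 := (hasDerivAt_pow (k + 1) τ).div_const ((k + 1).factorial : ℝ)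
        refine h4.congr_deriv ?_
        rw [Nat.factorial_succ]
        have h5 : (k.factorial : ℝ) ≠ 0 := by positivity
        push_cast
        have h6 : ((k : ℝ) + 1) ≠ 0 := by (clear * -; positivity)
        (clear * - h6 h5; field_simp)
      exact h2.sub (h3.hasDerivWithinAt.smul_const A)
    have hbd : ∀ τ ∈ Icc (0 : ℝ) s,
        ‖pd 0 f (x + τ • (ev 0 : E n)) - (τ ^ k / (k.factorial : ℝ)) • A‖ ≤
          ε / 2 * s ^ k := by
      intro τ hτ
      rcases hτ.1.eq_or_lt with h0 | h0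
      · subst h0
        have e0 : x + (0 : ℝ) • (ev 0 : E n) = x := by simp
        have e1 : pd 0 f x - ((0 : ℝ) ^ k / (k.factorial : ℝ)) • A = 0 := by
          rcases Nat.eq_zero_or_pos k with hk | hk
          · have e2 : pd 0 f x = A := by
              rw [hA, hk]
              rfl
            rw [e2, hk, pow_zero, Nat.factorial_zero, Nat.cast_one, div_one, one_smul, sub_self]
          · have e2 : pd 0 f x = 0 := hv1 0 hk x hx hx0
            rw [e2, zero_pow hk.ne', zero_div, zero_smul, sub_zero]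
        rw [e0, e1, norm_zero]
        (clear * - hε hs0; positivity)
      · have h2 : dist ((τ ^ k)⁻¹ • pd 0 f (x + τ • (ev 0 : E n)))
            ((k.factorial : ℝ)⁻¹ • A) < ε / 2 := hδ' ⟨h0, hτ.2.trans hsδ⟩
        rw [dist_eq_norm] at h2
        have e2 : pd 0 f (x + τ • (ev 0 : E n)) - (τ ^ k / (k.factorial : ℝ)) • A =
            τ ^ k • ((τ ^ k)⁻¹ • pd 0 f (x + τ • (ev 0 : E n)) - (k.factorial : ℝ)⁻¹ • A) := by
          rw [smul_sub, smul_smul, smul_smul, mul_inv_cancel₀ (by positivity), one_smul,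
            div_eq_mul_inv]
        rw [e2, norm_smul, Real.norm_of_nonneg (by (clear * - h0; positivity)), mul_comm]
        exact mul_le_mul h2.le (pow_le_pow_left₀ h0.le hτ.2 k) (by (clear * - h0; positivity)) (by positivity)
    have hmv := Convex.norm_image_sub_le_of_norm_hasDerivWithin_le hder hbd (convex_Icc _ _)
      (left_mem_Icc.2 hs0.le) (right_mem_Icc.2 hs0.le)
    simp only [zero_pow (Nat.succ_ne_zero k), zero_div, zero_smul, add_zero, hv0 x hx hx0,
      sub_zero] at hmv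
    rw [Real.norm_of_nonneg hs0.le] at hmv
    rw [dist_eq_norm]
    have e3 : (s ^ (k + 1))⁻¹ • f (x + s • (ev 0 : E n)) - (((k + 1).factorial : ℕ) : ℝ)⁻¹ • A =
        (s ^ (k + 1))⁻¹ • (f (x + s • (ev 0 : E n)) -
          (s ^ (k + 1) / ((k + 1).factorial : ℝ)) • A) := by
      rw [smul_sub, smul_smul, div_eq_mul_inv, ← mul_assoc, inv_mul_cancel₀ (by (clear * - hs0; positivity)),
        one_mul]
    rw [e3, norm_smul, norm_inv, Real.norm_of_nonneg (by positivity)]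
    have hp : 0 < s ^ (k + 1) := by positivity
    rw [inv_mul_lt_iff₀ hp]
    refine hmv.trans_lt ?_
    rw [pow_succ]
    have hp2 : 0 < s ^ k * s := by (clear * - hs0; positivity)
    nlinarith only [hε, hp2]

end Vale.Agent.P088.EYM
end
end

section

/-!
# P088-EYM, block D, module DPhaseA: `ρ`, `β` and the covector `zz`
-/

open MeasureTheory Set Filter Topology
open scoped ContDiff

noncomputable section

namespace Vale.Agent.P088.EYM

set_option linter.all false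

variable {n : ℕ} [NeZero n]

theorem dphaseA_expand {R : Type*} [CommRing R] (A : Fin n → Fin n → R) (a : Fin n → R) (c : R) :
    ∑ j, ∑ k, A j k * (a j - if j = 0 then c else 0) * (a k - if k = 0 then c else 0) =
      (∑ j, ∑ k, A j k * a j * a k) - c * (∑ k, A 0 k * a k) - c * (∑ j, A j 0 * a j) +
        c ^ 2 * A 0 0 := by
  have h1 : ∀ j k, A j k * (a j - if j = 0 then c else 0) * (a k - if k = 0 then c else 0) =
      A j k * a j * a k - (if k = 0 then c * (A j k * a j) else 0) -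
        (if j = 0 then c * (A j k * a k) else 0) +
        (if j = 0 then (if k = 0 then c ^ 2 * A j k else 0) else 0) := by
    intro j k
    split_ifs <;> ring
  simp only [h1, Finset.sum_add_distrib, Finset.sum_sub_distrib]
  have h2 : ∑ j, ∑ k, (if k = 0 then c * (A j k * a j) else 0) = c * ∑ j, A j 0 * a j := by
    rw [Finset.mul_sum]
    apply Finset.sum_congr rfl
    intro j _
    rw [Finset.sum_ite_eq' Finset.univ (0 : Fin n) (fun k => c * (A j k * a j))]
    simp only [Finset.mem_univ, ↓reduceIte]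
  have h3 : ∑ j, ∑ k, (if j = 0 then c * (A j k * a k) else 0) = c * ∑ k, A 0 k * a k := by
    rw [Finset.mul_sum, Finset.sum_comm]
    apply Finset.sum_congr rfl
    intro k _
    rw [Finset.sum_ite_eq' Finset.univ (0 : Fin n) (fun j => c * (A j k * a k))]
    simp only [Finset.mem_univ, ↓reduceIte]
  have h4 : ∑ j, ∑ k, (if j = 0 then (if k = 0 then c ^ 2 * A j k else 0) else 0) =
      c ^ 2 * A 0 0 := by
    rw [Finset.sum_eq_single (0 : Fin n)]
    · rw [Finset.sum_eq_single (0 : Fin n)]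
      · simp
      · intro k _ hk; simp [hk]
      · intro h; exact absurd (Finset.mem_univ _) h
    · intro j _ hj; simp [hj]
    · intro h; exact absurd (Finset.mem_univ _) h
  rw [h2, h3, h4]
  ring

theorem dphaseA_symm {A : Matrix (Fin n) (Fin n) ℝ} (hA : A.PosDef) (j k : Fin n) :
    A j k = A k j := by
  have := hA.1.apply k j
  simpa using this

theorem dphaseA_quad_pos {A : Matrix (Fin n) (Fin n) ℝ} (hA : A.PosDef) {v : Fin n → ℝ}
    (hv : v ≠ 0) : 0 < ∑ j, ∑ k, A j k * v j * v k := by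
  have h := hA.dotProduct_mulVec_pos hv
  have h2 : star v ⬝ᵥ (A.mulVec v) = ∑ j, ∑ k, A j k * v j * v k := by
    simp only [dotProduct, Pi.star_apply, star_trivial, Matrix.mulVec, Finset.mul_sum]
    apply Finset.sum_congr rfl
    intro j _
    apply Finset.sum_congr rfl
    intro k _
    ring
  rw [← h2]
  exact h

theorem dphaseA_A00_pos {A : Matrix (Fin n) (Fin n) ℝ} (hA : A.PosDef) : 0 < A 0 0 := by
  have h := dphaseA_quad_pos hA (v := Pi.single (0 : Fin n) (1 : ℝ)) (by simp)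
  have h2 : ∑ j, ∑ k, A j k * (Pi.single (0 : Fin n) (1 : ℝ) : Fin n → ℝ) j *
      (Pi.single (0 : Fin n) (1 : ℝ) : Fin n → ℝ) k = A 0 0 := by
    rw [Finset.sum_eq_single (0 : Fin n)]
    · rw [Finset.sum_eq_single (0 : Fin n)]
      · simp
      · intro k _ hk; simp only [Pi.single_eq_same, mul_one, Pi.single_eq_of_ne hk, mul_zero]
      · intro h; exact absurd (Finset.mem_univ _) h
    · intro j _ hj; simp only [Pi.single_eq_of_ne hj, mul_zero, zero_mul, Finset.sum_const_zero]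
    · intro h; exact absurd (Finset.mem_univ _) h
  rw [h2] at h
  exact h

theorem dphaseA_schur {A : Matrix (Fin n) (Fin n) ℝ} (hA : A.PosDef) (ξ : Fin n → ℝ) :
    (∑ j, ∑ k, A j k * ξ j * ξ k) - (∑ k, A 0 k * ξ k) ^ 2 / A 0 0 =
      ∑ j, ∑ k, A j k * (ξ j - if j = 0 then bet A ξ else 0) *
        (ξ k - if k = 0 then bet A ξ else 0) := by
  have h0 := (dphaseA_A00_pos hA).ne'
  rw [dphaseA_expand (fun j k => A j k) ξ (bet A ξ)]
  have h1 : ∑ j, A j 0 * ξ j = ∑ k, A 0 k * ξ k := by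
    apply Finset.sum_congr rfl
    intro j _
    rw [dphaseA_symm hA]
  simp only [h1]
  unfold bet
  field_simp
  ring

theorem dphaseA_schur_nonneg {A : Matrix (Fin n) (Fin n) ℝ} (hA : A.PosDef) (ξ : Fin n → ℝ) :
    0 ≤ (∑ j, ∑ k, A j k * ξ j * ξ k) - (∑ k, A 0 k * ξ k) ^ 2 / A 0 0 := by
  rw [dphaseA_schur hA]
  by_cases h : (fun j : Fin n => ξ j - if j = 0 then bet A ξ else 0) = 0
  · have h2 : ∀ j, (ξ j - if j = 0 then bet A ξ else 0) = 0 := fun j => congrFun h j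
    simp only [h2, mul_zero, Finset.sum_const_zero, Std.le_refl]
  · exact (dphaseA_quad_pos hA h).le

theorem dphaseA_schur_pos {A : Matrix (Fin n) (Fin n) ℝ} (hA : A.PosDef) {ξ : Fin n → ℝ}
    (hξ0 : ξ 0 = 0) (hξ : ξ ≠ 0) :
    0 < (∑ j, ∑ k, A j k * ξ j * ξ k) - (∑ k, A 0 k * ξ k) ^ 2 / A 0 0 := by
  rw [dphaseA_schur hA]
  apply dphaseA_quad_pos hA (v := fun j : Fin n => ξ j - if j = 0 then bet A ξ else 0)
  intro h
  apply hξ
  funext j
  by_cases hj : j = 0
  · rw [hj, hξ0]; rfl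
  · have := congrFun h j
    simpa only [Pi.zero_apply, hj, ↓reduceIte, sub_zero] using this

theorem dp_rho_pos {A : Matrix (Fin n) (Fin n) ℝ} (hA : A.PosDef) {ξ : Fin n → ℝ} (hξ0 : ξ 0 = 0)
    (hξ : ξ ≠ 0) : 0 < rho A ξ :=
  Real.sqrt_pos.2 (div_pos (dphaseA_schur_pos hA hξ0 hξ) (dphaseA_A00_pos hA))

theorem dp_rho_neg (A : Matrix (Fin n) (Fin n) ℝ) (ξ : Fin n → ℝ) : rho A (-ξ) = rho A ξ := by
  unfold rho
  congr 3
  · apply Finset.sum_congr rfl
    intro j _
    apply Finset.sum_congr rfl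
    intro k _
    simp only [Pi.neg_apply]
    ring
  · congr 1
    simp only [Pi.neg_apply, mul_neg, Finset.sum_neg_distrib]
    ring

theorem dphaseA_bet_neg (A : Matrix (Fin n) (Fin n) ℝ) (ξ : Fin n → ℝ) :
    bet A (-ξ) = - bet A ξ := by
  unfold bet
  simp only [Pi.neg_apply, mul_neg, Finset.sum_neg_distrib]
  ring

theorem dp_zz_neg (A : Matrix (Fin n) (Fin n) ℝ) (ξ : Fin n → ℝ) (j : Fin n) :
    zz A (-ξ) j = (starRingEnd ℂ) (zz A ξ j) := by
  unfold zz
  rw [dp_rho_neg, dphaseA_bet_neg]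
  split_ifs with h
  · simp only [Pi.neg_apply, map_sub, map_mul, map_add, Complex.conj_I, Complex.conj_ofReal,
      Complex.ofReal_neg]
    ring
  · simp only [Pi.neg_apply, Complex.ofReal_neg, map_sub, map_mul, Complex.conj_I, Complex.conj_ofReal, map_zero]
    ring

theorem dp_smooth_rho {D : Set (E n)} (hD : RelOpen D) {G : E n → Matrix (Fin n) (Fin n) ℝ}
    (hG : GOk D G) {ξ : Fin n → ℝ} (hξ0 : ξ 0 = 0) (hξ : ξ ≠ 0) :
    ContDiffOn ℝ ∞ (fun x => rho (G x) ξ) D := by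
  unfold rho
  have h0 : ∀ x ∈ D, G x 0 0 ≠ 0 := fun x hx => (dphaseA_A00_pos (hG.pos x hx)).ne'
  apply ContDiffOn.sqrt
  · apply ContDiffOn.div _ (hG.smG 0 0) h0
    apply ContDiffOn.sub
    · apply ContDiffOn.sum
      intro j _
      apply ContDiffOn.sum
      intro k _
      exact ((hG.smG j k).mul contDiffOn_const).mul contDiffOn_const
    · apply ContDiffOn.div _ (hG.smG 0 0) h0
      apply ContDiffOn.pow
      apply ContDiffOn.sum
      intro k _
      exact (hG.smG 0 k).mul contDiffOn_const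
  · intro x hx
    exact (div_pos (dphaseA_schur_pos (hG.pos x hx) hξ0 hξ)
      (dphaseA_A00_pos (hG.pos x hx))).ne'

theorem dphaseA_row (A : Matrix (Fin n) (Fin n) ℝ) (h0 : A 0 0 ≠ 0) (ξ : Fin n → ℝ) :
    ∑ k, (A 0 k : ℂ) * (ξ k : ℂ) = (A 0 0 : ℂ) * bet A ξ := by
  have h : (∑ k, A 0 k * ξ k) = A 0 0 * bet A ξ := by
    unfold bet; field_simp
  have h2 := congrArg (fun r : ℝ => (r : ℂ)) h
  push_cast at h2
  exact h2

theorem dp_zz_row {A : Matrix (Fin n) (Fin n) ℝ} (hA : A.PosDef) {ξ : Fin n → ℝ} (hξ0 : ξ 0 = 0) :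
    ∑ k, (A 0 k : ℂ) * zz A ξ k = -(A 0 0 * rho A ξ : ℝ) := by
  have h0 := (dphaseA_A00_pos hA).ne'
  unfold zz
  simp only [mul_sub, Finset.sum_sub_distrib]
  have h1 : ∑ k, (A 0 k : ℂ) * (Complex.I * (ξ k : ℂ)) = Complex.I * ((A 0 0 : ℂ) * bet A ξ) := by
    rw [← dphaseA_row A h0 ξ, Finset.mul_sum]
    apply Finset.sum_congr rfl
    intro k _
    ring
  have h2 : ∑ k, (A 0 k : ℂ) * (if k = 0 then ((rho A ξ : ℂ) + Complex.I * bet A ξ) else 0) =
      (A 0 0 : ℂ) * ((rho A ξ : ℂ) + Complex.I * bet A ξ) := by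
    rw [Finset.sum_eq_single (0 : Fin n)]
    · simp
    · intro k _ hk; simp [hk]
    · intro h; exact absurd (Finset.mem_univ _) h
  rw [h1, h2]
  push_cast
  ring

theorem dp_rho_sq {A : Matrix (Fin n) (Fin n) ℝ} (hA : A.PosDef) (ξ : Fin n → ℝ) :
    A 0 0 * rho A ξ ^ 2 =
      (∑ j, ∑ k, A j k * ξ j * ξ k) - (∑ k, A 0 k * ξ k) ^ 2 / A 0 0 := by
  have h0 := (dphaseA_A00_pos hA).ne'
  unfold rho
  rw [Real.sq_sqrt (div_nonneg (dphaseA_schur_nonneg hA ξ) (dphaseA_A00_pos hA).le)]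
  rw [mul_div_assoc', mul_div_cancel_left₀ _ h0]

theorem dp_zz_quad {A : Matrix (Fin n) (Fin n) ℝ} (hA : A.PosDef) (hs : ∀ j k, A j k = A k j)
    {ξ : Fin n → ℝ} (hξ0 : ξ 0 = 0) :
    ∑ j, ∑ k, (A j k : ℂ) * zz A ξ j * zz A ξ k = 0 := by
  have h0 := (dphaseA_A00_pos hA).ne'
  have hexp := dphaseA_expand (R := ℂ) (fun j k => (A j k : ℂ)) (fun j => Complex.I * (ξ j : ℂ))
    ((rho A ξ : ℂ) + Complex.I * bet A ξ)
  have hrow : ∑ k, (A 0 k : ℂ) * (Complex.I * (ξ k : ℂ)) =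
      Complex.I * ((A 0 0 : ℂ) * bet A ξ) := by
    rw [← dphaseA_row A h0 ξ, Finset.mul_sum]
    apply Finset.sum_congr rfl
    intro k _
    ring
  have hcol : ∑ k, (A k 0 : ℂ) * (Complex.I * (ξ k : ℂ)) =
      Complex.I * ((A 0 0 : ℂ) * bet A ξ) := by
    rw [← hrow]
    apply Finset.sum_congr rfl
    intro k _
    rw [hs k 0]
  have hq : ∑ j, ∑ k, (A j k : ℂ) * (Complex.I * (ξ j : ℂ)) * (Complex.I * (ξ k : ℂ)) =
      -((A 0 0 : ℂ) * (rho A ξ : ℂ) ^ 2 + (A 0 0 : ℂ) * (bet A ξ : ℂ) ^ 2) := by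
    have h1 : (∑ j, ∑ k, A j k * ξ j * ξ k) = A 0 0 * rho A ξ ^ 2 + A 0 0 * bet A ξ ^ 2 := by
      rw [dp_rho_sq hA ξ]
      unfold bet
      field_simp
      ring
    have h2 := congrArg (fun r : ℝ => (r : ℂ)) h1
    push_cast at h2
    rw [← h2, ← Finset.sum_neg_distrib]
    apply Finset.sum_congr rfl
    intro j _
    rw [← Finset.sum_neg_distrib]
    apply Finset.sum_congr rfl
    intro k _
    linear_combination ((A j k : ℂ) * ξ j * ξ k) * Complex.I_mul_I
  have hgoal : ∑ j, ∑ k, (A j k : ℂ) * zz A ξ j * zz A ξ k =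
      ∑ j, ∑ k, (A j k : ℂ) * (Complex.I * (ξ j : ℂ) -
        if j = 0 then ((rho A ξ : ℂ) + Complex.I * bet A ξ) else 0) *
        (Complex.I * (ξ k : ℂ) - if k = 0 then ((rho A ξ : ℂ) + Complex.I * bet A ξ) else 0) := rfl
  rw [hgoal, hexp]
  simp only [hrow, hcol, hq]
  linear_combination ((bet A ξ : ℂ) ^ 2 * (A 0 0 : ℂ) * (-1 : ℂ)) * Complex.I_mul_I

end Vale.Agent.P088.EYM
end
end

section

/-!
# P088-EYM, block D: localization on the face
-/

open MeasureTheory Set Filter Topology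
open scoped ContDiff

noncomputable section

namespace Vale.Agent.P088.EYM

variable {n : ℕ} [NeZero n] {N : ℕ}
variable {D : Set (E n)}

theorem dloc_sc_zero (x : E n) : (sc 0 x) 0 = 0 := by
  simp only [sc, zero_sub, neg_mul, one_mul, neg_smul, PiLp.add_apply, PiLp.neg_apply, PiLp.smul_apply, PiLp.single_eq_same, smul_eq_mul, mul_one, add_neg_cancel]

theorem dloc_sc_mem (x : E n) : sc 0 x ∈ Hs n := by
  show 0 ≤ (sc 0 x) 0
  rw [dloc_sc_zero]

theorem dloc_sc_cont : Continuous (sc (n := n) 0) := by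
  unfold sc
  have h := continuous_coord (n := n) 0
  fun_prop

theorem dloc_sc_of_face {p : E n} (hp0 : p 0 = 0) (s : ℝ) : sc 0 (p + s • ev 0) = p := by
  unfold sc
  have h : (p + s • (ev 0 : E n)) 0 = s := by
    simp [hp0]
  rw [h, zero_sub, neg_one_mul, neg_smul, add_neg_cancel_right]

/-- The compact part of the face. -/
def dloc_K (p : E n) (r : ℝ) : Set (E n) := Metric.closedBall p r ∩ {x | x 0 = 0}

/-- The cylinder over `dloc_K`. -/
def dloc_A (p : E n) (r : ℝ) : Set (E n) := Hs n ∩ (sc 0) ⁻¹' (Metric.closedBall p r)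

theorem dloc_K_compact (p : E n) (r : ℝ) : IsCompact (dloc_K p r) := by
  refine (isCompact_closedBall p r).inter_right ?_
  exact isClosed_eq (continuous_coord 0) continuous_const

theorem dloc_K_sub {p : E n} {r : ℝ} (hrD : Metric.closedBall p r ∩ Hs n ⊆ D) :
    dloc_K p r ⊆ D := fun _ hx => hrD ⟨hx.1, le_of_eq (Eq.symm hx.2)⟩

theorem dloc_A_closed (p : E n) (r : ℝ) : IsClosed (dloc_A p r) :=
  isClosed_Hs.inter (Metric.isClosed_closedBall.preimage dloc_sc_cont)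

theorem dloc_maps (p : E n) (r : ℝ) : MapsTo (sc 0) (dloc_A p r) (dloc_K p r) :=
  fun x hx => ⟨hx.2, dloc_sc_zero x⟩

theorem dloc_rho_cont (hD : RelOpen D) {G : E n → Matrix (Fin n) (Fin n) ℝ} (hG : GOk D G)
    {ξ : Fin n → ℝ} (hξ0 : ξ 0 = 0) (hξ : ξ ≠ 0) {p : E n} {r : ℝ}
    (hrD : Metric.closedBall p r ∩ Hs n ⊆ D) :
    ContinuousOn (fun x => rho (G x) ξ) (dloc_K p r) :=
  (dp_smooth_rho hD hG hξ0 hξ).continuousOn.mono (dloc_K_sub hrD)

theorem dloc_rho_lower (hD : RelOpen D) {G : E n → Matrix (Fin n) (Fin n) ℝ} (hG : GOk D G)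
    {ξ : Fin n → ℝ} (hξ0 : ξ 0 = 0) (hξ : ξ ≠ 0) {p : E n} {r : ℝ}
    (hrD : Metric.closedBall p r ∩ Hs n ⊆ D) :
    ∃ c > 0, ∀ x ∈ dloc_K p r, c ≤ rho (G x) ξ := by
  rcases (dloc_K p r).eq_empty_or_nonempty with h | h
  · exact ⟨1, one_pos, fun x hx => by rw [h] at hx; exact absurd hx (notMem_empty x)⟩
  · obtain ⟨y, hy, hmin⟩ := (dloc_K_compact p r).exists_isMinOn h
      (dloc_rho_cont hD hG hξ0 hξ hrD)
    exact ⟨rho (G y) ξ, dp_rho_pos (hG.pos y (dloc_K_sub hrD hy)) hξ0 hξ, fun x hx => hmin hx⟩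

theorem dloc_chi_cont {f : E n → ℂ} (hf : ContinuousOn f D) {p : E n} {r : ℝ}
    (hrD : Metric.closedBall p r ∩ Hs n ⊆ D) {χ : E n → ℝ} (hχ : Bump p r χ) :
    ContinuousOn (fun x => (((χ x) ^ 2 : ℝ) : ℂ) * f x) (dloc_K p r) := by
  refine ContinuousOn.mul ?_ (hf.mono (dloc_K_sub hrD))
  exact (Complex.continuous_ofReal.comp (hχ.1.continuous.pow 2)).continuousOn

theorem dloc_int_cont (hD : RelOpen D) {G : E n → Matrix (Fin n) (Fin n) ℝ} (hG : GOk D G)
    {ξ : Fin n → ℝ} (hξ0 : ξ 0 = 0) (hξ : ξ ≠ 0) {f : E n → ℂ} (hf : ContinuousOn f D)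
    {p : E n} {r : ℝ} (hrD : Metric.closedBall p r ∩ Hs n ⊆ D) (k : ℕ)
    {χ : E n → ℝ} (hχ : Bump p r χ) :
    ContinuousOn (fun x => (((x 0) ^ k * wt G ξ x : ℝ) : ℂ) *
      (((χ (sc 0 x)) ^ 2 : ℝ) * f (sc 0 x))) (dloc_A p r) := by
  have h1 : ContinuousOn (fun x => rho (G (sc 0 x)) ξ) (dloc_A p r) :=
    (dloc_rho_cont hD hG hξ0 hξ hrD).comp dloc_sc_cont.continuousOn (dloc_maps p r)
  have h2 : ContinuousOn (fun x => (((χ (sc 0 x)) ^ 2 : ℝ) : ℂ) * f (sc 0 x)) (dloc_A p r) :=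
    (dloc_chi_cont hf hrD hχ).comp dloc_sc_cont.continuousOn (dloc_maps p r)
  have h3 : ContinuousOn (wt G ξ) (dloc_A p r) := by
    have h4 : ContinuousOn (fun x : E n => -(2 * rho (G (sc 0 x)) ξ * x 0)) (dloc_A p r) :=
      ((h1.const_mul 2).mul (continuous_coord 0).continuousOn).neg
    exact Real.continuous_exp.comp_continuousOn h4
  have h5 : ContinuousOn (fun x : E n => (x 0) ^ k * wt G ξ x) (dloc_A p r) :=
    ((continuous_coord 0).pow k).continuousOn.mul h3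
  exact (Complex.continuous_ofReal.comp_continuousOn h5).mul h2

theorem dloc_int_A (hD : RelOpen D) {G : E n → Matrix (Fin n) (Fin n) ℝ} (hG : GOk D G)
    {ξ : Fin n → ℝ} (hξ0 : ξ 0 = 0) (hξ : ξ ≠ 0) {f : E n → ℂ} (hf : ContinuousOn f D)
    {p : E n} {r : ℝ} (hrD : Metric.closedBall p r ∩ Hs n ⊆ D) (k : ℕ)
    {χ : E n → ℝ} (hχ : Bump p r χ) :
    IntegrableOn (fun x => (((x 0) ^ k * wt G ξ x : ℝ) : ℂ) *
      (((χ (sc 0 x)) ^ 2 : ℝ) * f (sc 0 x))) (dloc_A p r) := by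
  obtain ⟨c, hc0, hc⟩ := dloc_rho_lower hD hG hξ0 hξ hrD
  obtain ⟨C, hC⟩ := (dloc_K_compact p r).exists_bound_of_continuousOn (dloc_chi_cont hf hrD hχ)
  have hsub : dloc_A p r ⊆ {x | x ∈ Hs n ∧ ‖sc 0 x‖ ≤ ‖p‖ + r} := by
    intro x hx
    refine ⟨hx.1, ?_⟩
    have h1 : sc 0 x ∈ Metric.closedBall p r := hx.2
    rw [mem_closedBall_iff_norm] at h1
    have h2 : ‖sc 0 x‖ ≤ ‖p‖ + ‖sc 0 x - p‖ := by
      have h3 := norm_add_le p (sc 0 x - p)
      rwa [add_sub_cancel] at h3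
    linarith
  have hdom : IntegrableOn (fun x : E n => (x 0) ^ k * Real.exp (-((2 * c) * x 0)) * C)
      (dloc_A p r) := by
    have h0 := (ds_integrable_dom (n := n) (‖p‖ + r) (δ := 2 * c) (by (clear * - hc0; positivity))
      k).mono_set hsub
    exact h0.mul_const C
  refine Integrable.mono' hdom ((dloc_int_cont hD hG hξ0 hξ hf hrD k
    hχ).aestronglyMeasurable (dloc_A_closed p r).measurableSet) ?_
  refine (ae_restrict_iff' (dloc_A_closed p r).measurableSet).2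
    (Eventually.of_forall fun x hx => ?_)
  have hx0 : 0 ≤ x 0 := hx.1
  rw [norm_mul, Complex.norm_real, Real.norm_eq_abs, abs_mul, abs_of_nonneg (pow_nonneg hx0 k)]
  have h1 : |wt G ξ x| ≤ Real.exp (-((2 * c) * x 0)) := by
    unfold wt
    rw [abs_of_pos (Real.exp_pos _)]
    refine Real.exp_le_exp.2 ?_
    have h2 := hc _ (dloc_maps p r hx)
    have h3 := mul_le_mul_of_nonneg_right h2 hx0
    linarith
  have h2 := hC _ (dloc_maps p r hx)
  exact mul_le_mul (mul_le_mul_of_nonneg_left h1 (pow_nonneg hx0 k)) h2 (norm_nonneg _)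
    (mul_nonneg (pow_nonneg hx0 k) (Real.exp_pos _).le)

/-- The integrands of the limit integrals are integrable. -/
theorem dloc_integrable (hD : RelOpen D) {G : E n → Matrix (Fin n) (Fin n) ℝ} (hG : GOk D G)
    {ξ : Fin n → ℝ} (hξ0 : ξ 0 = 0) (hξ : ξ ≠ 0) {f : E n → ℂ} (hf : ContinuousOn f D)
    {p : E n} {r : ℝ} (hrD : Metric.closedBall p r ∩ Hs n ⊆ D) (k : ℕ)
    {χ : E n → ℝ} (hχ : Bump p r χ) :
    IntegrableOn (fun x => (((x 0) ^ k * wt G ξ x : ℝ) : ℂ) *
      (((χ (sc 0 x)) ^ 2 : ℝ) * f (sc 0 x))) (Hs n) := by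
  refine (dloc_int_A hD hG hξ0 hξ hf hrD k hχ).of_forall_sdiff_eq_zero
    isClosed_Hs.measurableSet ?_
  intro x hx
  have h1 : sc 0 x ∉ Metric.closedBall p r := fun h => hx.2 ⟨hx.1, h⟩
  rw [hχ.2 _ h1]
  simp only [Complex.ofReal_mul, Complex.ofReal_pow, ne_eq, OfNat.ofNat_ne_zero, not_false_eq_true, zero_pow, Complex.ofReal_zero, zero_mul, mul_zero]

theorem dloc_le (hD : RelOpen D) {G : E n → Matrix (Fin n) (Fin n) ℝ} (hG : GOk D G)
    {ξ : Fin n → ℝ} (hξ0 : ξ 0 = 0) (hξ : ξ ≠ 0) {f : E n → ℝ} (hf : ContinuousOn f D)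
    {p : E n} (hp : p ∈ D) (hp0 : p 0 = 0) {r : ℝ} (hr : 0 < r)
    (hrD : Metric.closedBall p r ∩ Hs n ⊆ D) (k : ℕ)
    (h : ∀ χ, Bump p r χ → 0 ≤ (JJ G ξ k (fun x => (((χ x) ^ 2 * f x : ℝ) : ℂ))).re) :
    0 ≤ f p := by
  by_contra hfp
  push Not at hfp
  -- a small ball where `f < 0`
  obtain ⟨r', hr'0, hr'r, hr'f⟩ : ∃ r' > 0, r' ≤ r ∧ ∀ x ∈ Metric.closedBall p r' ∩ Hs n,
      f x < 0 := by
    have h1 : ∀ᶠ x in 𝓝[D] p, f x < 0 := (hf p hp) (Iio_mem_nhds hfp)
    rw [hD.nhdsWithin hp, eventually_nhdsWithin_iff, Metric.eventually_nhds_iff] at h1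
    obtain ⟨ε, hε, h1⟩ := h1
    refine ⟨min (ε / 2) r, lt_min (by linarith only [hε]) hr, min_le_right _ _, fun x hx => ?_⟩
    refine h1 ?_ hx.2
    have h2 := Metric.mem_closedBall.1 hx.1
    have h3 := min_le_left (ε / 2) r
    linarith only [hε, h2, h3]
  let φ : ContDiffBump p := ⟨r' / 2, r', by linarith, by linarith⟩
  have hφ : Bump p r φ := by
    refine ⟨φ.contDiff, fun x hx => ?_⟩
    refine φ.zero_of_le_dist ?_
    have h1 : ¬ dist x p ≤ r := fun h => hx (Metric.mem_closedBall.2 h)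
    push Not at h1
    exact hr'r.trans h1.le
  have hJ := h φ hφ
  -- the real integrand
  set g : E n → ℝ := fun x => ((x 0) ^ k * wt G ξ x) * ((φ (sc 0 x)) ^ 2 * f (sc 0 x)) with hg
  have hJg : JJ G ξ k (fun x => (((φ x) ^ 2 * f x : ℝ) : ℂ)) = ((∫ x in Hs n, g x : ℝ) : ℂ) := by
    unfold JJ
    rw [← integral_complex_ofReal]
    congr 1
    funext x
    simp only [hg]
    push_cast
    ring
  rw [hJg, Complex.ofReal_re] at hJ
  have hgi : IntegrableOn g (Hs n) := by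
    have h1 := dloc_integrable hD hG hξ0 hξ (f := fun x => (f x : ℂ))
      (Complex.continuous_ofReal.comp_continuousOn hf) hrD k hφ
    have h2 : IntegrableOn (fun x => ((g x : ℝ) : ℂ)) (Hs n) := by
      refine h1.congr (Eventually.of_forall fun x => ?_)
      simp only [hg]
      push_cast
      ring
    exact (h2.re).congr (Eventually.of_forall fun x => by simp)
  have hgn : ∀ x ∈ Hs n, g x ≤ 0 := by
    intro x hx
    have hx0 : 0 ≤ x 0 := hx
    refine mul_nonpos_of_nonneg_of_nonpos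
      (mul_nonneg (pow_nonneg hx0 k) (Real.exp_pos _).le) ?_
    by_cases hb : dist (sc 0 x) p ≤ r'
    · exact mul_nonpos_of_nonneg_of_nonpos (sq_nonneg _)
        (hr'f _ ⟨Metric.mem_closedBall.2 hb, dloc_sc_mem x⟩).le
    · push Not at hb
      rw [φ.zero_of_le_dist hb.le]
      simp
  have hpos : 0 < ∫ x in Hs n, -g x := by
    rw [setIntegral_pos_iff_support_of_nonneg_ae]
    · -- an open set in the support
      have hU : IsOpen ({x : E n | 0 < x 0} ∩ (sc 0) ⁻¹' (Metric.ball p r')) :=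
        (isOpen_lt continuous_const (continuous_coord 0)).inter
          (Metric.isOpen_ball.preimage dloc_sc_cont)
      have hne : ({x : E n | 0 < x 0} ∩ (sc 0) ⁻¹' (Metric.ball p r')).Nonempty := by
        refine ⟨p + (1 : ℝ) • ev 0, ?_, ?_⟩
        · show 0 < (p + (1 : ℝ) • (ev 0 : E n)) 0
          simp only [one_smul, PiLp.add_apply, hp0, PiLp.single_eq_same, zero_add, zero_lt_one]
        · show sc 0 (p + (1 : ℝ) • (ev 0 : E n)) ∈ Metric.ball p r'
          rw [dloc_sc_of_face hp0]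
          exact Metric.mem_ball_self hr'0
      refine (hU.measure_pos volume hne).trans_le (measure_mono ?_)
      rintro x ⟨hx1, hx2⟩
      have hx1' : 0 < x 0 := hx1
      have hx2' : dist (sc 0 x) p < r' := hx2
      refine ⟨?_, hx1'.le⟩
      have h1 : 0 < φ (sc 0 x) := φ.pos_of_mem_ball hx2'
      have h2 := hr'f (sc 0 x) ⟨Metric.mem_closedBall.2 hx2'.le, dloc_sc_mem x⟩
      have h3 : g x < 0 := by
        refine mul_neg_of_pos_of_neg (mul_pos (pow_pos hx1' k) (Real.exp_pos _)) ?_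
        exact mul_neg_of_pos_of_neg (pow_pos h1 2) h2
      rw [Function.mem_support]
      linarith
    · exact (ae_restrict_iff' isClosed_Hs.measurableSet).2
        (Eventually.of_forall fun x hx => neg_nonneg.2 (hgn x hx))
    · exact hgi.neg
  rw [integral_neg] at hpos
  linarith

theorem dloc_eq (hD : RelOpen D) {G : E n → Matrix (Fin n) (Fin n) ℝ} (hG : GOk D G)
    {ξ : Fin n → ℝ} (hξ0 : ξ 0 = 0) (hξ : ξ ≠ 0) {f : E n → ℂ} (hf : ContinuousOn f D)
    {p : E n} (hp : p ∈ D) (hp0 : p 0 = 0) {r : ℝ} (hr : 0 < r)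
    (hrD : Metric.closedBall p r ∩ Hs n ⊆ D) (k : ℕ)
    (h : ∀ χ, Bump p r χ → JJ G ξ k (fun x => ((χ x) ^ 2 : ℝ) * f x) = 0) :
    f p = 0 := by
  set a : ℂ := -(starRingEnd ℂ) (f p) with ha
  have key := dloc_le hD hG hξ0 hξ (f := fun x => (a * f x).re)
    (Complex.continuous_re.comp_continuousOn (continuousOn_const.mul hf)) hp hp0 hr hrD k ?_
  · have h1 : (a * f p).re = -Complex.normSq (f p) := by
      rw [ha, neg_mul, Complex.neg_re, mul_comm, Complex.mul_conj, Complex.ofReal_re]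
    simp only [h1] at key
    have h2 := Complex.normSq_nonneg (f p)
    exact Complex.normSq_eq_zero.1 (by linarith only [h2, key])
  · intro χ hχ
    have hi := dloc_integrable hD hG hξ0 hξ hf hrD k hχ
    have h0 : ∫ x in Hs n, (((x 0) ^ k * wt G ξ x : ℝ) : ℂ) *
      (((χ (sc 0 x)) ^ 2 : ℝ) * f (sc 0 x)) = 0 := h χ hχ
    have h1 : JJ G ξ k (fun x => (((χ x) ^ 2 * (a * f x).re : ℝ) : ℂ)) =
        ((∫ x in Hs n, (a * ((((x 0) ^ k * wt G ξ x : ℝ) : ℂ) *
          (((χ (sc 0 x)) ^ 2 : ℝ) * f (sc 0 x)))).re : ℝ) : ℂ) := by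
      unfold JJ
      rw [← integral_complex_ofReal]
      congr 1
      funext x
      rw [← Complex.ofReal_mul]
      congr 1
      have e1 : a * ((((x 0) ^ k * wt G ξ x : ℝ) : ℂ) * (((χ (sc 0 x)) ^ 2 : ℝ) * f (sc 0 x))) =
          (((x 0) ^ k * wt G ξ x * (χ (sc 0 x)) ^ 2 : ℝ) : ℂ) * (a * f (sc 0 x)) := by
        push_cast
        ring
      rw [e1, Complex.re_ofReal_mul]
      ring
    have h2 := integral_re (hi.const_mul a)
    have h3 : ∫ x in Hs n, a * ((((x 0) ^ k * wt G ξ x : ℝ) : ℂ) *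
          (((χ (sc 0 x)) ^ 2 : ℝ) * f (sc 0 x))) = 0 := by
      rw [integral_const_mul, h0, mul_zero]
    rw [h3] at h2
    have h4 : ∫ x in Hs n, (a * ((((x 0) ^ k * wt G ξ x : ℝ) : ℂ) *
          (((χ (sc 0 x)) ^ 2 : ℝ) * f (sc 0 x)))).re = 0 := by
      simpa only [Complex.ofReal_mul, Complex.ofReal_pow, Complex.mul_re, Complex.ofReal_re, Complex.ofReal_im,     mul_zero, sub_zero, Complex.mul_im, zero_add, RCLike.mul_re, RCLike.re_to_complex, RCLike.im_to_complex,     RCLike.mul_im, Complex.zero_re] using h2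
    rw [h1, h4]
    simp

end Vale.Agent.P088.EYM
end
end

section

/-!
# P088-EYM, local solvability: definitions (series with twisted frequencies)
-/

open MeasureTheory Set Filter Topology
open scoped ContDiff Real

noncomputable section

namespace Vale.Agent.P088.EYM.ES

variable {n N : ℕ} [NeZero n]

instance sTowerEndF : IsScalarTower ℝ ℂ (EndF N) :=
  ⟨fun c d S => by ext1 w; exact smul_assoc c d (S w)⟩

/-- The lattice of frequencies. -/
abbrev La (n : ℕ) : Type := Fin n → ℤ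

/-- The twisted frequency `k_j + θ_j`, `θ = (1/2, 0, ..., 0)`. -/
def fr (k : La n) (j : Fin n) : ℝ := k j + if j = 0 then 1 / 2 else 0

/-- `e^{2πi (k+θ)·y}` -/
def exT (k : La n) (y : E n) : ℂ :=
  Complex.exp (2 * π * Complex.I * ((∑ j, fr k j * y j : ℝ) : ℂ))

/-- `e^{2πi k·y}` -/
def ex0 (k : La n) (y : E n) : ℂ :=
  Complex.exp (2 * π * Complex.I * ((∑ j, (k j : ℝ) * y j : ℝ) : ℂ))

/-- `∑_k e^{2πi (k+θ)·y} f_k` -/
def evT (f : La n → Fib N) (y : E n) : Fib N := ∑' k, exT k y • f k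

/-- `∑_k e^{2πi k·y} α_k` -/
def ev0 (α : La n → EndF N) (y : E n) : EndF N := ∑' k, ex0 k y • α k

/-- The convolution `(α * f)_k = ∑_l α_{k-l} f_l`. -/
def conv (α : La n → EndF N) (f : La n → Fib N) (k : La n) : Fib N := ∑' l, α (k - l) (f l)

/-- The Fourier coefficients `∫ e^{-2πi k·y} Φ(y) dy`. -/
def fco {F : Type*} [NormedAddCommGroup F] [NormedSpace ℂ F] [NormedSpace ℝ F] (Φ : E n → F)
    (k : La n) : F := ∫ y, Complex.exp (-(2 * π * Complex.I * ((∑ j, (k j : ℝ) * y j : ℝ) : ℂ))) • Φ y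

/-- The open unit cube. -/
def Cub (n : ℕ) : Set (E n) := {y | ∀ j, |y j| < 1 / 2}

/-- The weight. -/
def wt (k : La n) : ℝ := (1 + ∑ j, |fr k j|) ^ 2

/-- The symbol of the constant coefficient operator `∑ A0_ij ∂_i ∂_j`. -/
def sy (A0 : Matrix (Fin n) (Fin n) ℝ) (k : La n) : ℂ :=
  (2 * π * Complex.I) ^ 2 * ((∑ i, ∑ j, A0 i j * fr k i * fr k j : ℝ) : ℂ)

/-- The operator on sequences. -/
def Lsq (A0 : Matrix (Fin n) (Fin n) ℝ) (α2 : Fin n → Fin n → La n → EndF N)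
    (α1 : Fin n → La n → EndF N) (α0 : La n → EndF N) (w : La n → Fib N) (k : La n) : Fib N :=
  sy A0 k • w k +
    ∑ i, ∑ j, conv (α2 i j)
      (fun k => ((2 * π * Complex.I) ^ 2 * ((fr k i * fr k j : ℝ) : ℂ)) • w k) k +
    ∑ j, conv (α1 j) (fun k => ((2 * π * Complex.I) * ((fr k j : ℝ) : ℂ)) • w k) k +
    conv α0 w k

/-- The operator `∑ a_ij ∂_i ∂_j v + ∑ M_j ∂_j v + M_0 v` with ordinary derivatives. -/
def Pop (a : Fin n → Fin n → E n → ℝ) (M : Fin n → E n → EndF N) (M0 : E n → EndF N)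
    (v : E n → Fib N) (x : E n) : Fib N :=
  ∑ i, ∑ j, a i j x • fderiv ℝ (fun y => fderiv ℝ v y (ev j)) x (ev i) +
    ∑ j, M j x (fderiv ℝ v x (ev j)) + M0 x (v x)

end Vale.Agent.P088.EYM.ES
end
end

section

/-!
# P088-EYM, AS6: rescaled and cut off coefficients are jointly smooth
-/

set_option linter.all false

open MeasureTheory Set Filter Topology
open scoped ContDiff Real

noncomputable section

namespace Vale.Agent.P088.EYM.ES

variable {n N : ℕ} [NeZero n]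

/-- rescaled and cut off coefficients are jointly smooth -/
theorem as_joint {F : Type*} [NormedAddCommGroup F] [NormedSpace ℝ F] {O : Set (E n)}
    (hO : IsOpen O) {z : E n} (hz : z ∈ O) :
    ∃ η : ℝ → ℝ, ContDiff ℝ ∞ η ∧ HasCompactSupport η ∧ (∀ᶠ ρ in 𝓝 0, η ρ = 1) ∧
      ∀ (c : E n → F), ContDiffOn ℝ ∞ c O → ∀ χ : E n → ℝ, ContDiff ℝ ∞ χ →
        tsupport χ ⊆ Metric.closedBall 0 (1 / 4) →
        ContDiff ℝ ∞ (Function.uncurry fun (ρ : ℝ) (y : E n) => (η ρ * χ y) • c (z + ρ • y)) ∧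
        HasCompactSupport
          (Function.uncurry fun (ρ : ℝ) (y : E n) => (η ρ * χ y) • c (z + ρ • y)) := by
  obtain ⟨δ, hδ, hδO⟩ := Metric.isOpen_iff.1 hO z hz
  let η : ContDiffBump (0 : ℝ) := ⟨δ, 2 * δ, hδ, by linarith only [hδ]⟩
  refine ⟨η, η.contDiff, η.hasCompactSupport, ?_, ?_⟩
  · exact η.eventuallyEq_one
  intro c hc χ hχ hχs
  have hηs : tsupport η = Metric.closedBall (0 : ℝ) (2 * δ) := η.tsupport_eq
  refine ⟨?_, ?_⟩
  · rw [contDiff_iff_contDiffAt]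
    rintro ⟨ρ, y⟩
    by_cases hy : y ∈ tsupport χ
    · by_cases hρ : ρ ∈ tsupport η
      · have h1 : ‖y‖ ≤ 1 / 4 := by simpa only [one_div, Metric.mem_closedBall, dist_zero_right] using hχs hy
        have h2 : ‖ρ‖ ≤ 2 * δ := by
          rw [hηs] at hρ
          simpa only [Real.norm_eq_abs, Metric.mem_closedBall, dist_zero_right] using hρ
        have h3 : z + ρ • y ∈ O := by
          apply hδO
          rw [Metric.mem_ball, dist_eq_norm, add_sub_cancel_left, norm_smul]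
          calc ‖ρ‖ * ‖y‖ ≤ 2 * δ * (1 / 4) :=
                mul_le_mul h2 h1 (norm_nonneg _) (by linarith only [hδ])
            _ < δ := by linarith only [hδ]
        have h4 : ContDiffAt ℝ ∞ c (z + ρ • y) := hc.contDiffAt (hO.mem_nhds h3)
        have h5 : ContDiffAt ℝ ∞ (fun p : ℝ × E n => z + p.1 • p.2) (ρ, y) :=
          contDiffAt_const.add (contDiffAt_fst.smul contDiffAt_snd)
        have h6 : ContDiffAt ℝ ∞ (fun p : ℝ × E n => c (z + p.1 • p.2)) (ρ, y) :=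
          ContDiffAt.comp (ρ, y) (g := c) (f := fun p : ℝ × E n => z + p.1 • p.2) h4 h5
        have h7 : ContDiffAt ℝ ∞ (fun p : ℝ × E n => η p.1 * χ p.2) (ρ, y) := by
          have ha : ContDiffAt ℝ ∞ (fun p : ℝ × E n => η p.1) (ρ, y) :=
            η.contDiff.contDiffAt.comp (ρ, y) contDiffAt_fst
          have hb : ContDiffAt ℝ ∞ (fun p : ℝ × E n => χ p.2) (ρ, y) :=
            hχ.contDiffAt.comp (ρ, y) contDiffAt_snd
          exact ha.mul hb
        exact h7.smul h6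
      · have h1 : ∀ᶠ p : ℝ × E n in 𝓝 (ρ, y), (η : ℝ → ℝ) p.1 = 0 := by
          have h2 : ∀ᶠ r in 𝓝 ρ, (η : ℝ → ℝ) r = 0 := notMem_tsupport_iff_eventuallyEq.1 hρ
          exact (continuous_fst.tendsto (ρ, y)).eventually h2
        refine (contDiffAt_const (c := (0 : F))).congr_of_eventuallyEq ?_
        filter_upwards [h1] with p hp
        simp [Function.uncurry, hp]
    · have h1 : ∀ᶠ p : ℝ × E n in 𝓝 (ρ, y), χ p.2 = 0 := by
        have h2 : ∀ᶠ r in 𝓝 y, χ r = 0 := notMem_tsupport_iff_eventuallyEq.1 hy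
        exact (continuous_snd.tendsto (ρ, y)).eventually h2
      refine (contDiffAt_const (c := (0 : F))).congr_of_eventuallyEq ?_
      filter_upwards [h1] with p hp
      simp only [Function.uncurry, hp, mul_zero, zero_smul]
  · refine HasCompactSupport.intro
      ((isCompact_closedBall (0 : ℝ) (2 * δ)).prod (isCompact_closedBall (0 : E n) (1 / 4))) ?_
    rintro ⟨ρ, y⟩ h
    by_cases hρ : ρ ∈ tsupport η
    · have hy : y ∉ tsupport χ := by
        intro hy
        exact h ⟨by rw [hηs] at hρ; exact hρ, hχs hy⟩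
      have : χ y = 0 := image_eq_zero_of_notMem_tsupport hy
      simp only [Function.uncurry, this, mul_zero, zero_smul]
    · have : (η : ℝ → ℝ) ρ = 0 := image_eq_zero_of_notMem_tsupport hρ
      simp [Function.uncurry, this]

end Vale.Agent.P088.EYM.ES
end
end

section

open Manifold MeasureTheory Set
open scoped ContDiff Matrix

noncomputable section

namespace Vale.Agent.P088.S

variable {n : ℕ} [NeZero n] {N : ℕ} {M : Type*} [TopologicalSpace M]
  [ChartedSpace (EuclideanHalfSpace n) M]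

variable (n) in
/-- `u` is smooth on the set `s`. -/
def SmOn (s : Set M) (u : M → ℂ) : Prop := ContMDiffOn (𝓡∂ n) 𝓘(ℝ, ℂ) ∞ u s

variable (n) in
/-- `u : M → ℂ^N` is smooth. -/
def Sm (u : M → Fin N → ℂ) : Prop := ∀ a, SmOn n univ (fun x => u x a)

variable (n M) in
/-- The boundary `∂M`. -/
def bd : Set M := (𝓡∂ n).boundary M

variable (n) in
/-- The coordinates of `x` in the chart at `p`. -/
def ch (p x : M) (i : Fin n) : ℝ := (chartAt (EuclideanHalfSpace n) p x).1 i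

variable (n) in
/-- The domain of the chart at `p`. -/
def src (p : M) : Set M := (chartAt (EuclideanHalfSpace n) p).source

variable (n) in
/-- The point in the domain of the chart at `p` that has coordinates `y`. -/
def pt (p : M) (y : Fin n → ℝ) : M :=
  haveI : Nonempty M := ⟨p⟩
  Function.invFunOn (ch n p) (src n p) y

/-- The partial derivative `∂_j f (y)` on the half-space `{y | 0 ≤ y 0}` (one-sided if `j = 0` and
`y 0 = 0`). -/
def dj {F : Type*} [NormedAddCommGroup F] [NormedSpace ℝ F] (f : (Fin n → ℝ) → F)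
    (y : Fin n → ℝ) (j : Fin n) : F :=
  derivWithin (fun t => f (Function.update y j t)) {t | 0 ≤ Function.update y j t 0} (y j)

variable (n) in
/-- The partial derivative `∂_i u (x)` in the chart at `x`. -/
def pd (u : M → ℂ) (x : M) (i : Fin n) : ℂ := dj (fun y => u (pt n x y)) (ch n x x) i

variable (n) in
/-- The Jacobian matrix at `x` of the change of coordinates from the chart at `p` to the chart
at `x`. -/
def jac (p x : M) : Matrix (Fin n) (Fin n) ℝ := fun i j =>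
  dj (fun y => ch n x (pt n p y) i) (ch n p x) j

variable (n) in
/-- The matrix in the chart at `p` of the bilinear form with matrix `G x` in the chart at `x`. -/
def inChart (G : M → Matrix (Fin n) (Fin n) ℝ) (p x : M) : Matrix (Fin n) (Fin n) ℝ :=
  (jac n p x)ᵀ * G x * jac n p x

variable (n N M) in
/-- A pair `(g, A)`: a Riemannian metric `g`, smooth up to the boundary, whose matrix in the chart
at `x` is `mat x`, with its volume `vol`, which is `√(det g_{ij}) dy` in every chart; and a smooth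
unitary connection `d + A` on `M × ℂ^N`, where `co x i` is the skew-Hermitian coefficient `A_i(x)`
in the chart at `x`. The coefficients of `g` and `A` are smooth in every chart. -/
structure Pair where
  mat : M → Matrix (Fin n) (Fin n) ℝ
  pos : ∀ x, (mat x).PosDef
  smooth : ∀ p i j, SmOn n (src n p) (fun x => inChart n mat p x i j)
  vol : @Measure M (borel M)
  isVol : ∀ p s, MeasurableSet[borel M] s → s ⊆ src n p →
    vol s = ∫⁻ y in ch n p '' s, ENNReal.ofReal √(inChart n mat p (pt n p y)).det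
  co : M → Fin n → Matrix (Fin N) (Fin N) ℂ
  skew : ∀ x i, (co x i)ᴴ = -co x i
  smooth_co : ∀ p j a b, SmOn n (src n p) (fun x => ∑ i, jac n p x i j * co x i a b)

/-- The covariant derivative `(d_A u)_i = ∂_i u + A_i u` at `x`, in the chart at `x`. -/
def cov (P : Pair n N M) (u : M → Fin N → ℂ) (x : M) (i : Fin n) : Fin N → ℂ :=
  (fun a => pd n (fun z => u z a) x i) + P.co x i *ᵥ u x

/-- `∫_M ⟨d_A u, d_A v⟩_g dV_g`, with `⟨d_A u, d_A v⟩_g = ∑ g^{ij} ⟨(d_A u)_i, (d_A v)_j⟩`. -/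
def energy (P : Pair n N M) (u v : M → Fin N → ℂ) : ℂ :=
  ∫ x, ∑ i, ∑ j, ((P.mat x)⁻¹ i j : ℂ) * (star (cov P u x i) ⬝ᵥ cov P v x j) ∂P.vol

/-- `u` is smooth, `u = f` on `∂M` and `d_A^* d_A u = 0` in `M`. -/
def Harm (P : Pair n N M) (f u : M → Fin N → ℂ) : Prop :=
  Sm n u ∧ (∀ x ∈ bd n M, u x = f x) ∧
    ∀ φ, Sm n φ → (∀ x ∈ bd n M, φ x = 0) → energy P u φ = 0

/-- The data on `Γ` of `(g₁, A₁)` and `(g₂, A₂)` are equal: for all `f, h ∈ C_c^∞(Γ; ℂ^N)` (given
as restrictions to `∂M` of smooth functions),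
`∫ ⟨d_{A₁} u_f, d_{A₁} u_h⟩ dV_{g₁} = ∫ ⟨d_{A₂} u_f, d_{A₂} u_h⟩ dV_{g₂}`, where `u_f, u_h` are
the solutions of the two Dirichlet problems. -/
def SameData (Γ : Set M) (P Q : Pair n N M) : Prop :=
  ∀ f h, Sm n f → closure {x ∈ bd n M | f x ≠ 0} ⊆ Γ →
    Sm n h → closure {x ∈ bd n M | h x ≠ 0} ⊆ Γ → ∃ u v u' v',
      Harm P f u ∧ Harm P h v ∧ Harm Q f u' ∧ Harm Q h v' ∧ energy P u v = energy Q u' v'

variable (n) in
/-- A smooth map `U : M → U(N)`. -/
def Uni (U : M → Matrix (Fin N) (Fin N) ℂ) : Prop :=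
  (∀ a, Sm n (fun x => U x a)) ∧ ∀ x, (U x)ᴴ * U x = 1

variable (n) in
/-- The coefficients `U⁻¹ ∂_j U` at `x`. -/
def lgd (U : M → Matrix (Fin N) (Fin N) ℂ) (x : M) (j : Fin n) : Matrix (Fin N) (Fin N) ℂ :=
  (U x)ᴴ * Matrix.of fun a b => pd n (fun z => U z a b) x j

end Vale.Agent.P088.S
end
end
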