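import Vale.Agent.P088.MathlibUsed

set_option linter.all false

section

open Bundle Manifold MeasureTheory Set Filter
open scoped ContDiff Topology

noncomputable section

namespace Vale.Agent.P088

set_option linter.unusedSectionVars false

section algebra
variable {n : ℕ} {V : Type*} [NormedAddCommGroup V] [InnerProductSpace ℂ V] 

abbrev es (n : ℕ) (i : Fin n) : EuclideanSpace ℝ (Fin n) := EuclideanSpace.single i (1 : ℝ)

theorem eq_sum_es (v : EuclideanSpace ℝ (Fin n)) : v = ∑ i, v i • es n i := by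
  ext k
  simp only [es, WithLp.ofLp_sum, WithLp.ofLp_smul, PiLp.ofLp_single, Finset.sum_apply, Pi.smul_apply, Pi.single_apply, smul_eq_mul, mul_ite, mul_one, mul_zero, Finset.sum_ite_eq, Finset.mem_univ, ↓reduceIte]

/-- matrix of a linear map -/
def mat (T : EuclideanSpace ℝ (Fin n) →L[ℝ] EuclideanSpace ℝ (Fin n)) : Matrix (Fin n) (Fin n) ℝ :=
  Matrix.of fun i j => T (es n j) i

theorem apply_es (T : EuclideanSpace ℝ (Fin n) →L[ℝ] EuclideanSpace ℝ (Fin n)) (j : Fin n) :
    T (es n j) = ∑ i, mat T i j • es n i := by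
  rw [eq_sum_es (T (es n j))]
  simp only [mat, Matrix.of_apply]

theorem mat_mul (S T : EuclideanSpace ℝ (Fin n) →L[ℝ] EuclideanSpace ℝ (Fin n)) :
    mat S * mat T = mat (S ∘L T) := by
  ext i j
  rw [Matrix.mul_apply]
  simp only [mat, Matrix.of_apply, ContinuousLinearMap.comp_apply]
  conv_rhs => rw [eq_sum_es (T (es n j))]
  simp only [map_sum, map_smul, WithLp.ofLp_sum, WithLp.ofLp_smul, Finset.sum_apply, Pi.smul_apply, smul_eq_mul, mul_comm]

theorem mat_id : mat (ContinuousLinearMap.id ℝ (EuclideanSpace ℝ (Fin n))) = 1 := by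
  ext i j
  simp only [mat, es, ContinuousLinearMap.id_apply, PiLp.single_apply, Matrix.of_apply, Matrix.one_apply]

theorem sum4 {α : Type*} [AddCommMonoid α] (f : Fin n → Fin n → Fin n → Fin n → α) :
    ∑ i, ∑ j, ∑ k, ∑ l, f i j k l = ∑ k, ∑ l, ∑ i, ∑ j, f i j k l := by
  rw [Finset.sum_congr rfl fun i _ => Finset.sum_comm, Finset.sum_comm]
  refine Finset.sum_congr rfl fun k _ => ?_
  rw [Finset.sum_congr rfl fun i _ => Finset.sum_comm, Finset.sum_comm]

/-- bilinearity in the standard basis -/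
def BilF {W : Type*} [AddCommGroup W] [Module ℝ W]
    (B : EuclideanSpace ℝ (Fin n) → EuclideanSpace ℝ (Fin n) → W) : Prop :=
  ∀ (c d : Fin n → ℝ), B (∑ i, c i • es n i) (∑ j, d j • es n j) =
    ∑ i, ∑ j, (c i * d j) • B (es n i) (es n j)

/-- basis invariance -/
theorem pr_invariant {W : Type*} [AddCommGroup W] [Module ℝ W]
    (G : Matrix (Fin n) (Fin n) ℝ) (T S : EuclideanSpace ℝ (Fin n) →L[ℝ] EuclideanSpace ℝ (Fin n))
    (hST : S ∘L T = ContinuousLinearMap.id ℝ _)
    {B : EuclideanSpace ℝ (Fin n) → EuclideanSpace ℝ (Fin n) → W} (hB : BilF B) :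
    ∑ i, ∑ j, (((mat T).transpose * G * mat T)⁻¹ i j) • B (T (es n i)) (T (es n j)) =
    ∑ i, ∑ j, (G⁻¹ i j) • B (es n i) (es n j) := by
  have h1 : mat S * mat T = 1 := by rw [mat_mul, hST, mat_id]
  have h2 : mat T * mat S = 1 := mul_eq_one_comm.1 h1
  have hinv : (mat T)⁻¹ = mat S := Matrix.inv_eq_right_inv h2
  have hinvT : ((mat T).transpose)⁻¹ = (mat S).transpose := by
    rw [← Matrix.transpose_nonsing_inv, hinv]
  have hG : mat T * ((mat T).transpose * G * mat T)⁻¹ * (mat T).transpose = G⁻¹ := by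
    rw [Matrix.mul_inv_rev, Matrix.mul_inv_rev, hinv, hinvT]
    calc mat T * (mat S * (G⁻¹ * (mat S).transpose)) * (mat T).transpose
        = (mat T * mat S) * G⁻¹ * ((mat S).transpose * (mat T).transpose) := by
          simp only [Matrix.mul_assoc]
      _ = G⁻¹ := by rw [← Matrix.transpose_mul, h2]; simp only [one_mul, Matrix.transpose_one, mul_one]
  set G' := ((mat T).transpose * G * mat T)⁻¹ with hG'
  have key : ∀ k l, G⁻¹ k l = ∑ i, ∑ j, mat T k i * G' i j * mat T l j := by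
    intro k l
    rw [← hG, Matrix.mul_apply]
    simp only [Matrix.mul_apply, Matrix.transpose_apply, Finset.sum_mul]
    rw [Finset.sum_comm]
  have e1 : ∀ i j, B (T (es n i)) (T (es n j)) =
      ∑ k, ∑ l, (mat T k i * mat T l j) • B (es n k) (es n l) := by
    intro i j
    rw [apply_es T i, apply_es T j, hB]
  simp only [e1, key]
  simp only [Finset.smul_sum, Finset.sum_smul]
  rw [sum4]
  refine Finset.sum_congr rfl fun k _ => Finset.sum_congr rfl fun l _ =>
    Finset.sum_congr rfl fun i _ => Finset.sum_congr rfl fun j _ => ?_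
  rw [smul_smul]
  congr 1
  ring

end algebra

end Vale.Agent.P088
end
end

section

open Set Filter
noncomputable section
namespace Vale.Agent.P088

section psd
open scoped MatrixOrder ComplexOrder
theorem exists_conj {n : ℕ} {P : Matrix (Fin n) (Fin n) ℝ} (hP : P.PosSemidef) :
    ∃ B : Matrix (Fin n) (Fin n) ℝ, P = B.conjTranspose * B := by
  obtain ⟨B, hB⟩ := CStarAlgebra.nonneg_iff_eq_star_mul_self.mp hP.nonneg
  exact ⟨B, hB⟩

variable {n : ℕ} {V : Type*} [NormedAddCommGroup V] [InnerProductSpace ℂ V]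

theorem psd_formula (B : Matrix (Fin n) (Fin n) ℝ) (Z : Fin n → V) :
    ∑ i, ∑ j, (B.conjTranspose * B) i j • (inner ℂ (Z i) (Z j) : ℂ).re =
      ∑ k, ‖∑ i, B k i • Z i‖ ^ 2 := by
  have h : ∀ k, ‖∑ i, B k i • Z i‖ ^ 2 = ∑ i, ∑ j, (B k i * B k j) • (inner ℂ (Z i) (Z j) : ℂ).re := by
    intro k
    rw [← inner_self_eq_norm_sq (𝕜 := ℂ)]
    simp only [sum_inner, inner_sum]
    rw [Finset.sum_comm, map_sum]
    refine Finset.sum_congr rfl fun i _ => ?_
    rw [map_sum]
    refine Finset.sum_congr rfl fun j _ => ?_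
    rw [inner_smul_left_eq_smul, inner_smul_right_eq_smul, smul_smul]
    simp [mul_comm]
  simp only [h, Matrix.mul_apply, Matrix.conjTranspose_apply, star_trivial, Finset.sum_smul]
  rw [Finset.sum_congr rfl fun i _ => Finset.sum_comm, Finset.sum_comm]

theorem psd_nonneg {P : Matrix (Fin n) (Fin n) ℝ} (hP : P.PosSemidef) (Z : Fin n → V) :
    0 ≤ ∑ i, ∑ j, P i j • (inner ℂ (Z i) (Z j) : ℂ).re := by
  obtain ⟨B, hB⟩ := exists_conj hP
  rw [hB, psd_formula]
  (clear * -; positivity)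

end psd
end Vale.Agent.P088
end
end

section

open Set Filter MeasureTheory
open scoped ContDiff Topology

noncomputable section
namespace Vale.Agent.P088

section weakstrong
variable {n : ℕ}

end weakstrong
end Vale.Agent.P088
end
end

section

open Set Filter MeasureTheory
open scoped ContDiff Topology

noncomputable section
namespace Vale.Agent.P088

section smax
variable {n : ℕ}

end smax
end Vale.Agent.P088
end
end

section

/-!
P088, project EYM, local analysis: calculus on `ℝ^d`.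
-/

open MeasureTheory Filter Topology
open scoped ContDiff InnerProductSpace ENNReal

namespace Vale.Agent.P088.A

/-- The space `ℝ^d`. -/
abbrev V (d : ℕ) := EuclideanSpace ℝ (Fin d)

variable {d : ℕ}

/-- The `i`-th partial derivative. -/
noncomputable def pa (i : Fin d) (f : V d → ℝ) (x : V d) : ℝ :=
  fderiv ℝ f x (EuclideanSpace.single i 1)

lemma pa_contDiff {f : V d → ℝ} {m k : WithTop ℕ∞} (hf : ContDiff ℝ m f) (hmk : k + 1 ≤ m)
    (i : Fin d) : ContDiff ℝ k (pa i f) :=
  (hf.fderiv_right hmk).clm_apply contDiff_const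

lemma pa_continuous {f : V d → ℝ} (hf : ContDiff ℝ 1 f) (i : Fin d) : Continuous (pa i f) :=
  (hf.continuous_fderiv (by norm_num)).clm_apply continuous_const

lemma pa_contDiff_infty {f : V d → ℝ} (hf : ContDiff ℝ ∞ f) (i : Fin d) :
    ContDiff ℝ ∞ (pa i f) := pa_contDiff hf (by norm_cast) i

lemma pa_hasCompactSupport {f : V d → ℝ} (hf : HasCompactSupport f) (i : Fin d) :
    HasCompactSupport (pa i f) := hf.fderiv_apply (𝕜 := ℝ) _

lemma tsupport_pa_subset (f : V d → ℝ) (i : Fin d) : tsupport (pa i f) ⊆ tsupport f := by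
  have h1 : Function.support (pa i f) ⊆ Function.support (fderiv ℝ f) := by
    intro x hx
    have hx' : pa i f x ≠ 0 := hx
    have : fderiv ℝ f x ≠ 0 := by
      intro h
      exact hx' (by unfold pa; rw [h]; rfl)
    exact this
  exact (closure_mono h1).trans (tsupport_fderiv_subset (𝕜 := ℝ) (f := f))

lemma pa_comm {f : V d → ℝ} (hf : ContDiff ℝ 2 f) (i j : Fin d) :
    pa i (pa j f) = pa j (pa i f) := by
  funext x
  have hd : DifferentiableAt ℝ (fderiv ℝ f) x :=
    ((hf.fderiv_right (m := 1) (by norm_num)).differentiable (by norm_num)) x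
  have h1 : ∀ k l : Fin d, pa k (pa l f) x
      = fderiv ℝ (fderiv ℝ f) x (EuclideanSpace.single k 1) (EuclideanSpace.single l 1) := by
    intro k l
    unfold pa
    rw [fderiv_clm_apply hd (differentiableAt_const _)]
    simp
  rw [h1, h1]
  exact ((hf.contDiffAt (x := x)).isSymmSndFDerivAt (by simp)) _ _

lemma pa_add {f g : V d → ℝ} {x : V d} (hf : DifferentiableAt ℝ f x)
    (hg : DifferentiableAt ℝ g x) (i : Fin d) :
    pa i (fun y => f y + g y) x = pa i f x + pa i g x := by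
  unfold pa
  rw [fderiv_fun_add hf hg]
  simp only [add_apply]

lemma pa_sub {f g : V d → ℝ} {x : V d} (hf : DifferentiableAt ℝ f x)
    (hg : DifferentiableAt ℝ g x) (i : Fin d) :
    pa i (fun y => f y - g y) x = pa i f x - pa i g x := by
  unfold pa
  rw [fderiv_fun_sub hf hg]
  simp only [sub_apply]

lemma pa_neg (f : V d → ℝ) (i : Fin d) (x : V d) : pa i (fun y => - f y) x = - pa i f x := by
  unfold pa
  rw [fderiv_fun_neg]
  simp

lemma pa_const (c : ℝ) (i : Fin d) (x : V d) : pa i (fun _ => c) x = 0 := by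
  unfold pa
  simp only [fderiv_fun_const, Pi.zero_apply, zero_apply]

lemma pa_const_mul {f : V d → ℝ} {x : V d} (hf : DifferentiableAt ℝ f x) (c : ℝ) (i : Fin d) :
    pa i (fun y => c * f y) x = c * pa i f x := by
  unfold pa
  rw [fderiv_const_mul hf]
  simp

lemma pa_mul {f g : V d → ℝ} {x : V d} (hf : DifferentiableAt ℝ f x)
    (hg : DifferentiableAt ℝ g x) (i : Fin d) :
    pa i (fun y => f y * g y) x = pa i f x * g x + f x * pa i g x := by
  unfold pa
  rw [fderiv_fun_mul hf hg]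
  simp
  ring

lemma pa_sum {ι : Type*} (s : Finset ι) {f : ι → V d → ℝ} {x : V d}
    (hf : ∀ k ∈ s, DifferentiableAt ℝ (f k) x) (i : Fin d) :
    pa i (fun y => ∑ k ∈ s, f k y) x = ∑ k ∈ s, pa i (f k) x := by
  unfold pa
  rw [fderiv_fun_sum hf]
  simp only [sum_apply]

lemma pa_pow {f : V d → ℝ} {x : V d} (hf : DifferentiableAt ℝ f x) (m : ℕ) (i : Fin d) :
    pa i (fun y => f y ^ m) x = m * f x ^ (m - 1) * pa i f x := by
  unfold pa
  rw [fderiv_fun_pow m hf]
  simp [nsmul_eq_mul]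

lemma pa_exp {f : V d → ℝ} {x : V d} (hf : DifferentiableAt ℝ f x) (i : Fin d) :
    pa i (fun y => Real.exp (f y)) x = Real.exp (f x) * pa i f x := by
  unfold pa
  rw [fderiv_exp hf]
  simp

lemma pa_congr {f g : V d → ℝ} {x : V d} (h : f =ᶠ[𝓝 x] g) (i : Fin d) :
    pa i f x = pa i g x := by
  unfold pa
  rw [h.fderiv_eq]

lemma ibp {f g : V d → ℝ} (hf : ContDiff ℝ 1 f) (hg : ContDiff ℝ 1 g)
    (hc : HasCompactSupport g) (i : Fin d) :
    ∫ x, f x * pa i g x = - ∫ x, pa i f x * g x := by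
  have hf' : Continuous (pa i f) := pa_continuous hf i
  have hg' : Continuous (pa i g) := pa_continuous hg i
  have hcg' : HasCompactSupport (pa i g) := pa_hasCompactSupport hc i
  apply integral_mul_fderiv_eq_neg_fderiv_mul_of_integrable
  · exact (hf'.mul hg.continuous).integrable_of_hasCompactSupport hc.mul_left
  · exact (hf.continuous.mul hg').integrable_of_hasCompactSupport hcg'.mul_left
  · exact (hf.continuous.mul hg.continuous).integrable_of_hasCompactSupport hc.mul_left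
  · intro x _
    exact (hf.differentiable (by norm_num)) x
  · intro x _
    exact (hg.differentiable (by norm_num)) x

lemma integral_pa_eq_zero {g : V d → ℝ} (hg : ContDiff ℝ 1 g) (hc : HasCompactSupport g)
    (i : Fin d) : ∫ x, pa i g x = 0 := by
  have h := ibp (f := fun _ => (1 : ℝ)) contDiff_const hg hc i
  simpa [pa_const] using h

lemma int_cc {f : V d → ℝ} (hf : Continuous f) (hc : HasCompactSupport f) : Integrable f :=
  hf.integrable_of_hasCompactSupport hc

/-- `∂_j (a^{jk} ∂_k u)`. -/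
noncomputable def divop (a : Fin d → Fin d → V d → ℝ) (u : V d → ℝ) (x : V d) : ℝ :=
  ∑ j, ∑ k, pa j (fun y => a j k y * pa k u y) x

/-- The quadratic form `a^{jk} ∂_j u ∂_k u`. -/
noncomputable def Qf (a : Fin d → Fin d → V d → ℝ) (u : V d → ℝ) (x : V d) : ℝ :=
  ∑ j, ∑ k, a j k x * pa j u x * pa k u x

/-- The directional derivative `X^l ∂_l u`. -/
noncomputable def Xd (X : Fin d → V d → ℝ) (u : V d → ℝ) (x : V d) : ℝ :=
  ∑ l, X l x * pa l u x

/-- The divergence `∂_l X^l`. -/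
noncomputable def dv (X : Fin d → V d → ℝ) (x : V d) : ℝ := ∑ l, pa l (X l) x

/-- `|∇u|²`. -/
noncomputable def gs (u : V d → ℝ) (x : V d) : ℝ := ∑ l, (pa l u x) ^ 2

end Vale.Agent.P088.A
end

section

/-!
P088-EYM-A1: integral identities for the Carleman estimate.
-/

set_option linter.all false

open MeasureTheory Filter Topology
open scoped ContDiff

namespace Vale.Agent.P088.A

variable {d : ℕ}

lemma c1_v_zero {v : V d → ℝ} {x : V d} (hx : x ∉ tsupport v) : v x = 0 :=
  image_eq_zero_of_notMem_tsupport hx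

lemma c1_pa_zero {v : V d → ℝ} {x : V d} (hx : x ∉ tsupport v) (k : Fin d) : pa k v x = 0 :=
  image_eq_zero_of_notMem_tsupport (fun h => hx (tsupport_pa_subset v k h))

/-- a continuous function vanishing outside `tsupport v` is integrable -/
lemma c1_int {v : V d → ℝ} (hc : HasCompactSupport v) {f : V d → ℝ} (hf : Continuous f)
    (h0 : ∀ x, x ∉ tsupport v → f x = 0) : Integrable f :=
  int_cc hf (HasCompactSupport.intro (K := tsupport v) hc fun x hx => h0 x hx)

/-- the integral of a divergence -/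
lemma c1_div {v : V d → ℝ} (hc : HasCompactSupport v) {F : Fin d → V d → ℝ}
    (hF : ∀ l, ContDiff ℝ 1 (F l)) (h0 : ∀ l x, x ∉ tsupport v → F l x = 0) :
    Integrable (fun x => ∑ l, pa l (F l) x) ∧ ∫ x, ∑ l, pa l (F l) x = 0 := by
  have hcF : ∀ l, HasCompactSupport (F l) := fun l =>
    HasCompactSupport.intro (K := tsupport v) hc fun x hx => h0 l x hx
  have hi : ∀ l, Integrable (pa l (F l)) := fun l =>
    int_cc (pa_continuous (hF l) l) (pa_hasCompactSupport (hcF l) l)
  refine ⟨integrable_finsetSum _ fun l _ => hi l, ?_⟩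
  rw [integral_finsetSum _ fun l _ => hi l]
  exact Finset.sum_eq_zero fun l _ => integral_pa_eq_zero (hF l) (hcF l) l

lemma c1_divop_cont {a : Fin d → Fin d → V d → ℝ} (ha : ∀ j k, ContDiff ℝ 1 (a j k))
    {v : V d → ℝ} (hv : ContDiff ℝ 2 v) : Continuous (divop a v) := by
  unfold divop
  refine continuous_finsetSum _ fun j _ => continuous_finsetSum _ fun k _ => ?_
  exact pa_continuous ((ha j k).mul (pa_contDiff hv (by norm_num) k)) j

lemma c1_Qf_smooth {a : Fin d → Fin d → V d → ℝ} (ha : ∀ j k, ContDiff ℝ 1 (a j k))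
    {v : V d → ℝ} (hv : ContDiff ℝ 2 v) : ContDiff ℝ 1 (Qf a v) := by
  unfold Qf
  refine ContDiff.sum fun j _ => ContDiff.sum fun k _ => ?_
  exact ((ha j k).mul (pa_contDiff hv (by norm_num) j)).mul (pa_contDiff hv (by norm_num) k)

lemma c1_Xd_smooth {X : Fin d → V d → ℝ} (hX : ∀ l, ContDiff ℝ 1 (X l))
    {v : V d → ℝ} (hv : ContDiff ℝ 2 v) : ContDiff ℝ 1 (Xd X v) := by
  unfold Xd
  exact ContDiff.sum fun l _ => (hX l).mul (pa_contDiff hv (by norm_num) l)

lemma c1_dv_cont {X : Fin d → V d → ℝ} (hX : ∀ l, ContDiff ℝ 1 (X l)) : Continuous (dv X) := by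
  unfold dv
  exact continuous_finsetSum _ fun l _ => pa_continuous (hX l) l

lemma c1_diff {f : V d → ℝ} (hf : ContDiff ℝ 1 f) (x : V d) : DifferentiableAt ℝ f x :=
  (hf.differentiable (by norm_num)) x

lemma c1_divop_zero {a : Fin d → Fin d → V d → ℝ} {v : V d → ℝ} {x : V d}
    (hx : x ∉ tsupport v) : divop a v x = 0 := by
  unfold divop
  refine Finset.sum_eq_zero fun j _ => Finset.sum_eq_zero fun k _ => ?_
  have h1 : (fun y => a j k y * pa k v y) =ᶠ[𝓝 x] fun _ => 0 := by
    have hopen : IsOpen (tsupport v)ᶜ := (isClosed_tsupport v).isOpen_compl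
    filter_upwards [hopen.mem_nhds hx] with y hy
    rw [c1_pa_zero hy k, mul_zero]
  rw [pa_congr h1 j, pa_const]

lemma c1_sum3 (f : Fin d → Fin d → Fin d → ℝ) :
    ∑ j, ∑ k, ∑ l, f j k l = ∑ l, ∑ j, ∑ k, f j k l := by
  calc ∑ j, ∑ k, ∑ l, f j k l = ∑ j, ∑ l, ∑ k, f j k l :=
        Finset.sum_congr rfl fun j _ => Finset.sum_comm
    _ = _ := Finset.sum_comm

theorem id1 {a : Fin d → Fin d → V d → ℝ} (ha : ∀ j k, ContDiff ℝ 1 (a j k))
    (hs : ∀ j k x, a j k x = a k j x) {X : Fin d → V d → ℝ} (hX : ∀ l, ContDiff ℝ 1 (X l))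
    {v : V d → ℝ} (hv : ContDiff ℝ 2 v) (hc : HasCompactSupport v) :
    ∫ x, divop a v x * Xd X v x
      = - (∫ x, ∑ j, ∑ k, ∑ l, a j k x * pa k v x * pa j (X l) x * pa l v x)
        + (1 / 2) * (∫ x, dv X x * Qf a v x)
        + (1 / 2) * ∫ x, ∑ j, ∑ k, Xd X (a j k) x * pa j v x * pa k v x := by
  have hpv : ∀ k, ContDiff ℝ 1 (pa k v) := fun k => pa_contDiff hv (by norm_num) k
  have hv1 : ContDiff ℝ 1 v := hv.of_le (by norm_num)
  have hpc : ∀ k, Continuous (pa k v) := fun k => (hpv k).continuous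
  have hXd := c1_Xd_smooth hX hv
  have hQf := c1_Qf_smooth ha hv
  -- continuity and support of the four integrands
  have i1 : Integrable (fun x => divop a v x * Xd X v x) := by
    refine c1_int hc ((c1_divop_cont ha hv).mul hXd.continuous) fun x hx => ?_
    rw [c1_divop_zero hx, zero_mul]
  have i2 : Integrable (fun x => ∑ j, ∑ k, ∑ l,
      a j k x * pa k v x * pa j (X l) x * pa l v x) := by
    refine c1_int hc ?_ fun x hx => ?_
    · refine continuous_finsetSum _ fun j _ => continuous_finsetSum _ fun k _ =>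
        continuous_finsetSum _ fun l _ => ?_
      exact (((ha j k).continuous.mul (hpc k)).mul (pa_continuous (hX l) j)).mul (hpc l)
    · refine Finset.sum_eq_zero fun j _ => Finset.sum_eq_zero fun k _ =>
        Finset.sum_eq_zero fun l _ => ?_
      rw [c1_pa_zero hx l, mul_zero]
  have i3 : Integrable (fun x => dv X x * Qf a v x) := by
    refine c1_int hc ((c1_dv_cont hX).mul hQf.continuous) fun x hx => ?_
    have : Qf a v x = 0 := by
      unfold Qf
      refine Finset.sum_eq_zero fun j _ => Finset.sum_eq_zero fun k _ => ?_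
      rw [c1_pa_zero hx k, mul_zero]
    rw [this, mul_zero]
  have i4 : Integrable (fun x => ∑ j, ∑ k, Xd X (a j k) x * pa j v x * pa k v x) := by
    refine c1_int hc ?_ fun x hx => ?_
    · refine continuous_finsetSum _ fun j _ => continuous_finsetSum _ fun k _ => ?_
      refine (Continuous.mul ?_ (hpc j)).mul (hpc k)
      unfold Xd
      exact continuous_finsetSum _ fun l _ =>
        (hX l).continuous.mul (pa_continuous (ha j k) l)
    · refine Finset.sum_eq_zero fun j _ => Finset.sum_eq_zero fun k _ => ?_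
      rw [c1_pa_zero hx k, mul_zero]
  -- the two divergences
  have hA : ∀ j, ContDiff ℝ 1 (fun y => ∑ k, a j k y * pa k v y) := fun j =>
    ContDiff.sum fun k _ => (ha j k).mul (hpv k)
  obtain ⟨j1, d1⟩ := c1_div (v := v) hc
    (F := fun j y => (∑ k, a j k y * pa k v y) * Xd X v y)
    (fun j => (hA j).mul hXd) (fun j x hx => by
      have : ∑ k, a j k x * pa k v x = 0 := Finset.sum_eq_zero fun k _ => by
        rw [c1_pa_zero hx k, mul_zero]
      simp only [this, zero_mul])
  obtain ⟨j2, d2⟩ := c1_div (v := v) hc (F := fun l y => X l y * Qf a v y)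
    (fun l => (hX l).mul hQf) (fun l x hx => by
      have : Qf a v x = 0 := by
        unfold Qf
        refine Finset.sum_eq_zero fun j _ => Finset.sum_eq_zero fun k _ => ?_
        rw [c1_pa_zero hx k, mul_zero]
      simp only [this, mul_zero])
  -- the pointwise identity
  have key : ∀ x, divop a v x * Xd X v x =
      (∑ j, pa j (fun y => (∑ k, a j k y * pa k v y) * Xd X v y) x) -
      (1 / 2) * (∑ l, pa l (fun y => X l y * Qf a v y) x) -
      (∑ j, ∑ k, ∑ l, a j k x * pa k v x * pa j (X l) x * pa l v x) +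
      (1 / 2) * (dv X x * Qf a v x) +
      (1 / 2) * ∑ j, ∑ k, Xd X (a j k) x * pa j v x * pa k v x := by
    intro x
    have e1 : ∀ j, pa j (fun y => (∑ k, a j k y * pa k v y) * Xd X v y) x =
        (∑ k, pa j (fun y => a j k y * pa k v y) x) * Xd X v x +
        (∑ k, ∑ l, a j k x * pa k v x * pa j (X l) x * pa l v x) +
        ∑ k, ∑ l, a j k x * pa k v x * (X l x * pa l (pa j v) x) := by
      intro j
      rw [pa_mul (c1_diff (hA j) x) (c1_diff hXd x),
        pa_sum _ (fun k _ => c1_diff ((ha j k).mul (hpv k)) x), add_assoc]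
      congr 1
      have e2 : pa j (Xd X v) x = ∑ l, (pa j (X l) x * pa l v x + X l x * pa l (pa j v) x) := by
        unfold Xd
        rw [pa_sum _ (fun l _ => c1_diff ((hX l).mul (hpv l)) x)]
        refine Finset.sum_congr rfl fun l _ => ?_
        rw [pa_mul (c1_diff (hX l) x) (c1_diff (hpv l) x), pa_comm hv j l]
      rw [e2, Finset.sum_mul, ← Finset.sum_add_distrib]
      refine Finset.sum_congr rfl fun k _ => ?_
      rw [Finset.mul_sum, ← Finset.sum_add_distrib]
      refine Finset.sum_congr rfl fun l _ => ?_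
      ring
    have e3 : ∀ l, pa l (fun y => X l y * Qf a v y) x = pa l (X l) x * Qf a v x +
        X l x * ∑ j, ∑ k, (pa l (a j k) x * pa j v x * pa k v x +
          a j k x * pa l (pa j v) x * pa k v x + a j k x * pa j v x * pa l (pa k v) x) := by
      intro l
      rw [pa_mul (c1_diff (hX l) x) (c1_diff hQf x)]
      congr 2
      unfold Qf
      rw [pa_sum _ (fun j _ => c1_diff (ContDiff.sum fun k _ =>
        ((ha j k).mul (hpv j)).mul (hpv k)) x)]
      refine Finset.sum_congr rfl fun j _ => ?_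
      rw [pa_sum _ (fun k _ => c1_diff (((ha j k).mul (hpv j)).mul (hpv k)) x)]
      refine Finset.sum_congr rfl fun k _ => ?_
      rw [pa_mul (c1_diff ((ha j k).mul (hpv j)) x) (c1_diff (hpv k) x),
        pa_mul (c1_diff (ha j k) x) (c1_diff (hpv j) x)]
      ring
    simp only [e1, Finset.sum_add_distrib, e3]
    -- the terms with second derivatives
    have s1 : ∑ j, ∑ k, ∑ l, a j k x * pa k v x * (X l x * pa l (pa j v) x) =
        ∑ l, X l x * ∑ j, ∑ k, a j k x * pa l (pa j v) x * pa k v x := by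
      have : ∀ l, X l x * ∑ j, ∑ k, a j k x * pa l (pa j v) x * pa k v x =
          ∑ j, ∑ k, a j k x * pa k v x * (X l x * pa l (pa j v) x) := by
        intro l
        rw [Finset.mul_sum]
        refine Finset.sum_congr rfl fun j _ => ?_
        rw [Finset.mul_sum]
        refine Finset.sum_congr rfl fun k _ => ?_
        ring
      simp only [this]
      exact c1_sum3 _
    have s2 : ∑ l, X l x * ∑ j, ∑ k, a j k x * pa j v x * pa l (pa k v) x =
        ∑ l, X l x * ∑ j, ∑ k, a j k x * pa l (pa j v) x * pa k v x := by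
      refine Finset.sum_congr rfl fun l _ => ?_
      congr 1
      rw [Finset.sum_comm]
      refine Finset.sum_congr rfl fun j _ => Finset.sum_congr rfl fun k _ => ?_
      rw [hs k j x]
      ring
    have s3 : ∑ j, ∑ k, Xd X (a j k) x * pa j v x * pa k v x =
        ∑ l, X l x * ∑ j, ∑ k, pa l (a j k) x * pa j v x * pa k v x := by
      have : ∀ l, X l x * ∑ j, ∑ k, pa l (a j k) x * pa j v x * pa k v x =
          ∑ j, ∑ k, X l x * pa l (a j k) x * pa j v x * pa k v x := by
        intro l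
        rw [Finset.mul_sum]
        refine Finset.sum_congr rfl fun j _ => ?_
        rw [Finset.mul_sum]
        refine Finset.sum_congr rfl fun k _ => ?_
        ring
      simp only [this]
      rw [← c1_sum3]
      refine Finset.sum_congr rfl fun j _ => Finset.sum_congr rfl fun k _ => ?_
      unfold Xd
      rw [Finset.sum_mul, Finset.sum_mul]
    have s4 : (∑ j, (∑ k, pa j (fun y => a j k y * pa k v y) x) * Xd X v x) =
        divop a v x * Xd X v x := by
      unfold divop
      rw [Finset.sum_mul]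
    have s5 : ∑ l, pa l (X l) x * Qf a v x = dv X x * Qf a v x := by
      unfold dv
      rw [Finset.sum_mul]
    simp only [mul_add, Finset.sum_add_distrib]
    rw [s1, s2, s3, s4, s5]
    ring
  rw [integral_congr_ae (Filter.Eventually.of_forall key)]
  have h1 : Integrable (fun x => (∑ j, pa j (fun y => (∑ k, a j k y * pa k v y) * Xd X v y) x) -
      (1 / 2) * (∑ l, pa l (fun y => X l y * Qf a v y) x)) := j1.sub (j2.const_mul _)
  have h2 : Integrable (fun x =>
      ((∑ j, pa j (fun y => (∑ k, a j k y * pa k v y) * Xd X v y) x) -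
      (1 / 2) * (∑ l, pa l (fun y => X l y * Qf a v y) x)) -
      (∑ j, ∑ k, ∑ l, a j k x * pa k v x * pa j (X l) x * pa l v x)) := h1.sub i2
  have h3 : Integrable (fun x =>
      (((∑ j, pa j (fun y => (∑ k, a j k y * pa k v y) * Xd X v y) x) -
      (1 / 2) * (∑ l, pa l (fun y => X l y * Qf a v y) x)) -
      (∑ j, ∑ k, ∑ l, a j k x * pa k v x * pa j (X l) x * pa l v x)) +
      (1 / 2) * (dv X x * Qf a v x)) := h2.add (i3.const_mul (1 / 2))
  rw [integral_add h3 (i4.const_mul _), integral_add h2 (i3.const_mul _), integral_sub h1 i2,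
    integral_sub j1 (j2.const_mul _), integral_const_mul, integral_const_mul, integral_const_mul,
    d1, d2]
  ring

theorem id2 {a : Fin d → Fin d → V d → ℝ} (ha : ∀ j k, ContDiff ℝ 1 (a j k))
    {w : V d → ℝ} (hw : ContDiff ℝ 1 w) {v : V d → ℝ} (hv : ContDiff ℝ 2 v)
    (hc : HasCompactSupport v) :
    ∫ x, divop a v x * (w x * v x)
      = - (∫ x, w x * Qf a v x) - ∫ x, v x * ∑ j, ∑ k, a j k x * pa k v x * pa j w x := by
  have hpv : ∀ k, ContDiff ℝ 1 (pa k v) := fun k => pa_contDiff hv (by norm_num) k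
  have hv1 : ContDiff ℝ 1 v := hv.of_le (by norm_num)
  have hpc : ∀ k, Continuous (pa k v) := fun k => (hpv k).continuous
  have hQf := c1_Qf_smooth ha hv
  have i3 : Integrable (fun x => w x * Qf a v x) := by
    refine c1_int hc (hw.continuous.mul hQf.continuous) fun x hx => ?_
    have : Qf a v x = 0 := by
      unfold Qf
      refine Finset.sum_eq_zero fun j _ => Finset.sum_eq_zero fun k _ => ?_
      rw [c1_pa_zero hx k, mul_zero]
    rw [this, mul_zero]
  have i4 : Integrable (fun x => v x * ∑ j, ∑ k, a j k x * pa k v x * pa j w x) := by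
    refine c1_int hc ?_ fun x hx => ?_
    · refine hv.continuous.mul (continuous_finsetSum _ fun j _ =>
        continuous_finsetSum _ fun k _ => ?_)
      exact ((ha j k).continuous.mul (hpc k)).mul (pa_continuous hw j)
    · rw [c1_v_zero hx, zero_mul]
  have hA : ∀ j, ContDiff ℝ 1 (fun y => ∑ k, a j k y * pa k v y) := fun j =>
    ContDiff.sum fun k _ => (ha j k).mul (hpv k)
  obtain ⟨j1, d1⟩ := c1_div (v := v) hc
    (F := fun j y => (∑ k, a j k y * pa k v y) * (w y * v y))
    (fun j => (hA j).mul (hw.mul hv1)) (fun j x hx => by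
      simp only [c1_v_zero hx, mul_zero])
  have key : ∀ x, divop a v x * (w x * v x) =
      (∑ j, pa j (fun y => (∑ k, a j k y * pa k v y) * (w y * v y)) x) -
      w x * Qf a v x - v x * ∑ j, ∑ k, a j k x * pa k v x * pa j w x := by
    intro x
    have e1 : ∀ j, pa j (fun y => (∑ k, a j k y * pa k v y) * (w y * v y)) x =
        (∑ k, pa j (fun y => a j k y * pa k v y) x) * (w x * v x) +
        (w x * (∑ k, a j k x * pa j v x * pa k v x) +
        v x * ∑ k, a j k x * pa k v x * pa j w x) := by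
      intro j
      rw [pa_mul (c1_diff (hA j) x) (c1_diff (hw.mul hv1) x),
        pa_sum _ (fun k _ => c1_diff ((ha j k).mul (hpv k)) x),
        pa_mul (c1_diff hw x) (c1_diff hv1 x)]
      congr 1
      rw [Finset.sum_mul, Finset.mul_sum, Finset.mul_sum, ← Finset.sum_add_distrib]
      refine Finset.sum_congr rfl fun k _ => ?_
      ring
    simp only [e1, Finset.sum_add_distrib]
    rw [← Finset.mul_sum, ← Finset.mul_sum, ← Finset.sum_mul]
    unfold divop Qf
    ring
  have h1 : Integrable (fun x =>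
      (∑ j, pa j (fun y => (∑ k, a j k y * pa k v y) * (w y * v y)) x) - w x * Qf a v x) :=
    j1.sub i3
  rw [integral_congr_ae (Filter.Eventually.of_forall key), integral_sub h1 i4,
    integral_sub j1 i3, d1]
  ring

theorem id3 {X : Fin d → V d → ℝ} (hX : ∀ l, ContDiff ℝ 1 (X l))
    {w : V d → ℝ} (hw : ContDiff ℝ 1 w) {v : V d → ℝ} (hv : ContDiff ℝ 1 v)
    (hc : HasCompactSupport v) :
    ∫ x, w x * v x * Xd X v x
      = - (1 / 2) * ∫ x, dv (fun l y => w y * X l y) x * v x ^ 2 := by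
  have hwX : ∀ l, ContDiff ℝ 1 (fun y => w y * X l y) := fun l => hw.mul (hX l)
  have i1 : Integrable (fun x => dv (fun l y => w y * X l y) x * v x ^ 2) := by
    refine c1_int hc ((c1_dv_cont hwX).mul (hv.continuous.pow 2)) fun x hx => ?_
    rw [c1_v_zero hx]
    ring
  obtain ⟨j1, d1⟩ := c1_div (v := v) hc (F := fun l y => (w y * X l y) * v y ^ 2)
    (fun l => (hwX l).mul (hv.pow 2)) (fun l x hx => by
      simp only [c1_v_zero hx]
      ring)
  have key : ∀ x, w x * v x * Xd X v x =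
      (1 / 2) * (∑ l, pa l (fun y => (w y * X l y) * v y ^ 2) x) -
      (1 / 2) * (dv (fun l y => w y * X l y) x * v x ^ 2) := by
    intro x
    have e1 : ∀ l, pa l (fun y => (w y * X l y) * v y ^ 2) x =
        pa l (fun y => w y * X l y) x * v x ^ 2 + 2 * (w x * v x) * (X l x * pa l v x) := by
      intro l
      rw [pa_mul (c1_diff (hwX l) x) (c1_diff (hv.pow 2) x), pa_pow (c1_diff hv x) 2 l]
      simp only [Nat.cast_ofNat, Nat.reduceSub, pow_one]
      ring
    simp only [e1, Finset.sum_add_distrib]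
    rw [← Finset.mul_sum, ← Finset.sum_mul]
    unfold dv Xd
    ring
  rw [integral_congr_ae (Filter.Eventually.of_forall key),
    integral_sub (j1.const_mul _) (i1.const_mul _), integral_const_mul, integral_const_mul, d1]
  ring

end Vale.Agent.P088.A
end

section

set_option linter.all false

/-!
P088-EYM-A2: conjugation and the lower bound by the commutator.
-/

open MeasureTheory Filter Topology
open scoped ContDiff

namespace Vale.Agent.P088.A

variable {d : ℕ}

/-- The field `X^j = a^{jk} ∂_k φ`. -/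
noncomputable def gX (a : Fin d → Fin d → V d → ℝ) (φ : V d → ℝ) (j : Fin d) (x : V d) : ℝ :=
  ∑ k, a j k x * pa k φ x

/-- `p = a^{jk} ∂_j φ ∂_k φ`. -/
noncomputable def gp (a : Fin d → Fin d → V d → ℝ) (φ : V d → ℝ) (x : V d) : ℝ :=
  ∑ j, gX a φ j x * pa j φ x

lemma c2_da {f : V d → ℝ} {n : WithTop ℕ∞} (hf : ContDiff ℝ n f) (hn : n ≠ 0) (x : V d) :
    DifferentiableAt ℝ f x :=
  (hf.differentiable hn) x

lemma c2_gX_contDiff {a : Fin d → Fin d → V d → ℝ} {n : WithTop ℕ∞}
    (ha : ∀ j k, ContDiff ℝ n (a j k))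
    {φ : V d → ℝ} {m : WithTop ℕ∞} (hφ : ContDiff ℝ m φ) (hnm : n + 1 ≤ m) (j : Fin d) :
    ContDiff ℝ n (gX a φ j) := by
  unfold gX
  exact ContDiff.sum fun k _ => (ha j k).mul (pa_contDiff hφ hnm k)

lemma c2_term {a : Fin d → Fin d → V d → ℝ} (ha : ∀ j k, ContDiff ℝ 1 (a j k))
    {φ : V d → ℝ} (hφ : ContDiff ℝ 2 φ)
    {v : V d → ℝ} (hv : ContDiff ℝ 2 v) (τ : ℝ) (x : V d) (j k : Fin d) :
    Real.exp (τ * φ x) * pa j (fun y => a j k y * pa k (fun z => Real.exp (-(τ * φ z)) * v z) y) x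
      = pa j (fun y => a j k y * pa k v y) x
        - τ * (pa j φ x * (a j k x * pa k v x)) - τ * ((a j k x * pa k φ x) * pa j v x)
        - τ * (pa j (fun y => a j k y * pa k φ y) x * v x)
        + τ ^ 2 * (((a j k x * pa k φ x) * pa j φ x) * v x) := by
  have dφ : ∀ y, DifferentiableAt ℝ φ y := fun y => c2_da hφ (by norm_num) y
  have dv' : ∀ y, DifferentiableAt ℝ v y := fun y => c2_da hv (by norm_num) y
  have dτφ : ∀ y, DifferentiableAt ℝ (fun z => -(τ * φ z)) y := fun y =>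
    ((dφ y).const_mul τ).neg
  have dE : ∀ y, DifferentiableAt ℝ (fun z => Real.exp (-(τ * φ z))) y := fun y => (dτφ y).exp
  have hE : ∀ (i : Fin d) (y : V d), pa i (fun z => Real.exp (-(τ * φ z))) y
      = Real.exp (-(τ * φ y)) * (-(τ * pa i φ y)) := by
    intro i y
    rw [pa_exp (dτφ y), pa_neg, pa_const_mul (dφ y)]
  have h1 : (fun y => a j k y * pa k (fun z => Real.exp (-(τ * φ z)) * v z) y)
      = fun y => Real.exp (-(τ * φ y)) * (a j k y * pa k v y
          - τ * ((a j k y * pa k φ y) * v y)) := by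
    funext y
    rw [pa_mul (dE y) (dv' y), hE]
    ring
  have dA : DifferentiableAt ℝ (a j k) x := c2_da (ha j k) (by norm_num) x
  have dpv : DifferentiableAt ℝ (pa k v) x :=
    c2_da (pa_contDiff (k := 1) hv (by norm_num) k) (by norm_num) x
  have dpφ : DifferentiableAt ℝ (pa k φ) x :=
    c2_da (pa_contDiff (k := 1) hφ (by norm_num) k) (by norm_num) x
  have dav : DifferentiableAt ℝ (fun y => a j k y * pa k v y) x := dA.mul dpv
  have daφ : DifferentiableAt ℝ (fun y => a j k y * pa k φ y) x := dA.mul dpφ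
  have daφv : DifferentiableAt ℝ (fun y => (a j k y * pa k φ y) * v y) x := daφ.mul (dv' x)
  have dsub : DifferentiableAt ℝ (fun y => a j k y * pa k v y
      - τ * ((a j k y * pa k φ y) * v y)) x := dav.sub (daφv.const_mul τ)
  rw [h1, pa_mul (dE x) dsub, hE, pa_sub dav (daφv.const_mul τ),
    pa_const_mul daφv, pa_mul daφ (dv' x)]
  have hexp : Real.exp (τ * φ x) * Real.exp (-(τ * φ x)) = 1 := by
    rw [← Real.exp_add]; simp
  set E1 := Real.exp (τ * φ x)
  set E2 := Real.exp (-(τ * φ x))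
  have : ∀ A B C : ℝ, E1 * (E2 * A * B + E2 * C) = (E1 * E2) * (A * B + C) := by
    intro A B C; ring
  rw [this, hexp]
  ring

theorem conj_divop {a : Fin d → Fin d → V d → ℝ} (ha : ∀ j k, ContDiff ℝ 1 (a j k))
    (hs : ∀ j k x, a j k x = a k j x) {φ : V d → ℝ} (hφ : ContDiff ℝ 2 φ)
    {v : V d → ℝ} (hv : ContDiff ℝ 2 v) (τ : ℝ) (x : V d) :
    Real.exp (τ * φ x) * divop a (fun y => Real.exp (-(τ * φ y)) * v y) x
      = divop a v x - 2 * τ * Xd (gX a φ) v x - τ * dv (gX a φ) x * v x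
        + τ ^ 2 * gp a φ x * v x := by
  have e1 : Real.exp (τ * φ x) * divop a (fun y => Real.exp (-(τ * φ y)) * v y) x
      = ∑ j, ∑ k, Real.exp (τ * φ x)
          * pa j (fun y => a j k y * pa k (fun z => Real.exp (-(τ * φ z)) * v z) y) x := by
    unfold divop
    rw [Finset.mul_sum]
    refine Finset.sum_congr rfl fun j _ => ?_
    rw [Finset.mul_sum]
  rw [e1]
  have e2 : ∀ j k, Real.exp (τ * φ x)
          * pa j (fun y => a j k y * pa k (fun z => Real.exp (-(τ * φ z)) * v z) y) x = _ :=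
    fun j k => c2_term ha hφ hv τ x j k
  simp_rw [e2]
  simp_rw [Finset.sum_add_distrib, Finset.sum_sub_distrib]
  have s1 : ∑ j, ∑ k, pa j (fun y => a j k y * pa k v y) x = divop a v x := rfl
  have s2 : ∑ j, ∑ k, τ * (pa j φ x * (a j k x * pa k v x)) = τ * Xd (gX a φ) v x := by
    unfold Xd gX
    rw [Finset.sum_comm, Finset.mul_sum]
    refine Finset.sum_congr rfl fun k _ => ?_
    rw [Finset.sum_mul, Finset.mul_sum]
    refine Finset.sum_congr rfl fun j _ => ?_
    rw [hs j k x]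
    ring
  have s3 : ∑ j, ∑ k, τ * ((a j k x * pa k φ x) * pa j v x) = τ * Xd (gX a φ) v x := by
    unfold Xd gX
    rw [Finset.mul_sum]
    refine Finset.sum_congr rfl fun k _ => ?_
    rw [Finset.sum_mul, Finset.mul_sum]
  have s4 : ∑ j, ∑ k, τ * (pa j (fun y => a j k y * pa k φ y) x * v x)
      = τ * dv (gX a φ) x * v x := by
    unfold dv
    rw [Finset.mul_sum, Finset.sum_mul]
    refine Finset.sum_congr rfl fun j _ => ?_
    have : pa j (gX a φ j) x = ∑ k, pa j (fun y => a j k y * pa k φ y) x := by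
      unfold gX
      rw [pa_sum]
      intro k _
      exact (c2_da (ha j k) (by norm_num) x).mul
        (c2_da (pa_contDiff (k := 1) hφ (by (clear * -; norm_num)) k) (by norm_num) x)
    rw [this, Finset.mul_sum, Finset.sum_mul]
    refine Finset.sum_congr rfl fun k _ => ?_
    ring
  have s5 : ∑ j, ∑ k, τ ^ 2 * (((a j k x * pa k φ x) * pa j φ x) * v x)
      = τ ^ 2 * gp a φ x * v x := by
    unfold gp gX
    rw [Finset.mul_sum, Finset.sum_mul]
    refine Finset.sum_congr rfl fun j _ => ?_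
    rw [Finset.sum_mul, Finset.mul_sum, Finset.sum_mul]
    refine Finset.sum_congr rfl fun k _ => ?_
    ring
  rw [s1, s2, s3, s4, s5]
  ring

lemma c2_zero {v f : V d → ℝ} (hc : HasCompactSupport v)
    (hf : ∀ x, x ∉ tsupport v → f x = 0) : HasCompactSupport f :=
  HasCompactSupport.intro hc hf

lemma c2_v0 {v : V d → ℝ} {x : V d} (hx : x ∉ tsupport v) : v x = 0 :=
  image_eq_zero_of_notMem_tsupport hx

lemma c2_pa0 {v : V d → ℝ} {x : V d} (hx : x ∉ tsupport v) (i : Fin d) : pa i v x = 0 :=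
  image_eq_zero_of_notMem_tsupport fun h => hx (tsupport_pa_subset v i h)

lemma c2_divop0 {a : Fin d → Fin d → V d → ℝ} {v : V d → ℝ} {x : V d} (hx : x ∉ tsupport v) :
    divop a v x = 0 := by
  unfold divop
  refine Finset.sum_eq_zero fun j _ => Finset.sum_eq_zero fun k _ => ?_
  refine image_eq_zero_of_notMem_tsupport fun h => hx ?_
  have h1 := tsupport_pa_subset (fun y => a j k y * pa k v y) j h
  have h2 : tsupport (fun y => a j k y * pa k v y) ⊆ tsupport (pa k v) := tsupport_mul_subset_right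
  exact tsupport_pa_subset v k (h2 h1)

lemma c2_divop_cont {a : Fin d → Fin d → V d → ℝ} (ha : ∀ j k, ContDiff ℝ 1 (a j k))
    {v : V d → ℝ} (hv : ContDiff ℝ 2 v) : Continuous (divop a v) := by
  unfold divop
  refine continuous_finset_sum _ fun j _ => continuous_finset_sum _ fun k _ => ?_
  exact pa_continuous ((ha j k).mul (pa_contDiff (k := 1) hv (by norm_num) k)) j

theorem lower {a : Fin d → Fin d → V d → ℝ} (ha : ∀ j k, ContDiff ℝ 2 (a j k))
    (hs : ∀ j k x, a j k x = a k j x) {φ : V d → ℝ} (hφ : ContDiff ℝ 3 φ)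
    {v : V d → ℝ} (hv : ContDiff ℝ 2 v) (hc : HasCompactSupport v) (τ : ℝ) :
    (∫ x, (divop a v x + τ ^ 2 * gp a φ x * v x) ^ 2)
      + τ * (∫ x, (4 * (∑ j, ∑ k, ∑ l, a j k x * pa k v x * pa j (gX a φ l) x * pa l v x)
          - 2 * ∑ j, ∑ k, Xd (gX a φ) (a j k) x * pa j v x * pa k v x))
      + 2 * τ * (∫ x, v x * ∑ j, ∑ k, a j k x * pa k v x * pa j (dv (gX a φ)) x)
      + 2 * τ ^ 3 * (∫ x, Xd (gX a φ) (gp a φ) x * v x ^ 2)
      ≤ ∫ x, (Real.exp (τ * φ x) * divop a (fun y => Real.exp (-(τ * φ y)) * v y) x) ^ 2 := by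
  have ha1 : ∀ j k, ContDiff ℝ 1 (a j k) := fun j k => (ha j k).of_le (by norm_num)
  have hφ2 : ContDiff ℝ 2 φ := hφ.of_le (by (clear * -; norm_num))
  have hv1 : ContDiff ℝ 1 v := hv.of_le (by norm_num)
  have hX2 : ∀ l, ContDiff ℝ 2 (gX a φ l) := fun l => c2_gX_contDiff ha hφ (by norm_num) l
  have hX1 : ∀ l, ContDiff ℝ 1 (gX a φ l) := fun l => (hX2 l).of_le (by norm_num)
  have hp2 : ContDiff ℝ 2 (gp a φ) := by
    unfold gp
    exact ContDiff.sum fun j _ => (hX2 j).mul (pa_contDiff hφ (by norm_num) j)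
  have hp1 : ContDiff ℝ 1 (gp a φ) := hp2.of_le (by norm_num)
  have hd1 : ContDiff ℝ 1 (dv (gX a φ)) := by
    unfold dv
    exact ContDiff.sum fun l _ => pa_contDiff (hX2 l) (by norm_num) l
  have cD : Continuous (divop a v) := c2_divop_cont ha1 hv
  have cpv : ∀ k, Continuous (pa k v) := fun k => pa_continuous hv1 k
  have cX : ∀ l, Continuous (gX a φ l) := fun l => (hX1 l).continuous
  have cXv : Continuous (Xd (gX a φ) v) := by
    unfold Xd
    exact continuous_finset_sum _ fun l _ => (cX l).mul (cpv l)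
  have cXp : Continuous (Xd (gX a φ) (gp a φ)) := by
    unfold Xd
    exact continuous_finset_sum _ fun l _ => (cX l).mul (pa_continuous hp1 l)
  have cXa : ∀ j k, Continuous (Xd (gX a φ) (a j k)) := by
    intro j k
    unfold Xd
    exact continuous_finset_sum _ fun l _ => (cX l).mul (pa_continuous (ha1 j k) l)
  have cv : Continuous v := hv.continuous
  have cp : Continuous (gp a φ) := hp1.continuous
  have cd : Continuous (dv (gX a φ)) := hd1.continuous
  have zXv : ∀ x, x ∉ tsupport v → Xd (gX a φ) v x = 0 := by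
    intro x hx
    unfold Xd
    exact Finset.sum_eq_zero fun l _ => by rw [c2_pa0 hx]; ring
  -- the two parts
  set S : V d → ℝ := fun x => divop a v x + τ ^ 2 * gp a φ x * v x with hS
  set A : V d → ℝ := fun x => - 2 * τ * Xd (gX a φ) v x - τ * dv (gX a φ) x * v x with hA
  have cS : Continuous S := cD.add ((continuous_const.mul cp).mul cv)
  have cA : Continuous A := (continuous_const.mul cXv).sub ((continuous_const.mul cd).mul cv)
  have zS : ∀ x, x ∉ tsupport v → S x = 0 := by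
    intro x hx
    simp only [hS]
    rw [c2_divop0 hx, c2_v0 hx]; ring
  have zA : ∀ x, x ∉ tsupport v → A x = 0 := by
    intro x hx
    simp only [hA]
    rw [zXv x hx, c2_v0 hx]; ring
  have hconj : ∀ x, Real.exp (τ * φ x) * divop a (fun y => Real.exp (-(τ * φ y)) * v y) x
      = S x + A x := by
    intro x
    rw [conj_divop ha1 hs hφ2 hv]
    simp only [hS, hA]
    ring
  have iSS : Integrable (fun x => S x ^ 2) :=
    int_cc (cS.pow 2) (c2_zero hc fun x hx => by rw [zS x hx]; ring)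
  have iSA : Integrable (fun x => S x * A x) :=
    int_cc (cS.mul cA) (c2_zero hc fun x hx => by rw [zS x hx]; ring)
  have iAA : Integrable (fun x => A x ^ 2) :=
    int_cc (cA.pow 2) (c2_zero hc fun x hx => by rw [zA x hx]; ring)
  have step1 : (∫ x, S x ^ 2) + 2 * (∫ x, S x * A x)
      ≤ ∫ x, (Real.exp (τ * φ x) * divop a (fun y => Real.exp (-(τ * φ y)) * v y) x) ^ 2 := by
    have e : (fun x => (Real.exp (τ * φ x)
        * divop a (fun y => Real.exp (-(τ * φ y)) * v y) x) ^ 2)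
        = fun x => (S x ^ 2 + 2 * (S x * A x)) + A x ^ 2 := by
      funext x
      rw [hconj x]; ring
    have j1 : Integrable (fun x => S x ^ 2 + 2 * (S x * A x)) := iSS.add (iSA.const_mul 2)
    rw [e, integral_add j1 iAA, integral_add iSS (iSA.const_mul 2), integral_const_mul]
    have : 0 ≤ ∫ x, A x ^ 2 := integral_nonneg fun x => sq_nonneg _
    linarith only [this]
  -- integrability of the pieces of `S A`
  have i1 : Integrable (fun x => divop a v x * Xd (gX a φ) v x) :=
    int_cc (cD.mul cXv) (c2_zero hc fun x hx => by rw [zXv x hx]; ring)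
  have i2 : Integrable (fun x => divop a v x * (dv (gX a φ) x * v x)) :=
    int_cc (cD.mul (cd.mul cv)) (c2_zero hc fun x hx => by rw [c2_v0 hx]; ring)
  have i3 : Integrable (fun x => gp a φ x * v x * Xd (gX a φ) v x) :=
    int_cc ((cp.mul cv).mul cXv) (c2_zero hc fun x hx => by rw [c2_v0 hx]; ring)
  have i6 : Integrable (fun x => gp a φ x * dv (gX a φ) x * v x ^ 2) :=
    int_cc ((cp.mul cd).mul (cv.pow 2)) (c2_zero hc fun x hx => by rw [c2_v0 hx]; ring)
  have i5 : Integrable (fun x => Xd (gX a φ) (gp a φ) x * v x ^ 2) :=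
    int_cc (cXp.mul (cv.pow 2)) (c2_zero hc fun x hx => by rw [c2_v0 hx]; ring)
  have iT1 : Integrable (fun x => ∑ j, ∑ k, ∑ l, a j k x * pa k v x * pa j (gX a φ l) x
      * pa l v x) := by
    refine int_cc ?_ (c2_zero hc fun x hx => ?_)
    · refine continuous_finset_sum _ fun j _ => continuous_finset_sum _ fun k _ =>
        continuous_finset_sum _ fun l _ => ?_
      exact (((ha1 j k).continuous.mul (cpv k)).mul (pa_continuous (hX1 l) j)).mul (cpv l)
    · refine Finset.sum_eq_zero fun j _ => Finset.sum_eq_zero fun k _ =>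
        Finset.sum_eq_zero fun l _ => ?_
      rw [c2_pa0 hx l]; ring
  have iT3 : Integrable (fun x => ∑ j, ∑ k, Xd (gX a φ) (a j k) x * pa j v x * pa k v x) := by
    refine int_cc ?_ (c2_zero hc fun x hx => ?_)
    · refine continuous_finset_sum _ fun j _ => continuous_finset_sum _ fun k _ => ?_
      exact ((cXa j k).mul (cpv j)).mul (cpv k)
    · refine Finset.sum_eq_zero fun j _ => Finset.sum_eq_zero fun k _ => ?_
      rw [c2_pa0 hx k]; ring
  have hSA : (∫ x, S x * A x)
      = - 2 * τ * (∫ x, divop a v x * Xd (gX a φ) v x)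
        - τ * (∫ x, divop a v x * (dv (gX a φ) x * v x))
        - 2 * τ ^ 3 * (∫ x, gp a φ x * v x * Xd (gX a φ) v x)
        - τ ^ 3 * (∫ x, gp a φ x * dv (gX a φ) x * v x ^ 2) := by
    have e : (fun x => S x * A x) = fun x =>
        (((- 2 * τ) * (divop a v x * Xd (gX a φ) v x)
          - τ * (divop a v x * (dv (gX a φ) x * v x)))
          - (2 * τ ^ 3) * (gp a φ x * v x * Xd (gX a φ) v x))
          - τ ^ 3 * (gp a φ x * dv (gX a φ) x * v x ^ 2) := by
      funext x
      simp only [hS, hA]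
      ring
    have j1 : Integrable (fun x => (- 2 * τ) * (divop a v x * Xd (gX a φ) v x)) :=
      i1.const_mul _
    have j2 : Integrable (fun x => τ * (divop a v x * (dv (gX a φ) x * v x))) := i2.const_mul _
    have j3 : Integrable (fun x => (2 * τ ^ 3) * (gp a φ x * v x * Xd (gX a φ) v x)) :=
      i3.const_mul _
    have j6 : Integrable (fun x => τ ^ 3 * (gp a φ x * dv (gX a φ) x * v x ^ 2)) :=
      i6.const_mul _
    have j12 : Integrable (fun x => (- 2 * τ) * (divop a v x * Xd (gX a φ) v x)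
          - τ * (divop a v x * (dv (gX a φ) x * v x))) := j1.sub j2
    have j123 : Integrable (fun x => ((- 2 * τ) * (divop a v x * Xd (gX a φ) v x)
          - τ * (divop a v x * (dv (gX a φ) x * v x)))
          - (2 * τ ^ 3) * (gp a φ x * v x * Xd (gX a φ) v x)) := j12.sub j3
    rw [e, integral_sub j123 j6, integral_sub j12 j3, integral_sub j1 j2, integral_const_mul,
      integral_const_mul, integral_const_mul, integral_const_mul]
  have h1 := id1 ha1 hs hX1 hv hc
  have h2 := id2 ha1 hd1 hv hc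
  have h3 := id3 hX1 hp1 hv1 hc
  have hdv : ∀ x, dv (fun l y => gp a φ y * gX a φ l y) x
      = Xd (gX a φ) (gp a φ) x + gp a φ x * dv (gX a φ) x := by
    intro x
    unfold dv Xd
    rw [Finset.mul_sum, ← Finset.sum_add_distrib]
    refine Finset.sum_congr rfl fun l _ => ?_
    rw [pa_mul (c2_da hp1 (by norm_num) x) (c2_da (hX1 l) (by norm_num) x)]
    ring
  have h3' : (∫ x, dv (fun l y => gp a φ y * gX a φ l y) x * v x ^ 2)
      = (∫ x, Xd (gX a φ) (gp a φ) x * v x ^ 2)
        + ∫ x, gp a φ x * dv (gX a φ) x * v x ^ 2 := by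
    rw [← integral_add i5 i6]
    refine integral_congr_ae (Filter.Eventually.of_forall fun x => ?_)
    simp only [hdv x]
    ring
  have hT : (∫ x, (4 * (∑ j, ∑ k, ∑ l, a j k x * pa k v x * pa j (gX a φ l) x * pa l v x)
          - 2 * ∑ j, ∑ k, Xd (gX a φ) (a j k) x * pa j v x * pa k v x))
      = 4 * (∫ x, ∑ j, ∑ k, ∑ l, a j k x * pa k v x * pa j (gX a φ l) x * pa l v x)
        - 2 * ∫ x, ∑ j, ∑ k, Xd (gX a φ) (a j k) x * pa j v x * pa k v x := by
    rw [integral_sub (iT1.const_mul 4) (iT3.const_mul 2), integral_const_mul, integral_const_mul]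
  rw [hT]
  rw [h3'] at h3
  refine le_trans (le_of_eq ?_) step1
  rw [hSA, h1, h2, h3]
  simp only [hS]
  ring

end Vale.Agent.P088.A
end

section

set_option linter.all false

/-!
P088-EYM-A3: pointwise bounds for the convexified weight `φ = exp (μ ψ)`.
-/

open MeasureTheory Filter Topology
open scoped ContDiff

namespace Vale.Agent.P088.A

variable {d : ℕ}

/-- Global coefficients: `C²`, symmetric, positive definite. -/
structure GC (a : Fin d → Fin d → V d → ℝ) : Prop where
  smooth : ∀ j k, ContDiff ℝ 2 (a j k)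
  symm : ∀ j k x, a j k x = a k j x
  pos : ∀ x, ∀ ξ : Fin d → ℝ, ξ ≠ 0 → 0 < ∑ j, ∑ k, a j k x * ξ j * ξ k

lemma c3_pos {X : Type*} [TopologicalSpace X] {K : Set X} (hK : IsCompact K) {f : X → ℝ}
    (hf : Continuous f) (hp : ∀ x ∈ K, 0 < f x) : ∃ c > 0, ∀ x ∈ K, c ≤ f x := by
  rcases K.eq_empty_or_nonempty with h | h
  · subst h
    exact ⟨1, one_pos, fun x hx => absurd hx (Set.notMem_empty x)⟩
  · obtain ⟨x, hx, hmin⟩ := hK.exists_isMinOn h hf.continuousOn
    exact ⟨f x, hp x hx, fun y hy => hmin hy⟩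

lemma c3_bd {X : Type*} [TopologicalSpace X] {K : Set X} (hK : IsCompact K) {f : X → ℝ}
    (hf : Continuous f) : ∃ C > 0, ∀ x ∈ K, |f x| ≤ C := by
  obtain ⟨C, hC⟩ := hK.exists_bound_of_continuousOn hf.continuousOn
  exact ⟨max C 1, lt_max_of_lt_right one_pos, fun x hx =>
    (Real.norm_eq_abs (f x) ▸ hC x hx).trans (le_max_left _ _)⟩

/-- uniform ellipticity on compact sets -/
theorem GC.ellip {a : Fin d → Fin d → V d → ℝ} (ha : GC a) {K : Set (V d)} (hK : IsCompact K) :
    ∃ θ > 0, ∀ x ∈ K, ∀ ξ : Fin d → ℝ, θ * ∑ j, ξ j ^ 2 ≤ ∑ j, ∑ k, a j k x * ξ j * ξ k := by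
  have hS : IsCompact (K ×ˢ Metric.sphere (0 : V d) 1) := hK.prod (isCompact_sphere 0 1)
  have hF : Continuous fun p : V d × V d => ∑ j, ∑ k, a j k p.1 * p.2 j * p.2 k := by
    refine continuous_finset_sum _ fun j _ => continuous_finset_sum _ fun k _ => ?_
    have h1 := (ha.smooth j k).continuous
    fun_prop
  obtain ⟨θ, hθ, hmin⟩ := c3_pos hS hF (by
    rintro ⟨x, η⟩ ⟨_, hη⟩
    refine ha.pos x (fun j => η j) ?_
    intro h0
    have : η = 0 := by
      ext j
      exact congrFun h0 j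
    rw [this] at hη
    simp only [mem_sphere_iff_norm, sub_self, norm_zero, zero_ne_one] at hη)
  refine ⟨θ, hθ, fun x hx ξ => ?_⟩
  by_cases h0 : ξ = 0
  · subst h0
    simp only [Pi.zero_apply, ne_eq, OfNat.ofNat_ne_zero, not_false_eq_true, zero_pow, Finset.sum_const_zero, mul_zero, Std.le_refl]
  set η : V d := WithLp.toLp 2 ξ with hη
  have hηj : ∀ j, η j = ξ j := fun j => rfl
  have hn : ‖η‖ ^ 2 = ∑ j, ξ j ^ 2 := by
    rw [EuclideanSpace.norm_sq_eq]
    exact Finset.sum_congr rfl fun j _ => by rw [hηj, Real.norm_eq_abs, sq_abs]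
  have hη0 : η ≠ 0 := by
    intro h
    apply h0
    funext j
    rw [← hηj, h]
    rfl
  have hnp : 0 < ‖η‖ := norm_pos_iff.2 hη0
  have hs : ‖η‖⁻¹ • η ∈ Metric.sphere (0 : V d) 1 := by
    rw [mem_sphere_zero_iff_norm, norm_smul, norm_inv, norm_norm, inv_mul_cancel₀ hnp.ne']
  have h1 := hmin (x, ‖η‖⁻¹ • η) ⟨hx, hs⟩
  have h2 : ∑ j, ∑ k, a j k x * (‖η‖⁻¹ • η) j * (‖η‖⁻¹ • η) k =
      (∑ j, ∑ k, a j k x * ξ j * ξ k) / ‖η‖ ^ 2 := by
    rw [Finset.sum_div]
    refine Finset.sum_congr rfl fun j _ => ?_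
    rw [Finset.sum_div]
    refine Finset.sum_congr rfl fun k _ => ?_
    have e1 : (‖η‖⁻¹ • η) j = ‖η‖⁻¹ * ξ j := rfl
    have e2 : (‖η‖⁻¹ • η) k = ‖η‖⁻¹ * ξ k := rfl
    rw [e1, e2]
    (clear * - hη0; field_simp)
  simp only at h1
  rw [h2, le_div_iff₀ (by positivity)] at h1
  rw [← hn]
  exact h1

lemma c3_gX_contDiff {a : Fin d → Fin d → V d → ℝ} (ha : GC a) {ψ : V d → ℝ}
    (hψ : ContDiff ℝ ∞ ψ) (l : Fin d) : ContDiff ℝ 2 (gX a ψ l) := by
  unfold gX
  refine ContDiff.sum fun k _ => (ha.smooth l k).mul ?_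
  exact (pa_contDiff_infty hψ k).of_le (by norm_cast)

lemma c3_gp_contDiff {a : Fin d → Fin d → V d → ℝ} (ha : GC a) {ψ : V d → ℝ}
    (hψ : ContDiff ℝ ∞ ψ) : ContDiff ℝ 2 (gp a ψ) := by
  unfold gp
  refine ContDiff.sum fun k _ => (c3_gX_contDiff ha hψ k).mul ?_
  exact (pa_contDiff_infty hψ k).of_le (by norm_cast)

lemma c3_pa_phi {ψ : V d → ℝ} (hψ : ContDiff ℝ ∞ ψ) (μ : ℝ) (k : Fin d) (x : V d) :
    pa k (fun y => Real.exp (μ * ψ y)) x = μ * Real.exp (μ * ψ x) * pa k ψ x := by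
  have hd : Differentiable ℝ ψ := hψ.differentiable (by norm_num)
  rw [pa_exp ((hd x).const_mul μ), pa_const_mul (hd x)]
  ring

lemma c3_gX_phi (a : Fin d → Fin d → V d → ℝ) {ψ : V d → ℝ}
    (hψ : ContDiff ℝ ∞ ψ) (μ : ℝ) (l : Fin d) :
    gX a (fun y => Real.exp (μ * ψ y)) l =
      fun x => (μ * Real.exp (μ * ψ x)) * gX a ψ l x := by
  funext x
  unfold gX
  rw [Finset.mul_sum]
  refine Finset.sum_congr rfl fun k _ => ?_
  rw [c3_pa_phi hψ]
  ring

lemma c3_gp_phi (a : Fin d → Fin d → V d → ℝ) {ψ : V d → ℝ}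
    (hψ : ContDiff ℝ ∞ ψ) (μ : ℝ) :
    gp a (fun y => Real.exp (μ * ψ y)) =
      fun x => (μ * Real.exp (μ * ψ x)) ^ 2 * gp a ψ x := by
  funext x
  unfold gp
  rw [Finset.mul_sum]
  refine Finset.sum_congr rfl fun k _ => ?_
  rw [c3_pa_phi hψ, c3_gX_phi a hψ]
  ring

lemma c3_pa_mulphi {ψ : V d → ℝ} (hψ : ContDiff ℝ ∞ ψ) (μ : ℝ) (j : Fin d) {f : V d → ℝ}
    (hf : Differentiable ℝ f) (x : V d) :
    pa j (fun x => (μ * Real.exp (μ * ψ x)) * f x) x =
      μ ^ 2 * Real.exp (μ * ψ x) * pa j ψ x * f x + μ * Real.exp (μ * ψ x) * pa j f x := by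
  have hd : Differentiable ℝ ψ := hψ.differentiable (by norm_num)
  have hE : Differentiable ℝ fun y => Real.exp (μ * ψ y) := (hd.const_mul μ).exp
  rw [pa_mul ((hE x).const_mul μ) (hf x), pa_const_mul (hE x), c3_pa_phi hψ]
  ring

lemma c3_pa_sqphi {ψ : V d → ℝ} (hψ : ContDiff ℝ ∞ ψ) (μ : ℝ) (j : Fin d) {f : V d → ℝ}
    (hf : Differentiable ℝ f) (x : V d) :
    pa j (fun x => (μ * Real.exp (μ * ψ x)) ^ 2 * f x) x =
      2 * μ ^ 3 * Real.exp (μ * ψ x) ^ 2 * pa j ψ x * f x +
        μ ^ 2 * Real.exp (μ * ψ x) ^ 2 * pa j f x := by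
  have hd : Differentiable ℝ ψ := hψ.differentiable (by norm_num)
  have hE : Differentiable ℝ fun y => Real.exp (μ * ψ y) := (hd.const_mul μ).exp
  have hE2 : Differentiable ℝ fun y => μ * Real.exp (μ * ψ y) := hE.const_mul μ
  have hE3 : DifferentiableAt ℝ (fun y => (μ * Real.exp (μ * ψ y)) ^ 2) x := (hE2 x).fun_pow 2
  rw [pa_mul hE3 (hf x), pa_pow (hE2 x), pa_const_mul (hE x), c3_pa_phi hψ]
  norm_num
  ring

/-- a quadratic form with bounded coefficients -/
lemma c3_quad (B : Fin d → Fin d → ℝ) {M : ℝ} (hB : ∀ k l, |B k l| ≤ M) (ξ : Fin d → ℝ) :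
    - (M * d) * ∑ j, ξ j ^ 2 ≤ ∑ k, ∑ l, B k l * ξ k * ξ l := by
  have h1 : ∀ k l, - (M / 2 * (ξ k ^ 2 + ξ l ^ 2)) ≤ B k l * ξ k * ξ l := by
    intro k l
    have h2 := abs_le.1 (hB k l)
    have h3 : |B k l * ξ k * ξ l| ≤ M / 2 * (ξ k ^ 2 + ξ l ^ 2) := by
      rw [mul_assoc, abs_mul]
      have h4 : |ξ k * ξ l| ≤ (ξ k ^ 2 + ξ l ^ 2) / 2 := by
        rw [abs_le]
        constructor
        · nlinarith only [sq_nonneg (ξ k + ξ l)]
        · nlinarith [sq_nonneg (ξ k - ξ l)]
      have h5 : 0 ≤ M := (abs_nonneg _).trans (hB k l)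
      calc |B k l| * |ξ k * ξ l| ≤ M * ((ξ k ^ 2 + ξ l ^ 2) / 2) :=
            mul_le_mul (hB k l) h4 (abs_nonneg _) h5
        _ = _ := by ring
    exact (abs_le.1 h3).1
  calc - (M * d) * ∑ j, ξ j ^ 2
      = ∑ k, ∑ l, - (M / 2 * (ξ k ^ 2 + ξ l ^ 2)) := by
        have e1 : ∀ k : Fin d, ∑ l, - (M / 2 * (ξ k ^ 2 + ξ l ^ 2)) =
            - (M / 2) * (d * ξ k ^ 2 + ∑ l, ξ l ^ 2) := by
          intro k
          rw [show (d : ℝ) * ξ k ^ 2 = ∑ l : Fin d, ξ k ^ 2 by simp only [Finset.sum_const, Finset.card_univ, Fintype.card_fin, nsmul_eq_mul], ← Finset.sum_add_distrib,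
            Finset.mul_sum]
          exact Finset.sum_congr rfl fun l _ => by ring
        rw [Finset.sum_congr rfl fun k _ => e1 k, ← Finset.mul_sum, Finset.sum_add_distrib,
          ← Finset.mul_sum]
        simp only [Finset.sum_const, Finset.card_univ, Fintype.card_fin, nsmul_eq_mul]
        ring
    _ ≤ _ := Finset.sum_le_sum fun k _ => Finset.sum_le_sum fun l _ => h1 k l

theorem weight_bounds {a : Fin d → Fin d → V d → ℝ} (ha : GC a) {ψ : V d → ℝ}
    (hψ : ContDiff ℝ ∞ ψ) {K : Set (V d)} (hK : IsCompact K)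
    (hd : ∀ x ∈ K, ∃ i, pa i ψ x ≠ 0) :
    ∃ c₀ > 0, ∃ C₀ > 0, ∀ μ : ℝ, 1 ≤ μ → ∀ x ∈ K,
      (∀ ξ : Fin d → ℝ, - (C₀ * μ * Real.exp (μ * ψ x)) * (∑ j, ξ j ^ 2)
        ≤ 4 * (∑ j, ∑ k, ∑ l, a j k x * ξ k * pa j (gX a (fun y => Real.exp (μ * ψ y)) l) x * ξ l)
          - 2 * ∑ j, ∑ k, Xd (gX a (fun y => Real.exp (μ * ψ y))) (a j k) x * ξ j * ξ k) ∧
      (c₀ * μ ^ 4 - C₀ * μ ^ 3) * Real.exp (μ * ψ x) ^ 3
        ≤ Xd (gX a (fun y => Real.exp (μ * ψ y))) (gp a (fun y => Real.exp (μ * ψ y))) x ∧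
      0 ≤ gp a (fun y => Real.exp (μ * ψ y)) x ∧
      gp a (fun y => Real.exp (μ * ψ y)) x ≤ C₀ * μ ^ 2 * Real.exp (μ * ψ x) ^ 2 := by
  -- the functions of `ψ`
  have hY := fun l => c3_gX_contDiff ha hψ l
  have hP := c3_gp_contDiff ha hψ
  have hYd : ∀ l, Differentiable ℝ (gX a ψ l) := fun l => (hY l).differentiable (by norm_num)
  have hPd : Differentiable ℝ (gp a ψ) := hP.differentiable (by norm_num)
  have hPeq : ∀ x, gp a ψ x = ∑ j, ∑ k, a j k x * pa j ψ x * pa k ψ x := by
    intro x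
    unfold gp gX
    refine Finset.sum_congr rfl fun j _ => ?_
    rw [Finset.sum_mul]
    exact Finset.sum_congr rfl fun k _ => by ring
  obtain ⟨c, hc, hcP⟩ := c3_pos hK hP.continuous (fun x hx => by
    rw [hPeq]
    refine ha.pos x (fun j => pa j ψ x) ?_
    obtain ⟨i, hi⟩ := hd x hx
    intro h0
    exact hi (congrFun h0 i))
  obtain ⟨C1, hC1, hC1P⟩ := c3_bd hK hP.continuous
  -- `Xd Y P`
  have hXP : Continuous fun x => Xd (gX a ψ) (gp a ψ) x := by
    unfold Xd
    exact continuous_finset_sum _ fun l _ =>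
      (hY l).continuous.mul (pa_continuous (hP.of_le (by norm_num)) l)
  obtain ⟨C2, hC2, hC2P⟩ := c3_bd hK hXP
  -- the form `B`
  have hB : ∀ k l, Continuous fun x => 4 * (∑ j, a j k x * pa j (gX a ψ l) x) -
      2 * Xd (gX a ψ) (a k l) x := by
    intro k l
    unfold Xd
    refine (continuous_const.mul (continuous_finset_sum _ fun j _ =>
      (ha.smooth j k).continuous.mul (pa_continuous ((hY l).of_le (by norm_num)) j))).sub
      (continuous_const.mul (continuous_finset_sum _ fun m _ =>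
      (hY m).continuous.mul (pa_continuous ((ha.smooth k l).of_le (by norm_num)) m)))
  choose M hM hMB using fun k l => c3_bd hK (hB k l)
  set M0 : ℝ := ∑ k, ∑ l, M k l with hM0
  have hM0le : ∀ k l, M k l ≤ M0 := by
    intro k l
    rw [hM0]
    calc M k l ≤ ∑ l', M k l' :=
          Finset.single_le_sum (fun l' _ => (hM k l').le) (Finset.mem_univ l)
      _ ≤ _ := Finset.single_le_sum (f := fun k' => ∑ l', M k' l')
          (fun k' _ => Finset.sum_nonneg fun l' _ => (hM k' l').le) (Finset.mem_univ k)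
  have hM0nn : 0 ≤ M0 := Finset.sum_nonneg fun k _ => Finset.sum_nonneg fun l _ => (hM k l).le
  refine ⟨c ^ 2, by positivity, M0 * d + C1 + C2, by (clear * - hM0nn hC1 hC2; positivity), ?_⟩
  intro μ hμ x hx
  have hμ0 : 0 < μ := by linarith only [hμ]
  set e : ℝ := Real.exp (μ * ψ x) with he
  have he0 : 0 < e := Real.exp_pos _
  have hPc := hcP x hx
  have hPC := (abs_le.1 (hC1P x hx)).2
  have hgp : gp a (fun y => Real.exp (μ * ψ y)) x = (μ * e) ^ 2 * gp a ψ x := by
    rw [c3_gp_phi a hψ]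
  have hMd : 0 ≤ M0 * d := by (clear * - hM0nn; positivity)
  refine ⟨fun ξ => ?_, ?_, ?_, ?_⟩
  · -- the quadratic form
    have e1 : ∑ j, ∑ k, ∑ l, a j k x * ξ k * pa j (gX a (fun y => Real.exp (μ * ψ y)) l) x * ξ l =
        μ ^ 2 * e * (∑ k, gX a ψ k x * ξ k) ^ 2 +
          μ * e * ∑ k, ∑ l, (∑ j, a j k x * pa j (gX a ψ l) x) * ξ k * ξ l := by
      have e2 : ∀ j k l, a j k x * ξ k * pa j (gX a (fun y => Real.exp (μ * ψ y)) l) x * ξ l =
          μ ^ 2 * e * ((a j k x * pa j ψ x * ξ k) * (gX a ψ l x * ξ l)) +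
            μ * e * (a j k x * pa j (gX a ψ l) x * ξ k * ξ l) := by
        intro j k l
        rw [c3_gX_phi a hψ, c3_pa_mulphi hψ μ j (hYd l)]
        ring
      have e3 : ∑ j, ∑ k, a j k x * pa j ψ x * ξ k = ∑ k, gX a ψ k x * ξ k := by
        rw [Finset.sum_comm]
        refine Finset.sum_congr rfl fun k _ => ?_
        unfold gX
        rw [Finset.sum_mul]
        exact Finset.sum_congr rfl fun j _ => by rw [ha.symm j k x]
      calc _ = ∑ j, ∑ k, ∑ l, (μ ^ 2 * e * ((a j k x * pa j ψ x * ξ k) * (gX a ψ l x * ξ l)) +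
            μ * e * (a j k x * pa j (gX a ψ l) x * ξ k * ξ l)) :=
            Finset.sum_congr rfl fun j _ => Finset.sum_congr rfl fun k _ =>
              Finset.sum_congr rfl fun l _ => e2 j k l
        _ = μ ^ 2 * e * ((∑ j, ∑ k, a j k x * pa j ψ x * ξ k) * (∑ l, gX a ψ l x * ξ l)) +
            μ * e * ∑ j, ∑ k, ∑ l, a j k x * pa j (gX a ψ l) x * ξ k * ξ l := by
            simp only [Finset.sum_add_distrib, ← Finset.mul_sum, ← Finset.sum_mul]
        _ = _ := by
            rw [e3, ← sq]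
            congr 2
            rw [Finset.sum_comm]
            refine Finset.sum_congr rfl fun k _ => ?_
            rw [Finset.sum_comm]
            refine Finset.sum_congr rfl fun l _ => ?_
            rw [Finset.sum_mul, Finset.sum_mul]
    have e4 : ∑ j, ∑ k, Xd (gX a (fun y => Real.exp (μ * ψ y))) (a j k) x * ξ j * ξ k =
        μ * e * ∑ k, ∑ l, Xd (gX a ψ) (a k l) x * ξ k * ξ l := by
      rw [Finset.mul_sum]
      refine Finset.sum_congr rfl fun j _ => ?_
      rw [Finset.mul_sum]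
      refine Finset.sum_congr rfl fun k _ => ?_
      have e5 : Xd (gX a (fun y => Real.exp (μ * ψ y))) (a j k) x =
          μ * e * Xd (gX a ψ) (a j k) x := by
        unfold Xd
        rw [Finset.mul_sum]
        refine Finset.sum_congr rfl fun l _ => ?_
        rw [c3_gX_phi a hψ]
        ring
      rw [e5]
      ring
    rw [e1, e4]
    have h6 := c3_quad (fun k l => 4 * (∑ j, a j k x * pa j (gX a ψ l) x) -
      2 * Xd (gX a ψ) (a k l) x) (M := M0) (fun k l => (hMB k l x hx).trans (hM0le k l)) ξ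
    have e7 : ∑ k, ∑ l, (4 * (∑ j, a j k x * pa j (gX a ψ l) x) -
        2 * Xd (gX a ψ) (a k l) x) * ξ k * ξ l =
        4 * (∑ k, ∑ l, (∑ j, a j k x * pa j (gX a ψ l) x) * ξ k * ξ l) -
        2 * ∑ k, ∑ l, Xd (gX a ψ) (a k l) x * ξ k * ξ l := by
      rw [Finset.mul_sum, Finset.mul_sum, ← Finset.sum_sub_distrib]
      refine Finset.sum_congr rfl fun k _ => ?_
      rw [Finset.mul_sum, Finset.mul_sum, ← Finset.sum_sub_distrib]
      exact Finset.sum_congr rfl fun l _ => by ring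
    rw [e7] at h6
    have h8 : 0 ≤ μ ^ 2 * e * (∑ k, gX a ψ k x * ξ k) ^ 2 := by (clear * - hμ; positivity)
    have h9 : 0 ≤ ∑ j, ξ j ^ 2 := Finset.sum_nonneg fun j _ => sq_nonneg _
    have h10 : 0 < μ * e := by (clear * - hμ; positivity)
    have h11 := mul_le_mul_of_nonneg_left h6 h10.le
    have h12 : 0 ≤ (C1 + C2) * (μ * e) * ∑ j, ξ j ^ 2 := by (clear * - hC1 hC2 hμ; positivity)
    linarith
  · -- the field derivative of `p`
    have e1 : Xd (gX a (fun y => Real.exp (μ * ψ y))) (gp a (fun y => Real.exp (μ * ψ y))) x =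
        2 * μ ^ 4 * e ^ 3 * gp a ψ x ^ 2 + μ ^ 3 * e ^ 3 * Xd (gX a ψ) (gp a ψ) x := by
      have e2 : ∀ l, gX a (fun y => Real.exp (μ * ψ y)) l x *
          pa l (gp a (fun y => Real.exp (μ * ψ y))) x =
          2 * μ ^ 4 * e ^ 3 * gp a ψ x * (gX a ψ l x * pa l ψ x) +
            μ ^ 3 * e ^ 3 * (gX a ψ l x * pa l (gp a ψ) x) := by
        intro l
        rw [c3_gp_phi a hψ, c3_pa_sqphi hψ μ l hPd, c3_gX_phi a hψ]
        ring
      unfold Xd
      rw [Finset.sum_congr rfl fun l _ => e2 l, Finset.sum_add_distrib, ← Finset.mul_sum,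
        ← Finset.mul_sum]
      have e3 : ∑ l, gX a ψ l x * pa l ψ x = gp a ψ x := rfl
      rw [e3]
      ring
    rw [e1]
    have h1 := (abs_le.1 (hC2P x hx)).1
    have h2 : c ^ 2 ≤ gp a ψ x ^ 2 := pow_le_pow_left₀ hc.le hPc 2
    have h3 : 0 < μ ^ 4 * e ^ 3 := by (clear * - hμ; positivity)
    have h4 : 0 < μ ^ 3 * e ^ 3 := by (clear * - hμ; positivity)
    have h5 : μ ^ 4 * e ^ 3 * c ^ 2 ≤ μ ^ 4 * e ^ 3 * gp a ψ x ^ 2 :=
      mul_le_mul_of_nonneg_left h2 h3.le
    have h6 : μ ^ 3 * e ^ 3 * (-C2) ≤ μ ^ 3 * e ^ 3 * Xd (gX a ψ) (gp a ψ) x :=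
      mul_le_mul_of_nonneg_left h1 h4.le
    have h7 : 0 ≤ μ ^ 4 * e ^ 3 * gp a ψ x ^ 2 := by (clear * - hμ; positivity)
    have h8 : 0 ≤ μ ^ 3 * e ^ 3 * (M0 * d + C1) := by (clear * - hμ hM0nn hC1; positivity)
    linarith
  · rw [hgp]
    have : 0 ≤ gp a ψ x := hc.le.trans hPc
    (clear * - hμ this; positivity)
  · rw [hgp]
    have h1 : gp a ψ x ≤ M0 * d + C1 + C2 := by linarith only [hC2, hPC, hMd]
    calc (μ * e) ^ 2 * gp a ψ x ≤ (μ * e) ^ 2 * (M0 * d + C1 + C2) :=
          mul_le_mul_of_nonneg_left h1 (by (clear * - hμ; positivity))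
      _ = _ := by ring

end Vale.Agent.P088.A
end

section

/-!
P088-EYM-A4: the Carleman estimate.
-/

set_option linter.all false

open MeasureTheory Filter Topology
open scoped ContDiff

namespace Vale.Agent.P088.A

variable {d : ℕ}

lemma c4_bound {K : Set (V d)} (hK : IsCompact K) {f : V d → ℝ} (hf : Continuous f) :
    ∃ M > 0, ∀ x ∈ K, |f x| ≤ M := by
  obtain ⟨C, hC⟩ := hK.exists_bound_of_continuousOn hf.continuousOn
  refine ⟨max C 1, by positivity, fun x hx => ?_⟩
  exact le_trans (by simpa only [Real.norm_eq_abs] using hC x hx) (le_max_left _ _)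

lemma c4_zero {K : Set (V d)} {v : V d → ℝ} (hv : tsupport v ⊆ K) {x : V d} (hx : x ∉ K) :
    v x = 0 ∧ ∀ k, pa k v x = 0 := by
  refine ⟨?_, fun k => ?_⟩
  · by_contra h
    exact hx (hv (subset_tsupport v h))
  · by_contra h
    exact hx (hv (tsupport_pa_subset v k (subset_tsupport _ h)))

lemma c4_divop_zero {K : Set (V d)} (hK : IsClosed K) {a : Fin d → Fin d → V d → ℝ}
    {v : V d → ℝ} (hv : tsupport v ⊆ K) {x : V d} (hx : x ∉ K) :
    divop a v x = 0 := by
  unfold divop
  refine Finset.sum_eq_zero fun j _ => Finset.sum_eq_zero fun k _ => ?_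
  have h : (fun y => a j k y * pa k v y) =ᶠ[𝓝 x] fun _ => (0 : ℝ) := by
    filter_upwards [hK.isOpen_compl.mem_nhds hx] with y hy
    rw [(c4_zero hv hy).2 k, mul_zero]
  rw [pa_congr h, pa_const]

lemma c4_divop_cont {a : Fin d → Fin d → V d → ℝ} (ha : ∀ j k, ContDiff ℝ 1 (a j k))
    {v : V d → ℝ} (hv : ContDiff ℝ 2 v) : Continuous (divop a v) := by
  unfold divop
  refine continuous_finset_sum _ fun j _ => continuous_finset_sum _ fun k _ => ?_
  exact pa_continuous ((ha j k).mul (pa_contDiff hv (by norm_num) k)) j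

/-- the pointwise algebra -/
lemma c4_alg {θ c₀ C₀ κ μ m M B τ φ S D w Q q W₁ W₂ v g p Xp R : ℝ}
    (hθ : 0 < θ) (hc₀ : 0 < c₀) (hC₀ : 0 < C₀) (hκ : 2 * κ * θ = C₀ + 1) (hκ0 : 0 < κ)
    (hμ1 : 1 ≤ μ) (hμ : 2 * C₀ + 2 * C₀ * κ + 1 ≤ 2 * c₀ * μ)
    (hm : 0 < m) (hmφ : m ≤ φ) (hφM : φ ≤ M) (hB : 0 < B)
    (hτ1 : 1 ≤ τ) (hτ : 2 * (κ ^ 2 * μ ^ 2 * M ^ 2 + 2 * B / m) ≤ m ^ 3 * τ)
    (hS : S = D + τ ^ 2 * p * v) (hw : w = κ * τ * μ * φ)
    (hQ : θ * g ≤ Q) (hq : -(C₀ * μ * φ) * g ≤ q)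
    (hXp : (c₀ * μ ^ 4 - C₀ * μ ^ 3) * φ ^ 3 ≤ Xp)
    (hp : p ≤ C₀ * μ ^ 2 * φ ^ 2) (hg : 0 ≤ g)
    (hW : W₂ + τ * W₁ = τ * R) (hR : R ^ 2 ≤ B * g) :
    τ * (m / 2) * g + τ ^ 3 * (m ^ 3 / 2) * v ^ 2
      ≤ S ^ 2 + τ * q + 2 * τ * (v * W₁) + 2 * τ ^ 3 * (Xp * v ^ 2)
        + 2 * (D * (w * v) + w * Q + v * W₂) := by
  have hφ : 0 < φ := lt_of_lt_of_le hm hmφ
  have hτ0 : 0 < τ := by linarith only [hτ1]
  have hμ0 : 0 < μ := by linarith only [hμ1]
  have hw0 : 0 < w := by rw [hw]; (clear * - hκ0 hτ1 hμ1 hφ; positivity)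
  have hM0 : 0 < M := by linarith only [hm, hmφ, hφM]
  -- square completion
  have e1 : -(w ^ 2 * v ^ 2) - 2 * τ ^ 2 * p * w * v ^ 2 ≤ S ^ 2 + 2 * (D * (w * v)) := by
    have : D = S - τ ^ 2 * p * v := by rw [hS]; ring
    rw [this]
    have h1 := sq_nonneg (S + w * v)
    linarith only [h1]
  -- gradient part
  have e2 : w * (θ * g) ≤ w * Q := mul_le_mul_of_nonneg_left hQ hw0.le
  have e3 : τ * (-(C₀ * μ * φ) * g) ≤ τ * q := mul_le_mul_of_nonneg_left hq hτ0.le
  have e4 : 2 * (w * (θ * g)) + τ * (-(C₀ * μ * φ) * g) = τ * μ * φ * g := by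
    rw [hw]
    linear_combination (τ * μ * φ * g) * hκ
  have e5 : τ * m * g ≤ τ * μ * φ * g := by
    have h1 : m ≤ μ * φ := by
      have := mul_le_mul_of_nonneg_right hμ1 hφ.le
      linarith only [hmφ, this]
    have h2 : τ * m ≤ τ * μ * φ := by
      have := mul_le_mul_of_nonneg_left h1 hτ0.le
      linarith only [this]
    exact mul_le_mul_of_nonneg_right h2 hg
  -- zero order part
  have hv2 : 0 ≤ v ^ 2 := sq_nonneg v
  have e6 : 2 * τ ^ 3 * ((c₀ * μ ^ 4 - C₀ * μ ^ 3) * φ ^ 3 * v ^ 2)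
      ≤ 2 * τ ^ 3 * (Xp * v ^ 2) := by
    have := mul_le_mul_of_nonneg_right hXp hv2
    exact mul_le_mul_of_nonneg_left this (by (clear * - hτ1; positivity))
  have e7 : 2 * τ ^ 2 * p * w * v ^ 2 ≤ 2 * τ ^ 2 * (C₀ * μ ^ 2 * φ ^ 2) * w * v ^ 2 := by
    have h1 : 2 * τ ^ 2 * p ≤ 2 * τ ^ 2 * (C₀ * μ ^ 2 * φ ^ 2) :=
      mul_le_mul_of_nonneg_left hp (by positivity)
    have h2 := mul_le_mul_of_nonneg_right h1 hw0.le
    exact mul_le_mul_of_nonneg_right h2 hv2
  have e8 : 1 ≤ 2 * c₀ * μ ^ 4 - 2 * C₀ * μ ^ 3 - 2 * C₀ * κ * μ ^ 3 := by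
    have h1 : 1 ≤ μ ^ 3 := one_le_pow₀ hμ1
    have h2 := mul_le_mul_of_nonneg_left hμ (show (0:ℝ) ≤ μ ^ 3 by positivity)
    linarith only [h1, h2]
  have e9 : τ ^ 3 * φ ^ 3 * v ^ 2
      ≤ 2 * τ ^ 3 * ((c₀ * μ ^ 4 - C₀ * μ ^ 3) * φ ^ 3 * v ^ 2)
        - 2 * τ ^ 2 * (C₀ * μ ^ 2 * φ ^ 2) * w * v ^ 2 := by
    have h0 : (0:ℝ) ≤ τ ^ 3 * φ ^ 3 * v ^ 2 := by (clear * - hτ1 hφ; positivity)
    have h1 := mul_le_mul_of_nonneg_left e8 h0
    have h2 : τ ^ 3 * φ ^ 3 * v ^ 2 * (2 * c₀ * μ ^ 4 - 2 * C₀ * μ ^ 3 - 2 * C₀ * κ * μ ^ 3)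
        = 2 * τ ^ 3 * ((c₀ * μ ^ 4 - C₀ * μ ^ 3) * φ ^ 3 * v ^ 2)
        - 2 * τ ^ 2 * (C₀ * μ ^ 2 * φ ^ 2) * (κ * τ * μ * φ) * v ^ 2 := by ring
    rw [hw, ← h2]
    linarith only [h1]
  have e10 : τ ^ 3 * m ^ 3 * v ^ 2 ≤ τ ^ 3 * φ ^ 3 * v ^ 2 := by
    have h1 : m ^ 3 ≤ φ ^ 3 := pow_le_pow_left₀ hm.le hmφ 3
    have h2 : τ ^ 3 * m ^ 3 ≤ τ ^ 3 * φ ^ 3 := mul_le_mul_of_nonneg_left h1 (by (clear * - hτ1; positivity))
    exact mul_le_mul_of_nonneg_right h2 hv2
  have e11 : w ^ 2 * v ^ 2 ≤ κ ^ 2 * μ ^ 2 * M ^ 2 * τ ^ 2 * v ^ 2 := by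
    have h1 : φ ^ 2 ≤ M ^ 2 := pow_le_pow_left₀ hφ.le hφM 2
    have h2 : w ^ 2 = κ ^ 2 * τ ^ 2 * μ ^ 2 * φ ^ 2 := by rw [hw]; ring
    have h3 : w ^ 2 ≤ κ ^ 2 * μ ^ 2 * M ^ 2 * τ ^ 2 := by
      rw [h2]
      have := mul_le_mul_of_nonneg_left h1 (show (0:ℝ) ≤ κ ^ 2 * τ ^ 2 * μ ^ 2 by positivity)
      linarith only [this]
    exact mul_le_mul_of_nonneg_right h3 hv2
  -- the cross terms
  have e12 : -(τ * ((m / 2) * g + (2 * B / m) * v ^ 2)) ≤ 2 * τ * (v * R) := by
    have h1 : -((m / 2) * g + (2 * B / m) * v ^ 2) ≤ 2 * (v * R) := by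
      have h2 : R ^ 2 * (m / (2 * B)) ≤ (m / 2) * g := by
        have := mul_le_mul_of_nonneg_right hR (show (0:ℝ) ≤ m / (2 * B) by (clear * - hm hB; positivity))
        have h3 : B * g * (m / (2 * B)) = (m / 2) * g := by (clear * - hB hm; field_simp)
        linarith only [this, h3]
      have h4 : 0 ≤ (m / (2 * B)) * (R + (2 * B / m) * v) ^ 2 := by (clear * - hm hB; positivity)
      have h5 : (m / (2 * B)) * (R + (2 * B / m) * v) ^ 2
          = R ^ 2 * (m / (2 * B)) + 2 * (v * R) + (2 * B / m) * v ^ 2 := by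
        field_simp
        ring
      linarith only [h2, h4, h5]
    have h6 := mul_le_mul_of_nonneg_left h1 hτ0.le
    linarith only [h6]
  have e13 : 2 * τ * (v * W₁) + 2 * (v * W₂) = 2 * τ * (v * R) := by
    linear_combination (2 * v) * hW
  -- large τ
  have e14 : κ ^ 2 * μ ^ 2 * M ^ 2 * τ ^ 2 * v ^ 2 + τ * ((2 * B / m) * v ^ 2)
      ≤ τ ^ 3 * (m ^ 3 / 2) * v ^ 2 := by
    have hA : 0 ≤ κ ^ 2 * μ ^ 2 * M ^ 2 := by (clear * - hκ0 hμ1 hM0; positivity)
    have hBm : 0 ≤ 2 * B / m := by positivity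
    have h1 : τ * (2 * B / m) ≤ τ ^ 2 * (2 * B / m) := by
      have : τ ≤ τ ^ 2 := by
        have := mul_le_mul_of_nonneg_left hτ1 hτ0.le
        linarith only [this]
      exact mul_le_mul_of_nonneg_right this hBm
    have h2 : τ ^ 2 * (2 * (κ ^ 2 * μ ^ 2 * M ^ 2 + 2 * B / m)) ≤ τ ^ 2 * (m ^ 3 * τ) :=
      mul_le_mul_of_nonneg_left hτ (by positivity)
    have h3 : κ ^ 2 * μ ^ 2 * M ^ 2 * τ ^ 2 + τ * (2 * B / m) ≤ τ ^ 3 * (m ^ 3 / 2) := by
      linarith only [h1, h2]
    have := mul_le_mul_of_nonneg_right h3 hv2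
    linarith only [this]
  clear hS hw hQ hq hXp hp hW hR hμ hκ hτ hθ hc₀ hC₀
  linarith only [e1, e2, e3, e4, e5, e6, e7, e9, e10, e11, e12, e13, e14]

lemma c4_int {K : Set (V d)} (hK : IsCompact K) {f : V d → ℝ} (hf : Continuous f)
    (h0 : ∀ x, x ∉ K → f x = 0) : Integrable f :=
  hf.integrable_of_hasCompactSupport (HasCompactSupport.intro hK h0)

lemma c4_two {f : V d → ℝ} (hf : ContDiff ℝ ∞ f) : ContDiff ℝ 2 f := by
  exact_mod_cast (contDiff_infty.mp hf 2)

lemma c4_three {f : V d → ℝ} (hf : ContDiff ℝ ∞ f) : ContDiff ℝ 3 f := by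
  exact_mod_cast (contDiff_infty.mp hf 3)

lemma c4_gX {a : Fin d → Fin d → V d → ℝ} (ha : ∀ j k, ContDiff ℝ 2 (a j k))
    {φ : V d → ℝ} (hφ : ContDiff ℝ ∞ φ) (l : Fin d) : ContDiff ℝ 2 (gX a φ l) := by
  unfold gX
  exact ContDiff.sum fun k _ => (ha l k).mul (c4_two (pa_contDiff_infty hφ k))

lemma c4_gp {a : Fin d → Fin d → V d → ℝ} (ha : ∀ j k, ContDiff ℝ 2 (a j k))
    {φ : V d → ℝ} (hφ : ContDiff ℝ ∞ φ) : ContDiff ℝ 2 (gp a φ) := by
  unfold gp
  exact ContDiff.sum fun k _ => (c4_gX ha hφ k).mul (c4_two (pa_contDiff_infty hφ k))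

lemma c4_dv {X : Fin d → V d → ℝ} (hX : ∀ l, ContDiff ℝ 2 (X l)) : ContDiff ℝ 1 (dv X) := by
  unfold dv
  exact ContDiff.sum fun k _ => pa_contDiff (hX k) (by norm_num) k

/-- the cross term -/
lemma c4_cross {a : Fin d → Fin d → ℝ} {pv pw pX pφ : Fin d → ℝ} {κ μ τ : ℝ}
    (h : ∀ j, pw j = κ * τ * μ * pφ j) :
    (∑ j, ∑ k, a j k * pv k * pw j) + τ * (∑ j, ∑ k, a j k * pv k * pX j)
      = τ * ∑ k, (∑ j, a j k * (κ * μ * pφ j + pX j)) * pv k := by
  have h1 : ∑ k, (∑ j, a j k * (κ * μ * pφ j + pX j)) * pv k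
      = ∑ j, ∑ k, a j k * (κ * μ * pφ j + pX j) * pv k := by
    rw [Finset.sum_comm]
    exact Finset.sum_congr rfl fun k _ => Finset.sum_mul _ _ _
  rw [h1, Finset.mul_sum, Finset.mul_sum, ← Finset.sum_add_distrib]
  refine Finset.sum_congr rfl fun j _ => ?_
  rw [Finset.mul_sum, Finset.mul_sum, ← Finset.sum_add_distrib]
  refine Finset.sum_congr rfl fun k _ => ?_
  rw [h j]
  ring

/-- back from `v` to `u` -/
lemma c4_back {pu pφ pv : Fin d → ℝ} {τ E u v G m : ℝ} (hτ1 : 1 ≤ τ) (hm : 0 < m)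
    (hv : v = E * u) (hpv : ∀ k, pv k = E * (pu k + τ * pφ k * u))
    (hG : ∑ k, pφ k ^ 2 ≤ G) :
    (τ * (∑ k, pu k ^ 2) + τ ^ 3 * u ^ 2) * E ^ 2
      ≤ (4 / m + 2 * (2 * G + 1) / m ^ 3)
        * (τ * (m / 2) * (∑ k, pv k ^ 2) + τ ^ 3 * (m ^ 3 / 2) * v ^ 2) := by
  have hτ0 : 0 < τ := by linarith only [hτ1]
  have hG0 : 0 ≤ G := le_trans (Finset.sum_nonneg fun k _ => sq_nonneg _) hG
  set g := ∑ k, pv k ^ 2 with hg
  have hg0 : 0 ≤ g := Finset.sum_nonneg fun k _ => sq_nonneg _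
  have h1 : (∑ k, pu k ^ 2) * E ^ 2 ≤ 2 * g + 2 * τ ^ 2 * G * v ^ 2 := by
    have h2 : (∑ k, pu k ^ 2) * E ^ 2 ≤ ∑ k, (2 * pv k ^ 2 + 2 * τ ^ 2 * v ^ 2 * pφ k ^ 2) := by
      rw [Finset.sum_mul]
      refine Finset.sum_le_sum fun k _ => ?_
      have h3 : E * pu k = pv k - τ * pφ k * v := by rw [hpv k, hv]; ring
      have h4 : pu k ^ 2 * E ^ 2 = (pv k - τ * pφ k * v) ^ 2 := by rw [← h3]; ring
      rw [h4]
      have h5 := sq_nonneg (pv k + τ * pφ k * v)
      linarith only [h5]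
    rw [Finset.sum_add_distrib, ← Finset.mul_sum, ← Finset.mul_sum, ← hg] at h2
    have h6 : 2 * τ ^ 2 * v ^ 2 * (∑ k, pφ k ^ 2) ≤ 2 * τ ^ 2 * v ^ 2 * G :=
      mul_le_mul_of_nonneg_left hG (by (clear * - hτ1; positivity))
    linarith
  have h2 : (τ * (∑ k, pu k ^ 2) + τ ^ 3 * u ^ 2) * E ^ 2
      ≤ 2 * (τ * g) + (2 * G + 1) * (τ ^ 3 * v ^ 2) := by
    have h3 := mul_le_mul_of_nonneg_left h1 hτ0.le
    have h4 : v ^ 2 = u ^ 2 * E ^ 2 := by rw [hv]; ring
    have h5 : (τ * (∑ k, pu k ^ 2) + τ ^ 3 * u ^ 2) * E ^ 2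
      = τ * ((∑ k, pu k ^ 2) * E ^ 2) + τ ^ 3 * v ^ 2 := by rw [h4]; ring
    rw [h5]
    linarith
  refine h2.trans ?_
  have h3 : (4 / m + 2 * (2 * G + 1) / m ^ 3)
        * (τ * (m / 2) * g + τ ^ 3 * (m ^ 3 / 2) * v ^ 2)
      = 2 * (τ * g) + (2 * G + 1) * (τ ^ 3 * v ^ 2) + (2 * m ^ 2 * (τ ^ 3 * v ^ 2))
        + (2 * G + 1) / m ^ 2 * (τ * g) := by
    field_simp
    ring
  rw [h3]
  have h4 : 0 ≤ 2 * m ^ 2 * (τ ^ 3 * v ^ 2) := by (clear * - hm hτ1; positivity)
  have h5 : 0 ≤ (2 * G + 1) / m ^ 2 * (τ * g) := by positivity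
  (clear * - h4 h5; linarith)

theorem carleman {a : Fin d → Fin d → V d → ℝ} (ha : GC a) {ψ : V d → ℝ}
    (hψ : ContDiff ℝ ∞ ψ) {K : Set (V d)} (hK : IsCompact K)
    (hd : ∀ x ∈ K, ∃ i, pa i ψ x ≠ 0) :
    ∃ μ > 0, ∃ C > 0, ∃ τ₀ > 0, ∀ τ : ℝ, τ₀ ≤ τ → ∀ u : V d → ℝ, ContDiff ℝ 2 u →
      tsupport u ⊆ K →
      ∫ x, (τ * gs u x + τ ^ 3 * u x ^ 2) * Real.exp (2 * τ * Real.exp (μ * ψ x))
        ≤ C * ∫ x, divop a u x ^ 2 * Real.exp (2 * τ * Real.exp (μ * ψ x)) := by
  obtain ⟨θ, hθ, hell⟩ := ha.ellip hK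
  obtain ⟨c₀, hc₀, C₀, hC₀, hwb⟩ := weight_bounds ha hψ hK hd
  obtain ⟨κ, hκ0, hκ⟩ : ∃ κ : ℝ, 0 < κ ∧ 2 * κ * θ = C₀ + 1 := by
    refine ⟨(C₀ + 1) / (2 * θ), by positivity, ?_⟩
    (clear * - hθ hC₀; field_simp)
  obtain ⟨μ, hμ1, hμ⟩ : ∃ μ : ℝ, 1 ≤ μ ∧ 2 * C₀ + 2 * C₀ * κ + 1 ≤ 2 * c₀ * μ := by
    refine ⟨max 1 ((2 * C₀ + 2 * C₀ * κ + 1) / (2 * c₀)), le_max_left _ _, ?_⟩
    have h1 := le_max_right 1 ((2 * C₀ + 2 * C₀ * κ + 1) / (2 * c₀))
    have h2 := mul_le_mul_of_nonneg_left h1 (show (0:ℝ) ≤ 2 * c₀ by positivity)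
    have h3 : 2 * c₀ * ((2 * C₀ + 2 * C₀ * κ + 1) / (2 * c₀)) = 2 * C₀ + 2 * C₀ * κ + 1 := by
      field_simp
    linarith
  have hwb' := hwb μ hμ1
  obtain ⟨φ, hφdef⟩ : ∃ φ : V d → ℝ, φ = fun y => Real.exp (μ * ψ y) := ⟨_, rfl⟩
  have hφx : ∀ x, Real.exp (μ * ψ x) = φ x := fun x => by rw [hφdef]
  have hφ : ContDiff ℝ ∞ φ := by
    rw [hφdef]
    exact (contDiff_const.mul hψ).exp
  rw [← hφdef] at hwb'
  simp only [hφx] at hwb'
  have hφpos : ∀ x, 0 < φ x := fun x => by rw [← hφx]; exact Real.exp_pos _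
  have hφ3 : ContDiff ℝ 3 φ := c4_three hφ
  have hφ2 : ContDiff ℝ 2 φ := c4_two hφ
  have hφ1 : ContDiff ℝ 1 φ := hφ2.of_le (by (clear * -; norm_num))
  have ha1 : ∀ j k, ContDiff ℝ 1 (a j k) := fun j k => (ha.smooth j k).of_le (by norm_num)
  have hac : ∀ j k, Continuous (a j k) := fun j k => (ha.smooth j k).continuous
  have hX : ∀ l, ContDiff ℝ 2 (gX a φ l) := c4_gX ha.smooth hφ
  have hXc : ∀ l, Continuous (gX a φ l) := fun l => (hX l).continuous
  have hp : ContDiff ℝ 2 (gp a φ) := c4_gp ha.smooth hφ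
  have hdvX : ContDiff ℝ 1 (dv (gX a φ)) := c4_dv hX
  have hpX : ∀ j, Continuous (pa j (dv (gX a φ))) := fun j => pa_continuous hdvX j
  have hpφ : ∀ j, Continuous (pa j φ) := fun j => pa_continuous hφ1 j
  -- bounds on `K`
  obtain ⟨M, hM, hφM⟩ := c4_bound hK hφ.continuous
  obtain ⟨M', hM', hφM'⟩ := c4_bound (f := fun x => (φ x)⁻¹) hK
    (hφ.continuous.inv₀ fun x => (hφpos x).ne')
  obtain ⟨m, hm, hmφ⟩ : ∃ m > 0, ∀ x ∈ K, m ≤ φ x := by
    refine ⟨M'⁻¹, by (clear * - hM'; positivity), fun x hx => ?_⟩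
    have h1 := (le_abs_self _).trans (hφM' x hx)
    exact inv_le_of_inv_le₀ (hφpos x) h1
  obtain ⟨B, hB, hBb⟩ := c4_bound (f := fun x => ∑ k, (∑ j, a j k x *
      (κ * μ * pa j φ x + pa j (dv (gX a φ)) x)) ^ 2) hK (by
    refine continuous_finset_sum _ fun k _ => Continuous.pow ?_ 2
    refine continuous_finset_sum _ fun j _ => (hac j k).mul ?_
    exact (continuous_const.mul (hpφ j)).add (hpX j))
  obtain ⟨G, hG, hGb⟩ := c4_bound (f := fun x => ∑ k, (pa k φ x) ^ 2) hK (by
    exact continuous_finset_sum _ fun k _ => (hpφ k).pow 2)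
  refine ⟨μ, by linarith only [hμ1], 4 / m + 2 * (2 * G + 1) / m ^ 3, by (clear * - hm hG; positivity),
    max 1 (2 * (κ ^ 2 * μ ^ 2 * M ^ 2 + 2 * B / m) / m ^ 3), by positivity, ?_⟩
  intro τ hτ u hu huK
  simp only [hφx]
  have hτ1 : 1 ≤ τ := (le_max_left _ _).trans hτ
  have hτ2 : 2 * (κ ^ 2 * μ ^ 2 * M ^ 2 + 2 * B / m) ≤ m ^ 3 * τ := by
    have h1 := (le_max_right _ _).trans hτ
    rw [div_le_iff₀ (by (clear * - hm; positivity))] at h1
    linarith only [h1]
  have hτ0 : 0 < τ := by linarith only [hτ1]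
  -- conjugation
  obtain ⟨v, hvdef⟩ : ∃ v : V d → ℝ, v = fun y => Real.exp (τ * φ y) * u y := ⟨_, rfl⟩
  have hvx : ∀ x, v x = Real.exp (τ * φ x) * u x := fun x => by rw [hvdef]
  have hv : ContDiff ℝ 2 v := by
    rw [hvdef]
    exact ((contDiff_const.mul hφ2).exp).mul hu
  have hv1 : ContDiff ℝ 1 v := hv.of_le (by norm_num)
  have hvK : tsupport v ⊆ K := by
    refine (closure_mono ?_).trans huK
    intro x hx
    have h1 : v x ≠ 0 := hx
    rw [hvx] at h1
    exact right_ne_zero_of_mul h1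
  have hc : HasCompactSupport v := hK.of_isClosed_subset (isClosed_tsupport v) hvK
  have huv : (fun y => Real.exp (-(τ * φ y)) * v y) = u := by
    funext y
    rw [hvx, ← mul_assoc, ← Real.exp_add]
    simp
  have hpav : ∀ k x, pa k v x = Real.exp (τ * φ x) * (pa k u x + τ * pa k φ x * u x) := by
    intro k x
    have hφd : DifferentiableAt ℝ φ x := (hφ1.differentiable (by norm_num)) x
    have hud : DifferentiableAt ℝ u x := (hu.differentiable (by norm_num)) x
    have hd1 : DifferentiableAt ℝ (fun y => τ * φ y) x := hφd.const_mul τ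
    rw [hvdef, pa_mul hd1.exp hud, pa_exp hd1, pa_const_mul hφd]
    ring
  -- the multiplier
  obtain ⟨w, hwdef⟩ : ∃ w : V d → ℝ, w = fun y => κ * τ * μ * φ y := ⟨_, rfl⟩
  have hwx : ∀ x, w x = κ * τ * μ * φ x := fun x => by rw [hwdef]
  have hw : ContDiff ℝ 1 w := by rw [hwdef]; exact contDiff_const.mul hφ1
  have hpaw : ∀ j x, pa j w x = κ * τ * μ * pa j φ x := by
    intro j x
    rw [hwdef]
    exact pa_const_mul ((hφ1.differentiable (by norm_num)) x) _ _
  have hpv : ∀ k, Continuous (pa k v) := fun k => pa_continuous hv1 k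
  have hL := lower ha.smooth ha.symm hφ3 hv hc τ
  have hI := id2 ha1 hw hv hc
  rw [huv] at hL
  -- the seven integrands
  obtain ⟨F1, hF1⟩ : ∃ F : V d → ℝ, F = fun x => (divop a v x + τ ^ 2 * gp a φ x * v x) ^ 2 :=
    ⟨_, rfl⟩
  obtain ⟨F2, hF2⟩ : ∃ F : V d → ℝ, F = fun x =>
      (4 * (∑ j, ∑ k, ∑ l, a j k x * pa k v x * pa j (gX a φ l) x * pa l v x)
          - 2 * ∑ j, ∑ k, Xd (gX a φ) (a j k) x * pa j v x * pa k v x) := ⟨_, rfl⟩
  obtain ⟨F3, hF3⟩ : ∃ F : V d → ℝ, F = fun x =>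
      v x * ∑ j, ∑ k, a j k x * pa k v x * pa j (dv (gX a φ)) x := ⟨_, rfl⟩
  obtain ⟨F4, hF4⟩ : ∃ F : V d → ℝ, F = fun x => Xd (gX a φ) (gp a φ) x * v x ^ 2 := ⟨_, rfl⟩
  obtain ⟨G1, hG1⟩ : ∃ F : V d → ℝ, F = fun x => divop a v x * (w x * v x) := ⟨_, rfl⟩
  obtain ⟨G2, hG2⟩ : ∃ F : V d → ℝ, F = fun x => w x * Qf a v x := ⟨_, rfl⟩
  obtain ⟨G3, hG3⟩ : ∃ F : V d → ℝ, F = fun x =>
      v x * ∑ j, ∑ k, a j k x * pa k v x * pa j w x := ⟨_, rfl⟩
  rw [← hF1, ← hF2, ← hF3, ← hF4] at hL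
  rw [← hG1, ← hG2, ← hG3] at hI
  have hz : ∀ x, x ∉ K → v x = 0 ∧ ∀ k, pa k v x = 0 := fun x hx => c4_zero hvK hx
  have hdivc : Continuous (divop a v) := c4_divop_cont ha1 hv
  have hXdc : ∀ {f : V d → ℝ}, ContDiff ℝ 1 f → Continuous (Xd (gX a φ) f) := by
    intro f hf
    unfold Xd
    exact continuous_finset_sum _ fun l _ => (hXc l).mul (pa_continuous hf l)
  have hQc : Continuous (Qf a v) := by
    unfold Qf
    exact continuous_finset_sum _ fun j _ => continuous_finset_sum _ fun k _ =>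
      ((hac j k).mul (hpv j)).mul (hpv k)
  have iF1 : Integrable F1 := by
    refine c4_int hK ?_ ?_
    · rw [hF1]
      exact (hdivc.add ((continuous_const.mul hp.continuous).mul hv.continuous)).pow 2
    · intro x hx
      rw [hF1]
      simp [(hz x hx).1, c4_divop_zero hK.isClosed hvK hx]
  have iF2 : Integrable F2 := by
    refine c4_int hK ?_ ?_
    · rw [hF2]
      refine (continuous_const.mul ?_).sub (continuous_const.mul ?_)
      · exact continuous_finset_sum _ fun j _ => continuous_finset_sum _ fun k _ =>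
          continuous_finset_sum _ fun l _ =>
          (((hac j k).mul (hpv k)).mul (pa_continuous ((hX l).of_le (by norm_num)) j)).mul (hpv l)
      · exact continuous_finset_sum _ fun j _ => continuous_finset_sum _ fun k _ =>
          ((hXdc (ha1 j k)).mul (hpv j)).mul (hpv k)
    · intro x hx
      rw [hF2]
      simp only [(hz x hx).2, mul_zero, zero_mul, Finset.sum_const_zero, sub_self]
  have iF3 : Integrable F3 := by
    refine c4_int hK ?_ ?_
    · rw [hF3]
      exact hv.continuous.mul (continuous_finset_sum _ fun j _ =>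
        continuous_finset_sum _ fun k _ => ((hac j k).mul (hpv k)).mul (hpX j))
    · intro x hx
      rw [hF3]
      simp only [(hz x hx).1, zero_mul]
  have iF4 : Integrable F4 := by
    refine c4_int hK ?_ ?_
    · rw [hF4]
      exact (hXdc (hp.of_le (by norm_num))).mul (hv.continuous.pow 2)
    · intro x hx
      rw [hF4]
      simp [(hz x hx).1]
  have iG1 : Integrable G1 := by
    refine c4_int hK ?_ ?_
    · rw [hG1]
      exact hdivc.mul (hw.continuous.mul hv.continuous)
    · intro x hx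
      rw [hG1]
      simp [(hz x hx).1]
  have iG2 : Integrable G2 := by
    refine c4_int hK ?_ ?_
    · rw [hG2]
      exact hw.continuous.mul hQc
    · intro x hx
      rw [hG2]
      simp only [Qf, (hz x hx).2, mul_zero, Finset.sum_const_zero]
  have iG3 : Integrable G3 := by
    refine c4_int hK ?_ ?_
    · rw [hG3]
      exact hv.continuous.mul (continuous_finset_sum _ fun j _ =>
        continuous_finset_sum _ fun k _ => ((hac j k).mul (hpv k)).mul (pa_continuous hw j))
    · intro x hx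
      rw [hG3]
      simp only [(hz x hx).1, zero_mul]
  -- pointwise bound
  obtain ⟨T, hT⟩ : ∃ F : V d → ℝ, F = fun x => F1 x + τ * F2 x + 2 * τ * F3 x
      + 2 * τ ^ 3 * F4 x + 2 * (G1 x + G2 x + G3 x) := ⟨_, rfl⟩
  have iT : Integrable T := by
    rw [hT]
    exact (((iF1.add (iF2.const_mul τ)).add (iF3.const_mul (2 * τ))).add
      (iF4.const_mul (2 * τ ^ 3))).add (((iG1.add iG2).add iG3).const_mul 2)
  have key : ∀ x, x ∈ K → τ * (m / 2) * gs v x + τ ^ 3 * (m ^ 3 / 2) * v x ^ 2 ≤ T x := by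
    intro x hx
    obtain ⟨h1, h2, h3, h4⟩ := hwb' x hx
    rw [hT, hF1, hF2, hF3, hF4, hG1, hG2, hG3]
    refine c4_alg (S := divop a v x + τ ^ 2 * gp a φ x * v x) (D := divop a v x)
      (w := w x) (Q := Qf a v x) (p := gp a φ x) (v := v x)
      (R := ∑ k, (∑ j, a j k x * (κ * μ * pa j φ x + pa j (dv (gX a φ)) x)) * pa k v x)
      hθ hc₀ hC₀ hκ hκ0 hμ1 hμ hm (hmφ x hx) ((le_abs_self _).trans (hφM x hx)) hB hτ1 hτ2
      rfl (hwx x) ?_ ?_ h2 h4 ?_ ?_ ?_
    · exact hell x hx (fun k => pa k v x)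
    · exact h1 (fun k => pa k v x)
    · exact Finset.sum_nonneg fun k _ => sq_nonneg _
    · exact c4_cross (a := fun j k => a j k x) (fun j => hpaw j x)
    · refine (Finset.sum_mul_sq_le_sq_mul_sq _ _ _).trans ?_
      refine mul_le_mul_of_nonneg_right ((le_abs_self _).trans (hBb x hx)) ?_
      exact Finset.sum_nonneg fun k _ => sq_nonneg _
  have ptw : ∀ x, (τ * gs u x + τ ^ 3 * u x ^ 2) * Real.exp (2 * τ * φ x)
      ≤ (4 / m + 2 * (2 * G + 1) / m ^ 3) * T x := by
    intro x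
    by_cases hx : x ∈ K
    · have h1 := c4_back (pu := fun k => pa k u x) (pφ := fun k => pa k φ x)
        (pv := fun k => pa k v x) hτ1 hm (hvx x) (fun k => hpav k x)
        ((le_abs_self _).trans (hGb x hx))
      have h2 : Real.exp (2 * τ * φ x) = Real.exp (τ * φ x) ^ 2 := by
        rw [← Real.exp_nat_mul]
        congr 1
        push_cast
        ring
      rw [h2]
      exact h1.trans (mul_le_mul_of_nonneg_left (key x hx) (by (clear * - hm hG; positivity)))
    · have h1 := c4_zero huK hx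
      have h2 := hz x hx
      have h3 : T x = 0 := by
        rw [hT, hF1, hF2, hF3, hF4, hG1, hG2, hG3]
        simp only [c4_divop_zero hK.isClosed hvK hx, h2.1, mul_zero, add_zero, ne_eq, OfNat.ofNat_ne_zero, not_false_eq_true, zero_pow, h2.2, zero_mul, Finset.sum_const_zero, sub_self, Qf]
      rw [h3]
      simp only [gs, h1.2, ne_eq, OfNat.ofNat_ne_zero, not_false_eq_true, zero_pow, Finset.sum_const_zero, mul_zero, h1.1, add_zero, zero_mul, Std.le_refl]
  have hint : ∫ x, T x = (∫ x, F1 x) + τ * (∫ x, F2 x) + 2 * τ * (∫ x, F3 x)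
      + 2 * τ ^ 3 * (∫ x, F4 x) + 2 * ((∫ x, G1 x) + (∫ x, G2 x) + (∫ x, G3 x)) := by
    have i1 : Integrable (fun x => F1 x + τ * F2 x) := iF1.add (iF2.const_mul τ)
    have i2 : Integrable (fun x => F1 x + τ * F2 x + 2 * τ * F3 x) :=
      i1.add (iF3.const_mul (2 * τ))
    have i3 : Integrable (fun x => F1 x + τ * F2 x + 2 * τ * F3 x + 2 * τ ^ 3 * F4 x) :=
      i2.add (iF4.const_mul (2 * τ ^ 3))
    have j1 : Integrable (fun x => G1 x + G2 x) := iG1.add iG2
    have j2 : Integrable (fun x => G1 x + G2 x + G3 x) := j1.add iG3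
    have j3 : Integrable (fun x => 2 * (G1 x + G2 x + G3 x)) := j2.const_mul 2
    simp only [hT]
    rw [integral_add i3 j3, integral_add i2 (iF4.const_mul (2 * τ ^ 3)),
      integral_add i1 (iF3.const_mul (2 * τ)), integral_add iF1 (iF2.const_mul τ),
      integral_const_mul, integral_const_mul,
      integral_const_mul, integral_const_mul, integral_add j1 iG3,
      integral_add iG1 iG2]
  have hlhs : Integrable fun x =>
      (τ * gs u x + τ ^ 3 * u x ^ 2) * Real.exp (2 * τ * φ x) := by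
    refine c4_int hK ?_ ?_
    · refine ((continuous_const.mul ?_).add (continuous_const.mul (hu.continuous.pow 2))).mul
        (Real.continuous_exp.comp (continuous_const.mul hφ.continuous))
      unfold gs
      exact continuous_finset_sum _ fun k _ =>
        (pa_continuous (hu.of_le (by norm_num)) k).pow 2
    · intro x hx
      have h1 := c4_zero huK hx
      simp only [gs, h1.2, ne_eq, OfNat.ofNat_ne_zero, not_false_eq_true, zero_pow, Finset.sum_const_zero, mul_zero, h1.1, add_zero, zero_mul]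
  have hrhs : (∫ x, (Real.exp (τ * φ x) * divop a u x) ^ 2)
      = ∫ x, divop a u x ^ 2 * Real.exp (2 * τ * φ x) := by
    congr 1
    funext x
    have h2 : Real.exp (2 * τ * φ x) = Real.exp (τ * φ x) ^ 2 := by
      rw [← Real.exp_nat_mul]
      congr 1
      push_cast
      ring
    rw [h2]
    ring
  rw [hrhs] at hL
  calc ∫ x, (τ * gs u x + τ ^ 3 * u x ^ 2) * Real.exp (2 * τ * φ x)
      ≤ ∫ x, (4 / m + 2 * (2 * G + 1) / m ^ 3) * T x :=
        integral_mono hlhs (iT.const_mul _) ptw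
    _ = (4 / m + 2 * (2 * G + 1) / m ^ 3) * ∫ x, T x := integral_const_mul _ _
    _ ≤ (4 / m + 2 * (2 * G + 1) / m ^ 3)
        * ∫ x, divop a u x ^ 2 * Real.exp (2 * τ * φ x) := by
      refine mul_le_mul_of_nonneg_left ?_ (by (clear * - hm hG; positivity))
      rw [hint]
      linarith only [hL, hI]

end Vale.Agent.P088.A
end

section

/-!
P088, project EYM, local analysis: mollification and `L²` tools on `ℝ^d`
(adapted from Vale.Agent.P136).
-/

set_option linter.all false

open MeasureTheory Filter Topology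
open scoped ContDiff InnerProductSpace ENNReal Convolution

namespace Vale.Agent.P088.A

variable {d : ℕ}

/-- A sequence of bump functions shrinking to the origin. -/
noncomputable def bump (n : ℕ) : ContDiffBump (0 : V d) where
  rIn := 1 / (2 * ((n : ℝ) + 1))
  rOut := 1 / ((n : ℝ) + 1)
  rIn_pos := by positivity
  rIn_lt_rOut := by
    have : (0 : ℝ) < (n : ℝ) + 1 := by positivity
    rw [div_lt_div_iff₀ (by positivity) this]
    linarith

/-- The normalized kernel. -/
noncomputable def ker (n : ℕ) : V d → ℝ := (bump n).normed volume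

/-- Mollification. -/
noncomputable def moll (n : ℕ) (f : V d → ℝ) (x : V d) : ℝ := ∫ y, ker n (x - y) * f y

lemma ker_contDiff (n : ℕ) : ContDiff ℝ ∞ (ker n : V d → ℝ) := (bump n).contDiff_normed

lemma ker_cs (n : ℕ) : HasCompactSupport (ker n : V d → ℝ) := (bump n).hasCompactSupport_normed

lemma ker_nonneg (n : ℕ) (x : V d) : 0 ≤ ker n x := (bump n).nonneg_normed x

lemma ker_int (n : ℕ) : ∫ x : V d, ker n x = 1 := (bump n).integral_normed

lemma ker_zero {n : ℕ} {x : V d} (hx : 1 / ((n : ℝ) + 1) < ‖x‖) : ker n x = 0 := by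
  have h := (bump (d := d) n).tsupport_normed_eq (μ := (volume : Measure (V d)))
  by_contra hne
  have h2 : x ∈ tsupport ((bump n).normed volume) := subset_tsupport _ hne
  rw [h, Metric.mem_closedBall, dist_zero_right] at h2
  have : (bump (d := d) n).rOut = 1 / ((n : ℝ) + 1) := rfl
  linarith only [hx, h2, this]

lemma moll_eq_conv (n : ℕ) (f : V d → ℝ) :
    moll n f = (ker n) ⋆[ContinuousLinearMap.lsmul ℝ ℝ, volume] f := by
  funext x
  rw [convolution_eq_swap]
  simp only [moll, ContinuousLinearMap.lsmul_apply, smul_eq_mul]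

lemma moll_contDiff (n : ℕ) {f : V d → ℝ} (hf : LocallyIntegrable f) :
    ContDiff ℝ ∞ (moll n f) := by
  rw [moll_eq_conv]
  exact (ker_cs n).contDiff_convolution_left _ (ker_contDiff n) hf

lemma moll_zero {n : ℕ} {f : V d → ℝ} {R : ℝ} (hf : ∀ᵐ y : V d, R < ‖y‖ → f y = 0) {x : V d}
    (hx : R + 1 / ((n : ℝ) + 1) < ‖x‖) : moll n f x = 0 := by
  unfold moll
  apply integral_eq_zero_of_ae
  filter_upwards [hf] with y hy
  by_cases h : R < ‖y‖
  · simp [hy h]
  · have : 1 / ((n : ℝ) + 1) < ‖x - y‖ := by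
      have := norm_sub_norm_le x y
      linarith only [hx, h, this]
    simp [ker_zero this]

lemma moll_cs {n : ℕ} {f : V d → ℝ} {R : ℝ} (hf : ∀ᵐ y : V d, R < ‖y‖ → f y = 0) :
    HasCompactSupport (moll n f) := by
  apply HasCompactSupport.intro (isCompact_closedBall (0 : V d) (R + 1 / ((n : ℝ) + 1)))
  intro x hx
  rw [Metric.mem_closedBall, dist_zero_right, not_le] at hx
  exact moll_zero hf hx

/-- `g` is the weak `i`-th partial derivative of `f`. -/
def WD (i : Fin d) (f g : V d → ℝ) : Prop :=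
  ∀ φ : V d → ℝ, ContDiff ℝ ∞ φ → HasCompactSupport φ →
    ∫ x, f x * pa i φ x = - ∫ x, g x * φ x

lemma ker_sub_contDiff (n : ℕ) (x : V d) : ContDiff ℝ ∞ (fun y => ker n (x - y)) :=
  (ker_contDiff n).comp (contDiff_const.sub contDiff_id)

lemma ker_sub_cs (n : ℕ) (x : V d) : HasCompactSupport (fun y => ker n (x - y)) := by
  apply HasCompactSupport.intro (isCompact_closedBall x (1 / ((n : ℝ) + 1)))
  intro y hy
  rw [Metric.mem_closedBall, dist_eq_norm, not_le, norm_sub_rev] at hy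
  exact ker_zero hy

lemma moll_eq_conv' (n : ℕ) (f : V d → ℝ) :
    moll n f = f ⋆[ContinuousLinearMap.mul ℝ ℝ, volume] (ker n) := by
  funext x
  rw [convolution_def]
  simp only [moll, ContinuousLinearMap.mul_apply']
  congr 1
  funext t
  ring

lemma moll_pa (n : ℕ) {i : Fin d} {f g : V d → ℝ} (hf : LocallyIntegrable f)
    (h : WD i f g) (x : V d) : pa i (moll n f) x = moll n g x := by
  have h1 := (ker_cs n).hasFDerivAt_convolution_right (ContinuousLinearMap.mul ℝ ℝ) hf
    ((ker_contDiff n).of_le (by norm_cast)) x (μ := volume)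
  rw [← moll_eq_conv'] at h1
  unfold pa
  rw [h1.fderiv, convolution_precompR_apply _ hf ((ker_cs n).fderiv ℝ)
    (((ker_contDiff n).of_le (by norm_cast) : ContDiff ℝ 1 (ker n)).continuous_fderiv (by norm_num)),
    convolution_def]
  have h2 := h (fun y => ker n (x - y)) (ker_sub_contDiff n x) (ker_sub_cs n x)
  have h3 : ∀ y, pa i (fun y => ker n (x - y)) y = - fderiv ℝ (ker n) (x - y) (EuclideanSpace.single i 1) := by
    intro y
    have hd : HasFDerivAt (ker n) (fderiv ℝ (ker n) (x - y)) (x - y) :=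
      (((ker_contDiff n).differentiable (by simp)) (x - y)).hasFDerivAt
    have hs : HasFDerivAt (fun y : V d => x - y) (-ContinuousLinearMap.id ℝ (V d)) y :=
      (hasFDerivAt_id y).const_sub x
    have := hd.comp y hs
    unfold pa
    have e : (fun y => ker n (x - y)) = ker n ∘ (fun y => x - y) := rfl
    rw [e, this.fderiv]
    simp
  simp_rw [h3] at h2
  simp only [mul_neg, integral_neg, neg_inj] at h2
  simp only [ContinuousLinearMap.mul_apply']
  rw [h2]
  unfold moll
  congr 1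
  funext y
  ring

lemma cs_lintegral {a b : V d → ℝ≥0∞} (ha : AEMeasurable a) (hb : AEMeasurable b) :
    (∫⁻ y, a y * b y) ^ 2 ≤ (∫⁻ y, a y) * (∫⁻ y, a y * (b y) ^ 2) := by
  have h := ENNReal.lintegral_mul_le_Lp_mul_Lq (volume : Measure (V d))
    (Real.HolderConjugate.two_two) (f := fun y => (a y) ^ (1/2 : ℝ))
    (g := fun y => (a y) ^ (1/2 : ℝ) * b y) (ha.pow_const _) ((ha.pow_const _).mul hb)
  have e1 : ∀ y, (a y) ^ (1/2 : ℝ) * ((a y) ^ (1/2 : ℝ) * b y) = a y * b y := by
    intro y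
    rw [← mul_assoc, ← ENNReal.rpow_add_of_nonneg _ _ (by norm_num) (by norm_num)]
    norm_num
  have e2 : ∀ y, ((a y) ^ (1/2 : ℝ)) ^ (2 : ℝ) = a y := by
    intro y
    rw [← ENNReal.rpow_mul]
    norm_num
  have e3 : ∀ y, ((a y) ^ (1/2 : ℝ) * b y) ^ (2 : ℝ) = a y * (b y) ^ 2 := by
    intro y
    rw [ENNReal.mul_rpow_of_nonneg _ _ (by norm_num), e2]
    norm_num
  simp only [Pi.mul_apply, e1, e2, e3] at h
  calc (∫⁻ y, a y * b y) ^ 2
      ≤ ((∫⁻ y, a y) ^ (1 / 2 : ℝ) * (∫⁻ y, a y * (b y) ^ 2) ^ (1 / 2 : ℝ)) ^ 2 := by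
        (clear * - h; gcongr)
    _ = (∫⁻ y, a y) * (∫⁻ y, a y * (b y) ^ 2) := by
        rw [mul_pow, ← ENNReal.rpow_natCast, ← ENNReal.rpow_natCast, ← ENNReal.rpow_mul,
          ← ENNReal.rpow_mul]
        norm_num

lemma ker_lint (n : ℕ) : ∫⁻ x : V d, ‖ker n x‖ₑ = 1 := by
  have h1 : Integrable (ker n : V d → ℝ) := (ker_contDiff n).continuous.integrable_of_hasCompactSupport
    (ker_cs n)
  have h2 := ofReal_integral_norm_eq_lintegral_enorm h1
  rw [← h2]
  simp_rw [Real.norm_of_nonneg (ker_nonneg n _)]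
  rw [ker_int]
  simp

lemma ker_enorm_meas (n : ℕ) : Measurable (fun p : (V d) × (V d) => ‖ker n (p.1 - p.2)‖ₑ) :=
  (((ker_contDiff n).continuous.comp (continuous_fst.sub continuous_snd)).enorm).measurable

lemma moll_lint_le (n : ℕ) {f : V d → ℝ} (hf : AEStronglyMeasurable f volume) :
    ∫⁻ x, ‖moll n f x‖ₑ ^ 2 ≤ ∫⁻ x, ‖f x‖ₑ ^ 2 := by
  have h1 : ∀ x, ‖moll n f x‖ₑ ^ 2 ≤ ∫⁻ y, ‖ker n (x - y)‖ₑ * ‖f y‖ₑ ^ 2 := by
    intro x
    have hm : Measurable (fun y => ‖ker n (x - y)‖ₑ) :=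
      (((ker_contDiff n).continuous.comp (continuous_const.sub continuous_id)).enorm).measurable
    calc ‖moll n f x‖ₑ ^ 2 ≤ (∫⁻ y, ‖ker n (x - y)‖ₑ * ‖f y‖ₑ) ^ 2 := by
          gcongr
          refine (enorm_integral_le_lintegral_enorm _).trans ?_
          simp only [enorm_mul, le_refl]
      _ ≤ (∫⁻ y, ‖ker n (x - y)‖ₑ) * (∫⁻ y, ‖ker n (x - y)‖ₑ * ‖f y‖ₑ ^ 2) :=
          cs_lintegral hm.aemeasurable hf.enorm
      _ = ∫⁻ y, ‖ker n (x - y)‖ₑ * ‖f y‖ₑ ^ 2 := by
          have : ∫⁻ y, ‖ker n (x - y)‖ₑ = 1 := by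
            rw [lintegral_sub_left_eq_self (fun y => ‖ker n y‖ₑ) x]
            exact ker_lint n
          rw [this, one_mul]
  calc ∫⁻ x, ‖moll n f x‖ₑ ^ 2 ≤ ∫⁻ x, ∫⁻ y, ‖ker n (x - y)‖ₑ * ‖f y‖ₑ ^ 2 :=
        lintegral_mono h1
    _ = ∫⁻ y, ∫⁻ x, ‖ker n (x - y)‖ₑ * ‖f y‖ₑ ^ 2 := by
        apply lintegral_lintegral_swap
        apply AEMeasurable.mul (ker_enorm_meas n).aemeasurable
        exact (hf.enorm.pow_const 2).comp_snd
    _ = ∫⁻ y, ‖f y‖ₑ ^ 2 := by
        congr 1
        funext y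
        have hm : Measurable (fun x => ‖ker n (x - y)‖ₑ) :=
          (((ker_contDiff n).continuous.comp (continuous_id.sub continuous_const)).enorm).measurable
        rw [lintegral_mul_const _ hm,
          lintegral_sub_right_eq_self (fun x => ‖ker n x‖ₑ) y, ker_lint, one_mul]

lemma moll_memLp (n : ℕ) {f : V d → ℝ} (hf : MemLp f 2) : MemLp (moll n f) 2 := by
  have hl : LocallyIntegrable f := hf.locallyIntegrable (by norm_num)
  refine ⟨(moll_contDiff n hl).continuous.aestronglyMeasurable, ?_⟩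
  have h := moll_lint_le n hf.1
  rw [eLpNorm_lt_top_iff_lintegral_rpow_enorm_lt_top (by norm_num) (by norm_num)]
  have h2 := hf.2
  rw [eLpNorm_lt_top_iff_lintegral_rpow_enorm_lt_top (by norm_num) (by norm_num)] at h2
  simp only [ENNReal.toReal_ofNat] at h2 ⊢
  norm_num at h2 ⊢
  exact lt_of_le_of_lt h h2

lemma moll_eLpNorm_le (n : ℕ) {f : V d → ℝ} (hf : AEStronglyMeasurable f volume) :
    eLpNorm (moll n f) 2 volume ≤ eLpNorm f 2 volume := by
  rw [eLpNorm_eq_lintegral_rpow_enorm_toReal (by norm_num) (by norm_num),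
    eLpNorm_eq_lintegral_rpow_enorm_toReal (by norm_num) (by norm_num)]
  have h := moll_lint_le n hf
  apply ENNReal.rpow_le_rpow _ (by norm_num)
  simpa only [ENNReal.toReal_ofNat, ENNReal.rpow_ofNat] using h

lemma ker_mul_integrable (n : ℕ) {f : V d → ℝ} (hf : LocallyIntegrable f) (x : V d) :
    Integrable (fun y => ker n (x - y) * f y) := by
  have := hf.integrable_smul_left_of_hasCompactSupport (ker_sub_contDiff n x).continuous
    (ker_sub_cs n x)
  simpa only [smul_eq_mul] using this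

lemma moll_sub (n : ℕ) {f g : V d → ℝ} (hf : LocallyIntegrable f) (hg : LocallyIntegrable g)
    (x : V d) : moll n (fun y => f y - g y) x = moll n f x - moll n g x := by
  unfold moll
  rw [← integral_sub (ker_mul_integrable n hf x) (ker_mul_integrable n hg x)]
  congr 1
  funext y
  ring

lemma ker_sub_int (n : ℕ) (x : V d) : ∫ y, ker n (x - y) = 1 := by
  have h := integral_sub_left_eq_self (ker n) (volume : Measure (V d)) x
  rw [h]
  exact ker_int n

lemma moll_dist_le (n : ℕ) {g : V d → ℝ} (hg : Continuous g) {δ η : ℝ} (hδ : 1 / ((n : ℝ) + 1) < δ)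
    (hη : ∀ x y, dist x y < δ → |g x - g y| ≤ η) (x : V d) : |moll n g x - g x| ≤ η := by
  have hl : LocallyIntegrable g := hg.locallyIntegrable
  have e1 : moll n g x - g x = ∫ y, ker n (x - y) * (g y - g x) := by
    have : g x = ∫ y, ker n (x - y) * g x := by
      rw [integral_mul_const, ker_sub_int, one_mul]
    conv_lhs => rw [this]
    unfold moll
    rw [← integral_sub (ker_mul_integrable n hl x)]
    · congr 1
      funext y
      ring
    · exact ((ker_sub_contDiff n x).continuous.integrable_of_hasCompactSupport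
        (ker_sub_cs n x)).mul_const _
  rw [e1]
  have hi : Integrable (fun y => ker n (x - y)) :=
    (ker_sub_contDiff n x).continuous.integrable_of_hasCompactSupport (ker_sub_cs n x)
  calc |∫ y, ker n (x - y) * (g y - g x)| ≤ ∫ y, ker n (x - y) * η := by
        rw [← Real.norm_eq_abs]
        refine norm_integral_le_of_norm_le (hi.mul_const η) ?_
        refine Eventually.of_forall fun y => ?_
        rw [Real.norm_eq_abs, abs_mul, abs_of_nonneg (ker_nonneg n _)]
        by_cases h : dist y x < δ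
        · exact mul_le_mul_of_nonneg_left (hη y x h) (ker_nonneg n _)
        · have : ker n (x - y) = 0 := by
            apply ker_zero
            rw [dist_eq_norm, norm_sub_rev] at h
            linarith only [hδ, h]
          simp [this]
    _ = η := by rw [integral_mul_const, ker_sub_int, one_mul]

lemma moll_tendsto_of_test {g : V d → ℝ} (hg : Continuous g) (hc : HasCompactSupport g) :
    Tendsto (fun n => eLpNorm (fun x => moll n g x - g x) 2 volume) atTop (𝓝 0) := by
  obtain ⟨R, hR⟩ : ∃ R : ℝ, ∀ x, R < ‖x‖ → g x = 0 := by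
    obtain ⟨R, hR⟩ := hc.isCompact.isBounded.subset_closedBall (0 : V d)
    refine ⟨R, fun x hx => ?_⟩
    by_contra hne
    have := hR (subset_tsupport g hne)
    rw [Metric.mem_closedBall, dist_zero_right] at this
    linarith only [hx, this]
  have huc : UniformContinuous g := hc.uniformContinuous_of_continuous hg
  set W0 := volume (Metric.closedBall (0 : V d) (R + 1)) with hV
  have hVt : W0 ≠ ⊤ := (isCompact_closedBall (0 : V d) (R + 1)).measure_lt_top.ne
  rw [ENNReal.tendsto_nhds_zero]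
  intro ε hε
  obtain ⟨η, hη, hηε⟩ : ∃ η : ℝ, 0 < η ∧ ENNReal.ofReal η * W0 ^ (1 / 2 : ℝ) ≤ ε := by
    have hc : W0 ^ (1 / 2 : ℝ) ≠ ⊤ := ENNReal.rpow_ne_top_of_nonneg (by norm_num) hVt
    set c := (W0 ^ (1 / 2 : ℝ)).toReal with hcdef
    have hc0 : 0 ≤ c := ENNReal.toReal_nonneg
    have hm : min ε 1 ≠ ⊤ := ne_top_of_le_ne_top ENNReal.one_ne_top (min_le_right _ _)
    have hm0 : 0 < (min ε 1).toReal := ENNReal.toReal_pos (lt_min hε one_pos).ne' hm
    refine ⟨(min ε 1).toReal / (c + 1), by (clear * - hm0; positivity), ?_⟩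
    rw [← ENNReal.ofReal_toReal hc, ← hcdef, ← ENNReal.ofReal_mul (by (clear * - hm0; positivity))]
    calc ENNReal.ofReal ((min ε 1).toReal / (c + 1) * c) ≤ ENNReal.ofReal ((min ε 1).toReal) := by
          apply ENNReal.ofReal_le_ofReal
          rw [div_mul_eq_mul_div, div_le_iff₀ (by positivity)]
          nlinarith only [hm0]
      _ = min ε 1 := ENNReal.ofReal_toReal hm
      _ ≤ ε := min_le_left _ _
  obtain ⟨δ, hδ, hδ2⟩ := Metric.uniformContinuous_iff.mp huc η hη
  have h1 : ∀ᶠ n : ℕ in atTop, 1 / ((n : ℝ) + 1) < δ :=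
    tendsto_one_div_add_atTop_nhds_zero_nat.eventually_lt_const hδ
  filter_upwards [h1] with n hn
  have h2 : ∀ x, |moll n g x - g x| ≤ η := by
    apply moll_dist_le n hg hn
    intro x y hxy
    exact (hδ2 hxy).le
  have h3 : ∀ x, x ∉ Metric.closedBall (0 : V d) (R + 1) → moll n g x - g x = 0 := by
    intro x hx
    rw [Metric.mem_closedBall, dist_zero_right, not_le] at hx
    have h4 : 1 / ((n : ℝ) + 1) ≤ 1 := by
      rw [div_le_one (by (clear * -; positivity))]
      have : (0:ℝ) ≤ n := by (clear * -; positivity)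
      linarith only []
    rw [moll_zero (R := R) (Eventually.of_forall hR) (by linarith only [hx, h4]), hR x (by linarith only [hx])]
    simp
  have h5 := eLpNorm_sub_le_of_dist_bdd (volume : Measure (V d)) (p := 2) (by norm_num)
    (Metric.isClosed_closedBall (x := (0 : V d)) (ε := R + 1)).measurableSet hη.le
    (f := fun x => moll n g x - g x) (g := fun _ => 0)
    (fun x => by simpa only [dist_zero_right, Real.norm_eq_abs] using h2 x)
    (fun x hx => by by_contra hne; exact hx (h3 x hne))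
    (fun x hx => by simp at hx)
  calc eLpNorm (fun x => moll n g x - g x) 2 volume
      = eLpNorm ((fun x => moll n g x - g x) - fun _ => 0) 2 volume := by
        congr 1; funext x; simp
    _ ≤ ENNReal.ofReal η * W0 ^ (1 / 2 : ℝ) := by
        simpa only [ENNReal.toReal_ofNat] using h5
    _ ≤ ε := hηε

/-- Mollifications converge in `L²`. -/
theorem moll_tendsto {f : V d → ℝ} (hf : MemLp f 2) :
    Tendsto (fun n => eLpNorm (fun x => moll n f x - f x) 2 volume) atTop (𝓝 0) := by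
  rw [ENNReal.tendsto_nhds_zero]
  intro ε hε
  by_cases hεt : ε = ⊤
  · simp only [hεt, le_top, eventually_atTop, implies_true, exists_const]
  have hε3 : 0 < (ε / 3).toReal := ENNReal.toReal_pos
    (ENNReal.div_pos hε.ne' (by norm_num)).ne' (ENNReal.div_ne_top hεt (by norm_num))
  obtain ⟨g, hgc, hgs, hg⟩ := hf.exist_eLpNorm_sub_le (by norm_num) (by norm_num) hε3
  rw [ENNReal.ofReal_toReal (ENNReal.div_ne_top hεt (by norm_num))] at hg
  have h1 := moll_tendsto_of_test hgs.continuous hgc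
  rw [ENNReal.tendsto_nhds_zero] at h1
  have hgm : MemLp g 2 := hgs.continuous.memLp_of_hasCompactSupport hgc
  filter_upwards [h1 (ε / 3) (ENNReal.div_pos hε.ne' (by norm_num))] with n hn
  have hlf := hf.locallyIntegrable (by norm_num)
  have hlg := hgm.locallyIntegrable (by norm_num)
  have e : (fun x => moll n f x - f x)
      = (fun x => moll n (fun y => f y - g y) x) + (fun x => moll n g x - g x)
        - (fun x => f x - g x) := by
    funext x
    simp only [Pi.add_apply, Pi.sub_apply]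
    rw [moll_sub n hlf hlg]
    ring
  have hm1 : AEStronglyMeasurable (fun x => moll n (fun y => f y - g y) x) volume :=
    (moll_contDiff n (hlf.sub hlg)).continuous.aestronglyMeasurable
  have hm2 : AEStronglyMeasurable (fun x => moll n g x - g x) volume :=
    ((moll_contDiff n hlg).continuous.sub hgs.continuous).aestronglyMeasurable
  have hm3 : AEStronglyMeasurable (fun x => f x - g x) volume := (hf.sub hgm).1
  rw [e]
  calc eLpNorm ((fun x => moll n (fun y => f y - g y) x) + (fun x => moll n g x - g x)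
        - (fun x => f x - g x)) 2 volume
      ≤ eLpNorm ((fun x => moll n (fun y => f y - g y) x) + (fun x => moll n g x - g x)) 2 volume
        + eLpNorm (fun x => f x - g x) 2 volume := eLpNorm_sub_le (hm1.add hm2) hm3 (by norm_num)
    _ ≤ (eLpNorm (fun x => moll n (fun y => f y - g y) x) 2 volume
        + eLpNorm (fun x => moll n g x - g x) 2 volume)
        + eLpNorm (fun x => f x - g x) 2 volume := by
          gcongr
          exact eLpNorm_add_le hm1 hm2 (by norm_num)
    _ ≤ (ε / 3 + ε / 3) + ε / 3 := by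
          gcongr
          · exact (moll_eLpNorm_le n hm3).trans hg
          · exact hg
    _ = ε := ENNReal.add_thirds ε

/-- squared `L²` norm of a real function. -/
noncomputable def N2 (f : V d → ℝ) : ℝ := ∫ x, (f x) ^ 2

lemma N2_nonneg (f : V d → ℝ) : 0 ≤ N2 f := integral_nonneg fun _ => sq_nonneg _

lemma memLp_sq_int {f : V d → ℝ} (hf : MemLp f 2) : Integrable (fun x => (f x) ^ 2) := by
  have := hf.integrable_norm_pow (by norm_num)
  simpa only [Real.norm_eq_abs, sq_abs] using this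

lemma N2_eq {f : V d → ℝ} (hf : MemLp f 2) :
    ENNReal.ofReal (N2 f) = (eLpNorm f 2 volume) ^ 2 := by
  have h1 : (eLpNorm f 2 volume) ^ 2 = ∫⁻ x, ‖f x‖ₑ ^ 2 := by
    rw [eLpNorm_eq_lintegral_rpow_enorm_toReal (by norm_num) (by norm_num),
      ← ENNReal.rpow_natCast, ← ENNReal.rpow_mul]
    norm_num
  rw [h1, N2, ofReal_integral_eq_lintegral_ofReal (memLp_sq_int hf)
    (Eventually.of_forall fun _ => sq_nonneg _)]
  congr 1
  funext x
  rw [← ofReal_norm, ← ENNReal.ofReal_pow (norm_nonneg _), Real.norm_eq_abs, sq_abs]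

lemma N2_tendsto {a : ℕ → V d → ℝ} (ha : ∀ n, MemLp (a n) 2)
    (h : Tendsto (fun n => eLpNorm (a n) 2 volume) atTop (𝓝 0)) :
    Tendsto (fun n => N2 (a n)) atTop (𝓝 0) := by
  have h1 : Tendsto (fun n => (eLpNorm (a n) 2 volume) ^ 2) atTop (𝓝 0) := by
    have := ENNReal.Tendsto.pow (n := 2) h
    simpa only [ne_eq, OfNat.ofNat_ne_zero, not_false_eq_true, zero_pow] using this
  have h2 : ∀ n, N2 (a n) = ((eLpNorm (a n) 2 volume) ^ 2).toReal := by
    intro n
    rw [← N2_eq (ha n), ENNReal.toReal_ofReal (N2_nonneg _)]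
  simp_rw [h2]
  have := (ENNReal.tendsto_toReal (a := 0) (by norm_num)).comp h1
  simpa only [Function.comp_def, ENNReal.toReal_zero] using this

lemma memLp_sub' {f g : V d → ℝ} (hf : MemLp f 2) (hg : MemLp g 2) :
    MemLp (fun x => f x - g x) 2 := hf.sub hg

lemma moll_N2_tendsto {f : V d → ℝ} (hf : MemLp f 2) :
    Tendsto (fun n => N2 (fun x => moll n f x - f x)) atTop (𝓝 0) :=
  N2_tendsto (fun n => memLp_sub' (moll_memLp n hf) hf) (moll_tendsto hf)

lemma mul_int {f g : V d → ℝ} (hf : MemLp f 2) (hg : MemLp g 2) :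
    Integrable (fun x => f x * g x) := hf.integrable_mul hg

/-- Cauchy-Schwarz. -/
lemma cs_int {f g : V d → ℝ} (hf : MemLp f 2) (hg : MemLp g 2) :
    (∫ x, f x * g x) ^ 2 ≤ N2 f * N2 g := by
  have h1 : ∀ t : ℝ, 0 ≤ N2 f * (t * t) + (2 * ∫ x, f x * g x) * t + N2 g := by
    intro t
    have e : N2 f * (t * t) + (2 * ∫ x, f x * g x) * t + N2 g = ∫ x, (t * f x + g x) ^ 2 := by
      have e1 : ∀ x, (t * f x + g x) ^ 2
          = (t * t) * (f x) ^ 2 + (2 * t) * (f x * g x) + (g x) ^ 2 := by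
        intro x; ring
      simp_rw [e1]
      have i1 : Integrable (fun x => (t * t) * (f x) ^ 2) := (memLp_sq_int hf).const_mul _
      have i2 : Integrable (fun x => (2 * t) * (f x * g x)) := (mul_int hf hg).const_mul _
      have i3 : Integrable (fun x => (t * t) * (f x) ^ 2 + (2 * t) * (f x * g x)) := i1.add i2
      rw [integral_add i3 (memLp_sq_int hg), integral_add i1 i2, integral_const_mul,
        integral_const_mul]
      unfold N2
      ring
    rw [e]
    exact integral_nonneg fun _ => sq_nonneg _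
  have h2 := discrim_le_zero h1
  unfold discrim at h2
  linarith

lemma tendsto_integral_mul {a : ℕ → V d → ℝ} {b φ : V d → ℝ} (ha : ∀ n, MemLp (a n) 2)
    (hb : MemLp b 2) (hφ : MemLp φ 2)
    (h : Tendsto (fun n => N2 (fun x => a n x - b x)) atTop (𝓝 0)) :
    Tendsto (fun n => ∫ x, a n x * φ x) atTop (𝓝 (∫ x, b x * φ x)) := by
  rw [tendsto_iff_dist_tendsto_zero]
  have h1 : Tendsto (fun n => Real.sqrt (N2 (fun x => a n x - b x) * N2 φ)) atTop (𝓝 0) := by
    have := (h.mul_const (N2 φ)).sqrt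
    simpa only [zero_mul, Real.sqrt_zero] using this
  refine squeeze_zero (fun _ => dist_nonneg) (fun n => ?_) h1
  rw [Real.dist_eq, ← integral_sub (mul_int (ha n) hφ) (mul_int hb hφ)]
  have e : ∀ x, a n x * φ x - b x * φ x = (a n x - b x) * φ x := by intro x; ring
  simp_rw [e]
  apply Real.abs_le_sqrt
  exact cs_int (memLp_sub' (ha n) hb) hφ

/-- completeness of `L²` in terms of `N2`. -/
lemma exists_limit {a : ℕ → V d → ℝ} (ha : ∀ n, MemLp (a n) 2)
    (hC : ∀ ε > 0, ∃ N, ∀ n ≥ N, ∀ m ≥ N, N2 (fun x => a n x - a m x) < ε) :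
    ∃ g : V d → ℝ, MemLp g 2 ∧ Tendsto (fun n => N2 (fun x => a n x - g x)) atTop (𝓝 0) := by
  let u : ℕ → Lp ℝ 2 (volume : Measure (V d)) := fun n => (ha n).toLp (a n)
  have hd : ∀ n m, dist (u n) (u m) ^ 2 = N2 (fun x => a n x - a m x) := by
    intro n m
    have h1 : dist (u n) (u m) = (eLpNorm (fun x => a n x - a m x) 2 volume).toReal := by
      rw [dist_eq_norm, ← MemLp.toLp_sub, Lp.norm_toLp]
      rfl
    rw [h1, ← ENNReal.toReal_pow, ← N2_eq (memLp_sub' (ha n) (ha m)),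
      ENNReal.toReal_ofReal (N2_nonneg _)]
  have hcau : CauchySeq u := by
    rw [Metric.cauchySeq_iff]
    intro ε hε
    obtain ⟨N, hN⟩ := hC (ε ^ 2) (by positivity)
    refine ⟨N, fun n hn m hm => ?_⟩
    have := hN n hn m hm
    rw [← hd n m] at this
    exact lt_of_pow_lt_pow_left₀ 2 hε.le this
  obtain ⟨v, hv⟩ := cauchySeq_tendsto_of_complete hcau
  refine ⟨v, Lp.memLp v, ?_⟩
  have h2 : ∀ n, N2 (fun x => a n x - v x) = dist (u n) v ^ 2 := by
    intro n
    have h1 : dist (u n) v = (eLpNorm (fun x => a n x - v x) 2 volume).toReal := by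
      rw [Lp.dist_def]
      congr 1
      apply eLpNorm_congr_ae
      filter_upwards [(ha n).coeFn_toLp] with x hx
      simp only [Pi.sub_apply]
      rw [hx]
    rw [h1, ← ENNReal.toReal_pow, ← N2_eq (memLp_sub' (ha n) (Lp.memLp v)),
      ENNReal.toReal_ofReal (N2_nonneg _)]
  simp_rw [h2]
  have := (tendsto_iff_dist_tendsto_zero.mp hv).pow 2
  simpa only [ne_eq, OfNat.ofNat_ne_zero, not_false_eq_true, zero_pow] using this

/-- convolution with a smooth compactly supported kernel. -/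
noncomputable def cv (k f : V d → ℝ) (x : V d) : ℝ := ∫ y, k (x - y) * f y

lemma cv_eq_conv (k f : V d → ℝ) :
    cv k f = f ⋆[ContinuousLinearMap.mul ℝ ℝ, volume] k := by
  funext x
  rw [convolution_def]
  simp only [cv, ContinuousLinearMap.mul_apply']
  congr 1
  funext t
  ring

lemma pa_cv {k f : V d → ℝ} (hk : ContDiff ℝ ∞ k) (hkc : HasCompactSupport k)
    (hf : LocallyIntegrable f) (i : Fin d) : pa i (cv k f) = cv (pa i k) f := by
  funext x
  have h1 := hkc.hasFDerivAt_convolution_right (ContinuousLinearMap.mul ℝ ℝ) hf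
    (hk.of_le (by norm_cast)) x (μ := volume)
  rw [← cv_eq_conv] at h1
  unfold pa
  rw [h1.fderiv, convolution_precompR_apply _ hf (hkc.fderiv ℝ)
    ((hk.of_le (by norm_cast) : ContDiff ℝ 1 k).continuous_fderiv (by norm_num)),
    ← cv_eq_conv]

lemma moll_eq_cv (n : ℕ) (f : V d → ℝ) : moll n f = cv (ker n) f := rfl

lemma sub_cs {k : V d → ℝ} (hk : HasCompactSupport k) (x : V d) :
    HasCompactSupport (fun y => k (x - y)) :=
  hk.comp_homeomorph (Homeomorph.subLeft x)

lemma pa_sub_left {k : V d → ℝ} (hk : ContDiff ℝ ∞ k) (x y : V d) (i : Fin d) :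
    pa i (fun y => k (x - y)) y = - pa i k (x - y) := by
  have hd : HasFDerivAt k (fderiv ℝ k (x - y)) (x - y) :=
    ((hk.differentiable (by simp)) (x - y)).hasFDerivAt
  have hs : HasFDerivAt (fun y : V d => x - y) (-ContinuousLinearMap.id ℝ (V d)) y :=
    (hasFDerivAt_id y).const_sub x
  have := hd.comp y hs
  unfold pa
  have e : (fun y => k (x - y)) = k ∘ (fun y => x - y) := rfl
  rw [e, this.fderiv]
  simp

lemma memLp_add' {f g : V d → ℝ} (hf : MemLp f 2) (hg : MemLp g 2) :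
    MemLp (fun x => f x + g x) 2 := hf.add hg

lemma memLp_bdd_mul {w f : V d → ℝ} {M : ℝ} (hw : AEStronglyMeasurable w volume)
    (hM : ∀ᵐ x, |w x| ≤ M) (hf : MemLp f 2) : MemLp (fun x => w x * f x) 2 := by
  refine MemLp.of_le_mul (c := M) hf (hw.mul hf.1) ?_
  filter_upwards [hM] with x hx
  rw [norm_mul]
  gcongr
  exact hx

lemma N2_bdd_mul {w f : V d → ℝ} {M : ℝ} (hw : AEStronglyMeasurable w volume)
    (hM : ∀ᵐ x, |w x| ≤ M) (hf : MemLp f 2) : N2 (fun x => w x * f x) ≤ M ^ 2 * N2 f := by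
  unfold N2
  rw [← integral_const_mul]
  apply integral_mono_ae (memLp_sq_int (memLp_bdd_mul hw hM hf)) ((memLp_sq_int hf).const_mul _)
  filter_upwards [hM] with x hx
  rw [mul_pow]
  have : (w x) ^ 2 ≤ M ^ 2 := by
    rw [← sq_abs]
    (clear * - hx; gcongr)
  gcongr

lemma tendsto_weighted {w : V d → ℝ} (hw : Continuous w) {R : ℝ} {a : ℕ → V d → ℝ} {b : V d → ℝ}
    (ha : ∀ n, MemLp (a n) 2) (hb : MemLp b 2) (hsa : ∀ n, ∀ᵐ x : V d, R < ‖x‖ → a n x = 0)
    (hsb : ∀ᵐ x : V d, R < ‖x‖ → b x = 0)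
    (h : Tendsto (fun n => N2 (fun x => a n x - b x)) atTop (𝓝 0)) :
    Tendsto (fun n => ∫ x, w x * (a n x) ^ 2) atTop (𝓝 (∫ x, w x * (b x) ^ 2)) := by
  obtain ⟨M, hM⟩ : ∃ M : ℝ, ∀ x ∈ Metric.closedBall (0 : V d) R, |w x| ≤ M := by
    obtain ⟨M, hM⟩ := (isCompact_closedBall (0 : V d) R).exists_bound_of_continuousOn
      hw.continuousOn
    exact ⟨M, fun x hx => hM x hx⟩
  set M' := max M 0 with hM'
  set wt : V d → ℝ := (Metric.closedBall (0 : V d) R).indicator w with hwt
  have hwtm : AEStronglyMeasurable wt volume :=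
    hw.aestronglyMeasurable.indicator measurableSet_closedBall
  have hwtM : ∀ᵐ x, |wt x| ≤ M' := by
    refine Eventually.of_forall fun x => ?_
    by_cases hx : x ∈ Metric.closedBall (0 : V d) R
    · rw [hwt, Set.indicator_of_mem hx]
      exact (hM x hx).trans (le_max_left _ _)
    · rw [hwt, Set.indicator_of_notMem hx]
      simp only [abs_zero, hM', le_sup_right]
  have hM'0 : 0 ≤ M' := le_max_right _ _
  have hwta : ∀ n, ∀ᵐ x, w x * (a n x) ^ 2 = (wt x * a n x) * a n x := by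
    intro n
    filter_upwards [hsa n] with x hx
    by_cases hxb : x ∈ Metric.closedBall (0 : V d) R
    · rw [hwt, Set.indicator_of_mem hxb]; ring
    · rw [Metric.mem_closedBall, dist_zero_right, not_le] at hxb
      rw [hx hxb]; ring
  have hwtb : ∀ᵐ x, w x * (b x) ^ 2 = (wt x * b x) * b x := by
    filter_upwards [hsb] with x hx
    by_cases hxb : x ∈ Metric.closedBall (0 : V d) R
    · rw [hwt, Set.indicator_of_mem hxb]; ring
    · rw [Metric.mem_closedBall, dist_zero_right, not_le] at hxb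
      rw [hx hxb]; ring
  have e1 : ∀ n, ∫ x, w x * (a n x) ^ 2 = ∫ x, (wt x * a n x) * a n x := fun n =>
    integral_congr_ae (hwta n)
  have e2 : ∫ x, w x * (b x) ^ 2 = ∫ x, (wt x * b x) * b x := integral_congr_ae hwtb
  simp_rw [e1]
  rw [e2, tendsto_iff_dist_tendsto_zero]
  have hlim : Tendsto (fun n => Real.sqrt ((M' ^ 2 * N2 (fun x => a n x - b x))
      * (2 * N2 (fun x => a n x - b x) + 8 * N2 b))) atTop (𝓝 0) := by
    have := (((h.const_mul (M' ^ 2)).mul ((h.const_mul 2).add_const (8 * N2 b)))).sqrt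
    simpa only [mul_zero, zero_add, zero_mul, Real.sqrt_zero] using this
  refine squeeze_zero (fun _ => dist_nonneg) (fun n => ?_) hlim
  have m1 : MemLp (fun x => wt x * a n x) 2 := memLp_bdd_mul hwtm hwtM (ha n)
  have m2 : MemLp (fun x => wt x * b x) 2 := memLp_bdd_mul hwtm hwtM hb
  have m3 : MemLp (fun x => a n x - b x) 2 := memLp_sub' (ha n) hb
  have m4 : MemLp (fun x => a n x + b x) 2 := memLp_add' (ha n) hb
  have m5 : MemLp (fun x => wt x * (a n x - b x)) 2 := memLp_bdd_mul hwtm hwtM m3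
  rw [Real.dist_eq, ← integral_sub (mul_int m1 (ha n)) (mul_int m2 hb)]
  have e : ∀ x, wt x * a n x * a n x - wt x * b x * b x
      = (wt x * (a n x - b x)) * (a n x + b x) := by intro x; ring
  simp_rw [e]
  apply Real.abs_le_sqrt
  refine (cs_int m5 m4).trans ?_
  have f1 : N2 (fun x => wt x * (a n x - b x)) ≤ M' ^ 2 * N2 (fun x => a n x - b x) :=
    N2_bdd_mul hwtm hwtM m3
  have f2 : N2 (fun x => a n x + b x) ≤ 2 * N2 (fun x => a n x - b x) + 8 * N2 b := by
    unfold N2
    rw [← integral_const_mul, ← integral_const_mul,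
      ← integral_add ((memLp_sq_int m3).const_mul _) ((memLp_sq_int hb).const_mul _)]
    apply integral_mono (memLp_sq_int m4)
      (((memLp_sq_int m3).const_mul _).add ((memLp_sq_int hb).const_mul _))
    intro x
    simp only [Pi.add_apply]
    nlinarith only [sq_nonneg (a n x - b x - 2 * b x)]
  exact mul_le_mul f1 f2 (N2_nonneg _) (mul_nonneg (sq_nonneg _) (N2_nonneg _))

end Vale.Agent.P088.A
end

section

/-!
P088-EYM-A7: weak solutions on open sets; definitions and the density of test functions.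
-/

set_option linter.all false

open MeasureTheory Filter Topology
open scoped ContDiff ENNReal

namespace Vale.Agent.P088.A

variable {d : ℕ}

/-- `φ` is a test function on `U`. -/
def TF (U : Set (V d)) (φ : V d → ℝ) : Prop :=
  ContDiff ℝ ∞ φ ∧ HasCompactSupport φ ∧ tsupport φ ⊆ U

/-- `w` is a weak solution of `∫ a^{jk} ∂_j w ∂_k φ = ∫ F φ` on `U`, with weak gradient `Dw`. -/
structure WS (a : Fin d → Fin d → V d → ℝ) (U : Set (V d)) (w : V d → ℝ)
    (Dw : Fin d → V d → ℝ) (F : V d → ℝ) : Prop where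
  w_L2 : MemLp w 2 (volume.restrict U)
  D_L2 : ∀ k, MemLp (Dw k) 2 (volume.restrict U)
  F_L2 : MemLp F 2 (volume.restrict U)
  grad : ∀ k φ, TF U φ → ∫ x, w x * pa k φ x = - ∫ x, Dw k x * φ x
  eqn : ∀ φ, TF U φ → ∫ x, (∑ j, ∑ k, a j k x * Dw j x * pa k φ x) = ∫ x, F x * φ x

lemma wd_support (n : ℕ) {φ : V d → ℝ} {δ : ℝ} (hδ : 1 / ((n : ℝ) + 1) ≤ δ) :
    tsupport (moll n φ) ⊆ Metric.cthickening δ (tsupport φ) := by
  apply closure_minimal _ Metric.isClosed_cthickening
  intro x hx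
  by_contra hx'
  apply hx
  unfold moll
  apply integral_eq_zero_of_ae
  refine Filter.Eventually.of_forall fun y => ?_
  by_cases hy : y ∈ tsupport φ
  · have h1 : 1 / ((n : ℝ) + 1) < ‖x - y‖ := by
      by_contra hle
      rw [not_lt] at hle
      exact hx' (Metric.mem_cthickening_of_dist_le x y δ _ hy
        (by rw [dist_eq_norm]; exact hle.trans hδ))
    simp [ker_zero h1]
  · simp [image_eq_zero_of_notMem_tsupport hy]

lemma wd_WD {φ : V d → ℝ} (hφ : ContDiff ℝ 1 φ) (k : Fin d) : WD k φ (pa k φ) :=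
  fun ψ hψ hc => ibp hφ (hψ.of_le (by norm_cast)) hc k

lemma wd_cs (n : ℕ) {φ : V d → ℝ} (hc : HasCompactSupport φ) : HasCompactSupport (moll n φ) := by
  obtain ⟨R, hR⟩ := hc.isCompact.isBounded.subset_closedBall (0 : V d)
  refine moll_cs (R := R) (Filter.Eventually.of_forall fun y hy => ?_)
  by_contra hne
  have := hR (subset_tsupport _ hne)
  rw [Metric.mem_closedBall, dist_zero_right] at this
  linarith only [hy, this]

lemma wd_limit {U : Set (V d)} (hU : IsOpen U) {w ψ : V d → ℝ}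
    (hw : MemLp w 2 (volume.restrict U)) (hψ : Continuous ψ) (hc : HasCompactSupport ψ)
    (hs : tsupport ψ ⊆ U) {δ : ℝ} (hδ : 0 < δ) (hδU : Metric.cthickening δ (tsupport ψ) ⊆ U) :
    Tendsto (fun n => ∫ x, w x * moll n ψ x) atTop (𝓝 (∫ x, w x * ψ x)) := by
  have hw1 : MemLp (U.indicator w) 2 volume := (memLp_indicator_iff_restrict hU.measurableSet).2 hw
  have hψ2 : MemLp ψ 2 volume := hψ.memLp_of_hasCompactSupport hc
  have key : ∀ f : V d → ℝ, tsupport f ⊆ U → ∫ x, w x * f x = ∫ x, f x * U.indicator w x := by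
    intro f hf
    refine integral_congr_ae (Filter.Eventually.of_forall fun x => ?_)
    by_cases hx : x ∈ U
    · simp [hx, mul_comm]
    · simp [image_eq_zero_of_notMem_tsupport fun h => hx (hf h)]
  have h1 := tendsto_integral_mul (fun n => moll_memLp n hψ2) hψ2 hw1 (moll_N2_tendsto hψ2)
  rw [key ψ hs]
  refine h1.congr' ?_
  have h2 : ∀ᶠ n : ℕ in atTop, 1 / ((n : ℝ) + 1) < δ :=
    (tendsto_one_div_add_atTop_nhds_zero_nat (𝕜 := ℝ)).eventually (gt_mem_nhds hδ)
  filter_upwards [h2] with n hn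
  exact (key _ ((wd_support n hn.le).trans hδU)).symm

/-- The weak gradient may be tested with `C¹` functions. -/
theorem grad_C1 {U : Set (V d)} (hU : IsOpen U) {w g : V d → ℝ} {k : Fin d}
    (hw : MemLp w 2 (volume.restrict U)) (hg : MemLp g 2 (volume.restrict U))
    (h : ∀ φ, TF U φ → ∫ x, w x * pa k φ x = - ∫ x, g x * φ x)
    {φ : V d → ℝ} (hφ : ContDiff ℝ 1 φ) (hc : HasCompactSupport φ) (hs : tsupport φ ⊆ U) :
    ∫ x, w x * pa k φ x = - ∫ x, g x * φ x := by
  obtain ⟨δ, hδ, hδU⟩ := hc.isCompact.exists_cthickening_subset_open hU hs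
  have hsub : tsupport (pa k φ) ⊆ tsupport φ := tsupport_pa_subset φ k
  have h1 := wd_limit hU hw (pa_continuous hφ k) (pa_hasCompactSupport hc k) (hsub.trans hs) hδ
    ((Metric.cthickening_subset_of_subset δ hsub).trans hδU)
  have h2 := (wd_limit hU hg hφ.continuous hc hs hδ hδU).neg
  refine tendsto_nhds_unique (h1.congr' ?_) h2
  have h3 : ∀ᶠ n : ℕ in atTop, 1 / ((n : ℝ) + 1) < δ :=
    (tendsto_one_div_add_atTop_nhds_zero_nat (𝕜 := ℝ)).eventually (gt_mem_nhds hδ)
  filter_upwards [h3] with n hn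
  rw [← h (moll n φ) ⟨moll_contDiff n hφ.continuous.locallyIntegrable, wd_cs n hc,
    (wd_support n hn.le).trans hδU⟩]
  refine integral_congr_ae (Filter.Eventually.of_forall fun x => ?_)
  show w x * moll n (pa k φ) x = w x * pa k (moll n φ) x
  rw [moll_pa n hφ.continuous.locallyIntegrable (wd_WD hφ k)]

end Vale.Agent.P088.A
end

section

set_option linter.all false

/-!
P088-EYM-A5: scaling of the mollifier and the Schur bound for the Friedrichs commutator.
-/

open MeasureTheory Filter Topology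
open scoped ContDiff ENNReal

namespace Vale.Agent.P088.A

variable {d : ℕ}

lemma f1_bump_scale (n : ℕ) (x : V d) :
    (bump n : V d → ℝ) x = (bump 0 : V d → ℝ) (((n : ℝ) + 1) • x) := by
  have hn : (n : ℝ) + 1 ≠ 0 := by positivity
  rw [ContDiffBump.apply, ContDiffBump.apply]
  have e1 : (bump (d := d) n).rOut / (bump (d := d) n).rIn = 2 := by
    show (1 / ((n : ℝ) + 1)) / (1 / (2 * ((n : ℝ) + 1))) = 2
    field_simp
  have e2 : (bump (d := d) 0).rOut / (bump (d := d) 0).rIn = 2 := by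
    show (1 / (((0 : ℕ) : ℝ) + 1)) / (1 / (2 * (((0 : ℕ) : ℝ) + 1))) = 2
    norm_num
  have e3 : (bump (d := d) n).rIn⁻¹ = 2 * ((n : ℝ) + 1) := by
    show (1 / (2 * ((n : ℝ) + 1)))⁻¹ = 2 * ((n : ℝ) + 1)
    rw [one_div, inv_inv]
  have e4 : (bump (d := d) 0).rIn⁻¹ = 2 := by
    show (1 / (2 * (((0 : ℕ) : ℝ) + 1)))⁻¹ = 2
    norm_num
  rw [e1, e2, e3, e4, sub_zero, sub_zero, mul_smul]

theorem ker_scale (n : ℕ) (x : V d) :
    ker n x = ((n : ℝ) + 1) ^ d * ker 0 (((n : ℝ) + 1) • x) := by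
  have hn : (0 : ℝ) < (n : ℝ) + 1 := by positivity
  unfold ker
  rw [ContDiffBump.normed_def, ContDiffBump.normed_def, f1_bump_scale n x]
  have e : ∫ y : V d, (bump n : V d → ℝ) y = (((n : ℝ) + 1) ^ d)⁻¹ * ∫ y : V d, (bump 0 : V d → ℝ) y := by
    have h1 : (fun y : V d => (bump n : V d → ℝ) y)
        = fun y => (bump 0 : V d → ℝ) (((n : ℝ) + 1) • y) := by
      funext y
      exact f1_bump_scale n y
    rw [h1, Measure.integral_comp_smul, finrank_euclideanSpace_fin, abs_of_pos (by positivity),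
      smul_eq_mul]
  rw [e, div_mul_eq_div_div, div_inv_eq_mul, mul_comm _ (((n : ℝ) + 1) ^ d), mul_div_assoc]

lemma f1_pa_ker (n : ℕ) (i : Fin d) (z : V d) :
    pa i (ker n) z = ((n : ℝ) + 1) ^ d * (((n : ℝ) + 1) * pa i (ker 0) (((n : ℝ) + 1) • z)) := by
  have e : (ker n : V d → ℝ) = fun x => ((n : ℝ) + 1) ^ d * ker 0 (((n : ℝ) + 1) • x) := by
    funext x
    exact ker_scale n x
  have hd : HasFDerivAt (ker 0 : V d → ℝ) (fderiv ℝ (ker 0) (((n : ℝ) + 1) • z))
      (((n : ℝ) + 1) • z) :=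
    (((ker_contDiff 0).differentiable (by simp)) _).hasFDerivAt
  have hs : HasFDerivAt (fun y : V d => ((n : ℝ) + 1) • y)
      (((n : ℝ) + 1) • ContinuousLinearMap.id ℝ (V d)) z :=
    (hasFDerivAt_id z).const_smul ((n : ℝ) + 1)
  have h1 := (hd.comp z hs).const_mul (((n : ℝ) + 1) ^ d)
  unfold pa
  rw [e]
  have h2 : fderiv ℝ (fun x : V d => ((n : ℝ) + 1) ^ d * ker 0 (((n : ℝ) + 1) • x)) z
      = (((n : ℝ) + 1) ^ d) • ((fderiv ℝ (ker 0) (((n : ℝ) + 1) • z)).comp
        (((n : ℝ) + 1) • ContinuousLinearMap.id ℝ (V d))) := h1.fderiv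
  rw [h2]
  simp

/-- `∫ |z| |∂_i ker_n z| dz` does not depend on `n`. -/
theorem ker_moment (i : Fin d) :
    ∃ C : ℝ, ∀ n : ℕ, Integrable (fun z : V d => ‖z‖ * |pa i (ker n) z|) ∧
      ∫ z : V d, ‖z‖ * |pa i (ker n) z| ≤ C := by
  refine ⟨∫ z : V d, ‖z‖ * |pa i (ker 0) z|, fun n => ⟨?_, ?_⟩⟩
  · refine int_cc (continuous_norm.mul (pa_continuous ((ker_contDiff n).of_le (by norm_cast)) i).abs) ?_
    have h1 : HasCompactSupport (fun z : V d => |pa i (ker n) z|) :=
      (pa_hasCompactSupport (ker_cs n) i).comp_left (g := fun t : ℝ => |t|) (by simp)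
    exact h1.mul_left
  · have hn : (0 : ℝ) < (n : ℝ) + 1 := by positivity
    have e : (fun z : V d => ‖z‖ * |pa i (ker n) z|) = fun z => ((n : ℝ) + 1) ^ d *
        (fun y : V d => ‖y‖ * |pa i (ker 0) y|) (((n : ℝ) + 1) • z) := by
      funext z
      simp only
      rw [f1_pa_ker, norm_smul, Real.norm_of_nonneg hn.le, abs_mul, abs_mul,
        abs_of_pos (pow_pos hn d), abs_of_pos hn]
      ring
    have h1 := Measure.integral_comp_smul (volume : Measure (V d))
      (fun y : V d => ‖y‖ * |pa i (ker 0) y|) ((n : ℝ) + 1)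
    rw [e, integral_const_mul, h1, finrank_euclideanSpace_fin,
      abs_of_pos (by positivity), smul_eq_mul, ← mul_assoc, mul_inv_cancel₀ (by positivity),
      one_mul]

lemma f1_cv_integrable {k f : V d → ℝ} (hk : Continuous k) (hkc : HasCompactSupport k)
    (hf : LocallyIntegrable f) (x : V d) : Integrable (fun y => k (x - y) * f y) := by
  have := hf.integrable_smul_left_of_hasCompactSupport
    (hk.comp (continuous_const.sub continuous_id)) (sub_cs hkc x)
  simpa only [Function.comp_apply, Pi.sub_apply, id_eq, smul_eq_mul] using this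

lemma f1_mul_loc {a f : V d → ℝ} (ha : Continuous a) (hf : LocallyIntegrable f) :
    LocallyIntegrable (fun z => a z * f z) := by
  rw [← locallyIntegrableOn_univ] at hf ⊢
  exact hf.continuousOn_mul ha.continuousOn isOpen_univ.isLocallyClosed

/-- The formula for the derivative of the commutator. -/
theorem comm_formula {a : V d → ℝ} (ha : ContDiff ℝ 1 a) {f : V d → ℝ}
    (hf : LocallyIntegrable f) (n : ℕ) (i : Fin d) (x : V d) :
    pa i (fun y => a y * moll n f y - moll n (fun z => a z * f z) y) x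
      = pa i a x * moll n f x + ∫ y, pa i (ker n) (x - y) * (a x - a y) * f y := by
  have haf := f1_mul_loc ha.continuous hf
  have hda : DifferentiableAt ℝ a x := ha.differentiable (by norm_num) x
  have hdm : DifferentiableAt ℝ (moll n f) x := (moll_contDiff n hf).differentiable (by simp) x
  have hdm2 : DifferentiableAt ℝ (moll n (fun z => a z * f z)) x :=
    (moll_contDiff n haf).differentiable (by simp) x
  rw [pa_sub (hda.fun_mul hdm) hdm2, pa_mul hda hdm, moll_eq_cv, moll_eq_cv,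
    pa_cv (ker_contDiff n) (ker_cs n) hf, pa_cv (ker_contDiff n) (ker_cs n) haf]
  have hk : Continuous (pa i (ker n : V d → ℝ)) :=
    pa_continuous ((ker_contDiff n).of_le (by norm_cast)) i
  have hkc : HasCompactSupport (pa i (ker n : V d → ℝ)) := pa_hasCompactSupport (ker_cs n) i
  have i1 := (f1_cv_integrable hk hkc hf x).const_mul (a x)
  have i2 := f1_cv_integrable hk hkc haf x
  have e : ∫ y, pa i (ker n) (x - y) * (a x - a y) * f y
      = a x * cv (pa i (ker n)) f x - cv (pa i (ker n)) (fun z => a z * f z) x := by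
    unfold cv
    rw [← integral_const_mul, ← integral_sub i1 i2]
    congr 1
    funext y
    ring
  rw [e]
  ring

/-- Schur's test. -/
lemma f1_schur {k : V d → ℝ≥0∞} (hk : Measurable k) {T f : V d → ℝ}
    (hf : AEStronglyMeasurable f volume) (hT : ∀ x, ‖T x‖ₑ ≤ ∫⁻ y, k (x - y) * ‖f y‖ₑ) :
    ∫⁻ x, ‖T x‖ₑ ^ 2 ≤ (∫⁻ x, k x) ^ 2 * ∫⁻ x, ‖f x‖ₑ ^ 2 := by
  have h1 : ∀ x, ‖T x‖ₑ ^ 2 ≤ (∫⁻ z, k z) * ∫⁻ y, k (x - y) * ‖f y‖ₑ ^ 2 := by
    intro x
    have hm : Measurable (fun y => k (x - y)) := hk.comp (measurable_const.sub measurable_id)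
    calc ‖T x‖ₑ ^ 2 ≤ (∫⁻ y, k (x - y) * ‖f y‖ₑ) ^ 2 := by
          gcongr
          exact hT x
      _ ≤ (∫⁻ y, k (x - y)) * (∫⁻ y, k (x - y) * ‖f y‖ₑ ^ 2) :=
          cs_lintegral hm.aemeasurable hf.enorm
      _ = (∫⁻ z, k z) * ∫⁻ y, k (x - y) * ‖f y‖ₑ ^ 2 := by
          rw [lintegral_sub_left_eq_self k x]
  have hm2 : Measurable (fun p : (V d) × (V d) => k (p.1 - p.2)) :=
    hk.comp (measurable_fst.sub measurable_snd)
  have hm3 : AEMeasurable (fun p : (V d) × (V d) => k (p.1 - p.2) * ‖f p.2‖ₑ ^ 2)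
      ((volume : Measure (V d)).prod volume) := by
    apply AEMeasurable.mul hm2.aemeasurable
    exact (hf.enorm.pow_const 2).comp_snd
  calc ∫⁻ x, ‖T x‖ₑ ^ 2 ≤ ∫⁻ x, (∫⁻ z, k z) * ∫⁻ y, k (x - y) * ‖f y‖ₑ ^ 2 :=
        lintegral_mono h1
    _ = (∫⁻ z, k z) * ∫⁻ x, ∫⁻ y, k (x - y) * ‖f y‖ₑ ^ 2 := by
        rw [lintegral_const_mul'' _ hm3.lintegral_prod_right']
    _ = (∫⁻ z, k z) * ∫⁻ y, ∫⁻ x, k (x - y) * ‖f y‖ₑ ^ 2 := by
        rw [lintegral_lintegral_swap hm3]
    _ = (∫⁻ z, k z) * ∫⁻ y, (∫⁻ z, k z) * ‖f y‖ₑ ^ 2 := by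
        congr 2
        funext y
        have hm : Measurable (fun x => k (x - y)) := hk.comp (measurable_id.sub measurable_const)
        rw [lintegral_mul_const _ hm, lintegral_sub_right_eq_self k y]
    _ = (∫⁻ x, k x) ^ 2 * ∫⁻ x, ‖f x‖ₑ ^ 2 := by
        rw [lintegral_const_mul'' _ (hf.enorm.pow_const 2), sq, mul_assoc]

lemma f1_N2_le {T f : V d → ℝ} (hT : AEStronglyMeasurable T volume) (hf : MemLp f 2) {C : ℝ}
    (hC : 0 ≤ C) (h : ∫⁻ x, ‖T x‖ₑ ^ 2 ≤ (ENNReal.ofReal C) ^ 2 * ∫⁻ x, ‖f x‖ₑ ^ 2) :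
    MemLp T 2 ∧ N2 T ≤ C ^ 2 * N2 f := by
  have e1 : ∀ g : V d → ℝ, (eLpNorm g 2 volume) ^ 2 = ∫⁻ x, ‖g x‖ₑ ^ 2 := by
    intro g
    rw [eLpNorm_eq_lintegral_rpow_enorm_toReal (by norm_num) (by norm_num),
      ← ENNReal.rpow_natCast, ← ENNReal.rpow_mul]
    norm_num
  rw [← e1, ← e1, ← N2_eq hf, ← ENNReal.ofReal_pow hC, ← ENNReal.ofReal_mul (by (clear * -; positivity))] at h
  have hm : MemLp T 2 := by
    refine ⟨hT, ?_⟩
    by_contra hne
    rw [not_lt, top_le_iff] at hne
    rw [hne] at h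
    simp only [ne_eq, OfNat.ofNat_ne_zero, not_false_eq_true, ENNReal.top_pow, top_le_iff, ENNReal.ofReal_ne_top] at h
  refine ⟨hm, ?_⟩
  rw [← N2_eq hm] at h
  exact (ENNReal.ofReal_le_ofReal_iff (mul_nonneg (by (clear * -; positivity)) (N2_nonneg _))).1 h

lemma f1_moll_N2 (n : ℕ) {f : V d → ℝ} (hf : MemLp f 2) : N2 (moll n f) ≤ N2 f := by
  have h := f1_N2_le (moll_memLp n hf).1 hf (C := 1) (by norm_num)
    (by simpa only [ENNReal.ofReal_one, one_pow, one_mul] using moll_lint_le n hf.1)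
  simpa only [ge_iff_le, one_pow, one_mul] using h.2

/-- The uniform bound for the commutator. -/
theorem comm_bound {a : V d → ℝ} (ha : ContDiff ℝ 1 a) {L : ℝ}
    (hL : ∀ x y, |a x - a y| ≤ L * ‖x - y‖) (hL' : ∀ i x, |pa i a x| ≤ L) (i : Fin d) :
    ∃ C : ℝ, ∀ (n : ℕ) (f : V d → ℝ), MemLp f 2 →
      MemLp (pa i (fun y => a y * moll n f y - moll n (fun z => a z * f z) y)) 2 ∧
      N2 (pa i (fun y => a y * moll n f y - moll n (fun z => a z * f z) y)) ≤ C * N2 f := by
  obtain ⟨C1, hC1⟩ := ker_moment (d := d) i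
  have hL0 : 0 ≤ L := (abs_nonneg _).trans (hL' i 0)
  have hC10 : 0 ≤ C1 := by
    refine le_trans ?_ (hC1 0).2
    exact integral_nonneg fun z => mul_nonneg (norm_nonneg _) (abs_nonneg _)
  refine ⟨2 * L ^ 2 + 2 * (L * C1) ^ 2, fun n f hf => ?_⟩
  have hfl : LocallyIntegrable f := hf.locallyIntegrable (by norm_num)
  have hafl := f1_mul_loc ha.continuous hfl
  set D : V d → ℝ := pa i (fun y => a y * moll n f y - moll n (fun z => a z * f z) y) with hD
  have hDc : Continuous D := by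
    apply pa_continuous
    exact (ha.mul ((moll_contDiff n hfl).of_le (by norm_cast))).sub
      ((moll_contDiff n hafl).of_le (by norm_cast))
  set P : V d → ℝ := fun x => pa i a x * moll n f x with hP
  have hPc : Continuous P := (pa_continuous ha i).mul (moll_contDiff n hfl).continuous
  have hPm : MemLp P 2 := memLp_bdd_mul (pa_continuous ha i).aestronglyMeasurable
    (Eventually.of_forall (hL' i)) (moll_memLp n hf)
  have hPN : N2 P ≤ L ^ 2 * N2 f :=
    (N2_bdd_mul (pa_continuous ha i).aestronglyMeasurable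
      (Eventually.of_forall (hL' i)) (moll_memLp n hf)).trans
      (mul_le_mul_of_nonneg_left (f1_moll_N2 n hf) (by (clear * -; positivity)))
  set T : V d → ℝ := fun x => D x - P x with hT
  have hTe : ∀ x, T x = ∫ y, pa i (ker n) (x - y) * (a x - a y) * f y := by
    intro x
    simp only [hT, hP, hD]
    rw [comm_formula ha hfl n i x]
    ring
  have hTc : Continuous T := hDc.sub hPc
  have hkc : Continuous (fun z : V d => L * (‖z‖ * |pa i (ker n) z|)) :=
    continuous_const.mul (continuous_norm.mul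
      (pa_continuous ((ker_contDiff n).of_le (by norm_cast)) i).abs)
  have hTm : MemLp T 2 ∧ N2 T ≤ (L * C1) ^ 2 * N2 f := by
    apply f1_N2_le hTc.aestronglyMeasurable hf (by (clear * - hL0 hC10; positivity))
    have h1 := f1_schur (k := fun z : V d => ‖L * (‖z‖ * |pa i (ker n) z|)‖ₑ) (T := T) (f := f)
      hkc.enorm.measurable hf.1 (by
        intro x
        rw [hTe x]
        refine (enorm_integral_le_lintegral_enorm _).trans ?_
        apply lintegral_mono
        intro y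
        simp only
        rw [enorm_mul]
        gcongr
        rw [enorm_le_iff_norm_le, Real.norm_eq_abs, Real.norm_eq_abs, abs_mul,
          abs_of_nonneg (mul_nonneg hL0 (mul_nonneg (norm_nonneg _) (abs_nonneg _)))]
        calc |pa i (ker n) (x - y)| * |a x - a y|
            ≤ |pa i (ker n) (x - y)| * (L * ‖x - y‖) :=
              mul_le_mul_of_nonneg_left (hL x y) (abs_nonneg _)
          _ = L * (‖x - y‖ * |pa i (ker n) (x - y)|) := by ring)
    refine h1.trans ?_
    gcongr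
    have hi : Integrable (fun z : V d => L * (‖z‖ * |pa i (ker n) z|)) := (hC1 n).1.const_mul L
    rw [← ofReal_integral_norm_eq_lintegral_enorm hi]
    apply ENNReal.ofReal_le_ofReal
    have e2 : ∀ z : V d, ‖L * (‖z‖ * |pa i (ker n) z|)‖ = L * (‖z‖ * |pa i (ker n) z|) :=
      fun z => Real.norm_of_nonneg (mul_nonneg hL0 (mul_nonneg (norm_nonneg _) (abs_nonneg _)))
    simp_rw [e2]
    rw [integral_const_mul]
    exact mul_le_mul_of_nonneg_left (hC1 n).2 hL0
  have hDe : D = fun x => P x + T x := by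
    funext x
    simp only [hT]
    ring
  have hDm : MemLp D 2 := by
    rw [hDe]
    exact memLp_add' hPm hTm.1
  refine ⟨hDm, ?_⟩
  calc N2 D ≤ 2 * N2 P + 2 * N2 T := by
        have i1 := memLp_sq_int hPm
        have i2 := memLp_sq_int hTm.1
        unfold N2
        rw [← integral_const_mul, ← integral_const_mul,
          ← integral_add (i1.const_mul _) (i2.const_mul _)]
        apply integral_mono (memLp_sq_int hDm) ((i1.const_mul _).add (i2.const_mul _))
        intro x
        simp only [Pi.add_apply, hT]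
        nlinarith only [sq_nonneg (P x - (D x - P x))]
    _ ≤ 2 * (L ^ 2 * N2 f) + 2 * ((L * C1) ^ 2 * N2 f) := by
        gcongr
        exact hTm.2
    _ = (2 * L ^ 2 + 2 * (L * C1) ^ 2) * N2 f := by ring

end Vale.Agent.P088.A
end

section

set_option linter.all false

/-!
P088-EYM-A6: Friedrichs' commutator lemma.
-/

open MeasureTheory Filter Topology
open scoped ContDiff ENNReal

namespace Vale.Agent.P088.A

variable {d : ℕ}

lemma f2_N2_add {u v : V d → ℝ} (hu : MemLp u 2) (hv : MemLp v 2) :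
    N2 (fun x => u x + v x) ≤ 2 * N2 u + 2 * N2 v := by
  unfold N2
  have i1 := memLp_sq_int hu
  have i2 := memLp_sq_int hv
  rw [← integral_const_mul, ← integral_const_mul, ← integral_add (i1.const_mul _) (i2.const_mul _)]
  apply integral_mono (memLp_sq_int (memLp_add' hu hv)) ((i1.const_mul _).add (i2.const_mul _))
  intro x
  simp only [Pi.add_apply]
  nlinarith only [sq_nonneg (u x - v x)]

lemma f2_WD {g : V d → ℝ} (hg : ContDiff ℝ 1 g) (i : Fin d) : WD i g (pa i g) :=
  fun φ h1 h2 => ibp hg (h1.of_le (by norm_cast)) h2 i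

lemma f2_pa_moll (n : ℕ) {g : V d → ℝ} (hg : ContDiff ℝ 1 g) (i : Fin d) (x : V d) :
    pa i (moll n g) x = moll n (pa i g) x :=
  moll_pa n hg.continuous.locallyIntegrable (f2_WD hg i) x

lemma f2_moll_diff (n : ℕ) {f : V d → ℝ} (hf : LocallyIntegrable f) :
    Differentiable ℝ (moll n f) := (moll_contDiff n hf).differentiable (by simp)

lemma f2_step1 {A : V d → ℝ} (hA : ContDiff ℝ 1 A) {M : ℝ} (hM : ∀ x, |A x| ≤ M)
    (i : Fin d) (hM' : ∀ x, |pa i A x| ≤ M) {g : V d → ℝ} (hg : ContDiff ℝ 1 g)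
    (hgc : HasCompactSupport g) :
    Tendsto (fun n : ℕ =>
      N2 (pa i (fun y => A y * moll n g y - moll n (fun z => A z * g z) y))) atTop (𝓝 0) := by
  have hAg : ContDiff ℝ 1 (fun z => A z * g z) := hA.mul hg
  have hAgc : HasCompactSupport (fun z => A z * g z) := hgc.mul_left
  have m1 : MemLp g 2 := hg.continuous.memLp_of_hasCompactSupport hgc
  have m2 : MemLp (pa i g) 2 :=
    (pa_continuous hg i).memLp_of_hasCompactSupport (pa_hasCompactSupport hgc i)
  have m3 : MemLp (pa i (fun z => A z * g z)) 2 :=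
    (pa_continuous hAg i).memLp_of_hasCompactSupport (pa_hasCompactSupport hAgc i)
  have t1 := moll_N2_tendsto m1
  have t2 := moll_N2_tendsto m2
  have t3 := moll_N2_tendsto m3
  have e : ∀ n : ℕ, pa i (fun y => A y * moll n g y - moll n (fun z => A z * g z) y) =
      fun x => (pa i A x * (moll n g x - g x) + A x * (moll n (pa i g) x - pa i g x)) +
        (-1) * (moll n (pa i (fun z => A z * g z)) x - pa i (fun z => A z * g z) x) := by
    intro n
    funext x
    have hAd : DifferentiableAt ℝ A x := (hA.differentiable (by norm_num)) x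
    have hgd : DifferentiableAt ℝ g x := (hg.differentiable (by norm_num)) x
    have hd1 : DifferentiableAt ℝ (moll n g) x :=
      (f2_moll_diff n hg.continuous.locallyIntegrable) x
    have hd2 : DifferentiableAt ℝ (moll n (fun z => A z * g z)) x :=
      (f2_moll_diff n hAg.continuous.locallyIntegrable) x
    have hd3 : DifferentiableAt ℝ (fun y => A y * moll n g y) x := hAd.mul hd1
    rw [pa_sub hd3 hd2, pa_mul hAd hd1, f2_pa_moll n hg, f2_pa_moll n hAg, pa_mul hAd hgd]
    ring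
  have hm : ∀ n : ℕ, N2 (pa i (fun y => A y * moll n g y - moll n (fun z => A z * g z) y)) ≤
      2 * (2 * (M ^ 2 * N2 (fun x => moll n g x - g x)) +
        2 * (M ^ 2 * N2 (fun x => moll n (pa i g) x - pa i g x))) +
      2 * ((1 : ℝ) ^ 2 * N2 (fun x => moll n (pa i (fun z => A z * g z)) x -
        pa i (fun z => A z * g z) x)) := by
    intro n
    have k1 : MemLp (fun x => moll n g x - g x) 2 := memLp_sub' (moll_memLp n m1) m1
    have k2 : MemLp (fun x => moll n (pa i g) x - pa i g x) 2 := memLp_sub' (moll_memLp n m2) m2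
    have k3 : MemLp (fun x => moll n (pa i (fun z => A z * g z)) x -
        pa i (fun z => A z * g z) x) 2 := memLp_sub' (moll_memLp n m3) m3
    have b1 : AEStronglyMeasurable (pa i A) volume := (pa_continuous hA i).aestronglyMeasurable
    have b2 : AEStronglyMeasurable A volume := hA.continuous.aestronglyMeasurable
    have b3 : AEStronglyMeasurable (fun _ : V d => (-1 : ℝ)) volume := aestronglyMeasurable_const
    have c1 : ∀ᵐ x, |pa i A x| ≤ M := Eventually.of_forall hM'
    have c2 : ∀ᵐ x, |A x| ≤ M := Eventually.of_forall hM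
    have c3 : ∀ᵐ x : V d, |(fun _ : V d => (-1 : ℝ)) x| ≤ 1 := Eventually.of_forall fun x => by simp
    have l1 := memLp_bdd_mul b1 c1 k1
    have l2 := memLp_bdd_mul b2 c2 k2
    have l3 := memLp_bdd_mul b3 c3 k3
    rw [e n]
    refine (f2_N2_add (memLp_add' l1 l2) l3).trans ?_
    refine add_le_add (mul_le_mul_of_nonneg_left ((f2_N2_add l1 l2).trans ?_) (by norm_num))
      (mul_le_mul_of_nonneg_left (N2_bdd_mul b3 c3 k3) (by norm_num))
    exact add_le_add (mul_le_mul_of_nonneg_left (N2_bdd_mul b1 c1 k1) (by norm_num))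
      (mul_le_mul_of_nonneg_left (N2_bdd_mul b2 c2 k2) (by norm_num))
  refine squeeze_zero (fun n => N2_nonneg _) hm ?_
  have := ((((t1.const_mul (M ^ 2)).const_mul 2).add ((t2.const_mul (M ^ 2)).const_mul 2)).const_mul
    2).add ((t3.const_mul ((1 : ℝ) ^ 2)).const_mul 2)
  simpa only [one_pow, one_mul, mul_zero, add_zero] using this

/-- the case of a coefficient with compact support -/
lemma f2_cs {A : V d → ℝ} (hA : ContDiff ℝ 1 A) (hAc : HasCompactSupport A) {f : V d → ℝ}
    (hf : MemLp f 2) {R : ℝ} (hR : ∀ᵐ y : V d, R < ‖y‖ → f y = 0) (i : Fin d) :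
    (∀ n : ℕ, MemLp (pa i (fun y => A y * moll n f y - moll n (fun z => A z * f z) y)) 2) ∧
    Tendsto (fun n : ℕ =>
      N2 (pa i (fun y => A y * moll n f y - moll n (fun z => A z * f z) y))) atTop (𝓝 0) := by
  obtain ⟨L, hL⟩ := hA.lipschitzWith_of_hasCompactSupport hAc (by norm_num)
  obtain ⟨M, hM⟩ := hA.continuous.bounded_above_of_compact_support hAc
  have hL1 : ∀ x y, |A x - A y| ≤ (L : ℝ) * ‖x - y‖ := by
    intro x y
    have := hL.dist_le_mul x y
    rwa [Real.dist_eq, dist_eq_norm] at this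
  have hL2 : ∀ (j : Fin d) x, |pa j A x| ≤ (L : ℝ) := by
    intro j x
    have h1 : ‖fderiv ℝ A x‖ ≤ L := norm_fderiv_le_of_lipschitz ℝ hL
    have h2 := (fderiv ℝ A x).le_opNorm (EuclideanSpace.single j (1 : ℝ))
    rw [EuclideanSpace.norm_single, norm_one, mul_one] at h2
    exact h2.trans h1
  obtain ⟨C, hC⟩ := comm_bound hA hL1 hL2 i
  refine ⟨fun n => (hC n f hf).1, ?_⟩
  have hfl : LocallyIntegrable f := hf.locallyIntegrable (by norm_num)
  have hAm : AEStronglyMeasurable A volume := hA.continuous.aestronglyMeasurable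
  have hAb : ∀ᵐ x, |A x| ≤ M := Eventually.of_forall fun x => hM x
  rw [Metric.tendsto_atTop]
  intro ε hε
  set C' := |C| + 1 with hC'
  have hC'0 : 0 < C' := by positivity
  -- choose the approximation
  obtain ⟨m, hm⟩ : ∃ m : ℕ, N2 (fun x => moll m f x - f x) < ε / (4 * C') := by
    have h := (moll_N2_tendsto hf).eventually_lt_const (show (0 : ℝ) < ε / (4 * C') by positivity)
    exact h.exists
  set g := moll m f with hg
  have hg1 : ContDiff ℝ 1 g := (moll_contDiff m hfl).of_le (by norm_cast)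
  have hgc : HasCompactSupport g := moll_cs hR
  have hgm : MemLp g 2 := moll_memLp m hf
  have hgl : LocallyIntegrable g := hgm.locallyIntegrable (by norm_num)
  have hfg : MemLp (fun x => f x - g x) 2 := memLp_sub' hf hgm
  have hN : N2 (fun x => f x - g x) < ε / (4 * C') := by
    have : N2 (fun x => f x - g x) = N2 (fun x => g x - f x) := by
      unfold N2
      congr 1
      funext x
      ring
    rw [this]
    exact hm
  have hstep := f2_step1 hA (M := max M L) (fun x => (hM x).trans (le_max_left _ _)) i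
    (fun x => (hL2 i x).trans (le_max_right _ _)) hg1 hgc
  have hAf : LocallyIntegrable (fun z => A z * f z) :=
    (memLp_bdd_mul hAm hAb hf).locallyIntegrable (by norm_num)
  have hAg : LocallyIntegrable (fun z => A z * g z) :=
    (memLp_bdd_mul hAm hAb hgm).locallyIntegrable (by norm_num)
  have e : ∀ n : ℕ, pa i (fun y => A y * moll n f y - moll n (fun z => A z * f z) y) =
      fun x => pa i (fun y => A y * moll n (fun z => f z - g z) y -
          moll n (fun z => A z * (f z - g z)) y) x +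
        pa i (fun y => A y * moll n g y - moll n (fun z => A z * g z) y) x := by
    intro n
    funext x
    have hAd : Differentiable ℝ A := hA.differentiable (by norm_num)
    have hlfg : LocallyIntegrable (fun z => f z - g z) := hfl.sub hgl
    have hAfg : LocallyIntegrable (fun z => A z * (f z - g z)) :=
      (memLp_bdd_mul hAm hAb hfg).locallyIntegrable (by norm_num)
    have d1 : DifferentiableAt ℝ (fun y => A y * moll n (fun z => f z - g z) y -
          moll n (fun z => A z * (f z - g z)) y) x :=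
      ((hAd x).mul ((f2_moll_diff n hlfg) x)).sub ((f2_moll_diff n hAfg) x)
    have d2 : DifferentiableAt ℝ (fun y => A y * moll n g y - moll n (fun z => A z * g z) y) x :=
      ((hAd x).mul ((f2_moll_diff n hgl) x)).sub ((f2_moll_diff n hAg) x)
    rw [← pa_add d1 d2]
    congr 1
    funext y
    have e2 : (fun z => A z * (f z - g z)) = fun z => A z * f z - A z * g z := by
      funext z; ring
    rw [e2, moll_sub n hfl hgl, moll_sub n hAf hAg]
    ring
  have hb : ∀ n : ℕ, N2 (pa i (fun y => A y * moll n f y - moll n (fun z => A z * f z) y)) ≤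
      2 * (C' * N2 (fun x => f x - g x)) +
      2 * N2 (pa i (fun y => A y * moll n g y - moll n (fun z => A z * g z) y)) := by
    intro n
    rw [e n]
    obtain ⟨h1, h2⟩ := hC n _ hfg
    obtain ⟨h3, h4⟩ := hC n _ hgm
    refine (f2_N2_add h1 h3).trans (add_le_add (mul_le_mul_of_nonneg_left (h2.trans ?_)
      (by norm_num)) le_rfl)
    refine mul_le_mul_of_nonneg_right ?_ (N2_nonneg _)
    have := le_abs_self C
    linarith only [this]
  obtain ⟨n0, hn0⟩ := eventually_atTop.1 (hstep.eventually_lt_const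
    (show (0 : ℝ) < ε / 4 by (clear * - hε; positivity)))
  refine ⟨n0, fun n hn => ?_⟩
  rw [Real.dist_eq, sub_zero, abs_of_nonneg (N2_nonneg _)]
  have h1 := hb n
  have h2 := hn0 n hn
  have h3 : C' * N2 (fun x => f x - g x) < ε / 4 := by
    calc C' * N2 (fun x => f x - g x) < C' * (ε / (4 * C')) :=
          mul_lt_mul_of_pos_left hN hC'0
      _ = ε / 4 := by (clear * - hC'0 hε; field_simp)
  linarith only [h1, h2, h3]

/-- Friedrichs' lemma, for `f` with compact support. -/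
theorem fried {a : V d → ℝ} (ha : ContDiff ℝ 1 a) {f : V d → ℝ} (hf : MemLp f 2) {R : ℝ}
    (hR : ∀ᵐ y : V d, R < ‖y‖ → f y = 0) (i : Fin d) :
    (∀ n : ℕ, MemLp (pa i (fun y => a y * moll n f y - moll n (fun z => a z * f z) y)) 2) ∧
    Tendsto (fun n : ℕ =>
      N2 (pa i (fun y => a y * moll n f y - moll n (fun z => a z * f z) y))) atTop (𝓝 0) := by
  let χ : ContDiffBump (0 : V d) := ⟨|R| + 2, |R| + 3, by positivity, by linarith⟩
  have hχ1 : ∀ x : V d, ‖x‖ ≤ |R| + 2 → χ x = 1 := fun x hx =>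
    χ.one_of_mem_closedBall (by rw [mem_closedBall_zero_iff]; exact hx)
  have hχc : ContDiff ℝ 1 (fun x => χ x) := χ.contDiff
  have hχs : HasCompactSupport (fun x => χ x) := χ.hasCompactSupport
  have hAC : ContDiff ℝ 1 (fun x => χ x * a x) := hχc.mul ha
  have hAc : HasCompactSupport (fun x => χ x * a x) := hχs.mul_right
  have key := f2_cs hAC hAc hf hR i
  have e : ∀ n : ℕ, (fun y => a y * moll n f y - moll n (fun z => a z * f z) y) =
      fun y => (χ y * a y) * moll n f y - moll n (fun z => (χ z * a z) * f z) y := by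
    intro n
    funext y
    have e1 : a y * moll n f y = (χ y * a y) * moll n f y := by
      by_cases hy : ‖y‖ ≤ |R| + 2
      · rw [hχ1 y hy, one_mul]
      · rw [not_le] at hy
        have h1 : moll n f y = 0 := by
          refine moll_zero hR ?_
          have h2 : 1 / ((n : ℝ) + 1) ≤ 1 := by
            rw [div_le_one (by (clear * -; positivity))]
            have : (0 : ℝ) ≤ n := by (clear * -; positivity)
            linarith only []
          have h3 := le_abs_self R
          linarith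
        rw [h1, mul_zero, mul_zero]
    have e2 : moll n (fun z => a z * f z) y = moll n (fun z => (χ z * a z) * f z) y := by
      unfold moll
      apply integral_congr_ae
      filter_upwards [hR] with z hz
      by_cases hzR : R < ‖z‖
      · simp only [hz hzR, mul_zero]
      · have h1 : ‖z‖ ≤ |R| + 2 := by
          have := le_abs_self R
          rw [not_lt] at hzR
          linarith only [hzR, this]
        simp only [hχ1 z h1, one_mul]
    rw [e1, e2]
  simp only [e]
  exact key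

end Vale.Agent.P088.A
end

section

/-!
P088-EYM-A8: weighted inequalities pass from `C²` functions to weak solutions.
-/

set_option linter.all false

open MeasureTheory Filter Topology
open scoped ContDiff ENNReal

namespace Vale.Agent.P088.A

variable {d : ℕ}

lemma wc_memLp {f : V d → ℝ} (h : MemLp f 2 (volume.restrict Set.univ)) : MemLp f 2 := by
  rwa [Measure.restrict_univ] at h

lemma wc_li {f : V d → ℝ} (h : MemLp f 2) : LocallyIntegrable f :=
  h.locallyIntegrable (by norm_num)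

lemma wc_mulli {a f : V d → ℝ} (ha : Continuous a) (hf : LocallyIntegrable f) :
    LocallyIntegrable (fun x => a x * f x) := hf.continuous_mul ha

lemma wc_WD {a : Fin d → Fin d → V d → ℝ} {w : V d → ℝ} {Dw : Fin d → V d → ℝ} {F : V d → ℝ}
    (h : WS a Set.univ w Dw F) (k : Fin d) : WD k w (Dw k) := fun φ hφ hc =>
  h.grad k φ ⟨hφ, hc, Set.subset_univ _⟩

lemma wc_diff (n : ℕ) {f : V d → ℝ} (hf : LocallyIntegrable f) (x : V d) :
    DifferentiableAt ℝ (moll n f) x :=
  ((moll_contDiff n hf).differentiable (by simp)) x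

/-- The weak equation tested with the translated kernel. -/
lemma wc_eqn {a : Fin d → Fin d → V d → ℝ} (ha : ∀ j k, ContDiff ℝ 1 (a j k))
    {w : V d → ℝ} {Dw : Fin d → V d → ℝ} {F : V d → ℝ} (h : WS a Set.univ w Dw F)
    (n : ℕ) (x : V d) :
    ∑ j, ∑ k, pa k (moll n (fun z => a j k z * Dw j z)) x = - moll n F x := by
  have hD : ∀ j, LocallyIntegrable (Dw j) := fun j => wc_li (wc_memLp (h.D_L2 j))
  have hm : ∀ j k, LocallyIntegrable (fun z => a j k z * Dw j z) := fun j k =>
    wc_mulli (ha j k).continuous (hD j)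
  have h1 := h.eqn (fun y => ker n (x - y))
    ⟨ker_sub_contDiff n x, ker_sub_cs n x, Set.subset_univ _⟩
  have h2 : ∀ j k, pa k (moll n (fun z => a j k z * Dw j z)) x
      = - ∫ y, a j k y * Dw j y * pa k (fun y => ker n (x - y)) y := by
    intro j k
    rw [moll_eq_cv, pa_cv (ker_contDiff n) (ker_cs n) (hm j k) k, ← integral_neg]
    unfold cv
    congr 1
    funext y
    rw [pa_sub_left (ker_contDiff n)]
    ring
  have h3 : ∀ j k, Integrable (fun y => a j k y * Dw j y * pa k (fun y => ker n (x - y)) y) := by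
    intro j k
    have := (hm j k).integrable_smul_right_of_hasCompactSupport
      (pa_contDiff_infty (ker_sub_contDiff n x) k).continuous
      (pa_hasCompactSupport (ker_sub_cs n x) k)
    simpa only [smul_eq_mul] using this
  have h4 : ∫ y, (∑ j, ∑ k, a j k y * Dw j y * pa k (fun y => ker n (x - y)) y)
      = ∑ j, ∑ k, ∫ y, a j k y * Dw j y * pa k (fun y => ker n (x - y)) y := by
    rw [integral_finsetSum _ fun j _ => integrable_finsetSum _ fun k _ => h3 j k]
    refine Finset.sum_congr rfl fun j _ => ?_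
    rw [integral_finsetSum _ fun k _ => h3 j k]
  rw [h4] at h1
  have h5 : ∫ y, F y * ker n (x - y) = moll n F x := by
    unfold moll
    congr 1
    funext y
    ring
  rw [h5] at h1
  rw [← h1]
  simp_rw [h2]
  simp only [Finset.sum_neg_distrib]

/-- The operator of a mollified weak solution. -/
theorem divop_moll {a : Fin d → Fin d → V d → ℝ} (ha : ∀ j k, ContDiff ℝ 1 (a j k))
    {w : V d → ℝ} {Dw : Fin d → V d → ℝ} {F : V d → ℝ} (h : WS a Set.univ w Dw F)
    (hs : ∀ j k x, a j k x = a k j x) (n : ℕ) (x : V d) :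
    divop a (moll n w) x = - moll n F x
      + ∑ j, ∑ k, pa k (fun y => a j k y * moll n (Dw j) y
          - moll n (fun z => a j k z * Dw j z) y) x := by
  have hw : LocallyIntegrable w := wc_li (wc_memLp h.w_L2)
  have hD : ∀ j, LocallyIntegrable (Dw j) := fun j => wc_li (wc_memLp (h.D_L2 j))
  have hm : ∀ j k, LocallyIntegrable (fun z => a j k z * Dw j z) := fun j k =>
    wc_mulli (ha j k).continuous (hD j)
  have h1 : divop a (moll n w) x = ∑ j, ∑ k, pa k (fun y => a j k y * moll n (Dw j) y) x := by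
    unfold divop
    rw [Finset.sum_comm]
    refine Finset.sum_congr rfl fun j _ => Finset.sum_congr rfl fun k _ => ?_
    congr 1
    funext y
    rw [moll_pa n hw (wc_WD h j) y, hs k j y]
  have h2 : ∀ j k, pa k (fun y => a j k y * moll n (Dw j) y
          - moll n (fun z => a j k z * Dw j z) y) x
      = pa k (fun y => a j k y * moll n (Dw j) y) x
        - pa k (moll n (fun z => a j k z * Dw j z)) x := by
    intro j k
    exact pa_sub ((((ha j k).differentiable (by norm_num)) x).mul (wc_diff n (hD j) x))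
      (wc_diff n (hm j k) x) k
  rw [h1, ← wc_eqn ha h n x]
  simp_rw [h2]
  simp only [Finset.sum_sub_distrib]
  ring

/-- `moll n f` vanishes away from the support of `f`. -/
lemma wc_zero {n : ℕ} {f : V d → ℝ} {K₀ : Set (V d)} (hf : ∀ᵐ y : V d, y ∉ K₀ → f y = 0)
    {x : V d} (hx : ∀ y ∈ K₀, 1 / ((n : ℝ) + 1) < ‖x - y‖) : moll n f x = 0 := by
  unfold moll
  apply integral_eq_zero_of_ae
  filter_upwards [hf] with y hy
  by_cases h : y ∈ K₀
  · simp [ker_zero (hx y h)]
  · simp [hy h]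

/-- the support of `moll n f` for `n` large -/
lemma wc_supp {K K₀ : Set (V d)} (hK : IsCompact K) (hK₀ : IsCompact K₀)
    (hKK : K₀ ⊆ interior K) : ∃ N : ℕ, ∀ n ≥ N, ∀ f : V d → ℝ,
      (∀ᵐ y : V d, y ∉ K₀ → f y = 0) → tsupport (moll n f) ⊆ K := by
  obtain ⟨δ, hδ, hδ2⟩ := hK₀.exists_thickening_subset_open isOpen_interior hKK
  have h1 : ∀ᶠ n : ℕ in atTop, 1 / ((n : ℝ) + 1) < δ :=
    tendsto_one_div_add_atTop_nhds_zero_nat.eventually_lt_const hδ
  obtain ⟨N, hN⟩ := eventually_atTop.mp h1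
  refine ⟨N, fun n hn f hf => ?_⟩
  refine closure_minimal ?_ hK.isClosed
  intro x hx
  by_contra hxK
  apply hx
  apply wc_zero hf
  intro y hy
  by_contra hlt
  rw [not_lt] at hlt
  apply hxK
  apply interior_subset
  apply hδ2
  rw [Metric.mem_thickening_iff]
  exact ⟨y, hy, by rw [dist_eq_norm]; exact lt_of_le_of_lt hlt (hN n hn)⟩

lemma wc_sum_memLp {ι : Type*} (s : Finset ι) {f : ι → V d → ℝ} (hf : ∀ i ∈ s, MemLp (f i) 2) :
    MemLp (fun x => ∑ i ∈ s, f i x) 2 := memLp_finsetSum s hf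

lemma wc_sum_tendsto {ι : Type*} (s : Finset ι) {f : ℕ → ι → V d → ℝ}
    (hf : ∀ n, ∀ i ∈ s, MemLp (f n i) 2)
    (h : ∀ i ∈ s, Tendsto (fun n => N2 (f n i)) atTop (𝓝 0)) :
    Tendsto (fun n => N2 (fun x => ∑ i ∈ s, f n i x)) atTop (𝓝 0) := by
  have h1 : Tendsto (fun n => ∑ i ∈ s, (s.card : ℝ) * N2 (f n i)) atTop (𝓝 0) := by
    have := tendsto_finsetSum s (fun i hi => (h i hi).const_mul (s.card : ℝ))
    simpa only [mul_zero, Finset.sum_const_zero] using this
  refine squeeze_zero (fun n => N2_nonneg _) (fun n => ?_) h1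
  unfold N2
  have e : ∑ i ∈ s, (s.card : ℝ) * ∫ x, f n i x ^ 2 = ∫ x, ∑ i ∈ s, (s.card : ℝ) * f n i x ^ 2 := by
    rw [integral_finsetSum _ fun i hi => (memLp_sq_int (hf n i hi)).const_mul _]
    refine Finset.sum_congr rfl fun i _ => ?_
    rw [integral_const_mul]
  rw [e]
  apply integral_mono (memLp_sq_int (wc_sum_memLp s (hf n)))
    (integrable_finsetSum _ fun i hi => (memLp_sq_int (hf n i hi)).const_mul _)
  intro x
  simp only
  rw [← Finset.mul_sum]
  exact sq_sum_le_card_mul_sum_sq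

lemma wc_intW {W : V d → ℝ} (hW : Continuous W) {K₀ : Set (V d)} (hK₀ : IsCompact K₀)
    {b : V d → ℝ} (hb : MemLp b 2) (h0 : ∀ᵐ x : V d, x ∉ K₀ → b x = 0) :
    Integrable (fun x => W x * b x ^ 2) := by
  have h1 : IntegrableOn (fun x => W x * b x ^ 2) K₀ :=
    (memLp_sq_int hb).integrableOn.continuousOn_mul hW.continuousOn hK₀
  apply h1.integrable_of_ae_notMem_eq_zero
  filter_upwards [h0] with x hx hxK
  rw [hx hxK]
  simp

lemma wc_split {W : V d → ℝ} {A B : ℝ} {g : Fin d → V d → ℝ} {u : V d → ℝ}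
    (hg : ∀ l, Integrable (fun x => W x * g l x ^ 2))
    (hu : Integrable (fun x => W x * u x ^ 2)) :
    ∫ x, (A * (∑ l, g l x ^ 2) + B * u x ^ 2) * W x
      = A * (∑ l, ∫ x, W x * g l x ^ 2) + B * ∫ x, W x * u x ^ 2 := by
  have e : ∀ x, (A * (∑ l, g l x ^ 2) + B * u x ^ 2) * W x
      = A * (∑ l, W x * g l x ^ 2) + B * (W x * u x ^ 2) := by
    intro x
    rw [← Finset.mul_sum]
    ring
  simp_rw [e]
  rw [integral_add ((integrable_finsetSum _ fun l _ => hg l).const_mul A) (hu.const_mul B),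
    integral_const_mul, integral_const_mul, integral_finsetSum _ fun l _ => hg l]

lemma wc_N2_add {f g : V d → ℝ} (hf : MemLp f 2) (hg : MemLp g 2) :
    N2 (fun x => f x + g x) ≤ 2 * N2 f + 2 * N2 g := by
  unfold N2
  rw [← integral_const_mul, ← integral_const_mul,
    ← integral_add ((memLp_sq_int hf).const_mul _) ((memLp_sq_int hg).const_mul _)]
  apply integral_mono (memLp_sq_int (memLp_add' hf hg))
    (((memLp_sq_int hf).const_mul _).add ((memLp_sq_int hg).const_mul _))
  intro x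
  simp only [Pi.add_apply]
  nlinarith only [sq_nonneg (f x - g x)]

theorem weak_of_strong {a : Fin d → Fin d → V d → ℝ} (ha : GC a) {K K₀ : Set (V d)}
    (hK : IsCompact K) (hK₀ : IsCompact K₀) (hKK : K₀ ⊆ interior K)
    {W : V d → ℝ} (hW : Continuous W) (hW0 : ∀ x, 0 ≤ W x) {A B C : ℝ} (hA : 0 ≤ A) (hB : 0 ≤ B)
    (hC : 0 ≤ C)
    (hst : ∀ u : V d → ℝ, ContDiff ℝ 2 u → tsupport u ⊆ K →
      ∫ x, (A * gs u x + B * u x ^ 2) * W x ≤ C * ∫ x, divop a u x ^ 2 * W x)
    {w : V d → ℝ} {Dw : Fin d → V d → ℝ} {F : V d → ℝ} (h : WS a Set.univ w Dw F)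
    (hw0 : ∀ᵐ x, x ∉ K₀ → w x = 0 ∧ (∀ k, Dw k x = 0) ∧ F x = 0) :
    ∫ x, (A * (∑ k, Dw k x ^ 2) + B * w x ^ 2) * W x ≤ C * ∫ x, F x ^ 2 * W x := by
  have ha1 : ∀ j k, ContDiff ℝ 1 (a j k) := fun j k => (ha.smooth j k).of_le (by norm_num)
  have mw : MemLp w 2 := wc_memLp h.w_L2
  have mD : ∀ j, MemLp (Dw j) 2 := fun j => wc_memLp (h.D_L2 j)
  have mF : MemLp F 2 := wc_memLp h.F_L2
  have zw : ∀ᵐ x : V d, x ∉ K₀ → w x = 0 := by
    filter_upwards [hw0] with x hx hxK using (hx hxK).1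
  have zD : ∀ k, ∀ᵐ x : V d, x ∉ K₀ → Dw k x = 0 := by
    intro k
    filter_upwards [hw0] with x hx hxK using (hx hxK).2.1 k
  have zF : ∀ᵐ x : V d, x ∉ K₀ → F x = 0 := by
    filter_upwards [hw0] with x hx hxK using (hx hxK).2.2
  obtain ⟨R, hR⟩ := hK.isBounded.subset_closedBall (0 : V d)
  have hK₀K : K₀ ⊆ K := hKK.trans interior_subset
  have hRK : ∀ x : V d, R < ‖x‖ → x ∉ K := by
    intro x hx hxK
    have := hR hxK
    rw [Metric.mem_closedBall, dist_zero_right] at this
    linarith only [hx, this]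
  have bz : ∀ f : V d → ℝ, (∀ᵐ x : V d, x ∉ K₀ → f x = 0) → ∀ᵐ x : V d, R < ‖x‖ → f x = 0 := by
    intro f hf
    filter_upwards [hf] with x hx hxR using hx fun hx0 => hRK x hxR (hK₀K hx0)
  obtain ⟨N, hN⟩ := wc_supp hK hK₀ hKK
  have sz : ∀ (n : ℕ) (f : V d → ℝ), (∀ᵐ x : V d, x ∉ K₀ → f x = 0) → ∀ x, x ∉ K →
      moll (n + N) f x = 0 := by
    intro n f hf x hx
    exact image_eq_zero_of_notMem_tsupport fun hx' => hx (hN (n + N) (by omega) f hf hx')
  have tail : ∀ {φ : ℕ → ℝ} {l : ℝ}, Tendsto φ atTop (𝓝 l) →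
      Tendsto (fun n => φ (n + N)) atTop (𝓝 l) := fun hφ => hφ.comp (tendsto_add_atTop_nat N)
  -- left side
  have limL : ∀ f : V d → ℝ, MemLp f 2 → (∀ᵐ x : V d, x ∉ K₀ → f x = 0) →
      Tendsto (fun n => ∫ x, W x * (moll (n + N) f x) ^ 2) atTop (𝓝 (∫ x, W x * (f x) ^ 2)) := by
    intro f hf hz
    refine tendsto_weighted hW (R := R) (fun n => moll_memLp (n + N) hf) hf
      (fun n => Eventually.of_forall fun x hx => sz n f hz x (hRK x hx)) (bz f hz) ?_
    exact tail (moll_N2_tendsto hf)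
  have intL : ∀ (n : ℕ) (f : V d → ℝ), MemLp f 2 → (∀ᵐ x : V d, x ∉ K₀ → f x = 0) →
      Integrable (fun x => W x * (moll (n + N) f x) ^ 2) := fun n f hf hz =>
    wc_intW hW hK (moll_memLp (n + N) hf) (Eventually.of_forall fun x hx => sz n f hz x hx)
  -- the right side
  set comm : ℕ → Fin d → Fin d → V d → ℝ := fun n j k =>
    pa k (fun y => a j k y * moll n (Dw j) y - moll n (fun z => a j k z * Dw j z) y) with hcomm
  have hfr : ∀ j k, (∀ n, MemLp (comm n j k) 2) ∧
      Tendsto (fun n => N2 (comm n j k)) atTop (𝓝 0) := fun j k =>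
    fried (ha1 j k) (mD j) (bz _ (zD j)) k
  have mS : ∀ n, MemLp (fun x => ∑ j, ∑ k, comm n j k x) 2 := fun n =>
    wc_sum_memLp _ fun j _ => wc_sum_memLp _ fun k _ => (hfr j k).1 n
  have tS : Tendsto (fun n => N2 (fun x => ∑ j, ∑ k, comm n j k x)) atTop (𝓝 0) := by
    apply wc_sum_tendsto
    · exact fun n j _ => wc_sum_memLp _ fun k _ => (hfr j k).1 n
    · intro j _
      apply wc_sum_tendsto
      · exact fun n k _ => (hfr j k).1 n
      · exact fun k _ => (hfr j k).2
  have hdiv : ∀ n x, divop a (moll n w) x = - moll n F x + ∑ j, ∑ k, comm n j k x := fun n x =>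
    divop_moll ha1 h ha.symm n x
  have mdiv : ∀ n, MemLp (fun x => divop a (moll n w) x) 2 := by
    intro n
    have : MemLp (fun x => - moll n F x + ∑ j, ∑ k, comm n j k x) 2 :=
      (moll_memLp n mF).neg.add (mS n)
    simpa only [hdiv] using this
  have tdiv : Tendsto (fun n => N2 (fun x => divop a (moll n w) x - (- F x))) atTop (𝓝 0) := by
    have h1 : Tendsto (fun n => 2 * N2 (fun x => moll n F x - F x)
        + 2 * N2 (fun x => ∑ j, ∑ k, comm n j k x)) atTop (𝓝 0) := by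
      have := ((moll_N2_tendsto mF).const_mul 2).add (tS.const_mul 2)
      simpa only [mul_zero, add_zero] using this
    refine squeeze_zero (fun n => N2_nonneg _) (fun n => ?_) h1
    have h2 := wc_N2_add (memLp_sub' mF (moll_memLp n mF)) (mS n)
    have e1 : (fun x => divop a (moll n w) x - (- F x))
        = fun x => (F x - moll n F x) + ∑ j, ∑ k, comm n j k x := by
      funext x
      rw [hdiv]
      ring
    have e2 : N2 (fun x => F x - moll n F x) = N2 (fun x => moll n F x - F x) := by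
      unfold N2
      congr 1
      funext x
      ring
    rw [e1, ← e2]
    exact h2
  have hst' : ∀ n : ℕ, A * (∑ l, ∫ x, W x * (moll (n + N) (Dw l) x) ^ 2)
      + B * ∫ x, W x * (moll (n + N) w x) ^ 2
      ≤ C * ∫ x, W x * (divop a (moll (n + N) w) x) ^ 2 := by
    intro n
    have h1 := hst (moll (n + N) w)
      ((moll_contDiff (n + N) (wc_li mw)).of_le (by norm_cast))
      (hN (n + N) (by omega) w zw)
    have e1 : ∀ x, gs (moll (n + N) w) x = ∑ l, (moll (n + N) (Dw l) x) ^ 2 := by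
      intro x
      unfold gs
      refine Finset.sum_congr rfl fun l _ => ?_
      rw [moll_pa (n + N) (wc_li mw) (wc_WD h l) x]
    simp_rw [e1] at h1
    rw [wc_split (fun l => intL n (Dw l) (mD l) (zD l)) (intL n w mw zw)] at h1
    refine h1.trans (le_of_eq ?_)
    congr 2
    funext x
    ring
  have limR : Tendsto (fun n => ∫ x, W x * (divop a (moll (n + N) w) x) ^ 2) atTop
      (𝓝 (∫ x, W x * (- F x) ^ 2)) := by
    refine tendsto_weighted hW (R := R) (fun n => mdiv (n + N)) mF.neg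
      (fun n => Eventually.of_forall fun x hx => c1_divop_zero fun hx' =>
        hRK x hx (hN (n + N) (by omega) w zw hx')) ?_ (tail tdiv)
    filter_upwards [bz F zF] with x hx hxR
    rw [hx hxR, neg_zero]
  have limL' : Tendsto (fun n => A * (∑ l, ∫ x, W x * (moll (n + N) (Dw l) x) ^ 2)
      + B * ∫ x, W x * (moll (n + N) w x) ^ 2) atTop
      (𝓝 (A * (∑ l, ∫ x, W x * (Dw l x) ^ 2) + B * ∫ x, W x * (w x) ^ 2)) :=
    ((tendsto_finsetSum _ fun l _ => limL (Dw l) (mD l) (zD l)).const_mul A).add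
      ((limL w mw zw).const_mul B)
  have hfin := le_of_tendsto_of_tendsto' limL' (limR.const_mul C) hst'
  rw [← wc_split (fun l => wc_intW hW hK₀ (mD l) (zD l)) (wc_intW hW hK₀ mw zw)] at hfin
  refine hfin.trans (le_of_eq ?_)
  congr 2
  funext x
  ring

end Vale.Agent.P088.A
end

section

/-!
P088-EYM-A11: the spreading lemma (topology) and local extension of coefficients.
-/

set_option linter.all false

open MeasureTheory Filter Topology
open scoped ContDiff ENNReal

namespace Vale.Agent.P088.A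

variable {d : ℕ}

theorem spread {U Z : Set (V d)} (hU : IsOpen U) (hc : IsPreconnected U) (hZ : IsOpen Z)
    (hZU : Z ⊆ U) (hne : Z.Nonempty)
    (touch : ∀ x₀ ∈ U, ∀ y, y ≠ x₀ → Metric.ball y (dist x₀ y) ⊆ Z → x₀ ∈ Z) : Z = U := by
  refine Set.Subset.antisymm hZU ?_
  refine hc.subset_of_closure_inter_subset hZ ?_ ?_
  · obtain ⟨z, hz⟩ := hne
    exact ⟨z, hZU hz, hz⟩
  · rintro x₁ ⟨hx₁c, hx₁U⟩
    by_contra hx₁Z
    obtain ⟨R, hR, hRU⟩ := Metric.isOpen_iff.1 hU x₁ hx₁U
    obtain ⟨y, hyZ, hy⟩ := Metric.mem_closure_iff.1 hx₁c (R / 2) (by positivity)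
    rw [dist_comm] at hy
    set S : Set (V d) := Metric.closedBall y (dist y x₁) \ Z with hS
    have hScomp : IsCompact S := (isCompact_closedBall y (dist y x₁)).diff hZ
    have hx₁S : x₁ ∈ S := ⟨by rw [Metric.mem_closedBall, dist_comm], hx₁Z⟩
    obtain ⟨x₀, hx₀S, hmin⟩ := hScomp.exists_isMinOn ⟨x₁, hx₁S⟩
      (f := fun x => dist x y) (by (clear * -; fun_prop))
    have hx₀d : dist x₀ y ≤ dist y x₁ := Metric.mem_closedBall.1 hx₀S.1
    have hball : Metric.ball y (dist x₀ y) ⊆ Z := by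
      intro w hw
      by_contra hwZ
      have hwS : w ∈ S := by
        refine ⟨?_, hwZ⟩
        rw [Metric.mem_closedBall]
        exact (Metric.mem_ball.1 hw).le.trans hx₀d
      have := hmin hwS
      simp only [Set.mem_setOf_eq] at this
      exact absurd (Metric.mem_ball.1 hw) (not_lt.2 this)
    have hne' : y ≠ x₀ := by
      rintro rfl
      exact hx₀S.2 hyZ
    have hx₀U : x₀ ∈ U := by
      apply hRU
      rw [Metric.mem_ball]
      calc dist x₀ x₁ ≤ dist x₀ y + dist y x₁ := dist_triangle _ _ _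
        _ < R := by linarith only [hy, hx₀d]
    exact hx₀S.2 (touch x₀ hx₀U y hne' hball)

lemma sp_diag (ξ : Fin d → ℝ) :
    ∑ j, ∑ k, (if j = k then (1 : ℝ) else 0) * ξ j * ξ k = ∑ j, ξ j ^ 2 := by
  refine Finset.sum_congr rfl fun j _ => ?_
  rw [Finset.sum_eq_single j]
  · simp [sq]
  · intro k _ hk
    simp [Ne.symm hk]
  · intro h
    exact absurd (Finset.mem_univ j) h

lemma sp_diag_pos {ξ : Fin d → ℝ} (h : ξ ≠ 0) : 0 < ∑ j, ξ j ^ 2 := by
  obtain ⟨j, hj⟩ := Function.ne_iff.1 h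
  refine Finset.sum_pos' (fun i _ => sq_nonneg _) ⟨j, Finset.mem_univ j, ?_⟩
  have : ξ j ≠ 0 := hj
  (clear * - this; positivity)

/-- Local coefficients agree near a point with global ones. -/
theorem loc_coef {U : Set (V d)} (hU : IsOpen U) {a : Fin d → Fin d → V d → ℝ}
    (ha : ∀ j k, ContDiffOn ℝ 2 (a j k) U) (hs : ∀ j k, ∀ x ∈ U, a j k x = a k j x)
    (hp : ∀ x ∈ U, ∀ ξ : Fin d → ℝ, ξ ≠ 0 → 0 < ∑ j, ∑ k, a j k x * ξ j * ξ k)
    {x₀ : V d} (hx : x₀ ∈ U) :
    ∃ a' : Fin d → Fin d → V d → ℝ, GC a' ∧ ∃ r > 0, Metric.ball x₀ r ⊆ U ∧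
      ∀ y ∈ Metric.ball x₀ r, ∀ j k, a' j k y = a j k y := by
  obtain ⟨ε, hε, hεU⟩ := Metric.isOpen_iff.1 hU x₀ hx
  let χ : ContDiffBump x₀ := ⟨ε / 4, ε / 2, by positivity, by linarith only [hε]⟩
  have hsup : tsupport χ ⊆ U := by
    rw [χ.tsupport_eq]
    intro y hy
    apply hεU
    rw [Metric.mem_closedBall] at hy
    rw [Metric.mem_ball]
    have : χ.rOut = ε / 2 := rfl
    rw [this] at hy
    linarith
  have hχU : ∀ y, y ∉ U → χ y = 0 := fun y hy =>
    image_eq_zero_of_notMem_tsupport fun h => hy (hsup h)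
  refine ⟨fun j k y => χ y * a j k y + (1 - χ y) * (if j = k then (1 : ℝ) else 0), ?_, ε / 4,
    by positivity, ?_, ?_⟩
  · refine ⟨?_, ?_, ?_⟩
    · intro j k
      have h1 : ContDiff ℝ 2 fun y => χ y * a j k y := by
        rw [contDiff_iff_contDiffAt]
        intro y
        by_cases hy : y ∈ U
        · exact (χ.contDiff.contDiffAt).mul ((ha j k).contDiffAt (hU.mem_nhds hy))
        · have hyt : y ∉ tsupport χ := fun h => hy (hsup h)
          have hev : (fun y => χ y * a j k y) =ᶠ[𝓝 y] fun _ => 0 := by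
            have hopen : IsOpen (tsupport χ)ᶜ := (isClosed_tsupport χ).isOpen_compl
            filter_upwards [hopen.mem_nhds hyt] with z hz
            rw [image_eq_zero_of_notMem_tsupport hz, zero_mul]
          exact contDiffAt_const.congr_of_eventuallyEq hev
      exact h1.add ((contDiff_const.sub χ.contDiff).mul contDiff_const)
    · intro j k x
      by_cases hxU : x ∈ U
      · simp only [hs j k x hxU, eq_comm]
      · simp only [hχU x hxU, zero_mul, eq_comm]
    · intro x ξ hξ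
      have hsplit : ∑ j, ∑ k, (χ x * a j k x + (1 - χ x) * (if j = k then (1 : ℝ) else 0)) *
          ξ j * ξ k = χ x * (∑ j, ∑ k, a j k x * ξ j * ξ k) + (1 - χ x) * ∑ j, ξ j ^ 2 := by
        rw [← sp_diag, Finset.mul_sum, Finset.mul_sum, ← Finset.sum_add_distrib]
        refine Finset.sum_congr rfl fun j _ => ?_
        rw [Finset.mul_sum, Finset.mul_sum, ← Finset.sum_add_distrib]
        exact Finset.sum_congr rfl fun k _ => by ring
      rw [hsplit]
      have hpos := sp_diag_pos hξ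
      by_cases hx0 : χ x = 0
      · rw [hx0]
        linarith only [hpos]
      · have hxU : x ∈ U := by
          by_contra h
          exact hx0 (hχU x h)
        have hχ0 : 0 < χ x := lt_of_le_of_ne χ.nonneg (Ne.symm hx0)
        have hχ1 : χ x ≤ 1 := χ.le_one
        have h1 := hp x hxU ξ hξ
        have h2 : 0 < χ x * ∑ j, ∑ k, a j k x * ξ j * ξ k := mul_pos hχ0 h1
        have h3 : 0 ≤ (1 - χ x) * ∑ j, ξ j ^ 2 := mul_nonneg (by linarith) hpos.le
        linarith
  · intro y hy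
    apply hεU
    rw [Metric.mem_ball] at hy ⊢
    linarith only [hε, hy]
  · intro y hy j k
    have : χ y = 1 := χ.one_of_mem_closedBall (Metric.ball_subset_closedBall hy)
    simp [this]

end Vale.Agent.P088.A
end

section

/-!
P088-EYM-A13: integration by parts on the half space for functions vanishing on the boundary.
-/

set_option linter.all false

open MeasureTheory Filter Topology
open scoped ContDiff ENNReal

namespace Vale.Agent.P088.A

variable {d : ℕ} [NeZero d]

/-- One-sided partial derivative on the closed half space `{0 ≤ x 0}`. -/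
noncomputable def ph (i : Fin d) (f : V d → ℝ) (x : V d) : ℝ :=
  fderivWithin ℝ f {x : V d | 0 ≤ x 0} x (EuclideanSpace.single i 1)

lemma hi_closed : IsClosed {x : V d | 0 ≤ x 0} :=
  isClosed_le continuous_const (by fun_prop)

lemma hi_open : IsOpen {x : V d | 0 < x 0} :=
  isOpen_lt continuous_const (by fun_prop)

lemma hi_convex : Convex ℝ {x : V d | 0 ≤ x 0} := by
  intro x hx y hy a b ha hb _
  have hx' : 0 ≤ x 0 := hx
  have hy' : 0 ≤ y 0 := hy
  show 0 ≤ (a • x + b • y) 0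
  simp only [PiLp.add_apply, PiLp.smul_apply, smul_eq_mul]
  positivity

lemma hi_nonempty : ({x : V d | 0 < x 0}).Nonempty :=
  ⟨EuclideanSpace.single 0 1, by simp only [Set.mem_ofPred_eq, PiLp.single_eq_same, zero_lt_one]⟩

lemma hi_ud : UniqueDiffOn ℝ {x : V d | 0 ≤ x 0} := by
  apply uniqueDiffOn_convex hi_convex
  obtain ⟨x, hx⟩ := hi_nonempty (d := d)
  refine ⟨x, mem_interior.2 ⟨{x : V d | 0 < x 0}, ?_, hi_open, hx⟩⟩
  intro y hy
  exact le_of_lt (show 0 < y 0 from hy)

lemma hi_null : volume {x : V d | x 0 = 0} = 0 := by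
  have h := Measure.addHaar_submodule (volume : Measure (V d))
    (LinearMap.ker (EuclideanSpace.proj (𝕜 := ℝ) (0 : Fin d)).toLinearMap) ?_
  · convert h using 2
    ext x
    simp only [Set.mem_ofPred_eq, SetLike.mem_coe, LinearMap.mem_ker, ContinuousLinearMap.coe_coe, PiLp.proj_apply]
  · intro h
    have : (EuclideanSpace.single (0 : Fin d) (1 : ℝ) : V d) ∈
        LinearMap.ker (EuclideanSpace.proj (𝕜 := ℝ) (0 : Fin d)).toLinearMap := by
      rw [h]; trivial
    simp at this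

/-- The product `f φ` is `C¹` on the closed half space. -/
lemma hi_contDiffOn {z : V d} {r : ℝ} {f : V d → ℝ}
    (hf : ContDiffOn ℝ 1 f (Metric.ball z r ∩ {x | 0 ≤ x 0}))
    {φ : V d → ℝ} (hφ : ContDiff ℝ 1 φ) (hs : tsupport φ ⊆ Metric.ball z r) :
    ContDiffOn ℝ 1 (fun x => f x * φ x) {x : V d | 0 ≤ x 0} := by
  intro x hx
  by_cases hxb : x ∈ Metric.ball z r
  · have h1 : ContDiffWithinAt ℝ 1 f (Metric.ball z r ∩ {x | 0 ≤ x 0}) x := hf x ⟨hxb, hx⟩
    have h2 : ContDiffWithinAt ℝ 1 f {x : V d | 0 ≤ x 0} x := by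
      apply h1.mono_of_mem_nhdsWithin
      exact inter_mem (mem_nhdsWithin_of_mem_nhds (Metric.isOpen_ball.mem_nhds hxb))
        self_mem_nhdsWithin
    exact h2.mul hφ.contDiffWithinAt
  · have h3 : x ∉ tsupport φ := fun h => hxb (hs h)
    have h4 : (fun x => f x * φ x) =ᶠ[𝓝 x] fun _ => 0 := by
      filter_upwards [(isClosed_tsupport φ).isOpen_compl.mem_nhds h3] with y hy
      rw [image_eq_zero_of_notMem_tsupport hy, mul_zero]
    exact (contDiffAt_const.congr_of_eventuallyEq h4).contDiffWithinAt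

/-- The zero extension of `f φ` is Lipschitz. -/
lemma hi_lip {z : V d} {r : ℝ} {f : V d → ℝ}
    (hf : ContDiffOn ℝ 1 f (Metric.ball z r ∩ {x | 0 ≤ x 0}))
    (h0 : ∀ x ∈ Metric.ball z r, x 0 = 0 → f x = 0)
    {φ : V d → ℝ} (hφ : ContDiff ℝ 1 φ) (hc : HasCompactSupport φ)
    (hs : tsupport φ ⊆ Metric.ball z r) :
    ∃ C, LipschitzWith C (Set.indicator {x : V d | 0 ≤ x 0} (fun x => f x * φ x)) := by
  set H : Set (V d) := {x : V d | 0 ≤ x 0} with hH
  set G : V d → ℝ := fun x => f x * φ x with hG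
  have hG1 : ContDiffOn ℝ 1 G H := hi_contDiffOn hf hφ hs
  have hcont : ContinuousOn (fderivWithin ℝ G H) H :=
    hG1.continuousOn_fderivWithin hi_ud (by norm_num)
  have hK : IsCompact (tsupport φ ∩ H) := hc.isCompact.inter_right hi_closed
  obtain ⟨C, hC⟩ := hK.exists_bound_of_continuousOn (hcont.mono Set.inter_subset_right)
  have hC' : ∀ x ∈ H, ‖fderivWithin ℝ G H x‖ ≤ max C 0 := by
    intro x hx
    by_cases hxs : x ∈ tsupport φ
    · exact (hC x ⟨hxs, hx⟩).trans (le_max_left _ _)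
    · have h4 : G =ᶠ[𝓝 x] fun _ => 0 := by
        filter_upwards [(isClosed_tsupport φ).isOpen_compl.mem_nhds hxs] with y hy
        rw [hG]
        simp only
        rw [image_eq_zero_of_notMem_tsupport hy, mul_zero]
      have h5 : fderivWithin ℝ G H x = fderivWithin ℝ (fun _ => (0 : ℝ)) H x :=
        Filter.EventuallyEq.fderivWithin_eq (h4.filter_mono nhdsWithin_le_nhds) h4.eq_of_nhds
      rw [h5]
      simp
  have hGH : ∀ x ∈ H, ∀ y ∈ H, ‖G y - G x‖ ≤ max C 0 * ‖y - x‖ := fun x hx y hy =>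
    hi_convex.norm_image_sub_le_of_norm_fderivWithin_le (hG1.differentiableOn (by norm_num))
      hC' hx hy
  have hGb : ∀ x : V d, x 0 = 0 → G x = 0 := by
    intro x hx
    rw [hG]
    simp only
    by_cases hxb : x ∈ Metric.ball z r
    · rw [h0 x hxb hx, zero_mul]
    · rw [image_eq_zero_of_notMem_tsupport (fun h => hxb (hs h)), mul_zero]
  -- mixed case
  have hmix : ∀ x ∈ H, ∀ y ∉ H, ‖G x‖ ≤ max C 0 * ‖x - y‖ := by
    intro x hx y hy
    have hx' : 0 ≤ x 0 := hx
    have hy' : y 0 < 0 := not_le.1 hy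
    have hne : 0 < x 0 - y 0 := by (clear z r f h0 φ hφ hc hs hf hH G hG hG1 hcont hK C hC hC' hGH hGb; linarith)
    set t : ℝ := x 0 / (x 0 - y 0) with ht
    have ht0 : 0 ≤ t := by (clear z r f h0 φ hφ hc hs hf hH G hG hG1 hcont hK C hC hC' hGH hGb ht; positivity)
    have ht1 : t ≤ 1 := by rw [ht, div_le_one hne]; (clear z r f h0 φ hφ hc hs hf hH G hG hG1 hcont hK C hC hC' hGH hGb hx hx' hne t ht ht0; linarith)
    set w : V d := x + t • (y - x) with hw
    have hw0 : w 0 = 0 := by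
      rw [hw]
      simp only [PiLp.add_apply, PiLp.smul_apply, PiLp.sub_apply, smul_eq_mul]
      rw [ht]
      field_simp
      ring
    have h6 := hGH w (by show 0 ≤ w 0; rw [hw0]) x hx
    rw [hGb w hw0, sub_zero] at h6
    refine h6.trans ?_
    apply mul_le_mul_of_nonneg_left _ (le_max_right _ _)
    have : x - w = t • (x - y) := by
      rw [hw, show x - y = -(y - x) by abel, smul_neg]; abel
    rw [this, norm_smul, Real.norm_of_nonneg ht0]
    calc t * ‖x - y‖ ≤ 1 * ‖x - y‖ := mul_le_mul_of_nonneg_right ht1 (norm_nonneg _)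
      _ = ‖x - y‖ := one_mul _
  refine ⟨Real.toNNReal (max C 0), LipschitzWith.of_dist_le_mul fun x y => ?_⟩
  rw [Real.coe_toNNReal _ (le_max_right _ _), dist_eq_norm, dist_eq_norm]
  by_cases hx : x ∈ H <;> by_cases hy : y ∈ H
  · rw [Set.indicator_of_mem hx, Set.indicator_of_mem hy]
    exact hGH y hy x hx
  · rw [Set.indicator_of_mem hx, Set.indicator_of_notMem hy, sub_zero]
    exact hmix x hx y hy
  · rw [Set.indicator_of_notMem hx, Set.indicator_of_mem hy, zero_sub, norm_neg, norm_sub_rev]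
    exact hmix y hy x hx
  · rw [Set.indicator_of_notMem hx, Set.indicator_of_notMem hy]
    simp only [sub_self, norm_zero]
    (clear * -; positivity)

lemma hi_ph_eq {f : V d → ℝ} {x : V d} (hx : 0 < x 0) (i : Fin d) : ph i f x = pa i f x := by
  unfold ph pa
  rw [fderivWithin_of_mem_nhds]
  exact mem_of_superset (hi_open.mem_nhds hx) fun y hy => le_of_lt (show 0 < y 0 from hy)

/-- The line derivative of the zero extension. -/
lemma hi_line {z : V d} {r : ℝ} {f : V d → ℝ}
    (hf : ContDiffOn ℝ 1 f (Metric.ball z r ∩ {x | 0 ≤ x 0}))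
    {φ : V d → ℝ} (hφ : ContDiff ℝ 1 φ) (hs : tsupport φ ⊆ Metric.ball z r) (i : Fin d)
    (x : V d) (hx : x 0 ≠ 0) :
    lineDeriv ℝ (Set.indicator {x : V d | 0 ≤ x 0} (fun x => f x * φ x)) x
      (EuclideanSpace.single i 1)
      = Set.indicator {x : V d | 0 ≤ x 0} (fun x => ph i f x * φ x + f x * pa i φ x) x := by
  set H : Set (V d) := {x : V d | 0 ≤ x 0} with hH
  rcases lt_or_gt_of_ne hx with hx | hx
  · have hxH : x ∉ H := not_le.2 hx
    rw [Set.indicator_of_notMem hxH]
    have h1 : Set.indicator H (fun x => f x * φ x) =ᶠ[𝓝 x] fun _ => 0 := by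
      filter_upwards [hi_closed.isOpen_compl.mem_nhds hxH] with y hy
      exact Set.indicator_of_notMem hy _
    rw [h1.lineDeriv_eq]
    simp only [lineDeriv, deriv_const']
  · have hxH : x ∈ H := le_of_lt hx
    rw [Set.indicator_of_mem hxH]
    have h1 : Set.indicator H (fun x => f x * φ x) =ᶠ[𝓝 x] (fun x => f x * φ x) := by
      filter_upwards [hi_open.mem_nhds hx] with y hy
      exact Set.indicator_of_mem (show y ∈ H from le_of_lt (show 0 < y 0 from hy)) _
    rw [h1.lineDeriv_eq]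
    by_cases hxb : x ∈ Metric.ball z r
    · have h2 : ContDiffAt ℝ 1 f x := by
        apply (hf x ⟨hxb, hxH⟩).contDiffAt
        exact inter_mem (Metric.isOpen_ball.mem_nhds hxb)
          (mem_of_superset (hi_open.mem_nhds hx) fun y hy => le_of_lt (show 0 < y 0 from hy))
      have h3 : DifferentiableAt ℝ f x := h2.differentiableAt (by norm_num)
      have h4 : DifferentiableAt ℝ φ x := hφ.differentiable (by norm_num) x
      rw [(h3.fun_mul h4).lineDeriv_eq_fderiv, hi_ph_eq hx]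
      exact pa_mul h3 h4 i
    · have h3 : x ∉ tsupport φ := fun h => hxb (hs h)
      have h4 : (fun x => f x * φ x) =ᶠ[𝓝 x] fun _ => 0 := by
        filter_upwards [(isClosed_tsupport φ).isOpen_compl.mem_nhds h3] with y hy
        rw [image_eq_zero_of_notMem_tsupport hy, mul_zero]
      rw [h4.lineDeriv_eq, image_eq_zero_of_notMem_tsupport h3,
        image_eq_zero_of_notMem_tsupport (fun h => h3 (tsupport_pa_subset φ i h))]
      simp [lineDeriv]

/-- Functions continuous on the half ball, times a compactly supported function. -/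
lemma hi_int {z : V d} {r : ℝ} {g : V d → ℝ}
    (hg : ContinuousOn g (Metric.ball z r ∩ {x | 0 ≤ x 0}))
    {φ ψ : V d → ℝ} (hψ : Continuous ψ) (hc : HasCompactSupport φ)
    (hψφ : ∀ x, x ∉ tsupport φ → ψ x = 0) (hs : tsupport φ ⊆ Metric.ball z r) :
    IntegrableOn (fun x => g x * ψ x) {x : V d | 0 ≤ x 0} := by
  set H : Set (V d) := {x : V d | 0 ≤ x 0} with hH
  have hK : IsCompact (tsupport φ ∩ H) := hc.isCompact.inter_right hi_closed
  have h1 : IntegrableOn (fun x => g x * ψ x) (tsupport φ ∩ H) := by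
    apply ContinuousOn.integrableOn_compact hK
    exact (hg.mono (Set.inter_subset_inter_left _ hs)).mul hψ.continuousOn
  rw [Set.inter_comm] at h1
  apply h1.of_forall_diff_eq_zero hi_closed.measurableSet
  intro x hx
  have : x ∉ tsupport φ := fun h => hx.2 ⟨hx.1, h⟩
  rw [hψφ x this, mul_zero]

lemma hi_restrict {z : V d} {r : ℝ} {g : V d → ℝ} {φ ψ : V d → ℝ}
    (hψφ : ∀ x, x ∉ tsupport φ → ψ x = 0) (hs : tsupport φ ⊆ Metric.ball z r) :
    ∫ x in Metric.ball z r ∩ {x | 0 ≤ x 0}, g x * ψ x = ∫ x in {x : V d | 0 ≤ x 0}, g x * ψ x := by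
  symm
  apply setIntegral_eq_of_subset_of_forall_diff_eq_zero hi_closed.measurableSet
    Set.inter_subset_right
  intro x hx
  have : x ∉ tsupport φ := fun h => hx.2 ⟨hs h, hx.1⟩
  rw [hψφ x this, mul_zero]

lemma hi_main {z : V d} {r : ℝ} {f : V d → ℝ}
    (hf : ContDiffOn ℝ 1 f (Metric.ball z r ∩ {x | 0 ≤ x 0}))
    (h0 : ∀ x ∈ Metric.ball z r, x 0 = 0 → f x = 0)
    {φ : V d → ℝ} (hφ : ContDiff ℝ 1 φ) (hc : HasCompactSupport φ)
    (hs : tsupport φ ⊆ Metric.ball z r) (i : Fin d) :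
    ∫ x in {x : V d | 0 ≤ x 0}, f x * pa i φ x
      = - ∫ x in {x : V d | 0 ≤ x 0}, ph i f x * φ x := by
  set H : Set (V d) := {x : V d | 0 ≤ x 0} with hH
  obtain ⟨C, hC⟩ := hi_lip hf h0 hφ hc hs
  set F : V d → ℝ := Set.indicator H (fun x => f x * φ x) with hF
  have hFc : HasCompactSupport F := by
    apply hc.mono
    intro x hx
    have hx1 : F x ≠ 0 := hx
    intro hx2
    apply hx1
    rw [hF]
    by_cases hxH : x ∈ H
    · rw [Set.indicator_of_mem hxH, hx2, mul_zero]
    · rw [Set.indicator_of_notMem hxH]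
  have h1 := LipschitzWith.integral_lineDeriv_mul_eq (μ := (volume : Measure (V d)))
    (f := fun _ => (1 : ℝ)) (LipschitzWith.const (1 : ℝ)) hC hFc
    (-(EuclideanSpace.single i 1 : V d))
  simp only [neg_neg, mul_one] at h1
  have h2 : ∀ x : V d, lineDeriv ℝ (fun _ : V d => (1 : ℝ)) x
      (-(EuclideanSpace.single i 1 : V d)) = 0 := by
    intro x; simp [lineDeriv]
  simp only [h2, zero_mul, integral_zero] at h1
  have h3 : ∫ x, lineDeriv ℝ F x (EuclideanSpace.single i 1)
      = ∫ x, Set.indicator H (fun x => ph i f x * φ x + f x * pa i φ x) x := by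
    apply integral_congr_ae
    have : ∀ᵐ x : V d, x 0 ≠ 0 := by
      rw [ae_iff]
      simpa only [ne_eq, Decidable.not_not] using hi_null (d := d)
    filter_upwards [this] with x hx
    exact hi_line hf hφ hs i x hx
  rw [h3, integral_indicator hi_closed.measurableSet, integral_add] at h1
  · (clear z r h0 hφ hc hs hf hH C F hC hF hFc h2 h3; linarith)
  · have hph : ContinuousOn (ph i f) (Metric.ball z r ∩ H) := by
      have hud : UniqueDiffOn ℝ (Metric.ball z r ∩ H) := by
        rw [Set.inter_comm]; exact hi_ud.inter Metric.isOpen_ball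
      have h4 : ContinuousOn (fderivWithin ℝ f (Metric.ball z r ∩ H)) (Metric.ball z r ∩ H) :=
        hf.continuousOn_fderivWithin hud (by norm_num)
      have h5 : ContinuousOn (fun x => fderivWithin ℝ f (Metric.ball z r ∩ H) x
          (EuclideanSpace.single i 1)) (Metric.ball z r ∩ H) :=
        h4.clm_apply continuousOn_const
      refine h5.congr fun x hx => ?_
      unfold ph
      have h6 : fderivWithin ℝ f (Metric.ball z r ∩ H) x = fderivWithin ℝ f H x := by
        rw [Set.inter_comm (Metric.ball z r) H]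
        exact fderivWithin_inter (Metric.isOpen_ball.mem_nhds hx.1)
      show fderivWithin ℝ f H x (EuclideanSpace.single i 1)
        = fderivWithin ℝ f (Metric.ball z r ∩ H) x (EuclideanSpace.single i 1)
      rw [h6]
    exact hi_int hph hφ.continuous hc (fun x hx => image_eq_zero_of_notMem_tsupport hx) hs
  · exact hi_int hf.continuousOn (pa_continuous hφ i) hc
      (fun x hx => image_eq_zero_of_notMem_tsupport fun h => hx (tsupport_pa_subset φ i h)) hs

/-- Integration by parts on a half ball, `f = 0` on the flat boundary. -/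
theorem ibp_half {z : V d} {r : ℝ} {f : V d → ℝ}
    (hf : ContDiffOn ℝ 1 f (Metric.ball z r ∩ {x | 0 ≤ x 0}))
    (h0 : ∀ x ∈ Metric.ball z r, x 0 = 0 → f x = 0)
    {φ : V d → ℝ} (hφ : ContDiff ℝ 1 φ) (hc : HasCompactSupport φ)
    (hs : tsupport φ ⊆ Metric.ball z r) (i : Fin d) :
    ∫ x in Metric.ball z r ∩ {x | 0 ≤ x 0}, f x * pa i φ x
      = - ∫ x in Metric.ball z r ∩ {x | 0 ≤ x 0}, ph i f x * φ x := by
  rw [hi_restrict (fun x hx => image_eq_zero_of_notMem_tsupport hx) hs,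
    hi_restrict (fun x hx => image_eq_zero_of_notMem_tsupport
      fun h => hx (tsupport_pa_subset φ i h)) hs]
  exact hi_main hf h0 hφ hc hs i

/-- The zero extension of `f` from the half ball. -/
noncomputable def zx (f : V d → ℝ) : V d → ℝ := Set.indicator {x : V d | 0 ≤ x 0} f

/-- The zero extension has a weak gradient. -/
theorem grad_zx {z : V d} {r : ℝ} {f : V d → ℝ}
    (hf : ContDiffOn ℝ 1 f (Metric.ball z r ∩ {x | 0 ≤ x 0}))
    (h0 : ∀ x ∈ Metric.ball z r, x 0 = 0 → f x = 0)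
    {φ : V d → ℝ} (hφ : ContDiff ℝ 1 φ) (hc : HasCompactSupport φ)
    (hs : tsupport φ ⊆ Metric.ball z r) (i : Fin d) :
    ∫ x, zx f x * pa i φ x = - ∫ x, zx (ph i f) x * φ x := by
  have h1 : ∀ (g ψ : V d → ℝ), ∫ x, zx g x * ψ x = ∫ x in {x : V d | 0 ≤ x 0}, g x * ψ x := by
    intro g ψ
    rw [← integral_indicator hi_closed.measurableSet]
    congr 1
    funext x
    unfold zx
    by_cases hx : x ∈ {x : V d | 0 ≤ x 0}
    · rw [Set.indicator_of_mem hx, Set.indicator_of_mem hx]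
    · rw [Set.indicator_of_notMem hx, Set.indicator_of_notMem hx, zero_mul]
  rw [h1, h1]
  exact hi_main hf h0 hφ hc hs i

end Vale.Agent.P088.A
end

section

/-!
P088-EYM-A15: local limits of sequences of `C¹` functions.
-/

set_option linter.all false

open MeasureTheory Filter Topology
open scoped ContDiff ENNReal

namespace Vale.Agent.P088.A

variable {d : ℕ}

lemma sl_ind_sq {B : Set (V d)} (hB : MeasurableSet B) (f g : V d → ℝ) :
    N2 (fun x => B.indicator f x - B.indicator g x) = ∫ x in B, (f x - g x) ^ 2 := by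
  unfold N2
  rw [← integral_indicator hB]
  congr 1
  funext x
  by_cases hx : x ∈ B
  · simp [hx]
  · simp [hx]

/-- Completeness of `L²` on a bounded set. -/
theorem lim_L2 {B : Set (V d)} (hB : MeasurableSet B) {f : ℕ → V d → ℝ}
    (hf : ∀ m, MemLp (f m) 2 (volume.restrict B))
    (hC : ∀ ε > 0, ∃ M, ∀ m ≥ M, ∀ m' ≥ M, ∫ x in B, (f m x - f m' x) ^ 2 ≤ ε) :
    ∃ g : V d → ℝ, MemLp g 2 (volume.restrict B) ∧
      Tendsto (fun m => ∫ x in B, (f m x - g x) ^ 2) atTop (𝓝 0) := by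
  have ha : ∀ m, MemLp (B.indicator (f m)) 2 (volume : Measure (V d)) :=
    fun m => (memLp_indicator_iff_restrict hB).2 (hf m)
  obtain ⟨g, hg, ht⟩ := exists_limit ha (by
    intro ε hε
    obtain ⟨M, hM⟩ := hC (ε / 2) (by (clear * - hε; positivity))
    refine ⟨M, fun m hm m' hm' => ?_⟩
    have h1 := hM m hm m' hm'
    rw [sl_ind_sq hB]
    linarith only [hε, h1])
  refine ⟨g, hg.restrict B, ?_⟩
  refine squeeze_zero (fun m => integral_nonneg fun x => sq_nonneg _) (fun m => ?_) ht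
  have h2 : ∫ x in B, (f m x - g x) ^ 2 = ∫ x in B, (B.indicator (f m) x - g x) ^ 2 := by
    refine setIntegral_congr_fun hB fun x hx => ?_
    simp [Set.indicator_of_mem hx]
  rw [h2]
  unfold N2
  exact setIntegral_le_integral (memLp_sq_int (memLp_sub' (ha m) hg))
    (Eventually.of_forall fun x => sq_nonneg _)

lemma sl_tm {B : Set (V d)} (hB : MeasurableSet B) {a : ℕ → V d → ℝ} {b φ : V d → ℝ}
    (ha : ∀ n, MemLp (a n) 2 (volume.restrict B)) (hb : MemLp b 2 (volume.restrict B))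
    (hφ : MemLp φ 2 (volume.restrict B))
    (h : Tendsto (fun n => ∫ x in B, (a n x - b x) ^ 2) atTop (𝓝 0)) :
    Tendsto (fun n => ∫ x in B, a n x * φ x) atTop (𝓝 (∫ x in B, b x * φ x)) := by
  have h1 := tendsto_integral_mul (a := fun n => B.indicator (a n)) (b := B.indicator b)
    (φ := B.indicator φ) (fun n => (memLp_indicator_iff_restrict hB).2 (ha n))
    ((memLp_indicator_iff_restrict hB).2 hb) ((memLp_indicator_iff_restrict hB).2 hφ)
    (by simpa only [sl_ind_sq hB] using h)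
  have key : ∀ u : V d → ℝ, ∫ x, B.indicator u x * B.indicator φ x = ∫ x in B, u x * φ x := by
    intro u
    rw [← integral_indicator hB]
    congr 1
    funext x
    by_cases hx : x ∈ B
    · simp [hx]
    · simp [hx]
  simpa only [key] using h1

lemma sl_bm {B : Set (V d)} (hB : MeasurableSet B) {w f : V d → ℝ} {M : ℝ}
    (hw : AEStronglyMeasurable w (volume.restrict B)) (hM : ∀ x ∈ B, |w x| ≤ M)
    (hf : MemLp f 2 (volume.restrict B)) : MemLp (fun x => w x * f x) 2 (volume.restrict B) := by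
  refine MemLp.of_le_mul (c := M) hf (hw.mul hf.1) ?_
  filter_upwards [ae_restrict_mem hB] with x hx
  rw [norm_mul]
  gcongr
  exact hM x hx

lemma sl_int {B : Set (V d)} {f g : V d → ℝ} (hf : MemLp f 2 (volume.restrict B))
    (hg : MemLp g 2 (volume.restrict B)) : Integrable (fun x => f x * g x) (volume.restrict B) :=
  hf.integrable_mul hg

lemma sl_set {B : Set (V d)} {φ : V d → ℝ} (hφ : tsupport φ ⊆ B) (u : V d → ℝ) :
    ∫ x, u x * φ x = ∫ x in B, u x * φ x := by
  symm
  apply setIntegral_eq_integral_of_forall_compl_eq_zero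
  intro x hx
  rw [image_eq_zero_of_notMem_tsupport (fun h => hx (hφ h)), mul_zero]

/-- Abstract limit of asymptotic weak solutions on a ball. `f m i` are the functions, `Df m i k`
their weak derivatives. -/
theorem lim_WS {ι : Type*} [Fintype ι] {a : Fin d → Fin d → V d → ℝ}
    {B : Set (V d)} (hB : IsOpen B) (hBb : Bornology.IsBounded B)
    (ha : ∀ j k, ∃ M, ∀ x ∈ B, |a j k x| ≤ M)
    (ham : ∀ j k, AEStronglyMeasurable (a j k) (volume.restrict B))
    {Q : Fin d → ι → ι → V d → ℝ} {Rc : ι → ι → V d → ℝ}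
    (hQ : ∀ k i l, ∃ M, ∀ x ∈ B, |Q k i l x| ≤ M)
    (hQm : ∀ k i l, AEStronglyMeasurable (Q k i l) (volume.restrict B))
    (hRc : ∀ i l, ∃ M, ∀ x ∈ B, |Rc i l x| ≤ M)
    (hRm : ∀ i l, AEStronglyMeasurable (Rc i l) (volume.restrict B))
    {f : ℕ → ι → V d → ℝ} {Df : ℕ → ι → Fin d → V d → ℝ}
    (hf : ∀ m i, MemLp (f m i) 2 (volume.restrict B))
    (hDf : ∀ m i k, MemLp (Df m i k) 2 (volume.restrict B))
    (hg : ∀ m i k φ, TF B φ → ∫ x, f m i x * pa k φ x = - ∫ x, Df m i k x * φ x)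
    (hC : ∀ ε > 0, ∃ M, ∀ m ≥ M, ∀ m' ≥ M, ∀ i,
      ∫ x in B, ((f m i x - f m' i x) ^ 2 + ∑ k, (Df m i k x - Df m' i k x) ^ 2) ≤ ε)
    (heq : ∀ i φ, TF B φ → Tendsto (fun m => ∫ x in B,
      ((∑ j, ∑ k, a j k x * Df m i j x * pa k φ x) + (∑ k, ∑ l, Q k i l x * Df m l k x) * φ x
        + (∑ l, Rc i l x * f m l x) * φ x)) atTop (𝓝 0)) :
    ∃ (w : ι → V d → ℝ) (Dw : ι → Fin d → V d → ℝ) (F : ι → V d → ℝ) (C : ℝ),
      (∀ i, WS a B (w i) (Dw i) (F i)) ∧
      (∀ᵐ x, x ∈ B → ∀ i, |F i x| ≤ C * ∑ l, (|w l x| + ∑ k, |Dw l k x|)) ∧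
      ∀ i, Tendsto (fun m => ∫ x in B, (f m i x - w i x) ^ 2) atTop (𝓝 0) := by
  have hBm : MeasurableSet B := hB.measurableSet
  have hsq : ∀ {u v : V d → ℝ}, MemLp u 2 (volume.restrict B) → MemLp v 2 (volume.restrict B) →
      Integrable (fun x => (u x - v x) ^ 2) (volume.restrict B) := by
    intro u v hu hv
    exact (hu.sub hv).integrable_sq
  have hCi : ∀ m m' i, Integrable (fun x => ∑ k, (Df m i k x - Df m' i k x) ^ 2)
      (volume.restrict B) :=
    fun m m' i => integrable_finset_sum _ fun k _ => hsq (hDf m i k) (hDf m' i k)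
  have hw : ∀ i, ∃ g : V d → ℝ, MemLp g 2 (volume.restrict B) ∧
      Tendsto (fun m => ∫ x in B, (f m i x - g x) ^ 2) atTop (𝓝 0) := by
    intro i
    apply lim_L2 hBm (fun m => hf m i)
    intro ε hε
    obtain ⟨M, hM⟩ := hC ε hε
    refine ⟨M, fun m hm m' hm' => le_trans ?_ (hM m hm m' hm' i)⟩
    apply integral_mono (hsq (hf m i) (hf m' i)) ((hsq (hf m i) (hf m' i)).add (hCi m m' i))
    intro x
    simp only [Pi.add_apply]
    have : 0 ≤ ∑ k, (Df m i k x - Df m' i k x) ^ 2 := Finset.sum_nonneg fun k _ => sq_nonneg _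
    linarith only [this]
  have hDw : ∀ i k, ∃ g : V d → ℝ, MemLp g 2 (volume.restrict B) ∧
      Tendsto (fun m => ∫ x in B, (Df m i k x - g x) ^ 2) atTop (𝓝 0) := by
    intro i k
    apply lim_L2 hBm (fun m => hDf m i k)
    intro ε hε
    obtain ⟨M, hM⟩ := hC ε hε
    refine ⟨M, fun m hm m' hm' => le_trans ?_ (hM m hm m' hm' i)⟩
    apply integral_mono (hsq (hDf m i k) (hDf m' i k))
      ((hsq (hf m i) (hf m' i)).add (hCi m m' i))
    intro x
    simp only [Pi.add_apply]
    have h1 : (Df m i k x - Df m' i k x) ^ 2 ≤ ∑ k, (Df m i k x - Df m' i k x) ^ 2 :=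
      Finset.single_le_sum (f := fun k => (Df m i k x - Df m' i k x) ^ 2)
        (fun k _ => sq_nonneg _) (Finset.mem_univ k)
    have h2 : 0 ≤ (f m i x - f m' i x) ^ 2 := sq_nonneg _
    linarith only [h1, h2]
  choose w hwL hwT using hw
  choose Dw hDL hDT using hDw
  choose MQ hMQ using hQ
  choose MR hMR using hRc
  choose Ma hMa using ha
  have hQD : ∀ k i l, MemLp (fun x => Q k i l x * Dw l k x) 2 (volume.restrict B) :=
    fun k i l => sl_bm hBm (hQm k i l) (hMQ k i l) (hDL l k)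
  have hRW : ∀ i l, MemLp (fun x => Rc i l x * w l x) 2 (volume.restrict B) :=
    fun i l => sl_bm hBm (hRm i l) (hMR i l) (hwL l)
  have hA1 : ∀ i, MemLp (fun x => ∑ k, ∑ l, Q k i l x * Dw l k x) 2 (volume.restrict B) :=
    fun i => memLp_finset_sum _ fun k _ => memLp_finset_sum _ fun l _ => hQD k i l
  have hA2 : ∀ i, MemLp (fun x => ∑ l, Rc i l x * w l x) 2 (volume.restrict B) :=
    fun i => memLp_finset_sum _ fun l _ => hRW i l
  have hAF : ∀ i, MemLp (fun x => -((∑ k, ∑ l, Q k i l x * Dw l k x) + ∑ l, Rc i l x * w l x)) 2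
      (volume.restrict B) := fun i => ((hA1 i).add (hA2 i)).neg
  refine ⟨w, Dw, fun i x => -((∑ k, ∑ l, Q k i l x * Dw l k x) + ∑ l, Rc i l x * w l x),
    (∑ k, ∑ i, ∑ l, |MQ k i l|) + ∑ i, ∑ l, |MR i l|, fun i => ⟨hwL i, hDL i, hAF i, ?_, ?_⟩,
    ?_, hwT⟩
  · -- the gradient
    intro k φ hφ
    have hs : tsupport (pa k φ) ⊆ B := (tsupport_pa_subset φ k).trans hφ.2.2
    have hφ2 : MemLp φ 2 (volume.restrict B) :=
      (hφ.1.continuous.memLp_of_hasCompactSupport hφ.2.1).restrict B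
    have hφk : MemLp (pa k φ) 2 (volume.restrict B) :=
      ((pa_contDiff_infty hφ.1 k).continuous.memLp_of_hasCompactSupport
        (pa_hasCompactSupport hφ.2.1 k)).restrict B
    have t1 := sl_tm hBm (fun m => hf m i) (hwL i) hφk (hwT i)
    have t2 := (sl_tm hBm (fun m => hDf m i k) (hDL i k) hφ2 (hDT i k)).neg
    rw [sl_set hs, sl_set hφ.2.2]
    refine tendsto_nhds_unique t1 (t2.congr fun m => ?_)
    have := hg m i k φ hφ
    rw [sl_set hs, sl_set hφ.2.2] at this
    exact this.symm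
  · -- the equation
    intro φ hφ
    have hs : ∀ k, tsupport (pa k φ) ⊆ B := fun k => (tsupport_pa_subset φ k).trans hφ.2.2
    have hφ2 : MemLp φ 2 (volume.restrict B) :=
      (hφ.1.continuous.memLp_of_hasCompactSupport hφ.2.1).restrict B
    have hφk : ∀ k, MemLp (pa k φ) 2 (volume.restrict B) := fun k =>
      ((pa_contDiff_infty hφ.1 k).continuous.memLp_of_hasCompactSupport
        (pa_hasCompactSupport hφ.2.1 k)).restrict B
    have p1 : ∀ j k, MemLp (fun x => a j k x * pa k φ x) 2 (volume.restrict B) :=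
      fun j k => sl_bm hBm (ham j k) (hMa j k) (hφk k)
    have p2 : ∀ k l, MemLp (fun x => Q k i l x * φ x) 2 (volume.restrict B) :=
      fun k l => sl_bm hBm (hQm k i l) (hMQ k i l) hφ2
    have p3 : ∀ l, MemLp (fun x => Rc i l x * φ x) 2 (volume.restrict B) :=
      fun l => sl_bm hBm (hRm i l) (hMR i l) hφ2
    have key : ∀ (u : ι → V d → ℝ) (Du : ι → Fin d → V d → ℝ),
        (∀ l, MemLp (u l) 2 (volume.restrict B)) → (∀ l k, MemLp (Du l k) 2 (volume.restrict B)) →
        ∫ x in B, ((∑ j, ∑ k, a j k x * Du i j x * pa k φ x)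
          + (∑ k, ∑ l, Q k i l x * Du l k x) * φ x + (∑ l, Rc i l x * u l x) * φ x)
        = (∑ j, ∑ k, ∫ x in B, Du i j x * (a j k x * pa k φ x))
          + (∑ k, ∑ l, ∫ x in B, Du l k x * (Q k i l x * φ x))
          + ∑ l, ∫ x in B, u l x * (Rc i l x * φ x) := by
      intro u Du hu hDu
      have i1 : ∀ j k, Integrable (fun x => Du i j x * (a j k x * pa k φ x))
          (volume.restrict B) := fun j k => sl_int (hDu i j) (p1 j k)
      have i2 : ∀ k l, Integrable (fun x => Du l k x * (Q k i l x * φ x))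
          (volume.restrict B) := fun k l => sl_int (hDu l k) (p2 k l)
      have i3 : ∀ l, Integrable (fun x => u l x * (Rc i l x * φ x))
          (volume.restrict B) := fun l => sl_int (hu l) (p3 l)
      have s1 : Integrable (fun x => ∑ j, ∑ k, Du i j x * (a j k x * pa k φ x))
          (volume.restrict B) :=
        integrable_finset_sum _ fun j _ => integrable_finset_sum _ fun k _ => i1 j k
      have s2 : Integrable (fun x => ∑ k, ∑ l, Du l k x * (Q k i l x * φ x))
          (volume.restrict B) :=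
        integrable_finset_sum _ fun j _ => integrable_finset_sum _ fun k _ => i2 j k
      have s3 : Integrable (fun x => ∑ l, u l x * (Rc i l x * φ x))
          (volume.restrict B) := integrable_finset_sum _ fun j _ => i3 j
      have e1 : ∑ j, ∑ k, ∫ x in B, Du i j x * (a j k x * pa k φ x)
          = ∫ x in B, ∑ j, ∑ k, Du i j x * (a j k x * pa k φ x) := by
        rw [integral_finset_sum _ fun j _ => integrable_finset_sum _ fun k _ => i1 j k]
        refine Finset.sum_congr rfl fun j _ => ?_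
        rw [integral_finset_sum _ fun k _ => i1 j k]
      have e2 : ∑ k, ∑ l, ∫ x in B, Du l k x * (Q k i l x * φ x)
          = ∫ x in B, ∑ k, ∑ l, Du l k x * (Q k i l x * φ x) := by
        rw [integral_finset_sum _ fun j _ => integrable_finset_sum _ fun k _ => i2 j k]
        refine Finset.sum_congr rfl fun j _ => ?_
        rw [integral_finset_sum _ fun k _ => i2 j k]
      have e3 : ∑ l, ∫ x in B, u l x * (Rc i l x * φ x)
          = ∫ x in B, ∑ l, u l x * (Rc i l x * φ x) := by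
        rw [integral_finset_sum _ fun j _ => i3 j]
      have s12 : Integrable (fun x => (∑ j, ∑ k, Du i j x * (a j k x * pa k φ x))
          + ∑ k, ∑ l, Du l k x * (Q k i l x * φ x)) (volume.restrict B) := s1.add s2
      rw [e1, e2, e3, ← integral_add s1 s2, ← integral_add s12 s3]
      congr 1
      funext x
      rw [Finset.sum_mul, Finset.sum_mul]
      congr 1
      · congr 1
        · refine Finset.sum_congr rfl fun j _ => Finset.sum_congr rfl fun k _ => ?_
          ring
        · refine Finset.sum_congr rfl fun j _ => ?_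
          rw [Finset.sum_mul]
          refine Finset.sum_congr rfl fun k _ => ?_
          ring
      · refine Finset.sum_congr rfl fun j _ => ?_
        ring
    have hlim : Tendsto (fun m => (∑ j, ∑ k, ∫ x in B, Df m i j x * (a j k x * pa k φ x))
          + (∑ k, ∑ l, ∫ x in B, Df m l k x * (Q k i l x * φ x))
          + ∑ l, ∫ x in B, f m l x * (Rc i l x * φ x)) atTop
        (𝓝 ((∑ j, ∑ k, ∫ x in B, Dw i j x * (a j k x * pa k φ x))
          + (∑ k, ∑ l, ∫ x in B, Dw l k x * (Q k i l x * φ x))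
          + ∑ l, ∫ x in B, w l x * (Rc i l x * φ x))) := by
      refine (Tendsto.add ?_ ?_).add ?_
      · exact tendsto_finset_sum _ fun j _ => tendsto_finset_sum _ fun k _ =>
          sl_tm hBm (fun m => hDf m i j) (hDL i j) (p1 j k) (hDT i j)
      · exact tendsto_finset_sum _ fun k _ => tendsto_finset_sum _ fun l _ =>
          sl_tm hBm (fun m => hDf m l k) (hDL l k) (p2 k l) (hDT l k)
      · exact tendsto_finset_sum _ fun l _ =>
          sl_tm hBm (fun m => hf m l) (hwL l) (p3 l) (hwT l)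
    have hlim2 := (heq i φ hφ).congr fun m => key (f m) (Df m) (hf m) (hDf m)
    have hz := tendsto_nhds_unique hlim hlim2
    rw [← key w Dw hwL hDL] at hz
    have j1 : Integrable (fun x => ∑ j, ∑ k, a j k x * Dw i j x * pa k φ x)
        (volume.restrict B) := by
      refine integrable_finset_sum _ fun j _ => integrable_finset_sum _ fun k _ => ?_
      refine (sl_int (hDL i j) (p1 j k)).congr (Eventually.of_forall fun x => ?_)
      show Dw i j x * (a j k x * pa k φ x) = a j k x * Dw i j x * pa k φ x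
      ring
    have j2 : Integrable (fun x => (-((∑ k, ∑ l, Q k i l x * Dw l k x)
        + ∑ l, Rc i l x * w l x)) * φ x) (volume.restrict B) := sl_int (hAF i) hφ2
    have hz2 : (∫ x in B, ∑ j, ∑ k, a j k x * Dw i j x * pa k φ x)
        - ∫ x in B, (-((∑ k, ∑ l, Q k i l x * Dw l k x) + ∑ l, Rc i l x * w l x)) * φ x = 0 := by
      rw [← integral_sub j1 j2, ← hz]
      congr 1
      funext x
      ring
    have hset : ∫ x, ∑ j, ∑ k, a j k x * Dw i j x * pa k φ x
        = ∫ x in B, ∑ j, ∑ k, a j k x * Dw i j x * pa k φ x := by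
      symm
      apply setIntegral_eq_integral_of_forall_compl_eq_zero
      intro x hx
      refine Finset.sum_eq_zero fun j _ => Finset.sum_eq_zero fun k _ => ?_
      rw [image_eq_zero_of_notMem_tsupport (fun h => hx (hs k h)), mul_zero]
    rw [hset, sl_set hφ.2.2]
    linarith only [hz2]
  · -- the bound
    refine Eventually.of_forall fun x hx i => ?_
    set C : ℝ := (∑ k, ∑ i, ∑ l, |MQ k i l|) + ∑ i, ∑ l, |MR i l| with hCdef
    have n1 : 0 ≤ ∑ k, ∑ i, ∑ l, |MQ k i l| :=
      Finset.sum_nonneg fun _ _ => Finset.sum_nonneg fun _ _ => Finset.sum_nonneg fun _ _ =>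
        abs_nonneg _
    have n2 : 0 ≤ ∑ i, ∑ l, |MR i l| :=
      Finset.sum_nonneg fun _ _ => Finset.sum_nonneg fun _ _ => abs_nonneg _
    have b1 : ∀ k l, |Q k i l x| ≤ C := by
      intro k l
      have c1 : |MQ k i l| ≤ ∑ l, |MQ k i l| :=
        Finset.single_le_sum (f := fun l => |MQ k i l|) (fun _ _ => abs_nonneg _)
          (Finset.mem_univ l)
      have c2 : ∑ l, |MQ k i l| ≤ ∑ i, ∑ l, |MQ k i l| :=
        Finset.single_le_sum (f := fun i => ∑ l, |MQ k i l|)
          (fun _ _ => Finset.sum_nonneg fun _ _ => abs_nonneg _) (Finset.mem_univ i)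
      have c3 : ∑ i, ∑ l, |MQ k i l| ≤ ∑ k, ∑ i, ∑ l, |MQ k i l| :=
        Finset.single_le_sum (f := fun k => ∑ i, ∑ l, |MQ k i l|)
          (fun _ _ => Finset.sum_nonneg fun _ _ => Finset.sum_nonneg fun _ _ => abs_nonneg _)
          (Finset.mem_univ k)
      have c4 : |Q k i l x| ≤ |MQ k i l| := (hMQ k i l x hx).trans (le_abs_self _)
      linarith
    have b2 : ∀ l, |Rc i l x| ≤ C := by
      intro l
      have c1 : |MR i l| ≤ ∑ l, |MR i l| :=
        Finset.single_le_sum (f := fun l => |MR i l|) (fun _ _ => abs_nonneg _)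
          (Finset.mem_univ l)
      have c2 : ∑ l, |MR i l| ≤ ∑ i, ∑ l, |MR i l| :=
        Finset.single_le_sum (f := fun i => ∑ l, |MR i l|)
          (fun _ _ => Finset.sum_nonneg fun _ _ => abs_nonneg _) (Finset.mem_univ i)
      have c4 : |Rc i l x| ≤ |MR i l| := (hMR i l x hx).trans (le_abs_self _)
      linarith
    have d1 : |∑ k, ∑ l, Q k i l x * Dw l k x| ≤ ∑ k, ∑ l, C * |Dw l k x| := by
      refine (Finset.abs_sum_le_sum_abs _ _).trans (Finset.sum_le_sum fun k _ => ?_)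
      refine (Finset.abs_sum_le_sum_abs _ _).trans (Finset.sum_le_sum fun l _ => ?_)
      rw [abs_mul]
      exact mul_le_mul_of_nonneg_right (b1 k l) (abs_nonneg _)
    have d2 : |∑ l, Rc i l x * w l x| ≤ ∑ l, C * |w l x| := by
      refine (Finset.abs_sum_le_sum_abs _ _).trans (Finset.sum_le_sum fun l _ => ?_)
      rw [abs_mul]
      exact mul_le_mul_of_nonneg_right (b2 l) (abs_nonneg _)
    have d3 : C * ∑ l, (|w l x| + ∑ k, |Dw l k x|)
        = (∑ k, ∑ l, C * |Dw l k x|) + ∑ l, C * |w l x| := by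
      rw [Finset.sum_add_distrib, mul_add, Finset.mul_sum, Finset.mul_sum, Finset.sum_comm,
        add_comm]
      congr 1
      refine Finset.sum_congr rfl fun l _ => ?_
      rw [Finset.mul_sum]
    rw [d3, abs_neg]
    exact (abs_add_le _ _).trans (add_le_add d1 d2)

end Vale.Agent.P088.A
end
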