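import Vale.Agent.P088.MathlibUsed
import Vale.Agent.P088.Bdl.B1
import Vale.Agent.P088.Bdl.B2

set_option linter.all false

section

open Bundle Manifold MeasureTheory Set Filter
open scoped ContDiff Topology

noncomputable section

namespace Vale.Agent.P088

set_option linter.unusedSectionVars false

variable {n N : ℕ} {H : Type*} [TopologicalSpace H]
  {I : ModelWithCorners ℝ (EuclideanSpace ℝ (Fin n)) H}
  {M : Type*} [TopologicalSpace M] [ChartedSpace H M] [IsManifold I ∞ M]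
variable {F : Type*} [NormedAddCommGroup F] [NormedSpace ℝ F]

theorem contMDiffOn_gram (g : Metric I M) (p : M) (i j : Fin n) :
    ContMDiffOn I 𝓘(ℝ, ℝ) ∞ (fun x => gram g p x i j) (extChartAt I p).source := g.smooth p i j

theorem contDiffOn_lu_of_contMDiffOn {p : M} {u : M → F} (hu : ContMDiffOn I 𝓘(ℝ, F) ∞ u (extChartAt I p).source) :
    ContDiffOn ℝ ∞ (lu I p u) (extChartAt I p).target := by
  rw [← contMDiffOn_iff_contDiffOn]
  refine hu.comp (contMDiffOn_extChartAt_symm p) ?_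
  intro y hy
  exact (extChartAt I p).map_target hy


/-! ### metric in the model space -/

/-- metric as a bilinear form on the model space -/
def gI (g : Metric I M) (x : M) : EuclideanSpace ℝ (Fin n) →L[ℝ] EuclideanSpace ℝ (Fin n) →L[ℝ] ℝ :=
  g.inner x

theorem gram_apply (g : Metric I M) (p x : M) (i j : Fin n) :
    gram g p x i j = gI g x (cc I p x (es n i)) (cc I p x (es n j)) := rfl

theorem gI_symm (g : Metric I M) (x : M) (v w) : gI g x v w = gI g x w v := g.symm x v w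

theorem gI_pos (g : Metric I M) (x : M) (v) (hv : v ≠ 0) : 0 < gI g x v v := g.pos x v hv

theorem gram_self (g : Metric I M) (x : M) (i j : Fin n) :
    gram g x x i j = gI g x (es n i) (es n j) := by
  rw [gram_apply, cc_self, cc_self]

theorem gram_eq (g : Metric I M) (p x : M) :
    gram g p x = (mat (cc I p x)).transpose * gram g x x * mat (cc I p x) := by
  ext i j
  rw [gram_apply, apply_es (cc I p x) i, apply_es (cc I p x) j, Matrix.mul_apply]
  simp only [Matrix.mul_apply, Matrix.transpose_apply, map_sum, map_smul, Finset.sum_mul,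
    Finset.mul_sum, _root_.sum_apply, _root_.smul_apply, smul_eq_mul, gram_self]
  refine Finset.sum_congr rfl fun k _ => Finset.sum_congr rfl fun l _ => ?_
  ring

theorem gram_posDef (g : Metric I M) {p x : M} (hx : x ∈ (extChartAt I p).source) :
    (gram g p x).PosDef := by
  refine Matrix.PosDef.of_dotProduct_mulVec_pos ?_ ?_
  · ext i j
    simp only [Matrix.conjTranspose_apply, gram_apply, star_trivial]
    exact gI_symm g x _ _
  · intro c hc
    have h1 : star c ⬝ᵥ (gram g p x).mulVec c = gI g x (cc I p x (∑ i, c i • es n i)) (cc I p x (∑ i, c i • es n i)) := by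
      simp only [dotProduct, Matrix.mulVec, gram_apply, map_sum, map_smul, Finset.mul_sum,
        _root_.sum_apply, _root_.smul_apply, smul_eq_mul, Pi.star_apply, star_trivial]
      rw [Finset.sum_comm]
      refine Finset.sum_congr rfl fun k _ => Finset.sum_congr rfl fun l _ => ?_
      ring
    rw [h1]
    apply gI_pos
    intro h0
    apply hc
    have h2 : (∑ i, c i • es n i) = 0 := by
      rw [← cc_inv_left I hx (∑ i, c i • es n i), h0, map_zero]
    ext k
    have := congrArg (fun v : EuclideanSpace ℝ (Fin n) => v k) h2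
    simpa [es, Finset.sum_apply, Pi.single_apply] using this

/-! ### pairing in an arbitrary chart -/

/-- covariant derivative on the model space -/
def covI (A : Connection I N M) (u : M → Fib N) (x : M) (v : EuclideanSpace ℝ (Fin n)) : Fib N :=
  cov A u x v

theorem covI_sum (A : Connection I N M) (u : M → Fib N) (x : M) (c : Fin n → ℝ) :
    covI A u x (∑ i, c i • es n i) = ∑ i, c i • covI A u x (es n i) := by
  have h1 : dmap I u x (∑ i, c i • es n i : EuclideanSpace ℝ (Fin n)) = ∑ i, c i • dmap I u x (es n i) := by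
    exact (map_sum (dmap I u x) _ _).trans (Finset.sum_congr rfl fun i _ => map_smul (dmap I u x) _ _)
  have h2 : A.form x (∑ i, c i • es n i : EuclideanSpace ℝ (Fin n)) = ∑ i, c i • A.form x (es n i) := by
    exact (map_sum (A.form x) _ _).trans (Finset.sum_congr rfl fun i _ => map_smul (A.form x) _ _)
  unfold covI cov
  rw [h1, h2]
  simp only [_root_.sum_apply, _root_.smul_apply, smul_add, Finset.sum_add_distrib]

/-- contraction of a bilinear form on `T_x M` with the inverse metric -/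
def rp {W : Type*} [AddCommGroup W] [Module ℝ W] (g : Metric I M) (x : M)
    (B : EuclideanSpace ℝ (Fin n) → EuclideanSpace ℝ (Fin n) → W) : W :=
  ∑ i, ∑ j, ((gram g x x)⁻¹ i j) • B (es n i) (es n j)

theorem rp_eq {W : Type*} [AddCommGroup W] [Module ℝ W] (g : Metric I M) {p x : M}
    (hx : x ∈ (extChartAt I p).source)
    {B : EuclideanSpace ℝ (Fin n) → EuclideanSpace ℝ (Fin n) → W} (hB : BilF B) :
    rp g x B = ∑ i, ∑ j, ((gram g p x)⁻¹ i j) • B (cc I p x (es n i)) (cc I p x (es n j)) := by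
  have h := pr_invariant (gram g x x) (cc I p x) (tangentCoordChange I x p x)
    (by ext1 v; exact cc_inv_left I hx v) hB
  rw [gram_eq g p x]
  exact h.symm

theorem pairing_eq_rp (g : Metric I M) (A : Connection I N M) (u v : M → Fib N) (x : M) :
    pairing g A u v x = rp g x (fun a b => inner ℂ (covI A u x a) (covI A v x b)) := by
  unfold pairing rp
  simp only [coordVec_eq, cc_self, ← Complex.real_smul]
  rfl

theorem bilF_cov (A A' : Connection I N M) (u v : M → Fib N) (x : M) :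
    BilF (fun a b => inner ℂ (covI A u x a) (covI A' v x b)) := by
  intro c d
  simp only [covI_sum, sum_inner, inner_sum]
  rw [Finset.sum_comm]
  refine Finset.sum_congr rfl fun k _ => Finset.sum_congr rfl fun l _ => ?_
  rw [inner_smul_left_eq_smul, inner_smul_right_eq_smul, smul_smul]
  try ring_nf

theorem pairing_eq (g : Metric I M) (A : Connection I N M) (u v : M → Fib N) {p x : M}
    (hx : x ∈ (extChartAt I p).source) :
    pairing g A u v x = ∑ i, ∑ j, ((gram g p x)⁻¹ i j) •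
      inner ℂ (cov A u x (coordVec I p x i)) (cov A v x (coordVec I p x j)) := by
  rw [pairing_eq_rp, rp_eq g hx (bilF_cov A A u v x)]
  rfl

end Vale.Agent.P088
end
end

section

open Bundle Manifold MeasureTheory Set Filter
open scoped ContDiff Topology

noncomputable section

namespace Vale.Agent.P088

set_option linter.unusedSectionVars false

variable {n N : ℕ} {H : Type*} [TopologicalSpace H]
  {I : ModelWithCorners ℝ (EuclideanSpace ℝ (Fin n)) H}
  {M : Type*} [TopologicalSpace M] [ChartedSpace H M] [IsManifold I ∞ M]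
variable {F : Type*} [NormedAddCommGroup F] [NormedSpace ℝ F]

theorem fderivWithin_range_eq_target {p : M} {f : EuclideanSpace ℝ (Fin n) → F}
    {y : EuclideanSpace ℝ (Fin n)} (hy : y ∈ (extChartAt I p).target) :
    fderivWithin ℝ f (range I) y = fderivWithin ℝ f (extChartAt I p).target y := by
  exact (fderivWithin_congr_set (extChartAt_target_eventuallyEq_of_mem hy)).symm

theorem contMDiffOn_dmap_coordVec {u : M → F} (hu : ContMDiff I 𝓘(ℝ, F) ∞ u) (p : M) (i : Fin n) :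
    ContMDiffOn I 𝓘(ℝ, F) ∞ (fun x => dmap I u x (coordVec I p x i)) (extChartAt I p).source := by
  have h1 : ContDiffOn ℝ ∞ (lu I p u) (extChartAt I p).target :=
    contDiffOn_lu_of_contMDiffOn hu.contMDiffOn
  have h2 : ContDiffOn ℝ ∞ (fun y => fderivWithin ℝ (lu I p u) (extChartAt I p).target y (es n i))
      (extChartAt I p).target := by
    have := h1.fderivWithin (uniqueDiffOn_extChartAt_target p) (m := ∞) (by simp)
    exact this.clm_apply contDiffOn_const
  have h3 : ContMDiffOn I 𝓘(ℝ, F) ∞ (fun x => fderivWithin ℝ (lu I p u) (extChartAt I p).target (extChartAt I p x) (es n i))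
      (extChartAt I p).source := by
    have := (contMDiffOn_iff_contDiffOn.2 h2).comp (contMDiffOn_extChartAt (n := ∞) (x := p)) (I := I) ?_
    · rw [extChartAt_source]; exact this
    · intro x hx
      rw [← extChartAt_source (I := I)] at hx
      exact (extChartAt I p).map_source hx
  refine h3.congr ?_
  intro x hx
  rw [dmap_coordVec I hx (hu.mdifferentiableAt (by simp)), fderivWithin_range_eq_target ((extChartAt I p).map_source hx)]


theorem contMDiffOn_cov_coordVec (A : Connection I N M) {u : M → Fib N}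
    (hu : ContMDiff I 𝓘(ℝ, Fib N) ∞ u) (p : M) (i : Fin n) :
    ContMDiffOn I 𝓘(ℝ, Fib N) ∞ (fun x => cov A u x (coordVec I p x i)) (extChartAt I p).source := by
  unfold cov
  refine (contMDiffOn_dmap_coordVec hu p i).add ?_
  have h := A.smooth p i
  have h2 := ContMDiffOn.clm_apply (𝕜 := ℝ) (I := I)
    (g := fun x => ContinuousLinearMap.restrictScalars ℝ (A.form x (coordVec I p x i))) (f := u) (s := (extChartAt I p).source) (n := ∞) ?_ hu.contMDiffOn
  · exact h2
  · exact (ContinuousLinearMap.contMDiff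
      (ContinuousLinearMap.restrictScalarsL ℂ (Fib N) (Fib N) ℝ ℝ)).comp_contMDiffOn h

theorem contDiffOn_det {X : Type*} [NormedAddCommGroup X] [NormedSpace ℝ X] {s : Set X}
    {G : X → Matrix (Fin n) (Fin n) ℝ} (hG : ∀ i j, ContDiffOn ℝ ∞ (fun y => G y i j) s) :
    ContDiffOn ℝ ∞ (fun y => (G y).det) s := by
  simp only [Matrix.det_apply]
  refine ContDiffOn.sum fun σ _ => ?_
  exact (contDiffOn_prod fun i _ => hG _ _).const_smul _

/-- entries of the inverse of a smooth matrix -/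
theorem contDiffOn_inv_entry {X : Type*} [NormedAddCommGroup X] [NormedSpace ℝ X] {s : Set X}
    {G : X → Matrix (Fin n) (Fin n) ℝ} (hG : ∀ i j, ContDiffOn ℝ ∞ (fun y => G y i j) s)
    (hd : ∀ y ∈ s, (G y).det ≠ 0) (i j : Fin n) :
    ContDiffOn ℝ ∞ (fun y => (G y)⁻¹ i j) s := by
  have h1 : ∀ y, (G y)⁻¹ i j = ((G y).det)⁻¹ * (G y).adjugate i j := by
    intro y
    rw [Matrix.inv_def, Ring.inverse_eq_inv', Matrix.smul_apply, smul_eq_mul]
  simp only [h1]
  refine ((contDiffOn_det hG).inv hd).mul ?_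
  simp only [Matrix.adjugate_apply]
  refine contDiffOn_det fun k l => ?_
  by_cases hk : k = j
  · subst hk
    simp only [Matrix.updateRow_self]
    exact contDiffOn_const
  · simp only [Matrix.updateRow_ne hk]
    exact hG k l

theorem contDiffOn_gram (g : Metric I M) (p : M) (i j : Fin n) :
    ContDiffOn ℝ ∞ (fun y => gram g p ((extChartAt I p).symm y) i j) (extChartAt I p).target :=
  contDiffOn_lu_of_contMDiffOn (contMDiffOn_gram g p i j)

theorem contMDiffOn_comp_chart {p : M} {h : EuclideanSpace ℝ (Fin n) → F}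
    (hh : ContDiffOn ℝ ∞ h (extChartAt I p).target) :
    ContMDiffOn I 𝓘(ℝ, F) ∞ (fun x => h (extChartAt I p x)) (extChartAt I p).source := by
  have := (contMDiffOn_iff_contDiffOn.2 hh).comp (contMDiffOn_extChartAt (n := ∞) (x := p)) (I := I) ?_
  · rw [extChartAt_source]; exact this
  · intro x hx
    rw [← extChartAt_source (I := I)] at hx
    exact (extChartAt I p).map_source hx

theorem gram_det_pos (g : Metric I M) {p x : M} (hx : x ∈ (extChartAt I p).source) :
    0 < (gram g p x).det := (gram_posDef g hx).det_pos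

theorem contDiffOn_gram_inv (g : Metric I M) (p : M) (i j : Fin n) :
    ContDiffOn ℝ ∞ (fun y => (gram g p ((extChartAt I p).symm y))⁻¹ i j) (extChartAt I p).target :=
  contDiffOn_inv_entry (fun i j => contDiffOn_gram g p i j)
    (fun _ hy => (gram_det_pos g ((extChartAt I p).map_target hy)).ne') i j

theorem contMDiffOn_gram_inv (g : Metric I M) (p : M) (i j : Fin n) :
    ContMDiffOn I 𝓘(ℝ, ℝ) ∞ (fun x => (gram g p x)⁻¹ i j) (extChartAt I p).source := by
  refine (contMDiffOn_comp_chart (contDiffOn_gram_inv g p i j)).congr ?_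
  intro x hx
  simp only [(extChartAt I p).left_inv hx]

theorem continuous_pairing (g : Metric I M) (A : Connection I N M) {u v : M → Fib N}
    (hu : ContMDiff I 𝓘(ℝ, Fib N) ∞ u) (hv : ContMDiff I 𝓘(ℝ, Fib N) ∞ v) :
    Continuous (pairing g A u v) := by
  rw [continuous_iff_continuousAt]
  intro p
  have h : ContinuousOn (pairing g A u v) (extChartAt I p).source := by
    have h2 : ContinuousOn (fun x => ∑ i, ∑ j, ((gram g p x)⁻¹ i j) •
      inner ℂ (cov A u x (coordVec I p x i)) (cov A v x (coordVec I p x j))) (extChartAt I p).source := by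
      refine continuousOn_finset_sum _ fun i _ => continuousOn_finset_sum _ fun j _ => ?_
      exact (contMDiffOn_gram_inv g p i j).continuousOn.smul
        ((contMDiffOn_cov_coordVec A hu p i).continuousOn.inner
          (contMDiffOn_cov_coordVec A hv p j).continuousOn)
    exact h2.congr fun x hx => pairing_eq g A u v hx
  exact h.continuousAt (extChartAt_source_mem_nhds p)

end Vale.Agent.P088
end
end

section

open Bundle Manifold MeasureTheory Set Filter
open scoped ContDiff Topology ENNReal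

noncomputable section

namespace Vale.Agent.P088

set_option linter.unusedSectionVars false

variable {n N : ℕ} {H : Type*} [TopologicalSpace H]
  {I : ModelWithCorners ℝ (EuclideanSpace ℝ (Fin n)) H}
  {M : Type*} [TopologicalSpace M] [ChartedSpace H M] [IsManifold I ∞ M]
variable {F : Type*} [NormedAddCommGroup F] [NormedSpace ℝ F]

/-- volume density in the chart at `p` -/
def dens (g : Metric I M) (p : M) (y : EuclideanSpace ℝ (Fin n)) : ℝ :=
  Real.sqrt (gram g p ((extChartAt I p).symm y)).det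

theorem contDiffOn_gram_det (g : Metric I M) (p : M) :
    ContDiffOn ℝ ∞ (fun y => (gram g p ((extChartAt I p).symm y)).det) (extChartAt I p).target :=
  contDiffOn_det fun i j => contDiffOn_gram g p i j

theorem dens_pos (g : Metric I M) {p : M} {y : EuclideanSpace ℝ (Fin n)}
    (hy : y ∈ (extChartAt I p).target) : 0 < dens g p y :=
  Real.sqrt_pos.2 (gram_det_pos g ((extChartAt I p).map_target hy))

theorem contDiffOn_dens (g : Metric I M) (p : M) :
    ContDiffOn ℝ ∞ (dens g p) (extChartAt I p).target :=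
  (contDiffOn_gram_det g p).sqrt fun _ hy => (gram_det_pos g ((extChartAt I p).map_target hy)).ne'

theorem measurableSet_target (p : M) : MeasurableSet (extChartAt I p).target := by
  rw [extChartAt_target]
  exact (((chartAt H p).open_target.preimage I.continuous_symm).measurableSet).inter
    I.isClosed_range.measurableSet

theorem image_eq_target_inter (p : M) {s : Set M} (hs : s ⊆ (extChartAt I p).source) :
    (extChartAt I p) '' s = (extChartAt I p).target ∩ (extChartAt I p).symm ⁻¹' s := by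
  ext y
  constructor
  · rintro ⟨x, hx, rfl⟩
    refine ⟨(extChartAt I p).map_source (hs hx), ?_⟩
    rw [mem_preimage, (extChartAt I p).left_inv (hs hx)]
    exact hx
  · rintro ⟨hy, hy'⟩
    exact ⟨_, hy', (extChartAt I p).right_inv hy⟩

section meas
variable [MeasurableSpace M] [BorelSpace M] {g : Metric I M} {μ : Measure M}

theorem restrict_source_eq (hμ : IsRiemannianVolume g μ) (p : M) :
    μ.restrict (extChartAt I p).source =
      ((volume.restrict (extChartAt I p).target).withDensity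
        (fun y => ENNReal.ofReal (dens g p y))).map (extChartAt I p).symm := by
  have hsymm : AEMeasurable (extChartAt I p).symm (volume.restrict (extChartAt I p).target) :=
    (continuousOn_extChartAt_symm p).aemeasurable (measurableSet_target p)
  ext t ht
  rw [Measure.map_apply_of_aemeasurable (hsymm.mono_ac (withDensity_absolutelyContinuous _ _)) ht]
  rw [Measure.restrict_apply ht]
  have h1 := hμ p (t ∩ (extChartAt I p).source) (ht.inter (isOpen_extChartAt_source p).measurableSet)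
    inter_subset_right
  rw [h1, image_eq_target_inter p inter_subset_right, withDensity_apply',
    Measure.restrict_restrict' (measurableSet_target p)]
  have h2 : (extChartAt I p).target ∩ (extChartAt I p).symm ⁻¹' (t ∩ (extChartAt I p).source) =
      (extChartAt I p).symm ⁻¹' t ∩ (extChartAt I p).target := by
    ext y
    constructor
    · rintro ⟨hy, hy'⟩
      exact ⟨hy'.1, hy⟩
    · rintro ⟨hy, hy'⟩
      exact ⟨hy', hy, (extChartAt I p).map_target hy'⟩
  rw [h2]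
  rfl

theorem exists_ball_subset_target (p : M) {x : M} (hx : x ∈ (extChartAt I p).source) :
    ∃ r > 0, Metric.ball (extChartAt I p x) r ∩ range I ⊆ (extChartAt I p).target := by
  have h := extChartAt_target_mem_nhdsWithin' (I := I) hx
  rw [Metric.mem_nhdsWithin_iff] at h
  exact h

/-- finiteness of the volume on compact manifolds -/
theorem measure_univ_lt_top [CompactSpace M] (hμ : IsRiemannianVolume g μ) : μ univ < (⊤ : ℝ≥0∞) := by
  refine isCompact_univ.measure_lt_top_of_nhdsWithin fun x _ => ?_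
  rw [nhdsWithin_univ]
  obtain ⟨r, hr, hsub⟩ := exists_ball_subset_target (I := I) x (mem_extChartAt_source x)
  set U := (extChartAt I x).source ∩ (extChartAt I x) ⁻¹' (Metric.ball (extChartAt I x x) (r/2)) with hU
  have hUo : IsOpen U := isOpen_extChartAt_preimage' x Metric.isOpen_ball
  refine ⟨U, hUo.mem_nhds ⟨mem_extChartAt_source x, Metric.mem_ball_self (by positivity)⟩, ?_⟩
  rw [hμ x U hUo.measurableSet inter_subset_left]
  set K := Metric.closedBall (extChartAt I x x) (r/2) ∩ range I with hK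
  have hKc : IsCompact K := (isCompact_closedBall _ _).inter_right I.isClosed_range
  have hKt : K ⊆ (extChartAt I x).target := fun y hy =>
    hsub ⟨Metric.closedBall_subset_ball (by linarith) hy.1, hy.2⟩
  have hcont : ContinuousOn (dens g x) K := (contDiffOn_dens g x).continuousOn.mono hKt
  obtain ⟨C, hC⟩ := hKc.bddAbove_image hcont
  have himg : (extChartAt I x) '' U ⊆ K := by
    rintro _ ⟨z, hz, rfl⟩
    refine ⟨Metric.ball_subset_closedBall hz.2, ?_⟩
    rw [extChartAt_coe]; exact mem_range_self _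
  calc ∫⁻ y in (extChartAt I x) '' U, ENNReal.ofReal (Real.sqrt (gram g x ((extChartAt I x).symm y)).det)
      ≤ ∫⁻ y in K, ENNReal.ofReal (dens g x y) := lintegral_mono_set himg
    _ ≤ ∫⁻ y in K, ENNReal.ofReal C := by
        refine setLIntegral_mono' hKc.measurableSet fun y hy => ?_
        exact ENNReal.ofReal_le_ofReal (hC ⟨y, hy, rfl⟩)
    _ = ENNReal.ofReal C * volume K := by rw [setLIntegral_const]
    _ < ⊤ := ENNReal.mul_lt_top ENNReal.ofReal_lt_top hKc.measure_lt_top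

theorem measure_pos_of_isOpen (hμ : IsRiemannianVolume g μ) {U : Set M} (hU : IsOpen U)
    (hne : U.Nonempty) : 0 < μ U := by
  obtain ⟨x, hx⟩ := hne
  set V := U ∩ (extChartAt I x).source with hV
  have hVo : IsOpen V := hU.inter (isOpen_extChartAt_source x)
  refine lt_of_lt_of_le ?_ (measure_mono (inter_subset_left : V ⊆ U))
  rw [hμ x V hVo.measurableSet inter_subset_right]
  -- a neighbourhood in the range
  have h1 : (extChartAt I x).symm ⁻¹' V ∈ 𝓝 (extChartAt I x x) :=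
    extChartAt_preimage_mem_nhds (hVo.mem_nhds ⟨hx, mem_extChartAt_source x⟩)
  have h2 : (extChartAt I x).target ∈ 𝓝[range I] (extChartAt I x x) :=
    extChartAt_target_mem_nhdsWithin x
  have h3 : (extChartAt I x).symm ⁻¹' V ∩ (extChartAt I x).target ∈ 𝓝[range I] (extChartAt I x x) :=
    inter_mem (mem_nhdsWithin_of_mem_nhds h1) h2
  rw [Metric.mem_nhdsWithin_iff] at h3
  obtain ⟨r, hr, hsub⟩ := h3
  have h4 : extChartAt I x x ∈ closure (interior (range I)) := I.range_subset_closure_interior (by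
    rw [extChartAt_coe]; exact mem_range_self _)
  obtain ⟨y1, hy1, hy1'⟩ := Metric.mem_closure_iff.1 h4 r hr
  have hopen : IsOpen (Metric.ball (extChartAt I x x) r ∩ interior (range I)) :=
    Metric.isOpen_ball.inter isOpen_interior
  obtain ⟨r1, hr1, hsub1⟩ := Metric.isOpen_iff.1 hopen y1 ⟨by rw [Metric.mem_ball, dist_comm]; exact hy1', hy1⟩
  set K := Metric.closedBall y1 (r1/2) with hK
  have hKsub : K ⊆ (extChartAt I x).symm ⁻¹' V ∩ (extChartAt I x).target := fun y hy => by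
    have := hsub1 (Metric.closedBall_subset_ball (by linarith) hy)
    exact hsub ⟨this.1, interior_subset this.2⟩
  have hKc : IsCompact K := isCompact_closedBall _ _
  have hKim : K ⊆ (extChartAt I x) '' V := by
    rw [image_eq_target_inter x inter_subset_right]
    exact fun y hy => ⟨(hKsub hy).2, (hKsub hy).1⟩
  obtain ⟨y2, hy2, hmin⟩ := hKc.exists_isMinOn ⟨y1, Metric.mem_closedBall_self (by positivity)⟩
    ((contDiffOn_dens g x).continuousOn.mono fun y hy => (hKsub hy).2)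
  have hc : 0 < dens g x y2 := dens_pos g (hKsub hy2).2
  calc (0 : ℝ≥0∞) < ENNReal.ofReal (dens g x y2) * volume K := by
        apply ENNReal.mul_pos (by simpa using hc)
        exact (Metric.measure_closedBall_pos volume _ (by positivity)).ne'
    _ = ∫⁻ y in K, ENNReal.ofReal (dens g x y2) := by rw [setLIntegral_const]
    _ ≤ ∫⁻ y in K, ENNReal.ofReal (dens g x y) := by
        refine setLIntegral_mono' hKc.measurableSet fun y hy => ?_
        exact ENNReal.ofReal_le_ofReal (hmin hy)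
    _ ≤ _ := lintegral_mono_set hKim

end meas

end Vale.Agent.P088
end
end

section

open Bundle Manifold MeasureTheory Set Filter
open scoped ContDiff Topology ENNReal

noncomputable section

namespace Vale.Agent.P088

set_option linter.unusedSectionVars false

variable {n N : ℕ} {H : Type*} [TopologicalSpace H]
  {I : ModelWithCorners ℝ (EuclideanSpace ℝ (Fin n)) H}
  {M : Type*} [TopologicalSpace M] [ChartedSpace H M] [IsManifold I ∞ M]
variable {F : Type*} [NormedAddCommGroup F] [NormedSpace ℝ F]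

/-- differential on the model space -/
def dI (I : ModelWithCorners ℝ (EuclideanSpace ℝ (Fin n)) H) {M : Type*} [TopologicalSpace M] [ChartedSpace H M] [IsManifold I ∞ M]
    (u : M → F) (x : M) : EuclideanSpace ℝ (Fin n) →L[ℝ] F := dmap I u x

theorem hasD {u : M → F} {x : M} (hu : MDifferentiableAt I 𝓘(ℝ, F) u x) :
    HasFDerivWithinAt (lu I x u) (dI I u x) (range I) (extChartAt I x x) := by
  have := hasFDerivWithinAt_lu_self I hu
  rw [← dmap_eq I hu] at this
  exact this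

theorem dI_eq_of {u : M → F} {x : M} (hu : MDifferentiableAt I 𝓘(ℝ, F) u x)
    {L : EuclideanSpace ℝ (Fin n) →L[ℝ] F}
    (h : HasFDerivWithinAt (lu I x u) L (range I) (extChartAt I x x)) : dI I u x = L := by
  have hud : UniqueDiffWithinAt ℝ (range I) (extChartAt I x x) :=
    I.uniqueDiffOn _ (by rw [extChartAt_coe]; exact mem_range_self _)
  exact hud.eq (hasD hu) h

theorem lu_self (x : M) (u : M → F) : lu I x u (extChartAt I x x) = u x := by
  simp only [lu, extChartAt_to_inv]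

theorem covI_eq (A : Connection I N M) (u : M → Fib N) (x : M) (a : EuclideanSpace ℝ (Fin n)) :
    covI A u x a = dI I u x a + A.form x a (u x) := rfl

end Vale.Agent.P088
end
end

section

open Bundle Manifold MeasureTheory Set Filter
open scoped ContDiff Topology ENNReal

noncomputable section

namespace Vale.Agent.P088

set_option linter.unusedSectionVars false

variable {n N : ℕ} {H : Type*} [TopologicalSpace H]
  {I : ModelWithCorners ℝ (EuclideanSpace ℝ (Fin n)) H}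
  {M : Type*} [TopologicalSpace M] [ChartedSpace H M] [IsManifold I ∞ M]
variable {F : Type*} [NormedAddCommGroup F] [NormedSpace ℝ F]

theorem rp_re (g : Metric I M) (x : M) (B : EuclideanSpace ℝ (Fin n) → EuclideanSpace ℝ (Fin n) → ℂ) :
    (rp g x B).re = rp g x (fun a b => (B a b).re) := by
  simp [rp, Complex.re_sum]

theorem gram_inv_posDef (g : Metric I M) {p x : M} (hx : x ∈ (extChartAt I p).source) :
    (gram g p x)⁻¹.PosDef := (gram_posDef g hx).inv

theorem rp_nonneg (g : Metric I M) (x : M) (Z : EuclideanSpace ℝ (Fin n) → Fib N) :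
    0 ≤ rp g x (fun a b => (inner ℂ (Z a) (Z b) : ℂ).re) :=
  psd_nonneg (gram_inv_posDef g (mem_extChartAt_source x)).posSemidef (fun i => Z (es n i))

theorem gram_inv_symm (g : Metric I M) (x : M) (i j : Fin n) :
    (gram g x x)⁻¹ i j = (gram g x x)⁻¹ j i := by
  have h := (gram_inv_posDef g (mem_extChartAt_source x)).isHermitian
  have := congrFun (congrFun h i) j
  simpa using this.symm

theorem rp_symm {W : Type*} [AddCommGroup W] [Module ℝ W] (g : Metric I M) (x : M)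
    (B : EuclideanSpace ℝ (Fin n) → EuclideanSpace ℝ (Fin n) → W) :
    rp g x B = rp g x (fun a b => B b a) := by
  unfold rp
  rw [Finset.sum_comm]
  refine Finset.sum_congr rfl fun k _ => Finset.sum_congr rfl fun l _ => ?_
  rw [gram_inv_symm]

end Vale.Agent.P088
end
end

section

open Bundle Manifold MeasureTheory Set Filter
open scoped ContDiff Topology ENNReal

noncomputable section

namespace Vale.Agent.P088

set_option linter.unusedSectionVars false

variable {n N : ℕ} {H : Type*} [TopologicalSpace H]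
  {I : ModelWithCorners ℝ (EuclideanSpace ℝ (Fin n)) H}
  {M : Type*} [TopologicalSpace M] [ChartedSpace H M] [IsManifold I ∞ M]
variable {F : Type*} [NormedAddCommGroup F] [NormedSpace ℝ F]

section integral
variable [CompactSpace M] [MeasurableSpace M] [BorelSpace M] {g : Metric I M} {μ : Measure M}
  [IsFiniteMeasure μ]

theorem integrable_of_continuous {G : Type*} [NormedAddCommGroup G] [SecondCountableTopology G] {f : M → G}
    (hf : Continuous f) : Integrable f μ := by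
  obtain ⟨C, hC⟩ := isCompact_univ.exists_bound_of_continuousOn hf.continuousOn
  have : AEStronglyMeasurable f μ := hf.aestronglyMeasurable
  exact Integrable.of_bound this C (Eventually.of_forall fun x => hC x (mem_univ x))

end integral

end Vale.Agent.P088
end
end

section

open Bundle Manifold MeasureTheory Set Filter
open scoped ContDiff Topology ENNReal

noncomputable section

namespace Vale.Agent.P088

set_option linter.unusedSectionVars false

variable {n N : ℕ} {H : Type*} [TopologicalSpace H]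
  {I : ModelWithCorners ℝ (EuclideanSpace ℝ (Fin n)) H}
  {M : Type*} [TopologicalSpace M] [ChartedSpace H M] [IsManifold I ∞ M]
variable [CompactSpace M] [MeasurableSpace M] [BorelSpace M] {g : Metric I M} {μ : Measure M}
  [IsFiniteMeasure μ]

end Vale.Agent.P088
end
end

section

open Set Filter MeasureTheory
open scoped ContDiff Topology

noncomputable section
namespace Vale.Agent.P088

variable {n : ℕ}

end Vale.Agent.P088
end
end

section

open Bundle Manifold MeasureTheory Set Filter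
open scoped ContDiff Topology ENNReal

noncomputable section

namespace Vale.Agent.P088

set_option linter.unusedSectionVars false

variable {n N : ℕ} {H : Type*} [TopologicalSpace H]
  {I : ModelWithCorners ℝ (EuclideanSpace ℝ (Fin n)) H}
  {M : Type*} [TopologicalSpace M] [ChartedSpace H M] [IsManifold I ∞ M]

section bump
variable [T2Space M] {p : M} {D : Set (EuclideanSpace ℝ (Fin n))}
  {ψ : EuclideanSpace ℝ (Fin n) → ℝ}

end bump

end Vale.Agent.P088
end
end

section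

open Bundle Manifold MeasureTheory Set Filter
open scoped ContDiff Topology ENNReal

noncomputable section

namespace Vale.Agent.P088

set_option linter.unusedSectionVars false

variable {n N : ℕ} {H : Type*} [TopologicalSpace H]
  {I : ModelWithCorners ℝ (EuclideanSpace ℝ (Fin n)) H}
  {M : Type*} [TopologicalSpace M] [ChartedSpace H M] [IsManifold I ∞ M]
variable {F : Type*} [NormedAddCommGroup F] [NormedSpace ℝ F]
variable [T2Space M] [ConnectedSpace M] [CompactSpace M] [MeasurableSpace M] [BorelSpace M]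

end Vale.Agent.P088
end
end

section

open Bundle Manifold MeasureTheory Set Filter
open scoped ContDiff Topology ENNReal

noncomputable section

namespace Vale.Agent.P088

set_option linter.unusedSectionVars false

variable {n N : ℕ} {H : Type*} [TopologicalSpace H]
  {I : ModelWithCorners ℝ (EuclideanSpace ℝ (Fin n)) H}
  {M : Type*} [TopologicalSpace M] [ChartedSpace H M] [IsManifold I ∞ M]
variable {F : Type*} [NormedAddCommGroup F] [NormedSpace ℝ F]
variable [T2Space M] [ConnectedSpace M] [CompactSpace M] [MeasurableSpace M] [BorelSpace M]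

end Vale.Agent.P088
end
end

section

open Bundle Manifold MeasureTheory Set Filter
open scoped ContDiff Topology ENNReal

noncomputable section

namespace Vale.Agent.P088

set_option linter.unusedSectionVars false

variable {n N : ℕ} {H : Type*} [TopologicalSpace H]
  {I : ModelWithCorners ℝ (EuclideanSpace ℝ (Fin n)) H}
  {M : Type*} [TopologicalSpace M] [ChartedSpace H M] [IsManifold I ∞ M]
variable {F : Type*} [NormedAddCommGroup F] [NormedSpace ℝ F]
variable [T2Space M] [ConnectedSpace M] [CompactSpace M] [MeasurableSpace M] [BorelSpace M]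

end Vale.Agent.P088
end
end

section

open Set Filter MeasureTheory
open scoped ContDiff Topology

namespace Vale.Agent.P088

section ext
variable {E F : Type*} [NormedAddCommGroup E] [NormedSpace ℝ E] [FiniteDimensional ℝ E]
  [NormedAddCommGroup F] [NormedSpace ℝ F] [FiniteDimensional ℝ F]

end ext
end Vale.Agent.P088
end

section

open Bundle Manifold MeasureTheory Set Filter
open scoped ContDiff Topology ENNReal

noncomputable section

namespace Vale.Agent.P088

set_option linter.unusedSectionVars false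

variable {n N : ℕ} {H : Type*} [TopologicalSpace H]
  {I : ModelWithCorners ℝ (EuclideanSpace ℝ (Fin n)) H}
  {M : Type*} [TopologicalSpace M] [ChartedSpace H M] [IsManifold I ∞ M]
variable {F : Type*} [NormedAddCommGroup F] [NormedSpace ℝ F]
variable [T2Space M] [ConnectedSpace M] [CompactSpace M] [MeasurableSpace M] [BorelSpace M]

/-- real-linear endomorphism given by `-A_i` -/
def coefR (T : EndF N) : Fib N →L[ℝ] Fib N := -(ContinuousLinearMap.restrictScalars ℝ T)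

/-- the coefficient map in a chart -/
def Lco (A : Connection I N M) (p : M) (y : EuclideanSpace ℝ (Fin n)) :
    EuclideanSpace ℝ (Fin n) →L[ℝ] Fib N →L[ℝ] Fib N :=
  ∑ i, (EuclideanSpace.proj (𝕜 := ℝ) i : EuclideanSpace ℝ (Fin n) →L[ℝ] ℝ).smulRight
    (coefR (A.form ((extChartAt I p).symm y) (coordVec I p ((extChartAt I p).symm y) i)))

end Vale.Agent.P088
end
end

section

open Bundle Manifold MeasureTheory Set Filter
open scoped ContDiff Topology ENNReal

noncomputable section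

namespace Vale.Agent.P088

set_option linter.unusedSectionVars false

variable {n N : ℕ} {H : Type*} [TopologicalSpace H]
  {I : ModelWithCorners ℝ (EuclideanSpace ℝ (Fin n)) H}
  {M : Type*} [TopologicalSpace M] [ChartedSpace H M] [IsManifold I ∞ M]
variable {F : Type*} [NormedAddCommGroup F] [NormedSpace ℝ F]
variable [T2Space M] [ConnectedSpace M] [CompactSpace M] [MeasurableSpace M] [BorelSpace M]

end Vale.Agent.P088
end
end

section

open Bundle Manifold MeasureTheory Set Filter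
open scoped ContDiff Topology ENNReal

noncomputable section

namespace Vale.Agent.P088

set_option linter.unusedSectionVars false

variable {n N : ℕ} {H : Type*} [TopologicalSpace H]
  {I : ModelWithCorners ℝ (EuclideanSpace ℝ (Fin n)) H}
  {M : Type*} [TopologicalSpace M] [ChartedSpace H M] [IsManifold I ∞ M]
variable {F : Type*} [NormedAddCommGroup F] [NormedSpace ℝ F]
variable [T2Space M] [ConnectedSpace M] [CompactSpace M] [MeasurableSpace M] [BorelSpace M]

end Vale.Agent.P088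
end
end

section

open Bundle Manifold MeasureTheory Set Filter
open scoped ContDiff Topology ENNReal

noncomputable section

namespace Vale.Agent.P088

set_option linter.unusedSectionVars false

variable {n N : ℕ} {H : Type*} [TopologicalSpace H]
  {I : ModelWithCorners ℝ (EuclideanSpace ℝ (Fin n)) H}
  {M : Type*} [TopologicalSpace M] [ChartedSpace H M] [IsManifold I ∞ M]
variable {F G : Type*} [NormedAddCommGroup F] [NormedSpace ℝ F] [NormedAddCommGroup G] [NormedSpace ℝ G]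
variable [T2Space M] [ConnectedSpace M] [CompactSpace M] [MeasurableSpace M] [BorelSpace M]

theorem dI_clm (L : F →L[ℝ] G) {u : M → F} (hu : ContMDiff I 𝓘(ℝ, F) ∞ u) (x : M)
    (a : EuclideanSpace ℝ (Fin n)) : dI I (fun x => L (u x)) x a = L (dI I u x a) := by
  have hs : ContMDiff I 𝓘(ℝ, G) ∞ (fun x => L (u x)) := L.contDiff.contMDiff.comp hu
  have h1 := (L.hasFDerivAt (x := lu I x u (extChartAt I x x))).comp_hasFDerivWithinAt
    (extChartAt I x x) (hasD (hu.mdifferentiableAt (x := x) (by simp)))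
  have h := dI_eq_of (u := fun x => L (u x)) (hs.mdifferentiableAt (by simp)) h1
  rw [h]
  rfl

theorem contMDiff_bilin {E' : Type*} [NormedAddCommGroup E'] [NormedSpace ℝ E'] {b : F × G → E'}
    (hb : IsBoundedBilinearMap ℝ b) {u : M → F} (hu : ContMDiff I 𝓘(ℝ, F) ∞ u) {w : M → G}
    (hw : ContMDiff I 𝓘(ℝ, G) ∞ w) : ContMDiff I 𝓘(ℝ, E') ∞ (fun x => b (u x, w x)) :=
  hb.contDiff.contMDiff.comp (hu.prodMk_space hw)

theorem dI_bilin {E' : Type*} [NormedAddCommGroup E'] [NormedSpace ℝ E'] {b : F × G → E'}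
    (hb : IsBoundedBilinearMap ℝ b) {u : M → F} (hu : ContMDiff I 𝓘(ℝ, F) ∞ u) {w : M → G}
    (hw : ContMDiff I 𝓘(ℝ, G) ∞ w) (x : M) (a : EuclideanSpace ℝ (Fin n)) :
    dI I (fun x => b (u x, w x)) x a = b (u x, dI I w x a) + b (dI I u x a, w x) := by
  have h1 := (hb.hasFDerivAt (lu I x u (extChartAt I x x), lu I x w (extChartAt I x x))).comp_hasFDerivWithinAt
    (extChartAt I x x) ((hasD (hu.mdifferentiableAt (x := x) (by simp))).prodMk
      (hasD (hw.mdifferentiableAt (x := x) (by simp))))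
  have h := dI_eq_of (u := fun x => b (u x, w x)) ((contMDiff_bilin hb hu hw).mdifferentiableAt (by simp)) h1
  have e1 : lu I x u (extChartAt I x x) = u x := lu_self x u
  have e2 : lu I x w (extChartAt I x x) = w x := lu_self x w
  rw [h, e1, e2]
  rfl

end Vale.Agent.P088
end
end

section

open Bundle Manifold MeasureTheory Set Filter
open scoped ContDiff Topology ENNReal

noncomputable section

namespace Vale.Agent.P088

set_option linter.unusedSectionVars false

variable {n N : ℕ} {H : Type*} [TopologicalSpace H]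
  {I : ModelWithCorners ℝ (EuclideanSpace ℝ (Fin n)) H}
  {M : Type*} [TopologicalSpace M] [ChartedSpace H M] [IsManifold I ∞ M]
variable {F G : Type*} [NormedAddCommGroup F] [NormedSpace ℝ F] [NormedAddCommGroup G] [NormedSpace ℝ G]
variable [T2Space M] [ConnectedSpace M] [CompactSpace M] [MeasurableSpace M] [BorelSpace M]

end Vale.Agent.P088
end
end

section

open Bundle Manifold MeasureTheory Set Filter
open scoped ContDiff Topology ENNReal

noncomputable section

namespace Vale.Agent.P088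

set_option linter.unusedSectionVars false

variable {n N : ℕ} {H : Type*} [TopologicalSpace H]
  {I : ModelWithCorners ℝ (EuclideanSpace ℝ (Fin n)) H}
  {M : Type*} [TopologicalSpace M] [ChartedSpace H M] [IsManifold I ∞ M]
variable {F G : Type*} [NormedAddCommGroup F] [NormedSpace ℝ F] [NormedAddCommGroup G] [NormedSpace ℝ G]
variable [T2Space M] [ConnectedSpace M] [CompactSpace M] [MeasurableSpace M] [BorelSpace M]

theorem isBB_mul : IsBoundedBilinearMap ℝ (fun p : EndF N × EndF N => p.1 * p.2) where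
  add_left := fun x y z => add_mul x y z
  smul_left := fun c x y => by ext1 w; rfl
  add_right := fun x y z => mul_add x y z
  smul_right := fun c x y => by
    ext1 w
    show x (c • (y w)) = c • x (y w)
    exact ContinuousLinearMap.map_smul_of_tower x c (y w)
  bound := ⟨1, one_pos, fun x y => by rw [one_mul]; exact norm_mul_le x y⟩

/-- the adjoint as a real linear map -/
def adjR : EndF N →L[ℝ] EndF N :=
  LinearMap.mkContinuous
    { toFun := fun T => ContinuousLinearMap.adjoint T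
      map_add' := fun x y => map_add _ x y
      map_smul' := fun c x => by
        have h1 : c • x = (c : ℂ) • x := by ext1 w; exact (Complex.coe_smul c (x w)).symm
        have h2 : c • ContinuousLinearMap.adjoint x = (c : ℂ) • ContinuousLinearMap.adjoint x := by
          ext1 w; exact (Complex.coe_smul c _).symm
        rw [h1, RingHom.id_apply, h2, map_smulₛₗ, Complex.conj_ofReal] } 1
    (fun T => by
      rw [one_mul]
      exact (ContinuousLinearMap.adjoint.norm_map T).le)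

theorem contMDiff_adj {U : M → EndF N} (hU : ContMDiff I 𝓘(ℝ, EndF N) ∞ U) :
    ContMDiff I 𝓘(ℝ, EndF N) ∞ (fun x => ContinuousLinearMap.adjoint (U x)) :=
  adjR.contDiff.contMDiff.comp hU

theorem dI_adj {U : M → EndF N} (hU : ContMDiff I 𝓘(ℝ, EndF N) ∞ U) (x : M)
    (a : EuclideanSpace ℝ (Fin n)) :
    dI I (fun x => ContinuousLinearMap.adjoint (U x)) x a = ContinuousLinearMap.adjoint (dI I U x a) :=
  dI_clm adjR hU x a

theorem dI_mulE {U V : M → EndF N} (hU : ContMDiff I 𝓘(ℝ, EndF N) ∞ U)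
    (hV : ContMDiff I 𝓘(ℝ, EndF N) ∞ V) (x : M) (a : EuclideanSpace ℝ (Fin n)) :
    dI I (fun x => U x * V x) x a = U x * dI I V x a + dI I U x a * V x :=
  dI_bilin isBB_mul hU hV x a

theorem dI_const (c : F) (x : M) (a : EuclideanSpace ℝ (Fin n)) : dI I (fun _ : M => c) x a = 0 := by
  unfold dI dmap
  rw [mfderiv_const]
  rfl

theorem uni_right {W : M → EndF N} (hW : IsSmoothUnitary I W) (x : M) :
    W x * ContinuousLinearMap.adjoint (W x) = 1 := (Unitary.mem_iff.1 (hW.unitary x)).2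

theorem d_uni_right {W : M → EndF N} (hW : IsSmoothUnitary I W) (x : M) (a : EuclideanSpace ℝ (Fin n)) :
    W x * ContinuousLinearMap.adjoint (dI I W x a) + dI I W x a * ContinuousLinearMap.adjoint (W x) = 0 := by
  have h1 := dI_mulE hW.smooth (contMDiff_adj hW.smooth) x a
  have h2 : (fun x => W x * ContinuousLinearMap.adjoint (W x)) = fun _ : M => (1 : EndF N) := by
    funext x; exact uni_right hW x
  rw [h2, dI_const, dI_adj hW.smooth] at h1
  exact h1.symm

end Vale.Agent.P088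
end
end

section

open Bundle Manifold MeasureTheory Set Filter
open scoped ContDiff Topology ENNReal

noncomputable section

namespace Vale.Agent.P088

set_option linter.unusedSectionVars false

variable {n N : ℕ} {H : Type*} [TopologicalSpace H]
  {I : ModelWithCorners ℝ (EuclideanSpace ℝ (Fin n)) H}
  {M : Type*} [TopologicalSpace M] [ChartedSpace H M] [IsManifold I ∞ M]
variable {F G : Type*} [NormedAddCommGroup F] [NormedSpace ℝ F] [NormedAddCommGroup G] [NormedSpace ℝ G]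
variable [T2Space M] [ConnectedSpace M] [CompactSpace M] [MeasurableSpace M] [BorelSpace M]

/-- rank one endomorphism -/
def rk (e : Fib N) : Fib N →L[ℝ] EndF N :=
  LinearMap.mkContinuous
    { toFun := fun v => (innerSL ℂ e).smulRight v
      map_add' := fun x y => by ext1 w; simp
      map_smul' := fun c x => by
        ext1 w
        simp only [ContinuousLinearMap.smulRight_apply, RingHom.id_apply, _root_.smul_apply]
        exact smul_comm _ _ _ } ‖e‖
    (fun v => by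
      show ‖(innerSL ℂ e).smulRight v‖ ≤ ‖e‖ * ‖v‖
      rw [ContinuousLinearMap.norm_smulRight_apply, innerSL_apply_norm])

theorem rk_apply (e v w : Fib N) : rk e v w = (inner ℂ e w : ℂ) • v := rfl

/-- standard basis of `ℂ^N` -/
def eN (N : ℕ) (i : Fin N) : Fib N := EuclideanSpace.single i (1 : ℂ)

theorem eN_expand (w : Fib N) : w = ∑ i, w i • eN N i := by
  ext k
  simp [eN, Finset.sum_apply, Pi.single_apply]

theorem inner_eN (i : Fin N) (w : Fib N) : (inner ℂ (eN N i) w : ℂ) = w i := by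
  simp [eN, EuclideanSpace.inner_single_left]

/-- the frame with columns `σ i` -/
def fr (σ : Fin N → M → Fib N) (x : M) : EndF N := ∑ i, rk (eN N i) (σ i x)

theorem fr_apply (σ : Fin N → M → Fib N) (x : M) (w : Fib N) : fr σ x w = ∑ i, w i • σ i x := by
  unfold fr
  rw [_root_.sum_apply]
  simp only [rk_apply, inner_eN]

theorem endF_ext {S T : EndF N} (h : ∀ i, S (eN N i) = T (eN N i)) : S = T := by
  ext1 w
  rw [eN_expand w]
  simp only [map_sum, map_smul, h]

theorem fr_eN (σ : Fin N → M → Fib N) (x : M) (i : Fin N) : fr σ x (eN N i) = σ i x := by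
  rw [fr_apply]
  rw [Finset.sum_eq_single i]
  · simp [eN]
  · intro j _ hj
    simp [eN, hj]
  · intro h; exact absurd (Finset.mem_univ i) h

end Vale.Agent.P088
end
end

section

/-!
# P088-EYM, block C: statements of the manifold modules
-/

open Bundle Manifold MeasureTheory Set Filter Topology
open scoped ContDiff

noncomputable section

namespace Vale.Agent.P088.EYM

universe u

/-- Elementary facts about charts. -/
def CLoc_statement : Prop :=
  ∀ (n N : ℕ) [NeZero n] (M : Type u) [TopologicalSpace M] [ChartedSpace (EuclideanHalfSpace n) M]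
    [IsManifold (𝓡∂ n) ∞ M] [MeasurableSpace M],
    (∀ p : M, RelOpen (tg n p)) ∧ (∀ (P : One n N M) (p : M), (P.loc p).Ok (tg n p)) ∧
    (∀ p x : M, x ∈ (xc n p).source → (x ∈ (𝓡∂ n).boundary M ↔ xc n p x 0 = 0)) ∧
    ∀ u : M → Fib N, SmS n u → ∀ p : M, ContDiffOn ℝ ∞ (lu (𝓡∂ n) p u) (tg n p)

/-- The energy in a chart. -/
def CEnergy_statement : Prop :=
  ∀ (n N : ℕ) [NeZero n] (M : Type u) [TopologicalSpace M] [ChartedSpace (EuclideanHalfSpace n) M]
    [IsManifold (𝓡∂ n) ∞ M] [T2Space M] [CompactSpace M] [MeasurableSpace M] [BorelSpace M]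
    (P : One n N M) (p : M) (D : Set (E n)), RelOpen D → D ⊆ tg n p →
    (∀ u v : M → Fib N, SmS n u → SmS n v →
      (tsupport u ⊆ (xc n p).symm '' D ∨ tsupport v ⊆ (xc n p).symm '' D) →
      P.E u v = En (P.loc p) D (lu (𝓡∂ n) p u) (lu (𝓡∂ n) p v)) ∧
    ∀ u : M → Fib N, SmS n u →
      (En (P.loc p) D (lu (𝓡∂ n) p u) (lu (𝓡∂ n) p u)).re ≤ (P.E u u).re ∧
      IntegrableOn (ed (P.loc p) (lu (𝓡∂ n) p u) (lu (𝓡∂ n) p u)) D

/-- Integrals in a chart. -/
def CInt_statement : Prop :=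
  ∀ (n N : ℕ) [NeZero n] (M : Type u) [TopologicalSpace M] [ChartedSpace (EuclideanHalfSpace n) M]
    [IsManifold (𝓡∂ n) ∞ M] [T2Space M] [CompactSpace M] [MeasurableSpace M] [BorelSpace M]
    (P : One n N M), IsFiniteMeasure P.μ ∧
    (∀ U : Set M, IsOpen U → U.Nonempty → 0 < P.μ U) ∧
    ∀ (p : M) (D : Set (E n)), MeasurableSet D → D ⊆ tg n p →
      MeasurableSet ((xc n p).symm '' D) ∧
      ∀ G : M → ℂ, AEStronglyMeasurable G (P.μ.restrict ((xc n p).symm '' D)) →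
        ∫ x in (xc n p).symm '' D, G x ∂P.μ =
          ∫ y in D, (Real.sqrt ((P.loc p).g y).det : ℂ) * G ((xc n p).symm y)

/-- Extension by zero. -/
def CExt_statement : Prop :=
  ∀ (n N : ℕ) [NeZero n] (M : Type u) [TopologicalSpace M] [ChartedSpace (EuclideanHalfSpace n) M]
    [IsManifold (𝓡∂ n) ∞ M] [T2Space M] (p : M) (c : E n → Fib N) (D K : Set (E n)),
    RelOpen D → D ⊆ tg n p → ContDiffOn ℝ ∞ c D → IsCompact K → K ⊆ D →
    (∀ y ∈ D, y ∉ K → c y = 0) →
    ∃ u : M → Fib N, SmS n u ∧ (∀ y ∈ D, u ((xc n p).symm y) = c y) ∧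
      (∀ x, x ∉ (xc n p).symm '' K → u x = 0) ∧ tsupport u ⊆ (xc n p).symm '' K

/-- Weak solutions are solutions in charts. -/
def CHarm_statement : Prop :=
  ∀ (n N : ℕ) [NeZero n] (M : Type u) [TopologicalSpace M] [ChartedSpace (EuclideanHalfSpace n) M]
    [IsManifold (𝓡∂ n) ∞ M] [T2Space M] [CompactSpace M] [MeasurableSpace M] [BorelSpace M]
    (P : One n N M) (f u : M → Fib N), P.Harm f u → ∀ p : M,
      Sol (P.loc p) (tg n p) (lu (𝓡∂ n) p u)

/-- The Poincaré inequality. -/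
def CPoinc_statement : Prop :=
  ∀ (n N : ℕ) [NeZero n] (M : Type u) [TopologicalSpace M] [ChartedSpace (EuclideanHalfSpace n) M]
    [IsManifold (𝓡∂ n) ∞ M] [T2Space M] [CompactSpace M] [ConnectedSpace M] [MeasurableSpace M]
    [BorelSpace M] (P : One n N M), ((𝓡∂ n).boundary M).Nonempty → ∃ C : ℝ, 0 < C ∧
      ∀ φ : M → Fib N, SmS n φ → (∀ x ∈ (𝓡∂ n).boundary M, φ x = 0) →
        ∫ x, ‖φ x‖ ^ 2 ∂P.μ ≤ C * (P.E φ φ).re

/-- The energy is a positive semidefinite Hermitian form on smooth sections. -/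
def CForm_statement : Prop :=
  ∀ (n N : ℕ) [NeZero n] (M : Type u) [TopologicalSpace M] [ChartedSpace (EuclideanHalfSpace n) M]
    [IsManifold (𝓡∂ n) ∞ M] [T2Space M] [CompactSpace M] [MeasurableSpace M] [BorelSpace M]
    (P : One n N M),
    (∀ u v w : M → Fib N, SmS n u → SmS n v → SmS n w → P.E u (v + w) = P.E u v + P.E u w) ∧
    (∀ (a : ℂ) (u v : M → Fib N), SmS n u → SmS n v → P.E u (a • v) = a * P.E u v) ∧
    (∀ u v : M → Fib N, SmS n u → SmS n v → P.E v u = (starRingEnd ℂ) (P.E u v)) ∧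
    (∀ u : M → Fib N, SmS n u → 0 ≤ (P.E u u).re) ∧
    ∀ u v : M → Fib N, SmS n u → SmS n v → ‖P.E u v‖ ^ 2 ≤ (P.E u u).re * (P.E v v).re

/-- Uniqueness and linearity of the harmonic extension. -/
def CUniq_statement : Prop :=
  ∀ (n N : ℕ) [NeZero n] (M : Type u) [TopologicalSpace M] [ChartedSpace (EuclideanHalfSpace n) M]
    [IsManifold (𝓡∂ n) ∞ M] [T2Space M] [CompactSpace M] [ConnectedSpace M] [MeasurableSpace M]
    [BorelSpace M] (P : One n N M), ((𝓡∂ n).boundary M).Nonempty →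
    (∀ f f' u u' : M → Fib N, P.Harm f u → P.Harm f' u' →
      (∀ x ∈ (𝓡∂ n).boundary M, f x = f' x) → u = u') ∧
    (∀ (f f' u u' : M → Fib N) (a b : ℂ), P.Harm f u → P.Harm f' u' →
      P.Harm (a • f + b • f') (a • u + b • u')) ∧
    ∀ f u φ ψ : M → Fib N, P.Harm f u → SmS n φ → SmS n ψ →
      (∀ x ∈ (𝓡∂ n).boundary M, φ x = ψ x) → P.E u φ = P.E u ψ ∧ P.E φ u = P.E ψ u

/-- The interior is connected. -/
def CConn_statement : Prop :=
  ∀ (n : ℕ) [NeZero n] (M : Type u) [TopologicalSpace M] [ChartedSpace (EuclideanHalfSpace n) M]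
    [IsManifold (𝓡∂ n) ∞ M] [ConnectedSpace M],
    IsOpen (Mi n M) ∧ IsPreconnected (Mi n M) ∧ (∀ x : M, x ∈ closure (Mi n M))

/-- Unique continuation on `M`. -/
def CUcp_statement : Prop :=
  ∀ (n N : ℕ) [NeZero n] (M : Type u) [TopologicalSpace M] [ChartedSpace (EuclideanHalfSpace n) M]
    [IsManifold (𝓡∂ n) ∞ M] [T2Space M] [CompactSpace M] [ConnectedSpace M] [MeasurableSpace M]
    [BorelSpace M] (P : One n N M) (f u : M → Fib N), P.Harm f u → ∀ O : Set M, IsOpen O →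
      O.Nonempty → (∀ x ∈ O, u x = 0) → ∀ x, u x = 0

/-- Abstract Riesz sequence. -/
def CHilb_statement : Prop :=
  ∀ (X : Type u) [AddCommGroup X] [Module ℂ X] (F : X → X → ℂ) (l : X →ₗ[ℂ] ℂ) (K : ℝ),
    (∀ u v w, F u (v + w) = F u v + F u w) → (∀ (a : ℂ) u v, F u (a • v) = a * F u v) →
    (∀ u v, F v u = (starRingEnd ℂ) (F u v)) → (∀ u, 0 ≤ (F u u).re) →
    (∀ u, ‖l u‖ ^ 2 ≤ K * (F u u).re) →
    ∃ w : ℕ → X, (∀ ε > 0, ∃ k₀, ∀ k ≥ k₀, ∀ j ≥ k₀, (F (w k - w j) (w k - w j)).re ≤ ε) ∧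
      ∀ φ, Tendsto (fun k => F (w k) φ) atTop (𝓝 (l φ))

/-- Runge, part A: the minimising sequence. -/
def CRungeA_statement : Prop :=
  ∀ (n N : ℕ) [NeZero n] (M : Type u) [TopologicalSpace M] [ChartedSpace (EuclideanHalfSpace n) M]
    [IsManifold (𝓡∂ n) ∞ M] [T2Space M] [CompactSpace M] [ConnectedSpace M] [MeasurableSpace M]
    [BorelSpace M] (P : One n N M) (Γ K : Set M) (h : M → Fib N), RelBd n Γ → Γ.Nonempty →
    P.HasSol Γ → IsCompact K → MemLp h 2 (P.μ.restrict K) →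
    (∀ u ∈ P.U Γ, ∫ x in K, inner ℂ (h x) (u x) ∂P.μ = 0) →
    ∃ w : ℕ → M → Fib N, (∀ k, SmS n (w k)) ∧ (∀ k, ∀ x ∈ (𝓡∂ n).boundary M, w k x = 0) ∧
      (∀ ε > 0, ∃ k₀, ∀ k ≥ k₀, ∀ l ≥ k₀, (P.E (w k - w l) (w k - w l)).re ≤ ε) ∧
      (∀ ε > 0, ∃ k₀, ∀ k ≥ k₀, ∀ l ≥ k₀, ∫ x, ‖w k x - w l x‖ ^ 2 ∂P.μ ≤ ε) ∧
      ∀ φ : M → Fib N, IsBdryData (𝓡∂ n) Γ φ →
        Tendsto (fun k => P.E (w k) φ) atTop (𝓝 (∫ x in K, inner ℂ (h x) (φ x) ∂P.μ))

/-- `r` is the radius of a closed coordinate ball about `x` in the interior. -/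
def IsCB (n : ℕ) [NeZero n] {M : Type u} [TopologicalSpace M]
    [ChartedSpace (EuclideanHalfSpace n) M] [IsManifold (𝓡∂ n) ∞ M] (x : M) (r : ℝ) : Prop :=
  0 < r ∧ Metric.closedBall (xc n x x) r ⊆ tg n x ∩ {y | 0 < y 0}

/-- The closed coordinate ball. -/
def cb (n : ℕ) [NeZero n] {M : Type u} [TopologicalSpace M]
    [ChartedSpace (EuclideanHalfSpace n) M] [IsManifold (𝓡∂ n) ∞ M] (x : M) (r : ℝ) : Set M :=
  (xc n x).symm '' Metric.closedBall (xc n x x) r

/-- Runge, part B: the sequence tends to zero around the two balls. -/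
def CRungeB_statement : Prop :=
  ∀ (n N : ℕ) [NeZero n] (M : Type u) [TopologicalSpace M] [ChartedSpace (EuclideanHalfSpace n) M]
    [IsManifold (𝓡∂ n) ∞ M] [T2Space M] [CompactSpace M] [ConnectedSpace M] [MeasurableSpace M]
    [BorelSpace M] (P : One n N M) (Γ : Set M) (x x' : M) (R R' ρ ρ' : ℝ), 2 ≤ n → RelBd n Γ →
    Γ.Nonempty → IsCB n x R → IsCB n x' R' → 0 < ρ → ρ < R → 0 < ρ' → ρ' < R' →
    Disjoint (cb n x R) (cb n x' R') → ∀ w : ℕ → M → Fib N, (∀ k, SmS n (w k)) →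
    (∀ k, ∀ x ∈ (𝓡∂ n).boundary M, w k x = 0) →
    (∀ ε > 0, ∃ k₀, ∀ k ≥ k₀, ∀ l ≥ k₀, (P.E (w k - w l) (w k - w l)).re ≤ ε) →
    (∀ ε > 0, ∃ k₀, ∀ k ≥ k₀, ∀ l ≥ k₀, ∫ x, ‖w k x - w l x‖ ^ 2 ∂P.μ ≤ ε) →
    (∀ φ : M → Fib N, IsBdryData (𝓡∂ n) Γ φ → (∀ m ∈ cb n x ρ ∪ cb n x' ρ', φ m = 0) →
      Tendsto (fun k => P.E (w k) φ) atTop (𝓝 0)) →
    ∀ K : Set (E n), IsCompact K →
      (K ⊆ Metric.ball (xc n x x) R \ Metric.closedBall (xc n x x) ρ →
        Tendsto (fun k => ∫ y in K, ‖lu (𝓡∂ n) x (w k) y‖ ^ 2) atTop (𝓝 0)) ∧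
      (K ⊆ Metric.ball (xc n x' x') R' \ Metric.closedBall (xc n x' x') ρ' →
        Tendsto (fun k => ∫ y in K, ‖lu (𝓡∂ n) x' (w k) y‖ ^ 2) atTop (𝓝 0))

/-- Runge, part C: orthogonality to local solutions. -/
def CRungeC_statement : Prop :=
  ∀ (n N : ℕ) [NeZero n] (M : Type u) [TopologicalSpace M] [ChartedSpace (EuclideanHalfSpace n) M]
    [IsManifold (𝓡∂ n) ∞ M] [T2Space M] [CompactSpace M] [ConnectedSpace M] [MeasurableSpace M]
    [BorelSpace M] (P : One n N M) (Γ : Set M) (x x' : M) (R R' ρ ρ' : ℝ) (h : M → Fib N),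
    2 ≤ n → RelBd n Γ → Γ.Nonempty → P.HasSol Γ → IsCB n x R → IsCB n x' R' → 0 < ρ → ρ < R →
    0 < ρ' → ρ' < R' → Disjoint (cb n x R) (cb n x' R') →
    MemLp h 2 (P.μ.restrict (cb n x ρ ∪ cb n x' ρ')) →
    (∀ u ∈ P.U Γ, ∫ m in cb n x ρ ∪ cb n x' ρ', inner ℂ (h m) (u m) ∂P.μ = 0) →
    ∀ v v' : E n → Fib N, ContDiffOn ℝ 2 v (Metric.ball (xc n x x) R) →
      ContDiffOn ℝ 2 v' (Metric.ball (xc n x' x') R') →
      (∀ y ∈ Metric.ball (xc n x x) R, Lop (P.loc x) v y = 0) →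
      (∀ y ∈ Metric.ball (xc n x' x') R', Lop (P.loc x') v' y = 0) →
      ∫ m in cb n x ρ, inner ℂ (h m) (v (xc n x m)) ∂P.μ +
        ∫ m in cb n x' ρ', inner ℂ (h m) (v' (xc n x' m)) ∂P.μ = 0

/-- Runge: arbitrary 1-jets at two interior points. -/
def CRunge_statement : Prop :=
  ∀ (n N : ℕ) [NeZero n] (M : Type u) [TopologicalSpace M] [ChartedSpace (EuclideanHalfSpace n) M]
    [IsManifold (𝓡∂ n) ∞ M] [T2Space M] [CompactSpace M] [ConnectedSpace M] [MeasurableSpace M]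
    [BorelSpace M] (P : One n N M) (Γ : Set M) (x x' : M) (a a' : Fib N) (b b' : Fin n → Fib N),
    2 ≤ n → RelBd n Γ → Γ.Nonempty → P.HasSol Γ → x ∈ Mi n M → x' ∈ Mi n M → x ≠ x' →
    ∃ u ∈ P.U Γ, HasJet u x a b ∧ HasJet u x' a' b'

/-- Consequence of the equality of the data. -/
def CData_statement : Prop :=
  ∀ (n N : ℕ) [NeZero n] (M : Type u) [TopologicalSpace M] [ChartedSpace (EuclideanHalfSpace n) M]
    [IsManifold (𝓡∂ n) ∞ M] [T2Space M] [CompactSpace M] [ConnectedSpace M] [MeasurableSpace M]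
    [BorelSpace M] (P Q : One n N M) (Γ : Set M), RelBd n Γ → Γ.Nonempty → SameD P Q Γ →
    (P.HasSol Γ ∧ Q.HasSol Γ ∧ SameD Q P Γ) ∧
    ∀ u ∈ PP P Q Γ, ∀ w w' : M → Fib N, SmS n w → SmS n w' →
      (∀ x ∈ (𝓡∂ n).boundary M, w x = w' x) → closure {x ∈ (𝓡∂ n).boundary M | w x ≠ 0} ⊆ Γ →
      P.E w u.1 = Q.E w' u.2

/-- Frames and coordinates near a boundary point. -/
def CStart_statement : Prop :=
  ∀ (n N : ℕ) [NeZero n] (M : Type u) [TopologicalSpace M] [ChartedSpace (EuclideanHalfSpace n) M]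
    [IsManifold (𝓡∂ n) ∞ M] [T2Space M] [CompactSpace M] [ConnectedSpace M] [MeasurableSpace M]
    [BorelSpace M] (P Q : One n N M) (Γ : Set M), 2 ≤ n → 0 < N → RelBd n Γ → Γ.Nonempty →
    SameD P Q Γ →
    ∃ (j0 : Fin N) (q : M) (z : E n) (r : ℝ) (s : Fin N → (M → Fib N) × (M → Fib N))
      (t : Fin n → (M → Fib N) × (M → Fib N)), z 0 = 0 ∧ 0 < r ∧ HB z r ⊆ tg n q ∧
      (∀ y ∈ HB z r, y 0 = 0 → (xc n q).symm y ∈ Γ) ∧ (∀ j, s j ∈ PP P Q Γ) ∧
      (∀ a, t a ∈ PP P Q Γ) ∧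
      (∀ y ∈ HB z r, y 0 = 0 →
        (∀ j, (s j).1 ((xc n q).symm y) = EuclideanSpace.single j 1 ∧
          (s j).2 ((xc n q).symm y) = EuclideanSpace.single j 1) ∧
        ∀ a, (t a).1 ((xc n q).symm y) = EuclideanSpace.single j0 (y a : ℂ) ∧
          (t a).2 ((xc n q).symm y) = EuclideanSpace.single j0 (y a : ℂ)) ∧
      0 < (pd 0 (lu (𝓡∂ n) q (t 0).1) z j0).re ∧ 0 < (pd 0 (lu (𝓡∂ n) q (t 0).2) z j0).re

/-- The model of `P` near a boundary point, of radius `r`. -/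
structure BdM {n N : ℕ} [NeZero n] {M : Type u} [TopologicalSpace M]
    [ChartedSpace (EuclideanHalfSpace n) M] [IsManifold (𝓡∂ n) ∞ M] [MeasurableSpace M]
    (P : One n N M) (Γ : Set M) (q : M) (z : E n) (r κ α β : ℝ) (j0 : Fin N) (W : Model n N)
    (D : Set (E n)) (X Y : E n → E n) (S : E n → EndF N) (s : Fin N → M → Fib N)
    (t : Fin n → M → Fib N) : Prop where
  rel : RelOpen D
  sub : D ⊆ tg n q
  z0 : z 0 = 0
  rpos : 0 < r
  pull : IsPull (P.loc q) W.toLD D (HB z r) X Y S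
  model : IsModel κ α β j0 W (HB z r)
  bd : ∀ y ∈ HB z r, y 0 = 0 → y ∈ D ∧ X y = y ∧ Y y = y ∧ S y = 1 ∧ (xc n q).symm y ∈ Γ
  bdD : ∀ x ∈ D, x 0 = 0 → x ∈ HB z r
  frame : ∀ x ∈ D, ∀ v : Fib N, S x v = ∑ j, v j • lu (𝓡∂ n) q (s j) x
  coord : ∀ x ∈ D, ∀ a, lu (𝓡∂ n) q (t a) x = S x (W.c a (X x))

/-- Both models near the boundary point. -/
def CSetup_statement : Prop :=
  ∀ (n N : ℕ) [NeZero n] (M : Type u) [TopologicalSpace M] [ChartedSpace (EuclideanHalfSpace n) M]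
    [IsManifold (𝓡∂ n) ∞ M] [T2Space M] [CompactSpace M] [ConnectedSpace M] [MeasurableSpace M]
    [BorelSpace M] (P Q : One n N M) (Γ : Set M) (κ₁ κ₂ α β : ℝ), 2 ≤ n → 0 < N → RelBd n Γ →
    Γ.Nonempty → SameD P Q Γ → EYMm κ₁ α β P.g P.A → EYMm κ₂ α β Q.g Q.A →
    ∃ (j0 : Fin N) (q : M) (z : E n) (r₀ : ℝ) (s : Fin N → (M → Fib N) × (M → Fib N))
      (t : Fin n → (M → Fib N) × (M → Fib N)) (W₁ W₂ : Model n N) (X₁ Y₁ X₂ Y₂ : E n → E n)
      (S₁ S₂ : E n → EndF N), 0 < r₀ ∧ (∀ j, s j ∈ PP P Q Γ) ∧ (∀ a, t a ∈ PP P Q Γ) ∧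
      ∀ r, 0 < r → r ≤ r₀ → ∃ D₁ D₂ : Set (E n),
        BdM P Γ q z r κ₁ α β j0 W₁ D₁ X₁ Y₁ S₁ (fun j => (s j).1) (fun a => (t a).1) ∧
        BdM Q Γ q z r κ₂ α β j0 W₂ D₂ X₂ Y₂ S₂ (fun j => (s j).2) (fun a => (t a).2)

/-- The energy relation for one pair. -/
def CRel1_statement : Prop :=
  ∀ (n N : ℕ) [NeZero n] (M : Type u) [TopologicalSpace M] [ChartedSpace (EuclideanHalfSpace n) M]
    [IsManifold (𝓡∂ n) ∞ M] [T2Space M] [CompactSpace M] [ConnectedSpace M] [MeasurableSpace M]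
    [BorelSpace M] (P : One n N M) (Γ : Set M) (q : M) (z : E n) (r₀ κ α β : ℝ) (j0 : Fin N)
    (W : Model n N) (D : Set (E n)) (X Y : E n → E n) (S : E n → EndF N) (s : Fin N → M → Fib N)
    (t : Fin n → M → Fib N), BdM P Γ q z r₀ κ α β j0 W D X Y S s t → P.HasSol Γ →
    RelBd n Γ → Γ.Nonempty → ∀ r, 0 < r → r < r₀ → ∃ C : ℝ, 0 ≤ C ∧
      ∃ Z : (E n → Fib N) → M → Fib N,
        (∀ c, TstH z r c → SmS n (Z c) ∧ tsupport (Z c) ⊆ (xc n q).symm '' D ∧
          (∀ x ∈ D, (X x ∈ Metric.ball z r → Z c ((xc n q).symm x) = S x (c (X x))) ∧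
            (X x ∉ Metric.ball z r → Z c ((xc n q).symm x) = 0)) ∧
          (∀ y ∈ HB z r, y 0 = 0 → Z c ((xc n q).symm y) = c y) ∧
          (∀ m ∈ (𝓡∂ n).boundary M, (∀ y ∈ HB z r, y 0 = 0 → m ≠ (xc n q).symm y) → Z c m = 0) ∧
          IsBdryData (𝓡∂ n) Γ (Z c)) ∧
        (∀ c, TstH z r c → ∀ v : M → Fib N, SmS n v → ∀ d : E n → Fib N,
          ContDiffOn ℝ ∞ d (HB z r₀) → (∀ x ∈ D, lu (𝓡∂ n) q v x = S x (d (X x))) →
          P.E (Z c) v = En W.toLD (HB z r) c d) ∧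
        ∀ c d, TstH z r c → TstH z r d →
          ∀ u v : M → Fib N, P.Harm (Z c) u → P.Harm (Z d) v →
            ‖En W.toLD (HB z r) c d - P.E u v‖ ≤ C * Rem W.toLD z r c * Rem W.toLD z r d ∧
            (P.E u u).re ≤ (En W.toLD (HB z r) c c).re

/-- The energy relation and the equality of the fluxes. -/
def CERel_statement : Prop :=
  ∀ (n N : ℕ) [NeZero n] (M : Type u) [TopologicalSpace M] [ChartedSpace (EuclideanHalfSpace n) M]
    [IsManifold (𝓡∂ n) ∞ M] [T2Space M] [CompactSpace M] [ConnectedSpace M] [MeasurableSpace M]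
    [BorelSpace M] (P Q : One n N M) (Γ : Set M) (q : M) (z : E n) (r₀ κ₁ κ₂ α β : ℝ)
    (j0 : Fin N) (W₁ W₂ : Model n N) (D₁ D₂ : Set (E n)) (X₁ Y₁ X₂ Y₂ : E n → E n)
    (S₁ S₂ : E n → EndF N) (s : Fin N → (M → Fib N) × (M → Fib N))
    (t : Fin n → (M → Fib N) × (M → Fib N)),
    BdM P Γ q z r₀ κ₁ α β j0 W₁ D₁ X₁ Y₁ S₁ (fun j => (s j).1) (fun a => (t a).1) →
    BdM Q Γ q z r₀ κ₂ α β j0 W₂ D₂ X₂ Y₂ S₂ (fun j => (s j).2) (fun a => (t a).2) →
    (∀ j, s j ∈ PP P Q Γ) → (∀ a, t a ∈ PP P Q Γ) → RelBd n Γ → Γ.Nonempty → SameD P Q Γ →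
    ∀ r, 0 < r → r < r₀ →
      (∃ C : ℝ, ERel W₁.toLD W₂.toLD z r C) ∧
      ∀ u ∈ PP P Q Γ, ∀ x ∈ HB z r, x 0 = 0 →
        (fun y => Ring.inverse (S₁ (Y₁ y)) (lu (𝓡∂ n) q u.1 (Y₁ y))) x =
          (fun y => Ring.inverse (S₂ (Y₂ y)) (lu (𝓡∂ n) q u.2 (Y₂ y))) x ∧
        flux W₁.toLD 0 (fun y => Ring.inverse (S₁ (Y₁ y)) (lu (𝓡∂ n) q u.1 (Y₁ y))) x =
          flux W₂.toLD 0 (fun y => Ring.inverse (S₂ (Y₂ y)) (lu (𝓡∂ n) q u.2 (Y₂ y))) x

/-- From equal models to a local match. -/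
def CMatch_statement : Prop :=
  ∀ (n N : ℕ) [NeZero n] (M : Type u) [TopologicalSpace M] [ChartedSpace (EuclideanHalfSpace n) M]
    [IsManifold (𝓡∂ n) ∞ M] [T2Space M] [MeasurableSpace M] [BorelSpace M] (P Q : One n N M)
    (Γ : Set M) (q₁ q₂ : M) (z : E n) (r : ℝ) (L₁ L₂ : LD n N) (D₁ D₂ : Set (E n))
    (X₁ Y₁ X₂ Y₂ : E n → E n) (S₁ S₂ : E n → EndF N), RelOpen D₁ → RelOpen D₂ → D₁ ⊆ tg n q₁ →
    D₂ ⊆ tg n q₂ → IsPull (P.loc q₁) L₁ D₁ (HB z r) X₁ Y₁ S₁ →
    IsPull (Q.loc q₂) L₂ D₂ (HB z r) X₂ Y₂ S₂ → (∀ x ∈ HB z r, L₁.g x = L₂.g x) →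
    (∀ x ∈ HB z r, ∀ j, L₁.B j x = L₂.B j x) → (∀ x ∈ HB z r, L₁.h x = L₂.h x) →
    (∀ u ∈ PP P Q Γ, ∀ x ∈ HB z r, Ring.inverse (S₁ (Y₁ x)) (lu (𝓡∂ n) q₁ u.1 (Y₁ x)) =
      Ring.inverse (S₂ (Y₂ x)) (lu (𝓡∂ n) q₂ u.2 (Y₂ x))) →
    ∃ (O : Set M) (φ : M → M) (V : M → EndF N), LMatch P Q Γ O φ V ∧
      ∀ x ∈ D₂, 0 < x 0 → (xc n q₂).symm x ∈ O

/-- Match near the boundary. -/
def CNear_statement : Prop :=
  ∀ (n N : ℕ) [NeZero n] (M : Type u) [TopologicalSpace M] [ChartedSpace (EuclideanHalfSpace n) M]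
    [IsManifold (𝓡∂ n) ∞ M] [T2Space M] [CompactSpace M] [ConnectedSpace M] [MeasurableSpace M]
    [BorelSpace M] (P Q : One n N M) (Γ : Set M) (κ₁ κ₂ α β : ℝ), 3 ≤ n → 0 < N → RelBd n Γ →
    Γ.Nonempty → SameD P Q Γ → EYMm κ₁ α β P.g P.A → EYMm κ₂ α β Q.g Q.A →
    κ₁ = κ₂ ∧ ∃ (O : Set M) (φ : M → M) (V : M → EndF N), LMatch P Q Γ O φ V ∧ O.Nonempty

/-- The relation of a local match in charts. -/
def CUnm_statement : Prop :=
  ∀ (n N : ℕ) [NeZero n] (M : Type u) [TopologicalSpace M] [ChartedSpace (EuclideanHalfSpace n) M]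
    [IsManifold (𝓡∂ n) ∞ M] [T2Space M] [MeasurableSpace M] [BorelSpace M] (P Q : One n N M)
    (Γ O : Set M) (φ : M → M) (V : M → EndF N), LMatch P Q Γ O φ V → ∀ q₁ q₂ : M, ∀ x ∈ O,
    x ∈ (xc n q₂).source → φ x ∈ (xc n q₁).source → ∃ r > 0,
      Metric.ball (xc n q₂ x) r ⊆ tg n q₂ ∩ {y | 0 < y 0} ∧
      (∀ y ∈ Metric.ball (xc n q₂ x) r, (xc n q₂).symm y ∈ O ∧
        φ ((xc n q₂).symm y) ∈ (xc n q₁).source ∧ 0 < xc n q₁ (φ ((xc n q₂).symm y)) 0) ∧
      ContDiffOn ℝ ∞ (fun y => xc n q₁ (φ ((xc n q₂).symm y))) (Metric.ball (xc n q₂ x) r) ∧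
      ContDiffOn ℝ ∞ (fun y => V ((xc n q₂).symm y)) (Metric.ball (xc n q₂ x) r) ∧
      (∀ y ∈ Metric.ball (xc n q₂ x) r, (Q.loc q₂).g y =
        (Jac (fun y => xc n q₁ (φ ((xc n q₂).symm y))) y).transpose *
          (P.loc q₁).g (xc n q₁ (φ ((xc n q₂).symm y))) *
          Jac (fun y => xc n q₁ (φ ((xc n q₂).symm y))) y) ∧
      ∀ y ∈ Metric.ball (xc n q₂ x) r, ∀ j,
        pd j (fun y => V ((xc n q₂).symm y)) y +
          (Q.loc q₂).B j y * V ((xc n q₂).symm y) =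
        V ((xc n q₂).symm y) * ∑ k, Jac (fun y => xc n q₁ (φ ((xc n q₂).symm y))) y k j •
          (P.loc q₁).B k (xc n q₁ (φ ((xc n q₂).symm y)))

/-- The set of good points. -/
def Gd {n N : ℕ} [NeZero n] {M : Type u} [TopologicalSpace M]
    [ChartedSpace (EuclideanHalfSpace n) M] [IsManifold (𝓡∂ n) ∞ M] [MeasurableSpace M]
    (P Q : One n N M) (Γ : Set M) : Set M :=
  {x | ∃ (O : Set M) (φ : M → M) (V : M → EndF N), LMatch P Q Γ O φ V ∧ x ∈ O}

/-- Limits of good points, part 1. -/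
def CLim_statement : Prop :=
  ∀ (n N : ℕ) [NeZero n] (M : Type u) [TopologicalSpace M] [ChartedSpace (EuclideanHalfSpace n) M]
    [IsManifold (𝓡∂ n) ∞ M] [T2Space M] [CompactSpace M] [ConnectedSpace M] [MeasurableSpace M]
    [BorelSpace M] (P Q : One n N M) (Γ : Set M), 3 ≤ n → 0 < N → RelBd n Γ →
    Γ.Nonempty → SameD P Q Γ → ∀ x₀ ∈ Mi n M, x₀ ∈ closure (Gd P Q Γ) →
    ∃ (x₀' : M) (V₀ : EndF N) (x : ℕ → M) (O : ℕ → Set M) (φ : ℕ → M → M)
      (V : ℕ → M → EndF N), x₀' ∈ Mi n M ∧ V₀ ∈ unitary (EndF N) ∧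
      (∀ k, LMatch P Q Γ (O k) (φ k) (V k) ∧ x k ∈ O k) ∧ Tendsto x atTop (𝓝 x₀) ∧
      Tendsto (fun k => φ k (x k)) atTop (𝓝 x₀') ∧ Tendsto (fun k => V k (x k)) atTop (𝓝 V₀) ∧
      ∀ u ∈ PP P Q Γ, u.2 x₀ = V₀ (u.1 x₀')

/-- The frame given by `N` sections, in the chart at `q`. -/
def frm (n : ℕ) [NeZero n] {N : ℕ} {M : Type u} [TopologicalSpace M]
    [ChartedSpace (EuclideanHalfSpace n) M] [IsManifold (𝓡∂ n) ∞ M] (q : M)
    (s : Fin N → M → Fib N) (y : E n) : EndF N := fr s ((xc n q).symm y)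

/-- Solution coordinates at the limit points. -/
def CCoord_statement : Prop :=
  ∀ (n N : ℕ) [NeZero n] (M : Type u) [TopologicalSpace M] [ChartedSpace (EuclideanHalfSpace n) M]
    [IsManifold (𝓡∂ n) ∞ M] [T2Space M] [CompactSpace M] [ConnectedSpace M] [MeasurableSpace M]
    [BorelSpace M] (P Q : One n N M) (Γ : Set M) (x₀ x₀' : M) (V₀ : EndF N) (x : ℕ → M)
    (O : ℕ → Set M) (φ : ℕ → M → M) (V : ℕ → M → EndF N), 3 ≤ n → 0 < N → RelBd n Γ →
    Γ.Nonempty → SameD P Q Γ → x₀ ∈ Mi n M → x₀' ∈ Mi n M → V₀ ∈ unitary (EndF N) →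
    (∀ k, LMatch P Q Γ (O k) (φ k) (V k) ∧ x k ∈ O k) → Tendsto x atTop (𝓝 x₀) →
    Tendsto (fun k => φ k (x k)) atTop (𝓝 x₀') → Tendsto (fun k => V k (x k)) atTop (𝓝 V₀) →
    (∀ u ∈ PP P Q Γ, u.2 x₀ = V₀ (u.1 x₀')) →
    ∃ (j0 : Fin N) (s : Fin N → (M → Fib N) × (M → Fib N))
      (t : Fin n → (M → Fib N) × (M → Fib N)), (∀ j, s j ∈ PP P Q Γ) ∧ (∀ a, t a ∈ PP P Q Γ) ∧
      IsUnit (frm n x₀' (fun j => (s j).1) (xc n x₀' x₀')) ∧
      IsUnit (frm n x₀ (fun j => (s j).2) (xc n x₀ x₀)) ∧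
      (Jac (Xco j0 (frm n x₀' fun j => (s j).1) (fun a => lu (𝓡∂ n) x₀' (t a).1))
        (xc n x₀' x₀')).det ≠ 0 ∧
      (Jac (Xco j0 (frm n x₀ fun j => (s j).2) (fun a => lu (𝓡∂ n) x₀ (t a).2))
        (xc n x₀ x₀)).det ≠ 0 ∧
      0 < Xco j0 (frm n x₀' fun j => (s j).1) (fun a => lu (𝓡∂ n) x₀' (t a).1)
        (xc n x₀' x₀') 0 ∧
      Xco j0 (frm n x₀' fun j => (s j).1) (fun a => lu (𝓡∂ n) x₀' (t a).1) (xc n x₀' x₀') =
        Xco j0 (frm n x₀ fun j => (s j).2) (fun a => lu (𝓡∂ n) x₀ (t a).2) (xc n x₀ x₀)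

/-- Equality of the models near a matched point. -/
def CModEq_statement : Prop :=
  ∀ (n N : ℕ) [NeZero n] (M : Type u) [TopologicalSpace M] [ChartedSpace (EuclideanHalfSpace n) M]
    [IsManifold (𝓡∂ n) ∞ M] [T2Space M] [CompactSpace M] [ConnectedSpace M] [MeasurableSpace M]
    [BorelSpace M] (P Q : One n N M) (Γ : Set M) (j0 : Fin N)
    (s : Fin N → (M → Fib N) × (M → Fib N)) (t : Fin n → (M → Fib N) × (M → Fib N))
    (q₁ q₂ : M) (z : E n) (r : ℝ) (W₁ W₂ : Model n N) (D₁ D₂ : Set (E n)) (Y₁ Y₂ : E n → E n),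
    (∀ j, s j ∈ PP P Q Γ) → (∀ a, t a ∈ PP P Q Γ) → RelOpen D₁ → RelOpen D₂ → D₁ ⊆ tg n q₁ →
    D₂ ⊆ tg n q₂ →
    IsPull (P.loc q₁) W₁.toLD D₁ (HB z r)
      (Xco j0 (frm n q₁ fun j => (s j).1) (fun a => lu (𝓡∂ n) q₁ (t a).1)) Y₁
      (frm n q₁ fun j => (s j).1) →
    IsPull (Q.loc q₂) W₂.toLD D₂ (HB z r)
      (Xco j0 (frm n q₂ fun j => (s j).2) (fun a => lu (𝓡∂ n) q₂ (t a).2)) Y₂
      (frm n q₂ fun j => (s j).2) →
    (∀ x ∈ D₁, ∀ a, lu (𝓡∂ n) q₁ (t a).1 x = frm n q₁ (fun j => (s j).1) x (W₁.c a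
      (Xco j0 (frm n q₁ fun j => (s j).1) (fun a => lu (𝓡∂ n) q₁ (t a).1) x))) →
    (∀ x ∈ D₂, ∀ a, lu (𝓡∂ n) q₂ (t a).2 x = frm n q₂ (fun j => (s j).2) x (W₂.c a
      (Xco j0 (frm n q₂ fun j => (s j).2) (fun a => lu (𝓡∂ n) q₂ (t a).2) x))) →
    ∀ (O : Set M) (φ : M → M) (V : M → EndF N), LMatch P Q Γ O φ V → ∀ x ∈ O,
      x ∈ (xc n q₂).source → xc n q₂ x ∈ D₂ → φ x ∈ (xc n q₁).source → xc n q₁ (φ x) ∈ D₁ →
      ∃ U : Set (E n), IsOpen U ∧ U ⊆ HB z r ∧ U.Nonempty ∧ EqOnM W₁ W₂ U ∧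
        ∀ u ∈ PP P Q Γ, ∀ y ∈ U,
          Ring.inverse (frm n q₁ (fun j => (s j).1) (Y₁ y)) (lu (𝓡∂ n) q₁ u.1 (Y₁ y)) =
          Ring.inverse (frm n q₂ (fun j => (s j).2) (Y₂ y)) (lu (𝓡∂ n) q₂ u.2 (Y₂ y))

/-- Limits of good points, part 2: good points are closed in the interior. -/
def CClosed_statement : Prop :=
  ∀ (n N : ℕ) [NeZero n] (M : Type u) [TopologicalSpace M] [ChartedSpace (EuclideanHalfSpace n) M]
    [IsManifold (𝓡∂ n) ∞ M] [T2Space M] [CompactSpace M] [ConnectedSpace M] [MeasurableSpace M]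
    [BorelSpace M] (P Q : One n N M) (Γ : Set M) (κ α β : ℝ), 3 ≤ n → 0 < N → RelBd n Γ →
    Γ.Nonempty → SameD P Q Γ → EYMm κ α β P.g P.A → EYMm κ α β Q.g Q.A →
    ∀ x₀ ∈ Mi n M, x₀ ∈ closure (Gd P Q Γ) → x₀ ∈ Gd P Q Γ

/-- The global match on the interior. -/
def CGlobal_statement : Prop :=
  ∀ (n N : ℕ) [NeZero n] (M : Type u) [TopologicalSpace M] [ChartedSpace (EuclideanHalfSpace n) M]
    [IsManifold (𝓡∂ n) ∞ M] [T2Space M] [CompactSpace M] [ConnectedSpace M] [MeasurableSpace M]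
    [BorelSpace M] (P Q : One n N M) (Γ : Set M) (κ₁ κ₂ α β : ℝ), 3 ≤ n → 0 < N → RelBd n Γ →
    Γ.Nonempty → SameD P Q Γ → EYMm κ₁ α β P.g P.A → EYMm κ₂ α β Q.g Q.A →
    ∃ (Φ Ψ : M → M) (V V' : M → EndF N),
      (∀ x ∈ Mi n M, ∃ O, x ∈ O ∧ LMatch P Q Γ O Φ V) ∧
      (∀ x ∈ Mi n M, ∃ O, x ∈ O ∧ LMatch Q P Γ O Ψ V') ∧
      ∀ x ∈ Mi n M, Φ (Ψ x) = x ∧ Ψ (Φ x) = x

/-- Continuous extension to the boundary. -/
def CCont_statement : Prop :=
  ∀ (n N : ℕ) [NeZero n] (M : Type u) [TopologicalSpace M] [ChartedSpace (EuclideanHalfSpace n) M]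
    [IsManifold (𝓡∂ n) ∞ M] [T2Space M] [CompactSpace M] [ConnectedSpace M] [MeasurableSpace M]
    [BorelSpace M] (P Q : One n N M) (Γ : Set M) (Φ : M → M) (V : M → EndF N),
    (∀ x ∈ Mi n M, ∃ O, x ∈ O ∧ LMatch P Q Γ O Φ V) → ∀ x : M, ∃ x' : M,
      Tendsto Φ (𝓝[Mi n M] x) (𝓝 x')

/-- Smooth extension to the boundary, local. -/
def CReg_statement : Prop :=
  ∀ (n N : ℕ) [NeZero n] (M : Type u) [TopologicalSpace M] [ChartedSpace (EuclideanHalfSpace n) M]
    [IsManifold (𝓡∂ n) ∞ M] [T2Space M] [CompactSpace M] [ConnectedSpace M] [MeasurableSpace M]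
    [BorelSpace M] (P Q : One n N M) (Γ : Set M) (Φ : M → M) (V : M → EndF N),
    (∀ x ∈ Mi n M, ∃ O, x ∈ O ∧ LMatch P Q Γ O Φ V) → ∀ x x' : M,
      Tendsto Φ (𝓝[Mi n M] x) (𝓝 x') → ∃ (O : Set M) (Φ' : M → M) (V' : M → EndF N), IsOpen O ∧
        x ∈ O ∧ ContMDiffOn (𝓡∂ n) (𝓡∂ n) ∞ Φ' O ∧ ContMDiffOn (𝓡∂ n) 𝓘(ℝ, EndF N) ∞ V' O ∧
        ∀ m ∈ O ∩ Mi n M, Φ' m = Φ m ∧ V' m = V m

/-- Global smooth extension. -/
def CDiff_statement : Prop :=
  ∀ (n N : ℕ) [NeZero n] (M : Type u) [TopologicalSpace M] [ChartedSpace (EuclideanHalfSpace n) M]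
    [IsManifold (𝓡∂ n) ∞ M] [T2Space M] [CompactSpace M] [ConnectedSpace M] [MeasurableSpace M]
    [BorelSpace M] (P Q : One n N M) (Γ : Set M) (Φ Ψ : M → M) (V V' : M → EndF N),
    (∀ x ∈ Mi n M, ∃ O, x ∈ O ∧ LMatch P Q Γ O Φ V) →
    (∀ x ∈ Mi n M, ∃ O, x ∈ O ∧ LMatch Q P Γ O Ψ V') →
    (∀ x ∈ Mi n M, Φ (Ψ x) = x ∧ Ψ (Φ x) = x) →
    ∃ (F : Diffeomorph (𝓡∂ n) (𝓡∂ n) M M ∞) (G : M → EndF N),
      ContMDiff (𝓡∂ n) 𝓘(ℝ, EndF N) ∞ G ∧ ∀ x ∈ Mi n M, F x = Φ x ∧ G x = V x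

/-- The derivative of a map in charts; coordinate vectors span. -/
def CChart_statement : Prop :=
  ∀ (n : ℕ) [NeZero n] (M : Type u) [TopologicalSpace M] [ChartedSpace (EuclideanHalfSpace n) M]
    [IsManifold (𝓡∂ n) ∞ M] (O : Set M) (φ : M → M), IsOpen O →
    ContMDiffOn (𝓡∂ n) (𝓡∂ n) ∞ φ O → ∀ q₁ q₂ : M, ∀ x ∈ O, x ∈ (xc n q₂).source →
    φ x ∈ (xc n q₁).source →
    (∀ j, mfderiv (𝓡∂ n) (𝓡∂ n) φ x (coordVec (𝓡∂ n) q₂ x j) =
      ∑ k, Jac (fun y => xc n q₁ (φ ((xc n q₂).symm y))) (xc n q₂ x) k j •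
        coordVec (𝓡∂ n) q₁ (φ x) k) ∧
    ∀ v : TangentSpace (𝓡∂ n) x, ∃ c : Fin n → ℝ, v = ∑ j, c j • coordVec (𝓡∂ n) q₂ x j

/-- The relations of the global match hold up to the boundary. -/
def CTensor_statement : Prop :=
  ∀ (n N : ℕ) [NeZero n] (M : Type u) [TopologicalSpace M] [ChartedSpace (EuclideanHalfSpace n) M]
    [IsManifold (𝓡∂ n) ∞ M] [T2Space M] [CompactSpace M] [ConnectedSpace M] [MeasurableSpace M]
    [BorelSpace M] (P Q : One n N M) (Γ : Set M) (F : Diffeomorph (𝓡∂ n) (𝓡∂ n) M M ∞)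
    (G : M → EndF N), ContMDiff (𝓡∂ n) 𝓘(ℝ, EndF N) ∞ G →
    (∀ x ∈ Mi n M, ∃ O, x ∈ O ∧ LMatch P Q Γ O F G) →
    (∀ (x : M) (v w : TangentSpace (𝓡∂ n) x), Q.g.inner x v w =
      P.g.inner (F x) (mfderiv (𝓡∂ n) (𝓡∂ n) F x v) (mfderiv (𝓡∂ n) (𝓡∂ n) F x w)) ∧
    (∀ (x : M) (v : TangentSpace (𝓡∂ n) x),
      dmap (𝓡∂ n) G x v + Q.A.form x v ∘L G x =
        G x ∘L P.A.form (F x) (mfderiv (𝓡∂ n) (𝓡∂ n) F x v)) ∧
    (∀ x, G x ∈ unitary (EndF N)) ∧ ∀ u ∈ PP P Q Γ, ∀ x, u.2 x = G x (u.1 (F x))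

/-- The main theorem in abstract form. -/
def CMain_statement : Prop :=
  ∀ (n N : ℕ) [NeZero n] (M : Type u) [TopologicalSpace M] [ChartedSpace (EuclideanHalfSpace n) M]
    [IsManifold (𝓡∂ n) ∞ M] [T2Space M] [CompactSpace M] [ConnectedSpace M] [MeasurableSpace M]
    [BorelSpace M] (P Q : One n N M) (Γ : Set M) (κ₁ κ₂ α β : ℝ), 3 ≤ n → 0 < N → RelBd n Γ →
    Γ.Nonempty → SameD P Q Γ → EYMm κ₁ α β P.g P.A → EYMm κ₂ α β Q.g Q.A →
    GaugeEquivalent Γ P.g P.A Q.g Q.A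

end Vale.Agent.P088.EYM
end
end

section

/-!
# P088-EYM: harmonic extensions solve the equation in charts
-/

open Bundle Manifold MeasureTheory Set Filter Topology
open scoped ContDiff

noncomputable section

namespace Vale.Agent.P088.EYM

universe u

set_option linter.unusedSectionVars false

section

variable {n N : ℕ} [NeZero n]

theorem CHarm_ok_mono {L : LD n N} {D D' : Set (E n)} (h : L.Ok D) (hD : D' ⊆ D) : L.Ok D' where
  g_smooth := fun i j => (h.g_smooth i j).mono hD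
  g_pos := fun x hx => h.g_pos x (hD hx)
  B_smooth := fun i => (h.B_smooth i).mono hD
  h_smooth := h.h_smooth.mono hD
  h_adj := fun x hx => h.h_adj x (hD hx)
  h_pos := fun x hx => h.h_pos x (hD hx)
  compat := fun x hx => h.compat x (hD hx)

theorem CHarm_flux_smooth {D : Set (E n)} (hD : RelOpen D) {L : LD n N} (hL : L.Ok D)
    {c : E n → Fib N} (hc : ContDiffOn ℝ ∞ c D) (j : Fin n) : ContDiffOn ℝ ∞ (flux L j c) D := by
  have h : ContDiffOn ℝ ∞ (fun x => ∑ k, gg L.g j k x • nab L k c x) D :=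
    ContDiffOn.sum fun k _ => (hD.gg_smooth hL.g_smooth hL.g_pos j k).smul
      (Jacobi_nab_smooth hD hL hc k)
  exact h

theorem CHarm_Lop_smooth {D : Set (E n)} (hD : RelOpen D) {L : LD n N} (hL : L.Ok D)
    {c : E n → Fib N} (hc : ContDiffOn ℝ ∞ c D) : ContDiffOn ℝ ∞ (Lop L c) D := by
  have h : ContDiffOn ℝ ∞ (fun x => ∑ j, (pd j (flux L j c) x + L.B j x (flux L j c x))) D :=
    ContDiffOn.sum fun j _ => (hD.pd_smooth (CHarm_flux_smooth hD hL hc j) j).add
      (smooth_eval (hL.B_smooth j) (CHarm_flux_smooth hD hL hc j))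
  exact h

theorem CHarm_pos_open {D : Set (E n)} (hD : RelOpen D) : IsOpen (D ∩ {y : E n | 0 < y 0}) := by
  obtain ⟨O, hO, rfl⟩ := hD
  have : O ∩ Hs n ∩ {y : E n | 0 < y 0} = O ∩ {y : E n | 0 < y 0} := by
    ext y
    constructor
    · rintro ⟨⟨h1, -⟩, h3⟩; exact ⟨h1, h3⟩
    · rintro ⟨h1, h3⟩; exact ⟨⟨h1, le_of_lt (show 0 < y 0 from h3)⟩, h3⟩
  rw [this]
  exact hO.inter (isOpen_lt continuous_const (continuous_coord 0))

theorem CHarm_relOpen_of_open {D : Set (E n)} (hD : IsOpen D) (h : D ⊆ Hs n) : RelOpen D :=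
  ⟨D, hD, (inter_eq_left.2 h).symm⟩

theorem CHarm_mem_closure {D : Set (E n)} (hD : RelOpen D) {y : E n} (hy : y ∈ D) :
    y ∈ closure (D ∩ {y : E n | 0 < y 0}) := by
  obtain ⟨O, hO, rfl⟩ := hD
  have ht : Tendsto (fun t : ℝ => y + t • (ev 0 : E n)) (𝓝[>] 0) (𝓝 y) := by
    have h1 : Continuous (fun t : ℝ => y + t • (ev 0 : E n)) := by fun_prop
    have h2 := h1.tendsto 0
    simp only [zero_smul, add_zero] at h2
    exact h2.mono_left nhdsWithin_le_nhds
  refine mem_closure_of_tendsto ht ?_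
  filter_upwards [ht (hO.mem_nhds hy.1), self_mem_nhdsWithin] with t h1 h2
  have h3 : 0 ≤ y 0 := hy.2
  have h4 : 0 < t := h2
  have h5 : 0 < (y + t • (ev 0 : E n)) 0 := by
    simp only [PiLp.add_apply, PiLp.smul_apply, ev_apply, if_true, smul_eq_mul, mul_one]
    linarith
  exact ⟨⟨h1, h5.le⟩, h5⟩

theorem CHarm_ed_congr {D : Set (E n)} (hD : RelOpen D) (L : LD n N) {c d d' : E n → Fib N}
    (h : EqOn d d' D) {x : E n} (hx : x ∈ D) : ed L c d x = ed L c d' x := by
  unfold ed nab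
  simp only [hD.pd_congr h hx, h hx]

end

theorem cHarm : AWeakStrong_statement → CLoc_statement.{u} → CEnergy_statement.{u} →
    CExt_statement.{u} → CHarm_statement.{u} := by
  intro hWS hLoc hEn hExt n N _ M _ _ _ _ _ _ _ P f u hu p
  obtain ⟨hRel, hOk, hbd, hsm⟩ := hLoc n N M
  have hus : SmS n u := hu.smooth
  have hT : RelOpen (tg n p) := hRel p
  have hc : ContDiffOn ℝ ∞ (lu (𝓡∂ n) p u) (tg n p) := hsm u hus p
  set D : Set (E n) := tg n p ∩ {y | 0 < y 0} with hD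
  have hDo : IsOpen D := CHarm_pos_open hT
  have hDs : D ⊆ tg n p := inter_subset_left
  have hDH : D ⊆ Hs n := hDs.trans hT.subset
  have hDr : RelOpen D := CHarm_relOpen_of_open hDo hDH
  have hL : (P.loc p).Ok (tg n p) := hOk P p
  have hweak : ∀ ψ : E n → Fib N, Tst0 D ψ → En (P.loc p) D (lu (𝓡∂ n) p u) ψ = 0 := by
    intro ψ hψ
    obtain ⟨φ, hφs, hφ1, hφ2, hφ3⟩ := hExt n N M p ψ D (tsupport ψ) hDr hDs hψ.1.contDiffOn
      hψ.2.1 hψ.2.2 (fun y _ hy => image_eq_zero_of_notMem_tsupport hy)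
    have hb : ∀ x ∈ (𝓡∂ n).boundary M, φ x = 0 := by
      intro x hx
      refine hφ2 x ?_
      rintro ⟨y, hy, rfl⟩
      have hyD : y ∈ D := hψ.2.2 hy
      have h1 := (hbd p ((xc n p).symm y) ((xc n p).map_target (hDs hyD))).1 hx
      rw [(xc n p).right_inv (hDs hyD)] at h1
      exact absurd h1 (ne_of_gt hyD.2)
    have h0 : P.E u φ = 0 := hu.weak φ hφs hb
    have h1 := (hEn n N M P p D hDr hDs).1 u φ hus hφs (Or.inr (hφ3.trans (image_mono hψ.2.2)))
    rw [h0] at h1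
    rw [h1]
    unfold En
    refine setIntegral_congr_fun hDo.measurableSet fun x hx => ?_
    exact (CHarm_ed_congr hDr (P.loc p) (fun y hy => hφ1 y hy) hx).symm
  have hz : ∀ x ∈ D, Lop (P.loc p) (lu (𝓡∂ n) p u) x = 0 :=
    hWS n N (P.loc p) D hDo hDH (CHarm_ok_mono hL hDs) _ (hc.mono hDs) hweak
  refine ⟨hc, fun y hy => ?_⟩
  have hcl : y ∈ closure D := CHarm_mem_closure hT hy
  have hne : (𝓝[D] y).NeBot := mem_closure_iff_nhdsWithin_neBot.1 hcl
  have h1 : Tendsto (Lop (P.loc p) (lu (𝓡∂ n) p u)) (𝓝[D] y)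
      (𝓝 (Lop (P.loc p) (lu (𝓡∂ n) p u) y)) :=
    (((CHarm_Lop_smooth hT hL hc).continuousOn y hy).mono hDs)
  have h2 : Tendsto (Lop (P.loc p) (lu (𝓡∂ n) p u)) (𝓝[D] y) (𝓝 0) := by
    refine tendsto_const_nhds.congr' ?_
    filter_upwards [self_mem_nhdsWithin] with x hx
    exact (hz x hx).symm
  exact tendsto_nhds_unique h1 h2

end Vale.Agent.P088.EYM
end
end

section

/-!
# P088-EYM, module CHilb: the abstract Riesz sequence
-/

open MeasureTheory Set Filter Topology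

noncomputable section

namespace Vale.Agent.P088.EYM

universe u

section CHilb

variable {X : Type u} [AddCommGroup X] [Module ℂ X] {F : X → X → ℂ} {l : X →ₗ[ℂ] ℂ}

theorem chilb_add_left (h1 : ∀ u v w, F u (v + w) = F u v + F u w)
    (h3 : ∀ u v, F v u = (starRingEnd ℂ) (F u v)) (u v w : X) :
    F (u + v) w = F u w + F v w := by
  rw [h3 w (u + v), h1, map_add, ← h3 w u, ← h3 w v]

theorem chilb_smul_left (h2 : ∀ (a : ℂ) u v, F u (a • v) = a * F u v)
    (h3 : ∀ u v, F v u = (starRingEnd ℂ) (F u v)) (a : ℂ) (u v : X) :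
    F (a • u) v = (starRingEnd ℂ) a * F u v := by
  rw [h3 v (a • u), h2, map_mul, ← h3 v u]

theorem chilb_re_symm (h3 : ∀ u v, F v u = (starRingEnd ℂ) (F u v)) (u v : X) :
    (F v u).re = (F u v).re := by
  rw [h3 u v, Complex.conj_re]

theorem chilb_quad (h1 : ∀ u v w, F u (v + w) = F u v + F u w)
    (h2 : ∀ (a : ℂ) u v, F u (a • v) = a * F u v)
    (h3 : ∀ u v, F v u = (starRingEnd ℂ) (F u v)) (u v : X) (t : ℝ) :
    (F (u + (t : ℂ) • v) (u + (t : ℂ) • v)).re =
      (F u u).re + 2 * t * (F u v).re + t ^ 2 * (F v v).re := by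
  rw [chilb_add_left h1 h3, h1, h1, h2, chilb_smul_left h2 h3, h2, chilb_smul_left h2 h3]
  simp only [Complex.add_re, Complex.mul_re, Complex.conj_ofReal, Complex.ofReal_re,
    Complex.ofReal_im, zero_mul, sub_zero, Complex.mul_im, add_zero]
  rw [chilb_re_symm h3 u v]
  ring

theorem chilb_bound (K : ℝ) (h4 : ∀ u, 0 ≤ (F u u).re) (h5 : ∀ u, ‖l u‖ ^ 2 ≤ K * (F u u).re)
    (u : X) : -(|K| / 2) ≤ (F u u).re / 2 - (l u).re := by
  have a1 : (l u).re ≤ ‖l u‖ := (le_abs_self _).trans (Complex.abs_re_le_norm _)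
  have a2 : K * (F u u).re ≤ |K| * (F u u).re :=
    mul_le_mul_of_nonneg_right (le_abs_self K) (h4 u)
  have a3 : ‖l u‖ ≤ ((F u u).re + |K|) / 2 := by
    have hp : 0 ≤ ((F u u).re + |K|) / 2 := by
      have := h4 u
      positivity
    apply abs_le_of_sq_le_sq' _ hp |>.2
    nlinarith [h5 u, sq_nonneg ((F u u).re - |K|)]
  linarith

theorem cHilb : CHilb_statement.{u} := by
  intro X _ _ F l K h1 h2 h3 h4 h5
  set J : X → ℝ := fun u => (F u u).re / 2 - (l u).re with hJ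
  have hbdd : BddBelow (range J) := ⟨-(|K| / 2), by
    rintro _ ⟨u, rfl⟩
    exact chilb_bound K h4 h5 u⟩
  set m : ℝ := ⨅ u, J u with hm
  have hmle : ∀ u, m ≤ J u := fun u => ciInf_le hbdd u
  have hex : ∀ k : ℕ, ∃ u, J u < m + 1 / ((k : ℝ) + 1) := by
    intro k
    apply exists_lt_of_ciInf_lt
    have : (0 : ℝ) < 1 / ((k : ℝ) + 1) := by positivity
    linarith
  choose w hw using hex
  have hJq : ∀ (u v : X) (t : ℝ), J (u + (t : ℂ) • v) =
      J u + t * ((F u v).re - (l v).re) + t ^ 2 / 2 * (F v v).re := by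
    intro u v t
    simp only [hJ]
    rw [chilb_quad h1 h2 h3, map_add, map_smul, Complex.add_re, smul_eq_mul, Complex.mul_re,
      Complex.ofReal_re, Complex.ofReal_im]
    ring
  have key : ∀ k φ, ((F (w k) φ).re - (l φ).re) ^ 2 ≤ 2 * (F φ φ).re * (1 / ((k : ℝ) + 1)) := by
    intro k φ
    have hd : discrim ((F φ φ).re / 2) ((F (w k) φ).re - (l φ).re) (J (w k) - m) ≤ 0 := by
      apply discrim_le_zero
      intro t
      have := hmle (w k + (t : ℂ) • φ)
      rw [hJq] at this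
      nlinarith
    rw [discrim] at hd
    have h6 := hw k
    have h7 := h4 φ
    nlinarith
  have hlim : Tendsto (fun k : ℕ => 1 / ((k : ℝ) + 1)) atTop (𝓝 0) :=
    tendsto_one_div_add_atTop_nhds_zero_nat
  have hre : ∀ φ, Tendsto (fun k => (F (w k) φ).re) atTop (𝓝 (l φ).re) := by
    intro φ
    rw [tendsto_iff_dist_tendsto_zero]
    have h8 : Tendsto (fun k : ℕ => √(2 * (F φ φ).re * (1 / ((k : ℝ) + 1)))) atTop (𝓝 0) := by
      have := (hlim.const_mul (2 * (F φ φ).re)).sqrt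
      simpa using this
    apply squeeze_zero (fun _ => dist_nonneg) _ h8
    intro k
    rw [Real.dist_eq]
    exact Real.abs_le_sqrt (key k φ)
  have him : ∀ φ, Tendsto (fun k => (F (w k) φ).im) atTop (𝓝 (l φ).im) := by
    intro φ
    have := hre ((-Complex.I) • φ)
    simp only [h2, map_smul, smul_eq_mul] at this
    simpa using this
  refine ⟨w, ?_, ?_⟩
  · intro ε hε
    obtain ⟨k₀, hk₀⟩ := exists_nat_one_div_lt (show (0 : ℝ) < ε / 8 by positivity)
    refine ⟨k₀, fun k hk j hj => ?_⟩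
    have hone : ∀ i : ℕ, k₀ ≤ i → J (w i) - m ≤ ε / 8 := by
      intro i hi
      have h9 : 1 / ((i : ℝ) + 1) ≤ 1 / ((k₀ : ℝ) + 1) := by
        apply one_div_le_one_div_of_le (by positivity)
        have : (k₀ : ℝ) ≤ i := by exact_mod_cast hi
        linarith
      linarith [hw i]
    have h10 := hmle ((1 / 2 : ℂ) • (w k + w j))
    have h11 : (F (w k - w j) (w k - w j)).re =
        (F (w k) (w k)).re - 2 * (F (w k) (w j)).re + (F (w j) (w j)).re := by
      have := chilb_quad h1 h2 h3 (w k) (w j) (-1)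
      simp only [Complex.ofReal_neg, Complex.ofReal_one, neg_smul, one_smul,
        ← sub_eq_add_neg] at this
      rw [this]; ring
    have h12 : (F (w k + w j) (w k + w j)).re =
        (F (w k) (w k)).re + 2 * (F (w k) (w j)).re + (F (w j) (w j)).re := by
      have := chilb_quad h1 h2 h3 (w k) (w j) 1
      simp only [Complex.ofReal_one, one_smul] at this
      rw [this]; ring
    have h13 : J ((1 / 2 : ℂ) • (w k + w j)) =
        (F (w k + w j) (w k + w j)).re / 8 - ((l (w k)).re + (l (w j)).re) / 2 := by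
      simp only [hJ]
      rw [h2, chilb_smul_left h2 h3, map_smul, map_add]
      have e1 : (starRingEnd ℂ) (1 / 2 : ℂ) = ((1 / 2 : ℝ) : ℂ) := by
        have : (1 / 2 : ℂ) = ((1 / 2 : ℝ) : ℂ) := by norm_num
        rw [this, Complex.conj_ofReal]
      have e2 : (1 / 2 : ℂ) = ((1 / 2 : ℝ) : ℂ) := by norm_num
      rw [e1, e2, smul_eq_mul, Complex.re_ofReal_mul, Complex.re_ofReal_mul,
        Complex.re_ofReal_mul, Complex.add_re]
      ring
    have h14 := hone k hk
    have h15 := hone j hj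
    simp only [hJ] at h14 h15
    rw [h13, h12] at h10
    rw [h11]
    linarith
  · intro φ
    have h16 : Tendsto (fun k => ((F (w k) φ).re : ℂ) + ((F (w k) φ).im : ℂ) * Complex.I) atTop
        (𝓝 (((l φ).re : ℂ) + ((l φ).im : ℂ) * Complex.I)) :=
      ((Complex.continuous_ofReal.tendsto _).comp (hre φ)).add
        (((Complex.continuous_ofReal.tendsto _).comp (him φ)).mul_const _)
    simpa [Complex.re_add_im] using h16

end CHilb

end Vale.Agent.P088.EYM
end
end

section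

/-!
# P088-EYM, block C: the energy relation for one pair
-/

open Bundle Manifold MeasureTheory Set Filter Topology
open scoped ContDiff

noncomputable section

namespace Vale.Agent.P088.EYM

universe u

set_option linter.unusedSectionVars false

section

variable {n N : ℕ} [NeZero n]

theorem CRel1_rel (z : E n) (r : ℝ) : RelOpen (HB z r) := ⟨Metric.ball z r, Metric.isOpen_ball, rfl⟩

theorem CRel1_meas {D : Set (E n)} (hD : RelOpen D) : MeasurableSet D := by
  obtain ⟨O, hO, rfl⟩ := hD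
  exact hO.measurableSet.inter isClosed_Hs.measurableSet

theorem CRel1_HB_mono (z : E n) {r r₀ : ℝ} (h : r ≤ r₀) : HB z r ⊆ HB z r₀ :=
  inter_subset_inter_left _ (Metric.ball_subset_ball h)

theorem CRel1_cb_sub (z : E n) {r r₀ : ℝ} (h : r < r₀) : Metric.closedBall z r ∩ Hs n ⊆ HB z r₀ :=
  inter_subset_inter_left _ (Metric.closedBall_subset_ball h)

theorem CRel1_cb_compact (z : E n) (r : ℝ) : IsCompact (Metric.closedBall z r ∩ Hs n) :=
  (isCompact_closedBall z r).inter_right isClosed_Hs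

open Classical in
/-- extension by zero -/
def CRel1_ext (z : E n) (r : ℝ) (c : E n → Fib N) (y : E n) : Fib N :=
  if y ∈ Metric.ball z r then c y else 0

theorem CRel1_ext_in {z : E n} {r : ℝ} (c : E n → Fib N) {y : E n} (h : y ∈ Metric.ball z r) :
    CRel1_ext z r c y = c y := if_pos h

theorem CRel1_ext_out {z : E n} {r : ℝ} (c : E n → Fib N) {y : E n} (h : y ∉ Metric.ball z r) :
    CRel1_ext z r c y = 0 := if_neg h

theorem CRel1_ext_zero {z : E n} {r r' : ℝ} {c : E n → Fib N}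
    (h0 : ∀ x ∈ HB z r, x ∉ Metric.ball z r' → c x = 0) {y : E n} (hy : y ∈ Hs n)
    (h : y ∉ Metric.closedBall z r') : CRel1_ext z r c y = 0 := by
  by_cases hb : y ∈ Metric.ball z r
  · rw [CRel1_ext_in c hb]
    exact h0 y ⟨hb, hy⟩ fun h' => h (Metric.ball_subset_closedBall h')
  · exact CRel1_ext_out c hb

theorem CRel1_ext_smooth {z : E n} {r r₀ : ℝ} {c : E n → Fib N} (hc : TstH z r c) :
    ContDiffOn ℝ ∞ (CRel1_ext z r c) (HB z r₀) := by
  obtain ⟨hcs, r', hr', h0⟩ := hc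
  refine (CRel1_rel z r₀).contDiffOn_of fun y hy => ?_
  by_cases hb : y ∈ Metric.ball z r
  · have h1 : ContDiffWithinAt ℝ ∞ c (Hs n) y := (CRel1_rel z r).contDiffWithinAt ⟨hb, hy.2⟩ hcs
    refine h1.congr_of_eventuallyEq ?_ (CRel1_ext_in c hb)
    filter_upwards [mem_nhdsWithin_of_mem_nhds (Metric.isOpen_ball.mem_nhds hb)] with x hx
    exact CRel1_ext_in c hx
  · have hcb : y ∉ Metric.closedBall z r' := by
      intro h
      exact hb (Metric.closedBall_subset_ball hr' h)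
    have h1 : ContDiffWithinAt ℝ ∞ (fun _ => (0 : Fib N)) (Hs n) y := contDiffWithinAt_const
    refine h1.congr_of_eventuallyEq ?_ (CRel1_ext_zero h0 hy.2 hcb)
    filter_upwards [mem_nhdsWithin_of_mem_nhds
      (Metric.isClosed_closedBall.isOpen_compl.mem_nhds hcb), self_mem_nhdsWithin] with x hx hx'
    exact CRel1_ext_zero h0 hx' hx

theorem CRel1_ed_congr {D : Set (E n)} (hD : RelOpen D) (L : LD n N) {c c' d d' : E n → Fib N}
    (h : EqOn c c' D) (h' : EqOn d d' D) {x : E n} (hx : x ∈ D) : ed L c d x = ed L c' d' x := by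
  unfold ed nab
  simp only [hD.pd_congr h hx, h hx, hD.pd_congr h' hx, h' hx]

theorem CRel1_En_congr {D : Set (E n)} (hD : RelOpen D) (L : LD n N) {c c' d d' : E n → Fib N}
    (h : EqOn c c' D) (h' : EqOn d d' D) : En L D c d = En L D c' d' := by
  unfold En
  exact setIntegral_congr_fun (CRel1_meas hD) fun x hx => CRel1_ed_congr hD L h h' hx

theorem CRel1_Lop_congr {D : Set (E n)} (hD : RelOpen D) (L : LD n N) {c c' : E n → Fib N}
    (h : EqOn c c' D) {x : E n} (hx : x ∈ D) : Lop L c x = Lop L c' x := by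
  have hf : ∀ j, EqOn (flux L j c) (flux L j c') D := by
    intro j y hy
    unfold flux nab
    simp only [hD.pd_congr h hy, h hy]
  unfold Lop
  simp only [hD.pd_congr (hf _) hx, hf _ hx]

theorem CRel1_ed_zero {D : Set (E n)} (hD : RelOpen D) (L : LD n N) {c : E n → Fib N}
    (d : E n → Fib N) (h : ∀ x ∈ D, c x = 0) {x : E n} (hx : x ∈ D) : ed L c d x = 0 := by
  have h1 : EqOn c (fun _ => (0 : Fib N)) D := h
  have h2 : ∀ j, nab L j c x = 0 := by
    intro j
    unfold nab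
    rw [hD.pd_congr h1 hx, pd_const, h x hx, map_zero, add_zero]
  unfold ed
  simp [h2]

theorem CRel1_En_ext (L : LD n N) {z : E n} {r r₀ : ℝ} (hr : r ≤ r₀) {c : E n → Fib N}
    (hc : TstH z r c) (d : E n → Fib N) :
    En L (HB z r₀) (CRel1_ext z r c) d = En L (HB z r) c d := by
  have h1 : En L (HB z r) c d = En L (HB z r) (CRel1_ext z r c) d :=
    CRel1_En_congr (CRel1_rel z r) L (fun y hy => (CRel1_ext_in c hy.1).symm) fun y _ => rfl
  rw [h1]
  obtain ⟨-, r', hr', h0⟩ := hc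
  unfold En
  refine setIntegral_eq_of_subset_of_forall_sdiff_eq_zero (CRel1_meas (CRel1_rel z r₀))
    (CRel1_HB_mono z hr) fun x hx => ?_
  have hxb : x ∉ Metric.closedBall z r' := fun h =>
    hx.2 ⟨Metric.closedBall_subset_ball hr' h, hx.1.2⟩
  have hU : RelOpen ((Metric.closedBall z r')ᶜ ∩ HB z r₀) :=
    (CRel1_rel z r₀).univ_inter Metric.isClosed_closedBall.isOpen_compl
  exact CRel1_ed_zero hU L d (fun y hy => CRel1_ext_zero h0 hy.2.2 hy.1) ⟨hxb, hx.1⟩

theorem CRel1_relX {D : Set (E n)} (hD : RelOpen D) {X : E n → E n} (hX : ContinuousOn X D)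
    {U : Set (E n)} (hU : IsOpen U) : RelOpen (D ∩ X ⁻¹' U) := by
  obtain ⟨O, hO, rfl⟩ := hD
  obtain ⟨O', hO', h⟩ := continuousOn_iff'.1 hX U hU
  refine ⟨O' ∩ O, hO'.inter hO, ?_⟩
  rw [inter_comm, h, inter_assoc]

/-- restriction of a pull back -/
theorem CRel1_pull {L L' : LD n N} {D : Set (E n)} {z : E n} {r r₀ : ℝ} (hr : r ≤ r₀)
    {X Y : E n → E n} {S : E n → EndF N} (h : IsPull L L' D (HB z r₀) X Y S) :
    IsPull L L' (D ∩ X ⁻¹' Metric.ball z r) (HB z r) X Y S where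
  diffeo :=
    { mapsX := fun x hx => ⟨hx.2, (h.diffeo.mapsX hx.1).2⟩
      mapsY := fun y hy => by
        have hy' := CRel1_HB_mono z hr hy
        refine ⟨h.diffeo.mapsY hy', ?_⟩
        rw [mem_preimage, h.diffeo.inv2 y hy']
        exact hy.1
      inv1 := fun x hx => h.diffeo.inv1 x hx.1
      inv2 := fun y hy => h.diffeo.inv2 y (CRel1_HB_mono z hr hy)
      smX := h.diffeo.smX.mono inter_subset_left
      smY := h.diffeo.smY.mono (CRel1_HB_mono z hr) }
  smS := h.smS.mono inter_subset_left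
  unit := fun x hx => h.unit x hx.1
  g_eq := fun x hx => h.g_eq x hx.1
  B_eq := fun x hx => h.B_eq x hx.1
  h_eq := fun x hx => h.h_eq x hx.1

/-- the local estimate -/
theorem CRel1_bound (hGreen : AGreen_statement) (hHardy : AHardy_statement) (L : LD n N)
    (z : E n) (r r₀ : ℝ) (hz : z 0 = 0) (hL : L.Ok (HB z r₀)) (hr : 0 < r) (hr₀ : r < r₀) :
    ∃ C : ℝ, 0 ≤ C ∧ ∀ c e : E n → Fib N, TstH z r c → ContDiffOn ℝ ∞ e (HB z r₀) →
      (∀ x ∈ HB z r₀, x 0 = 0 → e x = 0) → 0 ≤ (En L (HB z r) e e).re →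
      ‖En L (HB z r) c e‖ ≤ C / 2 * Rem L z r c ^ 2 + 1 / 2 * (En L (HB z r) e e).re := by
  obtain ⟨CH, hCH⟩ := hHardy n N L z r₀ hz hL r hr hr₀
  obtain ⟨H, hH⟩ := (CRel1_cb_compact z r).exists_bound_of_continuousOn
    (hL.h_smooth.continuousOn.mono (CRel1_cb_sub z hr₀))
  have hLr : L.Ok (HB z r) := CHarm_ok_mono hL (CRel1_HB_mono z hr₀.le)
  set C₁ : ℝ := max CH 1 with hC₁
  have hC₁1 : 1 ≤ C₁ := le_max_right _ _
  have hC₁0 : 0 < C₁ := by linarith
  refine ⟨C₁ * H ^ 2, by positivity, fun c e hc he he0 hpos => ?_⟩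
  obtain ⟨hint, hle⟩ := hCH e he he0
  have hsub : HB z r ⊆ Metric.closedBall z r ∩ Hs n :=
    inter_subset_inter_left _ Metric.ball_subset_closedBall
  have hm : MeasurableSet (HB z r) := CRel1_meas (CRel1_rel z r)
  -- bound of Lop
  have hLs : ContDiffOn ℝ ∞ (Lop L (CRel1_ext z r c)) (HB z r₀) :=
    CHarm_Lop_smooth (CRel1_rel z r₀) hL (CRel1_ext_smooth hc)
  obtain ⟨B, hB⟩ := (CRel1_cb_compact z r).exists_bound_of_continuousOn
    (hLs.continuousOn.mono (CRel1_cb_sub z hr₀))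
  have hLeq : ∀ x ∈ HB z r, Lop L c x = Lop L (CRel1_ext z r c) x := fun x hx =>
    CRel1_Lop_congr (CRel1_rel z r) L (fun y hy => (CRel1_ext_in c hy.1).symm) hx
  have hLc : ContinuousOn (Lop L c) (HB z r) :=
    (hLs.continuousOn.mono (CRel1_HB_mono z hr₀.le)).congr hLeq
  have hx0 : Continuous (fun x : E n => x 0) := continuous_coord 0
  have hfin : volume (HB z r) ≠ ⊤ :=
    ((measure_mono inter_subset_left).trans_lt Metric.isBounded_ball.measure_lt_top).ne
  have hintR : IntegrableOn (fun x => (x 0) ^ 2 * ‖Lop L c x‖ ^ 2) (HB z r) := by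
    obtain ⟨B0, hB0⟩ := (isCompact_closedBall z r).exists_bound_of_continuousOn hx0.continuousOn
    have : IsFiniteMeasure (volume.restrict (HB z r)) :=
      ⟨by rw [Measure.restrict_apply_univ]; exact hfin.lt_top⟩
    refine Integrable.of_bound (C := B0 ^ 2 * B ^ 2) ?_ ?_
    · have h0 : ContinuousOn (fun x : E n => (x 0) ^ 2 * ‖Lop L c x‖ ^ 2) (HB z r) :=
        (hx0.continuousOn.pow 2).mul (hLc.norm.pow 2)
      exact h0.aestronglyMeasurable hm
    · refine (ae_restrict_iff' hm).2 (Eventually.of_forall fun x hx => ?_)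
      have h1 := hB0 x (hsub hx).1
      have h2 := hB x (hsub hx)
      rw [← hLeq x hx] at h2
      rw [norm_mul, norm_pow, norm_pow, norm_norm]
      exact mul_le_mul (pow_le_pow_left₀ (norm_nonneg _) h1 2)
        (pow_le_pow_left₀ (norm_nonneg _) h2 2) (by positivity) (by positivity)
  have hRem : Rem L z r c ^ 2 = ∫ x in HB z r, (x 0) ^ 2 * ‖Lop L c x‖ ^ 2 := by
    unfold Rem
    rw [Real.sq_sqrt]
    exact setIntegral_nonneg hm fun x _ => by positivity
  -- Green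
  have hG := hGreen n N L z r hr hLr c e (hc.1.of_le (by norm_cast))
    ((he.mono (CRel1_HB_mono z hr₀.le)).of_le (by norm_cast)) hc.2
    (fun x hx h => he0 x (CRel1_HB_mono z hr₀.le hx) h)
  rw [hG, norm_neg]
  have hbd : ∀ x ∈ HB z r, ‖(inner ℂ (Lop L c x) (L.h x (e x)) : ℂ)‖ ≤
      C₁ * H ^ 2 / 2 * ((x 0) ^ 2 * ‖Lop L c x‖ ^ 2) +
        1 / (2 * C₁) * (‖e x‖ ^ 2 / (x 0) ^ 2) := by
    intro x hx
    have hHx := hH x (hsub hx)
    have hH0 : 0 ≤ H := (norm_nonneg _).trans hHx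
    have h1 : ‖(inner ℂ (Lop L c x) (L.h x (e x)) : ℂ)‖ ≤ ‖Lop L c x‖ * (H * ‖e x‖) := by
      refine (norm_inner_le_norm _ _).trans (mul_le_mul_of_nonneg_left ?_ (norm_nonneg _))
      exact ((L.h x).le_opNorm (e x)).trans (mul_le_mul_of_nonneg_right hHx (norm_nonneg _))
    by_cases h0 : x 0 = 0
    · have h2 : e x = 0 := he0 x (CRel1_HB_mono z hr₀.le hx) h0
      have h3 : ‖Lop L c x‖ * (H * ‖e x‖) = 0 := by rw [h2, norm_zero, mul_zero, mul_zero]
      rw [h3] at h1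
      refine h1.trans ?_
      positivity
    · have hp : 0 < x 0 := lt_of_le_of_ne hx.2 (Ne.symm h0)
      refine h1.trans ?_
      set a : ℝ := ‖Lop L c x‖ with ha
      set b : ℝ := ‖e x‖ / x 0 with hb
      have e1 : ‖e x‖ = b * x 0 := by rw [hb]; field_simp
      have e2 : ‖e x‖ ^ 2 / (x 0) ^ 2 = b ^ 2 := by rw [hb, div_pow]
      rw [e2, e1]
      have h3 : 0 ≤ (C₁ * H * (x 0 * a) - b) ^ 2 / (2 * C₁) := by positivity
      have h4 : (C₁ * H * (x 0 * a) - b) ^ 2 / (2 * C₁) =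
          C₁ * H ^ 2 / 2 * ((x 0) ^ 2 * a ^ 2) + 1 / (2 * C₁) * b ^ 2 - a * (H * (b * x 0)) := by
        field_simp
        ring
      linarith
  have hle2 : ‖∫ x in HB z r, (inner ℂ (Lop L c x) (L.h x (e x)) : ℂ)‖ ≤
      ∫ x in HB z r, (C₁ * H ^ 2 / 2 * ((x 0) ^ 2 * ‖Lop L c x‖ ^ 2) +
        1 / (2 * C₁) * (‖e x‖ ^ 2 / (x 0) ^ 2)) :=
    norm_integral_le_of_norm_le ((hintR.const_mul _).add (hint.const_mul _))
      ((ae_restrict_iff' hm).2 (Eventually.of_forall hbd))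
  rw [integral_add (hintR.const_mul _) (hint.const_mul _), integral_const_mul,
    integral_const_mul, ← hRem] at hle2
  refine hle2.trans ?_
  have h5 : 1 / (2 * C₁) * ∫ x in HB z r, ‖e x‖ ^ 2 / (x 0) ^ 2 ≤
      1 / 2 * (En L (HB z r) e e).re := by
    have h6 : ∫ x in HB z r, ‖e x‖ ^ 2 / (x 0) ^ 2 ≤ C₁ * (En L (HB z r) e e).re :=
      hle.trans (mul_le_mul_of_nonneg_right (le_max_left _ _) hpos)
    calc 1 / (2 * C₁) * ∫ x in HB z r, ‖e x‖ ^ 2 / (x 0) ^ 2
        ≤ 1 / (2 * C₁) * (C₁ * (En L (HB z r) e e).re) :=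
          mul_le_mul_of_nonneg_left h6 (by positivity)
      _ = 1 / 2 * (En L (HB z r) e e).re := by field_simp
  linarith

end

section

variable {n N : ℕ} [NeZero n] {M : Type u} [TopologicalSpace M]
  [ChartedSpace (EuclideanHalfSpace n) M] [IsManifold (𝓡∂ n) ∞ M] [MeasurableSpace M]

theorem CRel1_cov (P : One n N M) (p : M) {u : M → Fib N} (hu : SmS n u) {y : E n}
    (hy : y ∈ tg n p) (j : Fin n) :
    nab (P.loc p) j (lu (𝓡∂ n) p u) y =
      cov P.A u ((xc n p).symm y) (coordVec (𝓡∂ n) p ((xc n p).symm y) j) := by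
  have hx : (xc n p).symm y ∈ (extChartAt (𝓡∂ n) p).source := (xc n p).map_target hy
  have hr : range (𝓡∂ n) = Hs n := range_modelWithCornersEuclideanHalfSpace n
  unfold nab cov
  rw [dmap_coordVec (𝓡∂ n) hx (hu.mdifferentiableAt (by simp)), hr, (xc n p).right_inv hy]
  rfl

theorem CRel1_ed_nonneg (P : One n N M) (p : M) {u : M → Fib N} (hu : SmS n u) {y : E n}
    (hy : y ∈ tg n p) : 0 ≤ (ed (P.loc p) (lu (𝓡∂ n) p u) (lu (𝓡∂ n) p u) y).re := by
  have hx : (xc n p).symm y ∈ (extChartAt (𝓡∂ n) p).source := (xc n p).map_target hy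
  have e : ed (P.loc p) (lu (𝓡∂ n) p u) (lu (𝓡∂ n) p u) y =
      (Real.sqrt ((P.loc p).g y).det : ℂ) * pairing P.g P.A u u ((xc n p).symm y) := by
    rw [pairing_eq P.g P.A u u hx]
    unfold ed
    rw [Finset.mul_sum]
    refine Finset.sum_congr rfl fun j _ => ?_
    rw [Finset.mul_sum]
    refine Finset.sum_congr rfl fun k _ => ?_
    rw [CRel1_cov P p hu hy j, CRel1_cov P p hu hy k]
    have h1 : gg (P.loc p).g j k y = Real.sqrt ((P.loc p).g y).det *
        (gram P.g p ((xc n p).symm y))⁻¹ j k := rfl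
    have h2 : ∀ w : Fib N, (P.loc p).h y w = w := fun w => rfl
    rw [h1, h2, Complex.ofReal_mul, Complex.real_smul, mul_assoc]
  rw [e, Complex.re_ofReal_mul, pairing_eq_rp, rp_re]
  exact mul_nonneg (Real.sqrt_nonneg _) (rp_nonneg P.g _ (covI P.A u _))

theorem CRel1_Z (hExt : CExt_statement.{u}) (hLoc : CLoc_statement.{u}) [T2Space M]
    (P : One n N M) (Γ : Set M) (q : M) (z : E n) (r₀ κ α β : ℝ) (j0 : Fin N)
    (W : Model n N) (D : Set (E n)) (X Y : E n → E n) (S : E n → EndF N) (s : Fin N → M → Fib N)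
    (t : Fin n → M → Fib N) (h : BdM P Γ q z r₀ κ α β j0 W D X Y S s t) (r : ℝ)
    (hr₀ : r < r₀) (c : E n → Fib N) (hc : TstH z r c) :
    ∃ u : M → Fib N, SmS n u ∧ tsupport u ⊆ (xc n q).symm '' D ∧
      (∀ x ∈ D, u ((xc n q).symm x) = S x (CRel1_ext z r c (X x))) ∧
      (∀ y ∈ HB z r, y 0 = 0 → u ((xc n q).symm y) = c y) ∧
      (∀ m ∈ (𝓡∂ n).boundary M, (∀ y ∈ HB z r, y 0 = 0 → m ≠ (xc n q).symm y) → u m = 0) ∧
      IsBdryData (𝓡∂ n) Γ u := by
  obtain ⟨-, -, hbd, -⟩ := hLoc n N M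
  obtain ⟨hcs, r', hr', h0⟩ := id hc
  have hK0 : Metric.closedBall z r' ∩ Hs n ⊆ HB z r₀ := CRel1_cb_sub z (hr'.trans hr₀)
  set K : Set (E n) := Y '' (Metric.closedBall z r' ∩ Hs n) with hK
  have hKc : IsCompact K :=
    (CRel1_cb_compact z r').image_of_continuousOn (h.pull.diffeo.smY.continuousOn.mono hK0)
  have hKD : K ⊆ D := by
    rintro x ⟨y, hy, rfl⟩
    exact h.pull.diffeo.mapsY (hK0 hy)
  have hKX : ∀ x ∈ K, X x ∈ Metric.closedBall z r' ∩ Hs n := by
    rintro x ⟨y, hy, rfl⟩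
    rw [h.pull.diffeo.inv2 y (hK0 hy)]
    exact hy
  have hzero : ∀ x ∈ D, x ∉ K → S x (CRel1_ext z r c (X x)) = 0 := by
    intro x hx hxK
    have hX := h.pull.diffeo.mapsX hx
    have h1 : X x ∉ Metric.closedBall z r' := by
      intro h2
      exact hxK ⟨X x, ⟨h2, hX.2⟩, h.pull.diffeo.inv1 x hx⟩
    rw [CRel1_ext_zero h0 hX.2 h1, map_zero]
  have hsm : ContDiffOn ℝ ∞ (fun x => S x (CRel1_ext z r c (X x))) D :=
    smooth_eval h.pull.smS ((CRel1_ext_smooth (r₀ := r₀) hc).comp h.pull.diffeo.smX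
      h.pull.diffeo.mapsX)
  obtain ⟨u, hu1, hu2, hu3, hu4⟩ := hExt n N M q _ D K h.rel h.sub hsm hKc hKD hzero
  -- points of the boundary
  have hflat : ∀ m ∈ (𝓡∂ n).boundary M, u m ≠ 0 → ∃ x ∈ K, x 0 = 0 ∧ m = (xc n q).symm x := by
    intro m hm hne
    by_contra hcon
    refine hne (hu3 m ?_)
    rintro ⟨x, hx, rfl⟩
    have h1 := (hbd q ((xc n q).symm x) ((xc n q).map_target (h.sub (hKD hx)))).1 hm
    rw [(xc n q).right_inv (h.sub (hKD hx))] at h1
    exact hcon ⟨x, hx, h1, rfl⟩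
  refine ⟨u, hu1, hu4.trans (image_mono hKD), hu2, ?_, ?_, ⟨hu1, ?_⟩⟩
  · intro y hy hy0
    obtain ⟨hyD, hXy, -, hSy, -⟩ := h.bd y (CRel1_HB_mono z hr₀.le hy) hy0
    rw [hu2 y hyD, hXy, hSy, CRel1_ext_in c hy.1]
    rfl
  · intro m hm hmy
    by_contra hne
    obtain ⟨x, hxK, hx0, rfl⟩ := hflat m hm hne
    have h1 := h.bdD x (hKD hxK) hx0
    obtain ⟨-, hXx, -, -, -⟩ := h.bd x h1 hx0
    have h2 := hKX x hxK
    rw [hXx] at h2
    exact hmy x ⟨Metric.closedBall_subset_ball hr' h2.1, h2.2⟩ hx0 rfl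
  · have hPl : IsClosed {x : E n | x 0 = 0} := isClosed_eq (continuous_coord 0) continuous_const
    have hKP : IsCompact (K ∩ {x : E n | x 0 = 0}) := hKc.inter_right hPl
    have hcomp : IsCompact ((xc n q).symm '' (K ∩ {x : E n | x 0 = 0})) :=
      hKP.image_of_continuousOn ((continuousOn_extChartAt_symm q).mono
        (inter_subset_left.trans (hKD.trans h.sub)))
    refine (closure_minimal ?_ hcomp.isClosed).trans ?_
    · rintro m ⟨hm, hne⟩
      obtain ⟨x, hxK, hx0, rfl⟩ := hflat m hm hne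
      exact ⟨x, ⟨hxK, hx0⟩, rfl⟩
    · rintro m ⟨x, ⟨hxK, hx0⟩, rfl⟩
      exact (h.bd x (h.bdD x (hKD hxK) hx0) hx0).2.2.2.2

end

theorem cRel1 : AGreen_statement → AHardy_statement → BEnergy_statement → CExt_statement.{u} →
    CEnergy_statement.{u} → CUniq_statement.{u} → CForm_statement.{u} → CLoc_statement.{u} →
    CRel1_statement.{u} := by
  intro hGreen hHardy hBE hExt hCE hUniq hForm hLoc n N _ M _ _ _ _ _ _ _ _ P Γ q z r₀ κ α β j0
    W D X Y S s t h hSol hRel hne r hr hr₀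
  obtain ⟨-, hOk, hbd, hsmc⟩ := hLoc n N M
  have hbne : ((𝓡∂ n).boundary M).Nonempty := by
    obtain ⟨O, -, hO⟩ := hRel
    obtain ⟨m, hm⟩ := hne
    rw [hO] at hm
    exact ⟨m, hm.2⟩
  obtain ⟨-, -, hU3⟩ := hUniq n N M P hbne
  obtain ⟨hF1, hF2, hF3, hF4, hF5⟩ := hForm n N M P
  have hLq : (P.loc q).Ok D := CHarm_ok_mono (hOk P q) h.sub
  have hLW : W.toLD.Ok (HB z r₀) := h.model.ok
  obtain ⟨C, hC0, hC⟩ := CRel1_bound hGreen hHardy W.toLD z r r₀ h.z0 hLW hr hr₀
  choose! Z hZ using fun (c : E n → Fib N) (hc : TstH z r c) =>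
    CRel1_Z hExt hLoc P Γ q z r₀ κ α β j0 W D X Y S s t h r hr₀ c hc
  -- the energy identity
  have hEid : ∀ c, TstH z r c → ∀ v : M → Fib N, SmS n v → ∀ d : E n → Fib N,
      ContDiffOn ℝ ∞ d (HB z r₀) → (∀ x ∈ D, lu (𝓡∂ n) q v x = S x (d (X x))) →
      P.E (Z c) v = En W.toLD (HB z r) c d := by
    intro c hc v hv d hd hvd
    obtain ⟨hZ1, hZ2, hZ3, -⟩ := hZ c hc
    rw [(hCE n N M P q D h.rel h.sub).1 (Z c) v hZ1 hv (Or.inl hZ2)]
    have e1 : EqOn (lu (𝓡∂ n) q (Z c)) (fun x => S x (CRel1_ext z r c (X x))) D := hZ3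
    have e2 : EqOn (lu (𝓡∂ n) q v) (fun x => S x (d (X x))) D := hvd
    rw [CRel1_En_congr h.rel _ e1 e2,
      hBE n N (P.loc q) W.toLD D (HB z r₀) X Y S h.rel (CRel1_rel z r₀) hLq hLW h.pull
        (CRel1_ext z r c) d ((CRel1_ext_smooth hc).of_le (by norm_cast))
        (hd.of_le (by norm_cast)), CRel1_En_ext W.toLD hr₀.le hc d]
  refine ⟨C, hC0, Z, ?_, hEid, ?_⟩
  · intro c hc
    obtain ⟨hZ1, hZ2, hZ3, hZ4, hZ5, hZ6⟩ := hZ c hc
    refine ⟨hZ1, hZ2, fun x hx => ⟨fun hX => ?_, fun hX => ?_⟩, hZ4, hZ5, hZ6⟩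
    · rw [hZ3 x hx, CRel1_ext_in c hX]
    · rw [hZ3 x hx, CRel1_ext_out c hX, map_zero]
  -- linearity
  have hzeroR : ∀ w : M → Fib N, SmS n w → P.E w 0 = 0 := by
    intro w hw
    have h1 := hF2 0 w w hw hw
    rw [zero_smul, zero_mul] at h1
    exact h1
  have hsm0 : SmS n (0 : M → Fib N) := contMDiff_const
  have hsub : ∀ {a b : M → Fib N}, SmS n a → SmS n b → SmS n (a - b) := fun ha hb => ha.sub hb
  have haddL : ∀ a b w : M → Fib N, SmS n a → SmS n b → SmS n w →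
      P.E (a + b) w = P.E a w + P.E b w := by
    intro a b w ha hb hw
    have hab : SmS n (a + b) := ha.add hb
    rw [hF3 w (a + b) hw hab, hF1 w a b hw ha hb, map_add, ← hF3 w a hw ha, ← hF3 w b hw hb]
  -- the remainder
  have hR : ∀ c, TstH z r c → ∀ u : M → Fib N, P.Harm (Z c) u →
      0 ≤ (P.E (Z c - u) (Z c - u)).re ∧
      (P.E (Z c - u) (Z c - u)).re ≤ C * Rem W.toLD z r c ^ 2 := by
    intro c hc u hu
    obtain ⟨hZ1, hZ2, hZ3, hZ4, hZ5, hZ6⟩ := hZ c hc
    have hus : SmS n u := hu.smooth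
    have hrs : SmS n (Z c - u) := hsub hZ1 hus
    have hrb : ∀ m ∈ (𝓡∂ n).boundary M, (Z c - u) m = 0 := by
      intro m hm
      rw [Pi.sub_apply, hu.boundary m hm, sub_self]
    have hur : P.E u (Z c - u) = 0 := by
      rw [(hU3 (Z c) u (Z c - u) 0 hu hrs hsm0 (fun m hm => hrb m hm)).1, hzeroR u hus]
    have hEw : P.E (Z c) (Z c - u) = P.E (Z c - u) (Z c - u) := by
      have h1 := haddL (Z c - u) u (Z c - u) hrs hus hrs
      rw [sub_add_cancel, hur, add_zero] at h1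
      exact h1
    set w : M → Fib N := Z c - u with hw
    have hlw : ContDiffOn ℝ ∞ (lu (𝓡∂ n) q w) D := (hsmc w hrs q).mono h.sub
    have he : ContDiffOn ℝ ∞ (fun y => Ring.inverse (S (Y y)) (lu (𝓡∂ n) q w (Y y)))
        (HB z r₀) :=
      smooth_eval (smooth_ringInverse (h.pull.smS.comp h.pull.diffeo.smY h.pull.diffeo.mapsY)
        fun y hy => h.pull.unit _ (h.pull.diffeo.mapsY hy))
        (hlw.comp h.pull.diffeo.smY h.pull.diffeo.mapsY)
    set e : E n → Fib N := fun y => Ring.inverse (S (Y y)) (lu (𝓡∂ n) q w (Y y)) with hedef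
    have hle : ∀ x ∈ D, lu (𝓡∂ n) q w x = S x (e (X x)) := by
      intro x hx
      have h1 : e (X x) = Ring.inverse (S x) (lu (𝓡∂ n) q w x) := by
        rw [hedef]
        simp only [h.pull.diffeo.inv1 x hx]
      have h2 : S x * Ring.inverse (S x) = 1 := Ring.mul_inverse_cancel _ (h.pull.unit x hx)
      have h3 : S x (Ring.inverse (S x) (lu (𝓡∂ n) q w x)) =
          (S x * Ring.inverse (S x)) (lu (𝓡∂ n) q w x) := rfl
      rw [h1, h3, h2]
      rfl
    have he0 : ∀ y ∈ HB z r₀, y 0 = 0 → e y = 0 := by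
      intro y hy hy0
      obtain ⟨hyD, -, hYy, -, -⟩ := h.bd y hy hy0
      have hyt := h.sub hyD
      have hm : (xc n q).symm y ∈ (𝓡∂ n).boundary M := by
        refine (hbd q _ ((xc n q).map_target hyt)).2 ?_
        rw [(xc n q).right_inv hyt]
        exact hy0
      have h1 : lu (𝓡∂ n) q w y = 0 := hrb _ hm
      have h2 : e y = Ring.inverse (S (Y y)) (lu (𝓡∂ n) q w (Y y)) := rfl
      rw [h2, hYy, h1, map_zero]
    have hE2 : P.E (Z c) w = En W.toLD (HB z r) c e := hEid c hc w hrs e he hle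
    -- the energy of the remainder
    have hD' : RelOpen (D ∩ X ⁻¹' Metric.ball z r) :=
      CRel1_relX h.rel h.pull.diffeo.smX.continuousOn Metric.isOpen_ball
    have hD't : D ∩ X ⁻¹' Metric.ball z r ⊆ tg n q := inter_subset_left.trans h.sub
    have hE3 : En (P.loc q) (D ∩ X ⁻¹' Metric.ball z r) (lu (𝓡∂ n) q w) (lu (𝓡∂ n) q w) =
        En W.toLD (HB z r) e e := by
      have e1 : EqOn (lu (𝓡∂ n) q w) (fun x => S x (e (X x))) (D ∩ X ⁻¹' Metric.ball z r) :=
        fun x hx => hle x hx.1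
      have her : ContDiffOn ℝ 1 e (HB z r) :=
        (he.mono (CRel1_HB_mono z hr₀.le)).of_le (by norm_cast)
      rw [CRel1_En_congr hD' _ e1 e1]
      exact hBE n N (P.loc q) W.toLD _ (HB z r) X Y S hD' (CRel1_rel z r)
        (CHarm_ok_mono hLq inter_subset_left) (CHarm_ok_mono hLW (CRel1_HB_mono z hr₀.le))
        (CRel1_pull hr₀.le h.pull) e e her her
    obtain ⟨hle1, hint⟩ := (hCE n N M P q _ hD' hD't).2 w hrs
    rw [hE3] at hle1
    have hpos : 0 ≤ (En W.toLD (HB z r) e e).re := by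
      rw [← hE3]
      unfold En
      have h1 : (∫ x in D ∩ X ⁻¹' Metric.ball z r,
          ed (P.loc q) (lu (𝓡∂ n) q w) (lu (𝓡∂ n) q w) x).re =
          ∫ x in D ∩ X ⁻¹' Metric.ball z r,
            (ed (P.loc q) (lu (𝓡∂ n) q w) (lu (𝓡∂ n) q w) x).re :=
        (Complex.reCLM.integral_comp_comm hint).symm
      rw [h1]
      exact setIntegral_nonneg (CRel1_meas hD') fun x hx => CRel1_ed_nonneg P q hrs (hD't hx)
    have hb := hC c e hc he he0 hpos
    refine ⟨hF4 w hrs, ?_⟩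
    have h1 : (P.E w w).re ≤ ‖P.E w w‖ := Complex.re_le_norm _
    rw [← hEw, hE2] at h1
    have h2 : (P.E w w).re = (En W.toLD (HB z r) c e).re := by rw [← hEw, hE2]
    linarith
  intro c d hc hd u v hu hv
  obtain ⟨hZ1, hZ2, hZ3, hZ4, hZ5, hZ6⟩ := hZ c hc
  obtain ⟨hZ1', hZ2', hZ3', hZ4', hZ5', hZ6'⟩ := hZ d hd
  have key : ∀ c d, TstH z r c → TstH z r d → ∀ u v : M → Fib N, P.Harm (Z c) u →
      P.Harm (Z d) v → En W.toLD (HB z r) c d = P.E (Z c - u) (Z d - v) + P.E u v := by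
    intro c d hc hd u v hu hv
    obtain ⟨hZ1, hZ2, hZ3, hZ4, hZ5, hZ6⟩ := hZ c hc
    obtain ⟨hZ1', hZ2', hZ3', hZ4', hZ5', hZ6'⟩ := hZ d hd
    have hus : SmS n u := hu.smooth
    have hvs : SmS n v := hv.smooth
    have hrs : SmS n (Z c - u) := hsub hZ1 hus
    have hrs' : SmS n (Z d - v) := hsub hZ1' hvs
    have h1 := hEid c hc (Z d) hZ1' (CRel1_ext z r d) (CRel1_ext_smooth hd) hZ3'
    have h2 : En W.toLD (HB z r) c (CRel1_ext z r d) = En W.toLD (HB z r) c d :=
      CRel1_En_congr (CRel1_rel z r) _ (fun _ _ => rfl) fun y hy => CRel1_ext_in d hy.1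
    rw [← h2, ← h1]
    have h3 := haddL (Z c - u) u (Z d) hrs hus hZ1'
    rw [sub_add_cancel] at h3
    have h4 := hF1 (Z c - u) (Z d - v) v hrs hrs' hvs
    rw [sub_add_cancel] at h4
    have h5 := hF1 u (Z d - v) v hus hrs' hvs
    rw [sub_add_cancel] at h5
    have h6 : P.E u (Z d - v) = 0 := by
      rw [(hU3 (Z c) u (Z d - v) 0 hu hrs' hsm0 (fun m hm => by
        rw [Pi.sub_apply, hv.boundary m hm, sub_self]; rfl)).1, hzeroR u hus]
    have h7 : P.E (Z c - u) v = 0 := by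
      rw [(hU3 (Z d) v (Z c - u) 0 hv hrs hsm0 (fun m hm => by
        rw [Pi.sub_apply, hu.boundary m hm, sub_self]; rfl)).2, hF3 v 0 hvs hsm0, hzeroR v hvs,
        map_zero]
    rw [h3, h4, h5, h6, h7]
    ring
  refine ⟨?_, ?_⟩
  · rw [key c d hc hd u v hu hv, add_sub_cancel_right]
    have hrs : SmS n (Z c - u) := hsub hZ1 hu.smooth
    have hrs' : SmS n (Z d - v) := hsub hZ1' hv.smooth
    have h1 := hF5 (Z c - u) (Z d - v) hrs hrs'
    obtain ⟨h2, h3⟩ := hR c hc u hu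
    obtain ⟨h4, h5⟩ := hR d hd v hv
    have h6 : ‖P.E (Z c - u) (Z d - v)‖ ^ 2 ≤
        (C * Rem W.toLD z r c * Rem W.toLD z r d) ^ 2 := by
      refine h1.trans ((mul_le_mul h3 h5 h4 (h2.trans h3)).trans (le_of_eq ?_))
      ring
    have h7 : 0 ≤ C * Rem W.toLD z r c * Rem W.toLD z r d :=
      mul_nonneg (mul_nonneg hC0 (Real.sqrt_nonneg _)) (Real.sqrt_nonneg _)
    have h8 := abs_le_of_sq_le_sq h6 h7
    rwa [abs_norm] at h8
  · rw [key c c hc hc u u hu hu, Complex.add_re]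
    have := (hR c hc u hu).1
    linarith

end Vale.Agent.P088.EYM
end
end

section

/-!
# P088-EYM, block C: the energy relation and the equality of the fluxes
-/

open Bundle Manifold MeasureTheory Set Filter Topology
open scoped ContDiff

noncomputable section

namespace Vale.Agent.P088.EYM

universe u

section local_part

variable {n N : ℕ} [NeZero n]

theorem cERel_okMono {L : LD n N} {D D' : Set (E n)} (h : L.Ok D) (hD : D' ⊆ D) : L.Ok D' where
  g_smooth i j := (h.g_smooth i j).mono hD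
  g_pos x hx := h.g_pos x (hD hx)
  B_smooth i := (h.B_smooth i).mono hD
  h_smooth := h.h_smooth.mono hD
  h_adj x hx := h.h_adj x (hD hx)
  h_pos x hx := h.h_pos x (hD hx)
  compat x hx := h.compat x (hD hx)

theorem cERel_solMono {L : LD n N} {D D' : Set (E n)} {c : E n → Fib N} (h : Sol L D c)
    (hD : D' ⊆ D) : Sol L D' c :=
  ⟨h.1.mono hD, fun x hx => h.2 x (hD hx)⟩

theorem cERel_nab_congr (L : LD n N) {D : Set (E n)} (hD : RelOpen D) {c c' : E n → Fib N}
    (h : EqOn c c' D) (k : Fin n) : EqOn (nab L k c) (nab L k c') D := by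
  intro x hx
  unfold nab
  rw [hD.pd_congr h hx, h hx]

theorem cERel_flux_congr (L : LD n N) {D : Set (E n)} (hD : RelOpen D) {c c' : E n → Fib N}
    (h : EqOn c c' D) (j : Fin n) : EqOn (flux L j c) (flux L j c') D := by
  intro x hx
  unfold flux
  refine Finset.sum_congr rfl fun k _ => ?_
  rw [cERel_nab_congr L hD h k hx]

theorem cERel_lop_congr (L : LD n N) {D : Set (E n)} (hD : RelOpen D) {c c' : E n → Fib N}
    (h : EqOn c c' D) {x : E n} (hx : x ∈ D) : Lop L c x = Lop L c' x := by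
  unfold Lop
  refine Finset.sum_congr rfl fun j _ => ?_
  rw [hD.pd_congr (cERel_flux_congr L hD h j) hx, cERel_flux_congr L hD h j hx]

theorem cERel_sol_congr (L : LD n N) {D : Set (E n)} (hD : RelOpen D) {c c' : E n → Fib N}
    (h : EqOn c c' D) (hc : Sol L D c) : Sol L D c' :=
  ⟨hc.1.congr fun x hx => (h hx).symm, fun x hx => by
    rw [← cERel_lop_congr L hD h hx]; exact hc.2 x hx⟩

theorem cERel_relOpen_HB (z : E n) (r : ℝ) : RelOpen (HB z r) := ⟨_, Metric.isOpen_ball, rfl⟩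

theorem cERel_rem_nonneg (L : LD n N) (z : E n) (r : ℝ) (c : E n → Fib N) : 0 ≤ Rem L z r c :=
  Real.sqrt_nonneg _

theorem cERel_tstH {z : E n} {r : ℝ} {c : E n → Fib N} (h : Tst0 (Metric.ball z r) c) :
    TstH z r c := by
  obtain ⟨h1, h2, h3⟩ := h
  obtain ⟨r', hr', hsub⟩ := exists_lt_subset_ball (isClosed_tsupport c) h3
  exact ⟨h1.contDiffOn, r', hr', fun x _ hx => image_eq_zero_of_notMem_tsupport
    fun hx' => hx (hsub hx')⟩

theorem cERel_arith {C₁ C₂ a b a' b' e₁ e₂ : ℝ} (h1 : 0 ≤ C₁) (h2 : 0 ≤ C₂) (ha : 0 ≤ a)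
    (hb : 0 ≤ b) (ha' : 0 ≤ a') (hb' : 0 ≤ b') (he₁ : e₁ ≤ C₁ * a * a') (he₂ : e₂ ≤ C₂ * b * b') :
    e₁ + e₂ ≤ (C₁ + C₂) * (a + b) * (a' + b') := by
  have p1 := mul_nonneg h1 (mul_nonneg ha hb')
  have p2 := mul_nonneg h1 (mul_nonneg hb ha')
  have p3 := mul_nonneg h1 (mul_nonneg hb hb')
  have p4 := mul_nonneg h2 (mul_nonneg ha ha')
  have p5 := mul_nonneg h2 (mul_nonneg ha hb')
  have p6 := mul_nonneg h2 (mul_nonneg hb ha')
  nlinarith

end local_part

variable {n N : ℕ} [NeZero n] {M : Type u} [TopologicalSpace M]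
  [ChartedSpace (EuclideanHalfSpace n) M] [IsManifold (𝓡∂ n) ∞ M] [MeasurableSpace M]

/-- The section in the model which corresponds to `v`. -/
theorem cERel_side [T2Space M] [CompactSpace M] [BorelSpace M] (hSol : BSol_statement)
    (hHarm : CHarm_statement.{u}) (hLoc : CLoc_statement.{u})
    {P : One n N M} {Γ : Set M} {q : M} {z : E n} {r₀ κ α β : ℝ} {j0 : Fin N} {W : Model n N}
    {D : Set (E n)} {X Y : E n → E n} {S : E n → EndF N} {s : Fin N → M → Fib N}
    {t : Fin n → M → Fib N} (hB : BdM P Γ q z r₀ κ α β j0 W D X Y S s t) {f v : M → Fib N}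
    (hv : P.Harm f v) :
    ContDiffOn ℝ ∞ (fun y => Ring.inverse (S (Y y)) (lu (𝓡∂ n) q v (Y y))) (HB z r₀) ∧
      (∀ x ∈ D, lu (𝓡∂ n) q v x =
        S x ((fun y => Ring.inverse (S (Y y)) (lu (𝓡∂ n) q v (Y y))) (X x))) ∧
      Sol W.toLD (HB z r₀) (fun y => Ring.inverse (S (Y y)) (lu (𝓡∂ n) q v (Y y))) := by
  have hp := hB.pull
  have hd := hp.diffeo
  have hlu : Sol (P.loc q) (tg n q) (lu (𝓡∂ n) q v) := hHarm n N M P f v hv q
  have hok : (P.loc q).Ok (tg n q) := (hLoc n N M).2.1 P q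
  have hsm : ContDiffOn ℝ ∞ (fun y => Ring.inverse (S (Y y)) (lu (𝓡∂ n) q v (Y y)))
      (HB z r₀) := by
    refine smooth_eval ?_ ((hlu.1.mono hB.sub).comp hd.smY hd.mapsY)
    exact smooth_ringInverse (hp.smS.comp hd.smY hd.mapsY) fun y hy => hp.unit _ (hd.mapsY hy)
  have heq : ∀ x ∈ D, lu (𝓡∂ n) q v x =
        S x ((fun y => Ring.inverse (S (Y y)) (lu (𝓡∂ n) q v (Y y))) (X x)) := by
    intro x hx
    simp only
    rw [hd.inv1 x hx]
    have h1 : S x * Ring.inverse (S x) = 1 := Ring.mul_inverse_cancel _ (hp.unit x hx)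
    have h2 := congrArg (fun T : EndF N => T (lu (𝓡∂ n) q v x)) h1
    simp only [ContinuousLinearMap.mul_apply, ContinuousLinearMap.one_apply] at h2
    exact h2.symm
  refine ⟨hsm, heq, ?_⟩
  refine hSol n N (P.loc q) W.toLD D (HB z r₀) X Y S hB.rel (cERel_relOpen_HB z r₀)
    (cERel_okMono hok hB.sub) hB.model.ok hp _ ?_ hsm
  exact cERel_sol_congr _ hB.rel (fun x hx => heq x hx) (cERel_solMono hlu hB.sub)

theorem cERel_h_eq {P : One n N M} {Γ : Set M} {q : M} {z : E n} {r₀ κ α β : ℝ} {j0 : Fin N}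
    {W : Model n N}
    {D : Set (E n)} {X Y : E n → E n} {S : E n → EndF N} {s : Fin N → M → Fib N}
    {t : Fin n → M → Fib N} (hB : BdM P Γ q z r₀ κ α β j0 W D X Y S s t) {x : E n}
    (hx : x ∈ HB z r₀) (hx0 : x 0 = 0) : W.h x = 1 := by
  obtain ⟨h1, h2, h3, h4, h5⟩ := hB.bd x hx hx0
  have h := hB.pull.h_eq x h1
  rw [h2, h4] at h
  rw [← h]
  change ContinuousLinearMap.adjoint (1 : EndF N) * 1 * 1 = 1
  rw [mul_one, mul_one]
  exact ContinuousLinearMap.adjoint_id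

theorem cERel : CRel1_statement.{u} → AFlux_statement → BSol_statement → CData_statement.{u} →
    CHarm_statement.{u} → CUniq_statement.{u} → CLoc_statement.{u} → CERel_statement.{u} := by
  intro hRel hFlux hSol hData hHarm hUniq hLoc
  intro n N _ M _ _ _ _ _ _ _ _ P Q Γ q z r₀ κ₁ κ₂ α β j0 W₁ W₂ D₁ D₂ X₁ Y₁ X₂ Y₂ S₁ S₂ s t
    hB₁ hB₂ hs ht hΓ hΓn hS r hr hrr
  obtain ⟨⟨hPsol, hQsol, hSQ⟩, hD⟩ := hData n N M P Q Γ hΓ hΓn hS
  obtain ⟨C₁, hC₁, Z₁, hZ₁, hE₁, hR₁⟩ := hRel n N M P Γ q z r₀ κ₁ α β j0 W₁ D₁ X₁ Y₁ S₁ _ _ hB₁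
    hPsol hΓ hΓn r hr hrr
  obtain ⟨C₂, hC₂, Z₂, hZ₂, hE₂, hR₂⟩ := hRel n N M Q Γ q z r₀ κ₂ α β j0 W₂ D₂ X₂ Y₂ S₂ _ _ hB₂
    hQsol hΓ hΓn r hr hrr
  have hbd : ((𝓡∂ n).boundary M).Nonempty := by
    obtain ⟨O, hO, hΓO⟩ := hΓ
    obtain ⟨x, hx⟩ := hΓn
    rw [hΓO] at hx
    exact ⟨x, hx.2⟩
  have hΓb : Γ ⊆ (𝓡∂ n).boundary M := by
    obtain ⟨O, hO, hΓO⟩ := hΓ
    rw [hΓO]
    exact inter_subset_right
  obtain ⟨hU, -, -⟩ := hUniq n N M P hbd
  -- the two extensions have the same boundary values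
  have hZZ : ∀ c, TstH z r c → ∀ m ∈ (𝓡∂ n).boundary M, Z₁ c m = Z₂ c m := by
    intro c hc m hm
    obtain ⟨-, -, -, a4, a5, -⟩ := hZ₁ c hc
    obtain ⟨-, -, -, b4, b5, -⟩ := hZ₂ c hc
    by_cases h : ∃ y ∈ HB z r, y 0 = 0 ∧ m = (xc n q).symm y
    · obtain ⟨y, hy, hy0, rfl⟩ := h
      rw [a4 y hy hy0, b4 y hy hy0]
    · push Not at h
      rw [a5 m hm h, b5 m hm h]
  have hQH : ∀ c, TstH z r c → ∀ w, Q.Harm (Z₁ c) w → Q.Harm (Z₂ c) w := by
    intro c hc w hw
    exact ⟨hw.smooth, fun x hx => by rw [hw.boundary x hx, hZZ c hc x hx], hw.weak⟩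
  have key : ∀ c d, TstH z r c → TstH z r d → ∃ u₁ v₁ u₂ v₂ : M → Fib N,
      P.Harm (Z₁ c) u₁ ∧ P.Harm (Z₁ d) v₁ ∧ Q.Harm (Z₂ c) u₂ ∧ Q.Harm (Z₂ d) v₂ ∧
      P.E u₁ v₁ = Q.E u₂ v₂ ∧ Q.Harm (Z₁ c) u₂ ∧ Q.Harm (Z₁ d) v₂ := by
    intro c d hc hd
    obtain ⟨-, -, -, -, -, a6⟩ := hZ₁ c hc
    obtain ⟨-, -, -, -, -, b6⟩ := hZ₁ d hd
    obtain ⟨u₁, v₁, u₂, v₂, h1, h2, h3, h4, h5⟩ := hS (Z₁ c) (Z₁ d) a6 b6
    exact ⟨u₁, v₁, u₂, v₂, h1, h2, hQH c hc u₂ h3, hQH d hd v₂ h4, h5, h3, h4⟩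
  obtain ⟨hU₂, -, -⟩ := hUniq n N M Q hbd
  have hsub : HB z r ⊆ HB z r₀ := fun x hx => ⟨Metric.ball_subset_ball hrr.le hx.1, hx.2⟩
  refine ⟨⟨C₁ + C₂, ?_, ?_, ?_⟩, ?_⟩
  · intro c d hc hd
    obtain ⟨u₁, v₁, u₂, v₂, h1, h2, h3, h4, h5, -, -⟩ := key c d hc hd
    have e1 := (hR₁ c d hc hd u₁ v₁ h1 h2).1
    have e2 := (hR₂ c d hc hd u₂ v₂ h3 h4).1
    have e3 : ‖En W₁.toLD (HB z r) c d - En W₂.toLD (HB z r) c d‖ ≤
        ‖En W₁.toLD (HB z r) c d - P.E u₁ v₁‖ + ‖En W₂.toLD (HB z r) c d - Q.E u₂ v₂‖ := by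
      have : En W₁.toLD (HB z r) c d - En W₂.toLD (HB z r) c d =
          (En W₁.toLD (HB z r) c d - P.E u₁ v₁) - (En W₂.toLD (HB z r) c d - Q.E u₂ v₂) := by
        rw [h5]
        ring
      rw [this]
      exact norm_sub_le _ _
    exact e3.trans (cERel_arith hC₁ hC₂ (cERel_rem_nonneg _ _ _ _) (cERel_rem_nonneg _ _ _ _)
      (cERel_rem_nonneg _ _ _ _) (cERel_rem_nonneg _ _ _ _) e1 e2)
  · intro c hc
    obtain ⟨u₁, v₁, u₂, v₂, h1, h2, h3, h4, h5, -, -⟩ := key c c hc hc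
    have huv : v₁ = u₁ := hU _ _ _ _ h2 h1 fun x _ => rfl
    have e1 := (hR₁ c c hc hc u₁ v₁ h1 h2).2
    have e2 := (hR₂ c c hc hc u₂ v₂ h3 h4).1
    have e3 := (Complex.abs_re_le_norm _).trans e2
    rw [Complex.sub_re, ← h5, huv] at e3
    have e4 := (abs_le.1 e3).2
    have e5 := mul_nonneg hC₁ (sq_nonneg (Rem W₂.toLD z r c))
    nlinarith
  · intro c hc
    obtain ⟨u₁, v₁, u₂, v₂, h1, h2, h3, h4, h5, -, -⟩ := key c c hc hc
    have huv : v₂ = u₂ := hU₂ _ _ _ _ h4 h3 fun x _ => rfl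
    have e1 := (hR₂ c c hc hc u₂ v₂ h3 h4).2
    have e2 := (hR₁ c c hc hc u₁ v₁ h1 h2).1
    have e3 := (Complex.abs_re_le_norm _).trans e2
    rw [Complex.sub_re, h5, huv] at e3
    have e4 := (abs_le.1 e3).2
    have e5 := mul_nonneg hC₂ (sq_nonneg (Rem W₁.toLD z r c))
    nlinarith
  · intro u hu x hx hx0
    obtain ⟨f, hf, hfu₁, hfu₂⟩ := hu
    obtain ⟨s1, s2, s3⟩ := cERel_side hSol hHarm hLoc hB₁ hfu₁
    obtain ⟨t1, t2, t3⟩ := cERel_side hSol hHarm hLoc hB₂ hfu₂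
    refine ⟨?_, ?_⟩
    · obtain ⟨-, -, a3, a4, a5⟩ := hB₁.bd x (hsub hx) hx0
      obtain ⟨-, -, b3, b4, -⟩ := hB₂.bd x (hsub hx) hx0
      simp only [a3, a4, b3, b4, Ring.inverse_one, ContinuousLinearMap.one_apply, lu]
      rw [hfu₁.boundary _ (hΓb a5), hfu₂.boundary _ (hΓb a5)]
    · refine hFlux n N W₁.toLD W₂.toLD z r hr hB₁.z0 (cERel_okMono hB₁.model.ok hsub)
        (cERel_okMono hB₂.model.ok hsub) ?_ _ _ (cERel_solMono s3 hsub) (cERel_solMono t3 hsub)
        ?_ x hx hx0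
      · intro y hy hy0
        rw [cERel_h_eq hB₁ (hsub hy) hy0, cERel_h_eq hB₂ (hsub hy) hy0]
      · intro c hc
        have hcH := cERel_tstH hc
        obtain ⟨a1, -, -, -, -, a6⟩ := hZ₁ c hcH
        obtain ⟨b1, -, -, -, -, -⟩ := hZ₂ c hcH
        rw [← hE₁ c hcH u.1 hfu₁.smooth _ s1 s2, ← hE₂ c hcH u.2 hfu₂.smooth _ t1 t2]
        exact hD u ⟨f, hf, hfu₁, hfu₂⟩ (Z₁ c) (Z₂ c) a1 b1 (hZZ c hcH) a6.supp

end Vale.Agent.P088.EYM
end
end

section

open Bundle Manifold MeasureTheory Set Filter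
open scoped ContDiff Matrix Topology

noncomputable section

set_option linter.unusedSectionVars false

namespace Vale.Agent.P088.S

variable {n : ℕ} [NeZero n] {N : ℕ} {M : Type*} [TopologicalSpace M]
  [ChartedSpace (EuclideanHalfSpace n) M]


theorem ch_eq (p x : M) : ch n p x = WithLp.ofLp (extChartAt (𝓡∂ n) p x) := by
  funext i
  rfl

theorem src_eq (p : M) : src n p = (extChartAt (𝓡∂ n) p).source :=
  (extChartAt_source (I := 𝓡∂ n) p).symm

theorem ch_inj {p x x' : M} (hx : x ∈ src n p) (hx' : x' ∈ src n p) (h : ch n p x = ch n p x') :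
    x = x' := by
  rw [src_eq] at hx hx'
  rw [ch_eq, ch_eq] at h
  exact (extChartAt (𝓡∂ n) p).injOn hx hx' ((WithLp.ofLp_injective 2) h)

theorem pt_eq {p : M} {y : EuclideanSpace ℝ (Fin n)} (hy : y ∈ (extChartAt (𝓡∂ n) p).target) :
    pt n p (WithLp.ofLp y) = (extChartAt (𝓡∂ n) p).symm y := by
  have hx := (extChartAt (𝓡∂ n) p).map_target hy
  rw [← src_eq] at hx
  have hch : ch n p ((extChartAt (𝓡∂ n) p).symm y) = WithLp.ofLp y := by
    rw [ch_eq, (extChartAt (𝓡∂ n) p).right_inv hy]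
  have _ : Nonempty M := ⟨p⟩
  have hex : ∃ a ∈ src n p, ch n p a = WithLp.ofLp y := ⟨_, hx, hch⟩
  exact ch_inj (Function.invFunOn_mem hex) hx ((Function.invFunOn_eq hex).trans hch.symm)

theorem range_half : range (𝓡∂ n) = {y : EuclideanSpace ℝ (Fin n) | 0 ≤ y 0} :=
  range_modelWithCornersEuclideanHalfSpace n

/-- the one variable derivative is the partial derivative -/
theorem dj_eq {F : Type*} [NormedAddCommGroup F] [NormedSpace ℝ F] {f : (Fin n → ℝ) → F}
    {y : EuclideanSpace ℝ (Fin n)} (hy : y ∈ range (𝓡∂ n)) {L : EuclideanSpace ℝ (Fin n) →L[ℝ] F}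
    (h : HasFDerivWithinAt (fun z : EuclideanSpace ℝ (Fin n) => f (WithLp.ofLp z)) L (range (𝓡∂ n)) y)
    (j : Fin n) : dj f (WithLp.ofLp y) j = L (EuclideanSpace.single j 1) := by
  rw [range_half] at hy h
  set γ : ℝ → EuclideanSpace ℝ (Fin n) := fun t => y + (t - y j) • EuclideanSpace.single j 1 with hγ
  have hγe : ∀ t, WithLp.ofLp (γ t) = Function.update (WithLp.ofLp y) j t := by
    intro t
    funext k
    by_cases hk : k = j
    · subst hk; simp [hγ]
    · simp [hγ, hk]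
  have hγd : HasDerivAt γ (EuclideanSpace.single j 1) (y j) := by
    have h1 : HasDerivAt (fun t : ℝ => (t - y j)) 1 (y j) := (hasDerivAt_id _).sub_const _
    have h2 := (h1.smul_const (EuclideanSpace.single j (1:ℝ))).const_add y
    rw [one_smul] at h2
    exact h2
  have hγy : γ (y j) = y := by simp [hγ]
  set S : Set ℝ := {t | 0 ≤ Function.update (WithLp.ofLp y) j t 0} with hS
  have hmaps : MapsTo γ S {y : EuclideanSpace ℝ (Fin n) | 0 ≤ y 0} := by
    intro t ht
    have h1 : (γ t) 0 = Function.update (WithLp.ofLp y) j t 0 := congrFun (hγe t) 0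
    show 0 ≤ (γ t) 0
    rw [h1]; exact ht
  have h3 : HasFDerivWithinAt (fun z : EuclideanSpace ℝ (Fin n) => f (WithLp.ofLp z)) L
      {y : EuclideanSpace ℝ (Fin n) | 0 ≤ y 0} (γ (y j)) := by rw [hγy]; exact h
  have h4 := h3.comp_hasDerivWithinAt (y j) hγd.hasDerivWithinAt hmaps
  have h5 : (fun z : EuclideanSpace ℝ (Fin n) => f (WithLp.ofLp z)) ∘ γ =
      fun t => f (Function.update (WithLp.ofLp y) j t) := by
    funext t
    simp only [Function.comp_apply, hγe]
  rw [h5] at h4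
  have hu : UniqueDiffWithinAt ℝ S (y j) := by
    by_cases hj : j = 0
    · subst hj
      have : S = Ici 0 := by
        ext t; simp [hS]
      rw [this]
      exact uniqueDiffOn_Ici 0 _ hy
    · have : S = univ := by
        ext t
        simp only [hS, mem_ofPred_eq, mem_univ, iff_true]
        rw [Function.update_of_ne (Ne.symm hj)]
        exact hy
      rw [this]
      exact uniqueDiffWithinAt_univ
  exact h4.derivWithin hu

variable [IsManifold (𝓡∂ n) ∞ M]

theorem germ_eq {F : Type*} [NormedAddCommGroup F] [NormedSpace ℝ F] {p x : M}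
    (hx : x ∈ (extChartAt (𝓡∂ n) p).source) (u : M → F)
    {L : EuclideanSpace ℝ (Fin n) →L[ℝ] F}
    (h : HasFDerivWithinAt (lu (𝓡∂ n) p u) L (range (𝓡∂ n)) (extChartAt (𝓡∂ n) p x)) (j : Fin n) :
    dj (fun y => u (pt n p y)) (ch n p x) j = L (EuclideanSpace.single j 1) := by
  rw [ch_eq]
  refine dj_eq ?_ ?_ j
  · rw [extChartAt_coe]; exact mem_range_self _
  · refine h.congr_of_eventuallyEq ?_ ?_
    · filter_upwards [extChartAt_target_mem_nhdsWithin' (I := 𝓡∂ n) hx] with z hz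
      rw [pt_eq hz]; rfl
    · rw [pt_eq ((extChartAt (𝓡∂ n) p).map_source hx)]; rfl

theorem pd_eq {u : M → ℂ} {x : M} (hu : MDifferentiableAt (𝓡∂ n) 𝓘(ℝ, ℂ) u x) (i : Fin n) :
    pd n u x i = dI (𝓡∂ n) u x (es n i) :=
  germ_eq (mem_extChartAt_source x) u (hasD hu) i

theorem jac_eq {p x : M} (hx : x ∈ src n p) (i j : Fin n) :
    jac n p x i j = (cc (𝓡∂ n) p x (es n j)) i := by
  rw [src_eq] at hx
  have h0 := hasFDerivWithinAt_tangentCoordChange (I := 𝓡∂ n) (x := p) (y := x) (z := x)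
    ⟨hx, mem_extChartAt_source x⟩
  have h1 := ((EuclideanSpace.proj (𝕜 := ℝ) i : EuclideanSpace ℝ (Fin n) →L[ℝ] ℝ).hasFDerivAt
    (x := ((extChartAt (𝓡∂ n) x) ∘ (extChartAt (𝓡∂ n) p).symm) (extChartAt (𝓡∂ n) p x))).comp_hasFDerivWithinAt
      (extChartAt (𝓡∂ n) p x) h0
  exact germ_eq hx (fun z => ch n x z i) h1 j

end Vale.Agent.P088.S
end
end
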