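import Vale.Agent.P088.MathlibUsed
import Vale.Agent.P088.Bdl.B1

set_option linter.all false

section

/-!
# P088-EYM, block A: interior estimates, definitions and statements

Real second order systems with scalar principal part, on open subsets of the half space.
-/

open MeasureTheory Set Filter Topology
open scoped ContDiff

noncomputable section

namespace Vale.Agent.P088.EYM

variable {n N : ℕ} [NeZero n]

/-- The coefficients of the system
`∑ a_jk ∂_j ∂_k u_b = ∑ M_j b c ∂_j u_c + ∑ Z b c u_c`. -/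
structure RSys (n : ℕ) (ι : Type) where
  a : Fin n → Fin n → E n → ℝ
  M : Fin n → ι → ι → E n → ℝ
  Z : ι → ι → E n → ℝ

/-- Smooth coefficients, positive definite principal part. -/
structure RSys.Ok {ι : Type} (S : RSys n ι) (O : Set (E n)) : Prop where
  a_smooth : ∀ j k, ContDiffOn ℝ ∞ (S.a j k) O
  a_pos : ∀ x ∈ O, (Matrix.of fun j k => S.a j k x).PosDef
  M_smooth : ∀ j b c, ContDiffOn ℝ ∞ (S.M j b c) O
  Z_smooth : ∀ b c, ContDiffOn ℝ ∞ (S.Z b c) O

/-- `u` is a smooth solution on `O`. -/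
def RSys.IsSol {ι : Type} [Fintype ι] (S : RSys n ι) (O : Set (E n)) (u : ι → E n → ℝ) : Prop :=
  (∀ b, ContDiffOn ℝ ∞ (u b) O) ∧ ∀ x ∈ O, ∀ b,
    ∑ j, ∑ k, S.a j k x * pd j (pd k (u b)) x =
      ∑ j, ∑ c, S.M j b c x * pd j (u c) x + ∑ c, S.Z b c x * u c x

/-- Caccioppoli inequality. -/
def AICacc_statement : Prop :=
  ∀ (n : ℕ) [NeZero n] (ι : Type) [Fintype ι] (S : RSys n ι) (O : Set (E n)), IsOpen O →
    O ⊆ Hs n → S.Ok O → ∀ (z : E n) (s t : ℝ), s < t → Metric.closedBall z t ⊆ O →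
    ∃ C : ℝ, 0 ≤ C ∧ ∀ u : ι → E n → ℝ, S.IsSol O u → ∀ b j,
      ∫ x in Metric.ball z s, (pd j (u b) x) ^ 2 ≤
        C * ∑ b, ∫ x in Metric.ball z t, (u b x) ^ 2

/-- `(u, ∂u)` -/
def prol {ι : Type} (u : ι → E n → ℝ) (p : Option (Fin n) × ι) : E n → ℝ :=
  match p.1 with
  | none => u p.2
  | some i => pd i (u p.2)

/-- The prolonged system. -/
def AIProl_statement : Prop :=
  ∀ (n : ℕ) [NeZero n] (ι : Type) [Fintype ι] (S : RSys n ι) (O : Set (E n)), IsOpen O →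
    O ⊆ Hs n → S.Ok O → ∃ S' : RSys n (Option (Fin n) × ι), S'.Ok O ∧
      ∀ u : ι → E n → ℝ, S.IsSol O u → S'.IsSol O (prol u)

/-- Iterated partial derivatives: `pdl [i, j] f = ∂_i ∂_j f`. -/
def pdl (l : List (Fin n)) (f : E n → ℝ) : E n → ℝ := l.foldr (fun i g => pd i g) f

/-- All derivatives are bounded in `L²` by the solution. -/
def AIHigh_statement : Prop :=
  ∀ (n : ℕ) [NeZero n] (m : ℕ) (ι : Type) [Fintype ι] (S : RSys n ι) (O : Set (E n)), IsOpen O →
    O ⊆ Hs n → S.Ok O → ∀ (z : E n) (s t : ℝ), s < t → Metric.closedBall z t ⊆ O →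
    ∃ C : ℝ, 0 ≤ C ∧ ∀ u : ι → E n → ℝ, S.IsSol O u → ∀ (b : ι) (l : List (Fin n)),
      l.length ≤ m → ∫ x in Metric.ball z s, (pdl l (u b) x) ^ 2 ≤
        C * ∑ b, ∫ x in Metric.ball z t, (u b x) ^ 2

/-- Pointwise bound by `n` derivatives in `L²`. -/
def AISup_statement : Prop :=
  ∀ (n : ℕ) [NeZero n] (O : Set (E n)), IsOpen O → O ⊆ Hs n → ∀ (z : E n) (s t : ℝ), s < t →
    Metric.closedBall z t ⊆ O → ∃ C : ℝ, 0 ≤ C ∧ ∀ f : E n → ℝ, ContDiffOn ℝ ∞ f O → ∀ B : ℝ,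
      (∀ l : List (Fin n), l.length ≤ n → ∫ x in Metric.ball z t, (pdl l f x) ^ 2 ≤ B) →
      ∀ x ∈ Metric.ball z s, (f x) ^ 2 ≤ C * B

/-- The real components of a section: imaginary parts for `true`, real parts for `false`. -/
def comps (c : E n → Fib N) (p : Fin N × Bool) (x : E n) : ℝ :=
  if p.2 then (c x p.1).im else (c x p.1).re

/-- The equation `Lop L c = 0` as a real system. -/
def AIReal_statement : Prop :=
  ∀ (n N : ℕ) [NeZero n] (L : LD n N) (O : Set (E n)), IsOpen O → O ⊆ Hs n → L.Ok O →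
    ∃ S : RSys n (Fin N × Bool), S.Ok O ∧ ∀ c : E n → Fib N, Sol L O c → S.IsSol O (comps c)

end Vale.Agent.P088.EYM
end
end

section

/-!
# P088-EYM, block A: Hardy's inequality on the half ball
-/

open MeasureTheory Set Filter Topology
open scoped ContDiff ENNReal

noncomputable section

namespace Vale.Agent.P088.EYM

set_option linter.unusedSectionVars false
set_option linter.unusedVariables false

variable {n N : ℕ} [NeZero n]

/-! ### Geometry -/

theorem AHardy_rel (z : E n) (r : ℝ) : RelOpen (HB z r) :=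
  ⟨Metric.ball z r, Metric.isOpen_ball, rfl⟩

theorem AHardy_norm {z : E n} (hz : z 0 = 0) {s : ℝ} (hs0 : 0 ≤ s) (hs1 : s ≤ 1) (x : E n) :
    dist (sc s x) z ≤ dist x z := by
  rw [EuclideanSpace.dist_eq, EuclideanSpace.dist_eq]
  apply Real.sqrt_le_sqrt
  refine Finset.sum_le_sum fun i _ => ?_
  rw [Real.dist_eq, Real.dist_eq, sq_abs, sq_abs, ds_sc_apply]
  by_cases hi : i = 0
  · subst hi
    rw [if_pos rfl, hz, sub_zero, sub_zero, mul_pow]
    exact mul_le_of_le_one_left (sq_nonneg _) (by nlinarith only [hs1, hs0])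
  · rw [if_neg hi, one_mul]

theorem AHardy_sc_mem {z : E n} (hz : z 0 = 0) {r s : ℝ} (hs0 : 0 ≤ s) (hs1 : s ≤ 1) {x : E n}
    (hx : x ∈ HB z r) : sc s x ∈ HB z r := by
  refine ⟨lt_of_le_of_lt (AHardy_norm hz hs0 hs1 x) hx.1, ?_⟩
  change 0 ≤ sc s x 0
  rw [ds_sc_zero]
  exact mul_nonneg hs0 hx.2

/-! ### The form -/

/-- `⟨c, h c⟩` -/
def AHardy_N (L : LD n N) (c : E n → Fib N) (x : E n) : ℝ := (inner ℂ (c x) (L.h x (c x)) : ℂ).re

/-- `⟨∇_0 c, h ∇_0 c⟩` -/
def AHardy_M (L : LD n N) (c : E n → Fib N) (x : E n) : ℝ :=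
  (inner ℂ (nab L 0 c x) (L.h x (nab L 0 c x)) : ℂ).re

theorem AHardy_cs {h : EndF N} (hadj : ContinuousLinearMap.adjoint h = h)
    (hpos : ∀ v : Fib N, v ≠ 0 → 0 < (inner ℂ v (h v) : ℂ).re) (u v : Fib N) :
    (inner ℂ u (h v) : ℂ).re ^ 2 ≤ (inner ℂ u (h u) : ℂ).re * (inner ℂ v (h v) : ℂ).re := by
  have hnn : ∀ w : Fib N, 0 ≤ (inner ℂ w (h w) : ℂ).re := by
    intro w
    by_cases hw : w = 0
    · rw [hw, inner_zero_left]; exact le_rfl
    · exact (hpos w hw).le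
  have hsym : (inner ℂ v (h u) : ℂ).re = (inner ℂ u (h v) : ℂ).re := by
    have h1 : (inner ℂ v (h u) : ℂ) = inner ℂ (h v) u := by
      conv_lhs => rw [← hadj]
      rw [ContinuousLinearMap.adjoint_inner_right]
    rw [h1, ← inner_conj_symm, Complex.conj_re]
  have key : ∀ t : ℝ, 0 ≤ (inner ℂ v (h v) : ℂ).re * (t * t) +
      (2 * (inner ℂ u (h v) : ℂ).re) * t + (inner ℂ u (h u) : ℂ).re := by
    intro t
    have h1 := hnn (u + (t : ℂ) • v)
    rw [map_add, map_smul, inner_add_left, inner_add_right, inner_add_right, inner_smul_left,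
      inner_smul_right, inner_smul_right, inner_smul_left, Complex.conj_ofReal] at h1
    simp only [Complex.add_re, Complex.re_ofReal_mul, hsym] at h1
    linarith only [h1]
  have h2 := discrim_le_zero key
  rw [discrim] at h2
  nlinarith only [h2]

theorem AHardy_smooth_inner {D : Set (E n)} {u v : E n → Fib N} (hu : ContDiffOn ℝ ∞ u D)
    (hv : ContDiffOn ℝ ∞ v D) : ContDiffOn ℝ ∞ (fun x => (inner ℂ (u x) (v x) : ℂ).re) D :=
  Complex.reCLM.contDiff.comp_contDiffOn (dc_smooth_bil dc_bil_inner hu hv)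

theorem AHardy_smooth_N {D : Set (E n)} {L : LD n N} (hL : L.Ok D) {c : E n → Fib N}
    (hc : ContDiffOn ℝ ∞ c D) : ContDiffOn ℝ ∞ (AHardy_N L c) D :=
  AHardy_smooth_inner hc (smooth_eval hL.h_smooth hc)

theorem AHardy_smooth_M {D : Set (E n)} (hD : RelOpen D) {L : LD n N} (hL : L.Ok D)
    {c : E n → Fib N} (hc : ContDiffOn ℝ ∞ c D) : ContDiffOn ℝ ∞ (AHardy_M L c) D :=
  AHardy_smooth_inner (Jacobi_nab_smooth hD hL hc 0)
    (smooth_eval hL.h_smooth (Jacobi_nab_smooth hD hL hc 0))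

theorem AHardy_pd_N {D : Set (E n)} (hD : RelOpen D) {L : LD n N} (hL : L.Ok D)
    {c : E n → Fib N} (hc : ContDiffOn ℝ ∞ c D) {x : E n} (hx : x ∈ D) :
    pd 0 (AHardy_N L c) x = 2 * (inner ℂ (c x) (L.h x (nab L 0 c x)) : ℂ).re := by
  have h1 : pd 0 (AHardy_N L c) x =
      (pd 0 (fun y => (inner ℂ (c y) (L.h y (c y)) : ℂ)) x).re :=
    hD.pd_clm Complex.reCLM (dc_smooth_bil dc_bil_inner hc (smooth_eval hL.h_smooth hc)) hx 0
  have h2 := dc_pd_bil hD dc_bil_inner hc (smooth_eval hL.h_smooth hc) hx 0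
  dsimp only at h2
  rw [h1, h2, hD.pd_eval hL.h_smooth hc (by simp) (by simp) hx 0, hL.compat x hx 0, nab]
  have h3 : (inner ℂ (pd 0 c x) (L.h x (c x)) : ℂ).re =
      (inner ℂ (c x) (L.h x (pd 0 c x)) : ℂ).re := by
    have h4 : (inner ℂ (pd 0 c x) (L.h x (c x)) : ℂ) = inner ℂ (L.h x (pd 0 c x)) (c x) := by
      conv_lhs => rw [← hL.h_adj x hx]
      rw [ContinuousLinearMap.adjoint_inner_right]
    rw [h4, ← inner_conj_symm, Complex.conj_re]
  have h5 : (inner ℂ (c x) ((ContinuousLinearMap.adjoint (L.B 0 x) * L.h x +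
      L.h x * L.B 0 x) (c x)) : ℂ).re = 2 * (inner ℂ (c x) (L.h x (L.B 0 x (c x))) : ℂ).re := by
    have h8 : (ContinuousLinearMap.adjoint (L.B 0 x) * L.h x + L.h x * L.B 0 x) (c x) =
      ContinuousLinearMap.adjoint (L.B 0 x) (L.h x (c x)) + L.h x (L.B 0 x (c x)) := rfl
    rw [h8, inner_add_right, Complex.add_re, ContinuousLinearMap.adjoint_inner_right]
    have h6 : (inner ℂ (L.B 0 x (c x)) (L.h x (c x)) : ℂ).re =
        (inner ℂ (c x) (L.h x (L.B 0 x (c x))) : ℂ).re := by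
      have h7 : (inner ℂ (L.B 0 x (c x)) (L.h x (c x)) : ℂ) =
          inner ℂ (L.h x (L.B 0 x (c x))) (c x) := by
        conv_lhs => rw [← hL.h_adj x hx]
        rw [ContinuousLinearMap.adjoint_inner_right]
      rw [h7, ← inner_conj_symm, Complex.conj_re]
    rw [h6]; ring
  rw [Complex.add_re, h3, inner_add_right, Complex.add_re, h5, map_add, inner_add_right,
    Complex.add_re]
  ring

theorem AHardy_N_nonneg {D : Set (E n)} {L : LD n N} (hL : L.Ok D) (c : E n → Fib N) {x : E n}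
    (hx : x ∈ D) : 0 ≤ AHardy_N L c x := by
  unfold AHardy_N
  by_cases hw : c x = 0
  · rw [hw, inner_zero_left]; exact le_rfl
  · exact (hL.h_pos x hx _ hw).le

theorem AHardy_M_nonneg {D : Set (E n)} {L : LD n N} (hL : L.Ok D) (c : E n → Fib N) {x : E n}
    (hx : x ∈ D) : 0 ≤ AHardy_M L c x := by
  unfold AHardy_M
  by_cases hw : nab L 0 c x = 0
  · rw [hw, inner_zero_left]; exact le_rfl
  · exact (hL.h_pos x hx _ hw).le

theorem AHardy_pd_le {D : Set (E n)} (hD : RelOpen D) {L : LD n N} (hL : L.Ok D)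
    {c : E n → Fib N} (hc : ContDiffOn ℝ ∞ c D) {x : E n} (hx : x ∈ D) :
    |pd 0 (AHardy_N L c) x| ≤ 2 * (√(AHardy_N L c x) * √(AHardy_M L c x)) := by
  rw [AHardy_pd_N hD hL hc hx, abs_mul, abs_two, ← Real.sqrt_mul (AHardy_N_nonneg hL c hx)]
  refine mul_le_mul_of_nonneg_left ?_ (by norm_num)
  apply Real.abs_le_sqrt
  exact AHardy_cs (hL.h_adj x hx) (hL.h_pos x hx) _ _

/-! ### The pointwise inequality -/

theorem AHardy_curve {x : E n} (hx : x ∈ Hs n) (u : ℝ) :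
    HasDerivAt (fun u : ℝ => sc (u ^ 2) x) ((2 * u * x 0) • (ev 0 : E n)) u := by
  have h1 : HasDerivAt (fun u : ℝ => ((u ^ 2 - 1) * x 0)) (2 * u * x 0) u := by
    have := ((hasDerivAt_pow 2 u).sub_const 1).mul_const (x 0)
    simpa only [Nat.cast_ofNat, Nat.add_one_sub_one, pow_one] using this
  exact (h1.smul_const (ev 0 : E n)).const_add x

theorem AHardy_curve_mem {x : E n} (hx : x ∈ Hs n) (u : ℝ) : sc (u ^ 2) x ∈ Hs n := by
  change 0 ≤ sc (u ^ 2) x 0
  rw [ds_sc_zero]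
  exact mul_nonneg (sq_nonneg u) hx

theorem AHardy_deriv {D : Set (E n)} (hD : RelOpen D) {f : E n → ℝ} (hf : ContDiffOn ℝ ∞ f D)
    {x : E n} (hx : x ∈ Hs n) {u : ℝ} (hu : sc (u ^ 2) x ∈ D) :
    HasDerivAt (fun u : ℝ => f (sc (u ^ 2) x)) (2 * u * x 0 * pd 0 f (sc (u ^ 2) x)) u := by
  have h1 := hD.hasD hu hf (by simp)
  have h2 := h1.comp_hasDerivWithinAt u ((AHardy_curve hx u).hasDerivWithinAt (s := univ))
    (fun v _ => AHardy_curve_mem hx v)
  rw [hasDerivWithinAt_univ, map_smul, smul_eq_mul] at h2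
  exact h2

theorem AHardy_cont {D : Set (E n)} {f : E n → ℝ} (hf : ContinuousOn f D) {z : E n}
    (hz : z 0 = 0) {r : ℝ} (hrD : HB z r ⊆ D) {x : E n} (hx : x ∈ HB z r) :
    ContinuousOn (fun u : ℝ => f (sc (u ^ 2) x)) (Icc 0 1) := by
  have h1 : Continuous fun u : ℝ => sc (u ^ 2) x := by
    unfold sc
    (clear D f hf z hz r hrD hx; fun_prop)
  refine hf.comp h1.continuousOn fun u hu => hrD (AHardy_sc_mem hz (sq_nonneg u) ?_ hx)
  have := hu.1
  have := hu.2
  nlinarith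

theorem AHardy_sqrt_le {D : Set (E n)} (hD : RelOpen D) {L : LD n N} (hL : L.Ok D)
    {c : E n → Fib N} (hc : ContDiffOn ℝ ∞ c D) {z : E n} (hz : z 0 = 0) {r : ℝ}
    (hrD : HB z r ⊆ D) (h0 : ∀ x ∈ HB z r, x 0 = 0 → c x = 0) {x : E n} (hx : x ∈ HB z r) :
    √(AHardy_N L c x) ≤ x 0 * ∫ u in (0 : ℝ)..1, 2 * u * √(AHardy_M L c (sc (u ^ 2) x)) := by
  have hNc := (AHardy_smooth_N hL hc).continuousOn
  have hMc := (AHardy_smooth_M hD hL hc).continuousOn
  have hN := AHardy_cont hNc hz hrD hx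
  have hM := AHardy_cont hMc hz hrD hx
  have hmem : ∀ u ∈ Icc (0 : ℝ) 1, sc (u ^ 2) x ∈ HB z r := fun u hu =>
    AHardy_sc_mem hz (sq_nonneg u) (by have := hu.1; have := hu.2; nlinarith) hx
  have hφ : ContinuousOn (fun u : ℝ => 2 * u * x 0 * √(AHardy_M L c (sc (u ^ 2) x)))
      (Icc 0 1) := by
    refine ContinuousOn.mul (by fun_prop) hM.sqrt
  have hx0 : 0 ≤ x 0 := hx.2
  apply le_of_forall_pos_le_add
  intro ε hε
  have h1 := intervalIntegral.sub_le_integral_of_hasDeriv_right_of_le (a := (0 : ℝ)) (b := 1)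
    (g := fun u => √(AHardy_N L c (sc (u ^ 2) x) + ε ^ 2))
    (g' := fun u => (2 * u * x 0 * pd 0 (AHardy_N L c) (sc (u ^ 2) x)) /
      (2 * √(AHardy_N L c (sc (u ^ 2) x) + ε ^ 2)))
    (φ := fun u => 2 * u * x 0 * √(AHardy_M L c (sc (u ^ 2) x))) zero_le_one
    (hN.add continuousOn_const).sqrt
    (fun u hu => by
      have hu' : u ∈ Icc (0 : ℝ) 1 := Ioo_subset_Icc_self hu
      have hp : 0 < AHardy_N L c (sc (u ^ 2) x) + ε ^ 2 :=
        add_pos_of_nonneg_of_pos (AHardy_N_nonneg hL c (hrD (hmem u hu'))) (by (clear * - hε; positivity))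
      exact (((AHardy_deriv hD (AHardy_smooth_N hL hc) hx.2 (hrD (hmem u hu'))).add_const
        (ε ^ 2)).sqrt hp.ne').hasDerivWithinAt)
    (hφ.integrableOn_Icc)
    (fun u hu => by
      have hu' : u ∈ Icc (0 : ℝ) 1 := Ioo_subset_Icc_self hu
      have hD' := hrD (hmem u hu')
      have hNn := AHardy_N_nonneg hL c hD'
      have hp : 0 < AHardy_N L c (sc (u ^ 2) x) + ε ^ 2 :=
        add_pos_of_nonneg_of_pos hNn (by (clear * - hε; positivity))
      have hs : 0 < √(AHardy_N L c (sc (u ^ 2) x) + ε ^ 2) := Real.sqrt_pos.2 hp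
      rw [div_le_iff₀ (by (clear hD hc h0 hNc hMc hN hM hφ hx0 hp hs; positivity))]
      have h2 : pd 0 (AHardy_N L c) (sc (u ^ 2) x) ≤
          2 * (√(AHardy_N L c (sc (u ^ 2) x)) * √(AHardy_M L c (sc (u ^ 2) x))) :=
        (le_abs_self _).trans (AHardy_pd_le hD hL hc hD')
      have h3 : √(AHardy_N L c (sc (u ^ 2) x)) ≤ √(AHardy_N L c (sc (u ^ 2) x) + ε ^ 2) :=
        Real.sqrt_le_sqrt (by (clear D hD hL hc z hz r hrD h0 hx hNc hMc hN hM hmem hφ hx0 hε hu hu' hD' hNn hp hs h2; nlinarith [sq_nonneg ε]))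
      have h4 : 0 ≤ 2 * u * x 0 := by have := hu.1; positivity
      have h5 := mul_le_mul_of_nonneg_left h2 h4
      have h6 := mul_le_mul_of_nonneg_right h3 (Real.sqrt_nonneg (AHardy_M L c (sc (u ^ 2) x)))
      calc _ ≤ 2 * u * x 0 * (2 * (√(AHardy_N L c (sc (u ^ 2) x)) *
            √(AHardy_M L c (sc (u ^ 2) x)))) := h5
        _ ≤ 2 * u * x 0 * (2 * (√(AHardy_N L c (sc (u ^ 2) x) + ε ^ 2) *
            √(AHardy_M L c (sc (u ^ 2) x)))) :=
          mul_le_mul_of_nonneg_left (mul_le_mul_of_nonneg_left h6 (by norm_num)) h4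
        _ = _ := by ring)
  have e0 : AHardy_N L c (sc ((0 : ℝ) ^ 2) x) = 0 := by
    have h2 : c (sc ((0 : ℝ) ^ 2) x) = 0 := by
      apply h0 _ (hmem 0 (by simp only [mem_Icc, Std.le_refl, zero_le_one, and_self]))
      rw [ds_sc_zero]; simp
    rw [AHardy_N, h2, inner_zero_left]; rfl
  have e1 : sc ((1 : ℝ) ^ 2) x = x := by
    rw [one_pow, ds_sc_one]
  have e2 : ∫ u in (0 : ℝ)..1, 2 * u * x 0 * √(AHardy_M L c (sc (u ^ 2) x)) =
      x 0 * ∫ u in (0 : ℝ)..1, 2 * u * √(AHardy_M L c (sc (u ^ 2) x)) := by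
    rw [← intervalIntegral.integral_const_mul]
    congr 1
    funext u
    ring
  rw [e2] at h1
  dsimp only at h1
  rw [e0, e1, zero_add, Real.sqrt_sq hε.le] at h1
  have h3 : √(AHardy_N L c x) ≤ √(AHardy_N L c x + ε ^ 2) :=
    Real.sqrt_le_sqrt (by nlinarith only [])
  (clear D hD hL hc z hz r hrD h0 hx hNc hMc hN hM hmem hφ hx0 hε e0 e1 e2; linarith)

theorem AHardy_sq_integral {f : ℝ → ℝ} (hf : ContinuousOn f (Icc 0 1)) :
    (∫ u in (0 : ℝ)..1, f u) ^ 2 ≤ ∫ u in (0 : ℝ)..1, f u ^ 2 := by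
  have hf' : ContinuousOn f (uIcc 0 1) := by rwa [uIcc_of_le zero_le_one]
  set A := ∫ u in (0 : ℝ)..1, f u with hA
  have h1 : 0 ≤ ∫ u in (0 : ℝ)..1, (f u - A) ^ 2 :=
    intervalIntegral.integral_nonneg zero_le_one fun u _ => sq_nonneg _
  have h2 : ∫ u in (0 : ℝ)..1, (f u - A) ^ 2 =
      (∫ u in (0 : ℝ)..1, f u ^ 2) - 2 * A * A + A ^ 2 := by
    have e : ∀ u, (f u - A) ^ 2 = f u ^ 2 - 2 * A * f u + A ^ 2 := fun u => by ring
    simp only [e]
    rw [intervalIntegral.integral_add, intervalIntegral.integral_sub,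
      intervalIntegral.integral_const_mul, intervalIntegral.integral_const, ← hA]
    · simp only [sub_zero, smul_eq_mul, one_mul]
    · exact (hf'.pow 2).intervalIntegrable
    · exact (hf'.intervalIntegrable).const_mul _
    · exact ((hf'.pow 2).intervalIntegrable).sub ((hf'.intervalIntegrable).const_mul _)
    · exact intervalIntegrable_const
  rw [h2] at h1
  linarith

theorem AHardy_point {D : Set (E n)} (hD : RelOpen D) {L : LD n N} (hL : L.Ok D)
    {c : E n → Fib N} (hc : ContDiffOn ℝ ∞ c D) {z : E n} (hz : z 0 = 0) {r : ℝ}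
    (hrD : HB z r ⊆ D) (h0 : ∀ x ∈ HB z r, x 0 = 0 → c x = 0) {x : E n} (hx : x ∈ HB z r) :
    AHardy_N L c x / (x 0) ^ 2 ≤ ∫ u in (0 : ℝ)..1, 4 * u ^ 2 * AHardy_M L c (sc (u ^ 2) x) := by
  have hMc := (AHardy_smooth_M hD hL hc).continuousOn
  have hM := AHardy_cont hMc hz hrD hx
  have hmem : ∀ u ∈ Icc (0 : ℝ) 1, sc (u ^ 2) x ∈ HB z r := fun u hu =>
    AHardy_sc_mem hz (sq_nonneg u) (by have := hu.1; have := hu.2; nlinarith) hx
  have h1 := AHardy_sqrt_le hD hL hc hz hrD h0 hx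
  have h2 : ContinuousOn (fun u : ℝ => 2 * u * √(AHardy_M L c (sc (u ^ 2) x))) (Icc 0 1) :=
    ContinuousOn.mul (by fun_prop) hM.sqrt
  have h3 := AHardy_sq_integral h2
  have h4 : ∫ u in (0 : ℝ)..1, (2 * u * √(AHardy_M L c (sc (u ^ 2) x))) ^ 2 =
      ∫ u in (0 : ℝ)..1, 4 * u ^ 2 * AHardy_M L c (sc (u ^ 2) x) := by
    apply intervalIntegral.integral_congr
    intro u hu
    rw [uIcc_of_le zero_le_one] at hu
    dsimp only
    rw [mul_pow, Real.sq_sqrt (AHardy_M_nonneg hL c (hrD (hmem u hu)))]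
    ring
  rw [h4] at h3
  refine le_trans ?_ h3
  have hx0 : 0 ≤ x 0 := hx.2
  rcases hx0.eq_or_lt with hx0 | hx0
  · rw [← hx0]
    simp only [ne_eq, OfNat.ofNat_ne_zero, not_false_eq_true, zero_pow, div_zero]
    exact sq_nonneg _
  · rw [div_le_iff₀ (by positivity)]
    have h5 : AHardy_N L c x = √(AHardy_N L c x) ^ 2 :=
      (Real.sq_sqrt (AHardy_N_nonneg hL c (hrD hx))).symm
    rw [h5, ← mul_pow, mul_comm (∫ u in (0 : ℝ)..1, _)]
    exact pow_le_pow_left₀ (Real.sqrt_nonneg _) h1 2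

/-! ### Integration -/

theorem AHardy_scale {z : E n} (hz : z 0 = 0) {r u : ℝ} (hu0 : 0 < u) (hu1 : u ≤ 1)
    (G : E n → ℝ≥0∞) : ENNReal.ofReal (u ^ 2) * ∫⁻ x in HB z r, G (sc (u ^ 2) x) ≤
      ∫⁻ x in HB z r, G x := by
  have hs : (0 : ℝ) < u ^ 2 := by positivity
  have h := lintegral_image_eq_lintegral_abs_det_fderiv_mul (volume : Measure (E n))
    (s := HB z r) (f := sc (u ^ 2)) (f' := fun _ => ds_L n (u ^ 2)) (dc_meas (AHardy_rel z r))
    (fun x _ => by
      have := (ds_L n (u ^ 2)).hasFDerivWithinAt (s := HB z r) (x := x)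
      have e : ⇑(ds_L n (u ^ 2)) = sc (u ^ 2) := funext fun x => ds_L_apply (u ^ 2) x
      rwa [e] at this)
    (fun x _ y _ hxy => by
      have h2 : sc (u ^ 2)⁻¹ (sc (u ^ 2) x) = sc (u ^ 2)⁻¹ (sc (u ^ 2) y) := by rw [hxy]
      rwa [ds_sc_sc, ds_sc_sc, inv_mul_cancel₀ hs.ne', ds_sc_one, ds_sc_one] at h2) G
  simp only [ds_L_det, abs_of_pos hs] at h
  rw [lintegral_const_mul' _ _ ENNReal.ofReal_ne_top] at h
  rw [← h]
  apply lintegral_mono_set
  rintro _ ⟨x, hx, rfl⟩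
  exact AHardy_sc_mem hz hs.le (by nlinarith only [hu1, hu0]) hx

theorem AHardy_lint {D : Set (E n)} (hD : RelOpen D) {L : LD n N} (hL : L.Ok D)
    {c : E n → Fib N} (hc : ContDiffOn ℝ ∞ c D) {z : E n} (hz : z 0 = 0) {r : ℝ}
    (hrD : HB z r ⊆ D) (h0 : ∀ x ∈ HB z r, x 0 = 0 → c x = 0) :
    ∫⁻ x in HB z r, ENNReal.ofReal (AHardy_N L c x / (x 0) ^ 2) ≤
      4 * ∫⁻ x in HB z r, ENNReal.ofReal (AHardy_M L c x) := by
  have hMc := (AHardy_smooth_M hD hL hc).continuousOn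
  have hmeas : MeasurableSet (HB z r) := dc_meas (AHardy_rel z r)
  have hmem : ∀ x ∈ HB z r, ∀ u ∈ Icc (0 : ℝ) 1, sc (u ^ 2) x ∈ HB z r := fun x hx u hu =>
    AHardy_sc_mem hz (sq_nonneg u) (by have := hu.1; have := hu.2; nlinarith) hx
  -- pointwise
  have h1 : ∀ x ∈ HB z r, ENNReal.ofReal (AHardy_N L c x / (x 0) ^ 2) ≤
      ∫⁻ u in Ioc (0 : ℝ) 1, ENNReal.ofReal (4 * u ^ 2 * AHardy_M L c (sc (u ^ 2) x)) := by
    intro x hx
    have hM := AHardy_cont hMc hz hrD hx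
    have hcont : ContinuousOn (fun u : ℝ => 4 * u ^ 2 * AHardy_M L c (sc (u ^ 2) x))
        (Icc 0 1) := ContinuousOn.mul (by fun_prop) hM
    have h2 := AHardy_point hD hL hc hz hrD h0 hx
    rw [intervalIntegral.integral_of_le zero_le_one] at h2
    refine (ENNReal.ofReal_le_ofReal h2).trans (le_of_eq ?_)
    refine ofReal_integral_eq_lintegral_ofReal ?_ ?_
    · exact hcont.integrableOn_Icc.mono_set Ioc_subset_Icc_self
    · filter_upwards [ae_restrict_mem measurableSet_Ioc] with u hu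
      have := AHardy_M_nonneg hL c (hrD (hmem x hx u (Ioc_subset_Icc_self hu)))
      (clear hD hc h0 hMc hmeas hM hcont h2; positivity)
  have h3 : ∫⁻ x in HB z r, ENNReal.ofReal (AHardy_N L c x / (x 0) ^ 2) ≤
      ∫⁻ x in HB z r, ∫⁻ u in Ioc (0 : ℝ) 1,
        ENNReal.ofReal (4 * u ^ 2 * AHardy_M L c (sc (u ^ 2) x)) :=
    setLIntegral_mono' hmeas h1
  refine h3.trans ?_
  rw [lintegral_lintegral_swap]
  · have h4 : ∀ u ∈ Ioc (0 : ℝ) 1, ∫⁻ x in HB z r,
        ENNReal.ofReal (4 * u ^ 2 * AHardy_M L c (sc (u ^ 2) x)) ≤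
        4 * ∫⁻ x in HB z r, ENNReal.ofReal (AHardy_M L c x) := by
      intro u hu
      have h5 := AHardy_scale hz (r := r) hu.1 hu.2 fun x => ENNReal.ofReal (AHardy_M L c x)
      have h6 : ∀ x, ENNReal.ofReal (4 * u ^ 2 * AHardy_M L c (sc (u ^ 2) x)) =
          4 * (ENNReal.ofReal (u ^ 2) * ENNReal.ofReal (AHardy_M L c (sc (u ^ 2) x))) := by
        intro x
        rw [mul_assoc, ENNReal.ofReal_mul (by norm_num), ENNReal.ofReal_mul (sq_nonneg u)]
        norm_num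
      simp only [h6]
      rw [lintegral_const_mul' _ _ (by norm_num), lintegral_const_mul' _ _ ENNReal.ofReal_ne_top]
      exact mul_le_mul_right h5 _
    refine (setLIntegral_mono' measurableSet_Ioc h4).trans (le_of_eq ?_)
    rw [setLIntegral_const, Real.volume_Ioc]
    simp only [sub_zero, ENNReal.ofReal_one, mul_one]
  · rw [Measure.prod_restrict]
    refine ContinuousOn.aemeasurable ?_ (hmeas.prod measurableSet_Ioc)
    refine ENNReal.continuous_ofReal.comp_continuousOn ?_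
    have hcurve : Continuous fun p : E n × ℝ => sc (p.2 ^ 2) p.1 := by
      unfold sc
      fun_prop
    refine ContinuousOn.mul (by fun_prop) (hMc.comp hcurve.continuousOn ?_)
    rintro ⟨x, u⟩ ⟨hx, hu⟩
    exact hrD (hmem x hx u (Ioc_subset_Icc_self hu))

/-! ### Constants -/

theorem AHardy_cpt {V : Type*} [NormedAddCommGroup V] [NormedSpace ℂ V] [ProperSpace V]
    {K : Set (E n)} (hK : IsCompact K) (F₁ F₂ : E n → V → ℝ)
    (h1 : ContinuousOn (fun p : E n × V => F₁ p.1 p.2) (K ×ˢ (univ : Set V)))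
    (h2 : ContinuousOn (fun p : E n × V => F₂ p.1 p.2) (K ×ˢ (univ : Set V)))
    (m1 : ∀ x ∈ K, ∀ (t : ℝ) (v : V), F₁ x ((t : ℂ) • v) = t ^ 2 * F₁ x v)
    (m2 : ∀ x ∈ K, ∀ (t : ℝ) (v : V), F₂ x ((t : ℂ) • v) = t ^ 2 * F₂ x v)
    (hpos : ∀ x ∈ K, ∀ v : V, v ≠ 0 → 0 < F₂ x v) :
    ∃ C : ℝ, 0 ≤ C ∧ ∀ x ∈ K, ∀ v : V, F₁ x v ≤ C * F₂ x v := by
  have hKS : IsCompact (K ×ˢ Metric.sphere (0 : V) 1) := hK.prod (isCompact_sphere _ _)
  have hsub : K ×ˢ Metric.sphere (0 : V) 1 ⊆ K ×ˢ (univ : Set V) :=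
    prod_mono_right (subset_univ _)
  obtain ⟨a, ha, ha'⟩ := hKS.exists_forall_le' (h2.mono hsub) (a := 0) (by
    rintro ⟨x, v⟩ ⟨hx, hv⟩
    apply hpos x hx v
    intro h0
    rw [h0, mem_sphere_zero_iff_norm, norm_zero] at hv
    exact zero_ne_one hv)
  obtain ⟨b, hb⟩ := hKS.exists_bound_of_continuousOn (h1.mono hsub)
  refine ⟨|b| / a, by (clear * - ha; positivity), fun x hx v => ?_⟩
  by_cases hv : v = 0
  · have e1 := m1 x hx 0 0
    have e2 := m2 x hx 0 0
    rw [hv]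
    simp only [smul_zero, ne_eq, OfNat.ofNat_ne_zero, not_false_eq_true, zero_pow, zero_mul] at e1 e2
    rw [e1, e2, mul_zero]
  · have hv' : 0 < ‖v‖ := norm_pos_iff.2 hv
    set w : V := ((‖v‖⁻¹ : ℝ) : ℂ) • v with hw
    have hwn : w ∈ Metric.sphere (0 : V) 1 := by
      rw [mem_sphere_zero_iff_norm, hw, norm_smul, Complex.norm_real, norm_inv, norm_norm,
        inv_mul_cancel₀ hv'.ne']
    have hvw : v = ((‖v‖ : ℝ) : ℂ) • w := by
      rw [hw, smul_smul, ← Complex.ofReal_mul, mul_inv_cancel₀ hv'.ne', Complex.ofReal_one,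
        one_smul]
    have h3 : F₁ x w ≤ |b| := by
      have h4 := hb (x, w) ⟨hx, hwn⟩
      rw [Real.norm_eq_abs] at h4
      exact (le_abs_self _).trans (h4.trans (le_abs_self b))
    have h5 : a ≤ F₂ x w := ha' (x, w) ⟨hx, hwn⟩
    have g1 : F₁ x v = ‖v‖ ^ 2 * F₁ x w := by
      conv_lhs => rw [hvw]
      exact m1 x hx _ _
    have g2 : F₂ x v = ‖v‖ ^ 2 * F₂ x w := by
      conv_lhs => rw [hvw]
      exact m2 x hx _ _
    rw [g1, g2]
    have h6 : F₁ x w ≤ |b| / a * F₂ x w := by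
      refine h3.trans ?_
      calc |b| = |b| / a * a := by (clear * - ha; field_simp)
        _ ≤ |b| / a * F₂ x w := mul_le_mul_of_nonneg_left h5 (by (clear * - ha; positivity))
    calc ‖v‖ ^ 2 * F₁ x w ≤ ‖v‖ ^ 2 * (|b| / a * F₂ x w) :=
        mul_le_mul_of_nonneg_left h6 (sq_nonneg _)
      _ = _ := by ring

open scoped MatrixOrder in
theorem AHardy_factor {A : Matrix (Fin n) (Fin n) ℝ} (hA : A.PosDef) :
    ∃ B : Matrix (Fin n) (Fin n) ℝ, A = B.conjTranspose * B :=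
  CStarAlgebra.nonneg_iff_eq_star_mul_self.mp hA.posSemidef.nonneg

theorem AHardy_pos {A : Matrix (Fin n) (Fin n) ℝ} (hA : A.PosDef) {h : EndF N}
    (hpos : ∀ v : Fib N, v ≠ 0 → 0 < (inner ℂ v (h v) : ℂ).re) {w : Fin n → Fib N}
    (hw : w ≠ 0) : 0 < ∑ j, ∑ k, A j k * (inner ℂ (w j) (h (w k)) : ℂ).re := by
  classical
  obtain ⟨B, hB⟩ := AHardy_factor hA
  have hdet : IsUnit B.det := by
    rw [isUnit_iff_ne_zero]
    intro h0
    have h1 := hA.det_pos
    rw [hB, Matrix.det_mul, h0, mul_zero] at h1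
    exact lt_irrefl _ h1
  set y : Fin n → Fib N := fun i => ∑ j, B i j • w j with hy
  have hsum : ∑ j, ∑ k, A j k * (inner ℂ (w j) (h (w k)) : ℂ).re =
      ∑ i, (inner ℂ (y i) (h (y i)) : ℂ).re := by
    have h1 : ∀ i, (inner ℂ (y i) (h (y i)) : ℂ).re =
        ∑ j, ∑ k, B i j * B i k * (inner ℂ (w j) (h (w k)) : ℂ).re := by
      intro i
      have e1 : h (y i) = ∑ k, ((B i k : ℝ) : ℂ) • h (w k) := by
        rw [hy]
        dsimp only
        rw [map_sum]
        refine Finset.sum_congr rfl fun k _ => ?_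
        rw [← Complex.coe_smul, map_smul]
      rw [e1, hy]
      dsimp only
      rw [sum_inner, Complex.re_sum]
      refine Finset.sum_congr rfl fun j _ => ?_
      rw [inner_sum, Complex.re_sum]
      refine Finset.sum_congr rfl fun k _ => ?_
      rw [← Complex.coe_smul, inner_smul_left, inner_smul_right, Complex.conj_ofReal,
        Complex.re_ofReal_mul, Complex.re_ofReal_mul]
      ring
    calc ∑ j, ∑ k, A j k * (inner ℂ (w j) (h (w k)) : ℂ).re =
        ∑ j, ∑ k, ∑ i, B i j * B i k * (inner ℂ (w j) (h (w k)) : ℂ).re := by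
          refine Finset.sum_congr rfl fun j _ => Finset.sum_congr rfl fun k _ => ?_
          rw [hB, Matrix.mul_apply, Finset.sum_mul]
          rfl
      _ = ∑ j, ∑ i, ∑ k, B i j * B i k * (inner ℂ (w j) (h (w k)) : ℂ).re :=
          Finset.sum_congr rfl fun j _ => Finset.sum_comm
      _ = ∑ i, ∑ j, ∑ k, B i j * B i k * (inner ℂ (w j) (h (w k)) : ℂ).re := Finset.sum_comm
      _ = _ := Finset.sum_congr rfl fun i _ => (h1 i).symm
  rw [hsum]
  have hnn : ∀ i, 0 ≤ (inner ℂ (y i) (h (y i)) : ℂ).re := by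
    intro i
    by_cases hi : y i = 0
    · rw [hi, inner_zero_left]; exact le_rfl
    · exact (hpos _ hi).le
  refine lt_of_le_of_ne (Finset.sum_nonneg fun i _ => hnn i) ?_
  intro h0
  have h1 := (Finset.sum_eq_zero_iff_of_nonneg fun i _ => hnn i).1 h0.symm
  have h2 : ∀ i, y i = 0 := by
    intro i
    by_contra hi
    exact (hpos _ hi).ne' (h1 i (Finset.mem_univ i))
  apply hw
  funext k
  have h3 : w k = ∑ i, B⁻¹ k i • y i := by
    rw [hy]
    dsimp only
    simp only [Finset.smul_sum, smul_smul]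
    rw [Finset.sum_comm]
    have h4 : ∀ j, ∑ i, (B⁻¹ k i * B i j) • w j = (if k = j then (1 : ℝ) else 0) • w j := by
      intro j
      rw [← Finset.sum_smul]
      congr 1
      have h5 := congrFun (congrFun (Matrix.nonsing_inv_mul B hdet) k) j
      rw [Matrix.mul_apply, Matrix.one_apply] at h5
      exact h5
    simp only [h4, ite_smul, one_smul, zero_smul]
    rw [Finset.sum_ite_eq, if_pos (Finset.mem_univ _)]
  rw [h3]
  simp [h2]

theorem AHardy_gg_pos {g : E n → Matrix (Fin n) (Fin n) ℝ} {x : E n} (hg : (g x).PosDef) :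
    (Matrix.of fun j k => gg g j k x : Matrix (Fin n) (Fin n) ℝ).PosDef := by
  have h1 : (Matrix.of fun j k => gg g j k x : Matrix (Fin n) (Fin n) ℝ) =
      Real.sqrt (g x).det • (g x)⁻¹ := by
    ext j k
    rfl
  rw [h1]
  exact hg.inv.smul (Real.sqrt_pos.2 hg.det_pos)

theorem AHardy_hin {L : LD n N} {K : Set (E n)} (hh : ContinuousOn L.h K)
    {V : Type*} [NormedAddCommGroup V] {p q : V → Fib N} (hp : Continuous p) (hq : Continuous q) :
    ContinuousOn (fun y : E n × V => (inner ℂ (p y.2) (L.h y.1 (q y.2)) : ℂ).re)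
      (K ×ˢ (univ : Set V)) := by
  have h1 : ContinuousOn (fun y : E n × V => L.h y.1 (q y.2)) (K ×ˢ (univ : Set V)) :=
    ContinuousOn.clm_apply (hh.comp continuousOn_fst fun y hy => hy.1)
      ((hq.comp continuous_snd).continuousOn)
  exact Complex.continuous_re.comp_continuousOn
    (ContinuousOn.inner (𝕜 := ℂ) ((hp.comp continuous_snd).continuousOn) h1)

theorem AHardy_hom (h : EndF N) (t : ℝ) (v w : Fib N) :
    (inner ℂ ((t : ℂ) • v) (h ((t : ℂ) • w)) : ℂ).re = t ^ 2 * (inner ℂ v (h w) : ℂ).re := by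
  rw [map_smul, inner_smul_left, inner_smul_right,
    Complex.conj_ofReal, Complex.re_ofReal_mul, Complex.re_ofReal_mul]
  ring

theorem AHardy_const1 {D : Set (E n)} {L : LD n N} (hL : L.Ok D) {K : Set (E n)}
    (hK : IsCompact K) (hKD : K ⊆ D) : ∃ C₁ : ℝ, 0 ≤ C₁ ∧
      ∀ x ∈ K, ∀ v : Fib N, ‖v‖ ^ 2 ≤ C₁ * (inner ℂ v (L.h x v) : ℂ).re := by
  have hh : ContinuousOn L.h K := hL.h_smooth.continuousOn.mono hKD
  have c1 : ContinuousOn (fun p : E n × Fib N => ‖p.2‖ ^ 2) (K ×ˢ (univ : Set (Fib N))) :=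
    (continuous_snd.norm.pow 2).continuousOn
  have c2 : ContinuousOn (fun p : E n × Fib N => (inner ℂ p.2 (L.h p.1 p.2) : ℂ).re)
      (K ×ˢ (univ : Set (Fib N))) :=
    AHardy_hin (V := Fib N) hh (p := fun v => v) (q := fun v => v) continuous_id continuous_id
  have m1 : ∀ x ∈ K, ∀ (t : ℝ) (v : Fib N), ‖((t : ℂ) • v)‖ ^ 2 = t ^ 2 * ‖v‖ ^ 2 :=
    fun x _ t v => by rw [norm_smul, Complex.norm_real, mul_pow, Real.norm_eq_abs, sq_abs]
  exact AHardy_cpt (V := Fib N) hK (fun _ v => ‖v‖ ^ 2)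
    (fun x v => (inner ℂ v (L.h x v) : ℂ).re) c1 c2 m1
    (fun x _ t v => AHardy_hom (L.h x) t v v) (fun x hx v hv => hL.h_pos x (hKD hx) v hv)

theorem AHardy_const2 {D : Set (E n)} (hD : RelOpen D) {L : LD n N} (hL : L.Ok D) {K : Set (E n)}
    (hK : IsCompact K) (hKD : K ⊆ D) : ∃ C₂ : ℝ, 0 ≤ C₂ ∧
      ∀ x ∈ K, ∀ w : Fin n → Fib N, (inner ℂ (w 0) (L.h x (w 0)) : ℂ).re ≤
        C₂ * ∑ j, ∑ k, gg L.g j k x * (inner ℂ (w j) (L.h x (w k)) : ℂ).re := by
  have hh : ContinuousOn L.h K := hL.h_smooth.continuousOn.mono hKD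
  have hin : ∀ j k : Fin n, ContinuousOn (fun p : E n × (Fin n → Fib N) =>
      (inner ℂ (p.2 j) (L.h p.1 (p.2 k)) : ℂ).re) (K ×ˢ (univ : Set (Fin n → Fib N))) :=
    fun j k => AHardy_hin (V := Fin n → Fib N) hh (p := fun w => w j) (q := fun w => w k)
      (continuous_apply j) (continuous_apply k)
  have hgg : ∀ j k : Fin n, ContinuousOn (fun p : E n × (Fin n → Fib N) => gg L.g j k p.1)
      (K ×ˢ (univ : Set (Fin n → Fib N))) := fun j k =>
    ContinuousOn.comp (t := D) (hD.gg_smooth hL.g_smooth hL.g_pos j k).continuousOn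
      continuousOn_fst fun y hy => hKD hy.1
  have c2 : ContinuousOn (fun p : E n × (Fin n → Fib N) => ∑ j, ∑ k, gg L.g j k p.1 *
      (inner ℂ (p.2 j) (L.h p.1 (p.2 k)) : ℂ).re) (K ×ˢ (univ : Set (Fin n → Fib N))) :=
    continuousOn_finsetSum _ fun j _ => continuousOn_finsetSum _ fun k _ =>
      (hgg j k).mul (hin j k)
  have m1 : ∀ x ∈ K, ∀ (t : ℝ) (w : Fin n → Fib N),
      (inner ℂ (((t : ℂ) • w) 0) (L.h x (((t : ℂ) • w) 0)) : ℂ).re =
        t ^ 2 * (inner ℂ (w 0) (L.h x (w 0)) : ℂ).re := fun x _ t w => by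
    rw [Pi.smul_apply]
    exact AHardy_hom (L.h x) t (w 0) (w 0)
  have m2 : ∀ x ∈ K, ∀ (t : ℝ) (w : Fin n → Fib N), ∑ j, ∑ k, gg L.g j k x *
      (inner ℂ (((t : ℂ) • w) j) (L.h x (((t : ℂ) • w) k)) : ℂ).re =
        t ^ 2 * ∑ j, ∑ k, gg L.g j k x * (inner ℂ (w j) (L.h x (w k)) : ℂ).re := by
    intro x _ t w
    rw [Finset.mul_sum]
    refine Finset.sum_congr rfl fun j _ => ?_
    rw [Finset.mul_sum]
    refine Finset.sum_congr rfl fun k _ => ?_
    rw [Pi.smul_apply, Pi.smul_apply, AHardy_hom]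
    ring
  exact AHardy_cpt (V := Fin n → Fib N) hK
    (fun x w => (inner ℂ (w 0) (L.h x (w 0)) : ℂ).re)
    (fun x w => ∑ j, ∑ k, gg L.g j k x * (inner ℂ (w j) (L.h x (w k)) : ℂ).re)
    (hin 0 0) c2 m1 m2 fun x hx w hw =>
      AHardy_pos (AHardy_gg_pos (hL.g_pos x (hKD hx))) (hL.h_pos x (hKD hx)) hw

theorem aHardy : AHardy_statement := by
  intro n N _ L z r hz hL r' hr' hrr
  have hD := AHardy_rel z r
  set K : Set (E n) := Metric.closedBall z r' ∩ Hs n with hK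
  have hKc : IsCompact K := (isCompact_closedBall z r').inter_right isClosed_Hs
  have hKD : K ⊆ HB z r := fun x hx => ⟨lt_of_le_of_lt hx.1 hrr, hx.2⟩
  have hZK : HB z r' ⊆ K := fun x hx => ⟨Metric.ball_subset_closedBall hx.1, hx.2⟩
  have hZD : HB z r' ⊆ HB z r := hZK.trans hKD
  have hmeas : MeasurableSet (HB z r') := dc_meas (AHardy_rel z r')
  obtain ⟨C₁, hC₁, h1⟩ := AHardy_const1 hL hKc hKD
  obtain ⟨C₂, hC₂, h2⟩ := AHardy_const2 hD hL hKc hKD
  refine ⟨C₁ * (4 * C₂), fun c hc hc0 => ?_⟩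
  have hed : ∀ x, (ed L c c x).re =
      ∑ j, ∑ k, gg L.g j k x * (inner ℂ (nab L j c x) (L.h x (nab L k c x)) : ℂ).re := by
    intro x
    rw [ed, Complex.re_sum]
    refine Finset.sum_congr rfl fun j _ => ?_
    rw [Complex.re_sum]
    refine Finset.sum_congr rfl fun k _ => ?_
    rw [Complex.re_ofReal_mul]
  have hedc : ContinuousOn (ed L c c) (HB z r) := by
    unfold ed
    refine continuousOn_finsetSum _ fun j _ => continuousOn_finsetSum _ fun k _ => ?_
    refine ContinuousOn.mul (Complex.continuous_ofReal.comp_continuousOn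
      (hD.gg_smooth hL.g_smooth hL.g_pos j k).continuousOn) ?_
    exact (dc_smooth_bil dc_bil_inner (Jacobi_nab_smooth hD hL hc j)
      (smooth_eval hL.h_smooth (Jacobi_nab_smooth hD hL hc k))).continuousOn
  have hint : IntegrableOn (ed L c c) (HB z r') :=
    ((hedc.mono hKD).integrableOn_compact hKc).mono_set hZK
  have hM : ∀ x ∈ HB z r', AHardy_M L c x ≤ C₂ * (ed L c c x).re := by
    intro x hx
    rw [hed]
    exact h2 x (hZK hx) fun j => nab L j c x
  have hN : ∀ x ∈ HB z r', ‖c x‖ ^ 2 / (x 0) ^ 2 ≤ C₁ * (AHardy_N L c x / (x 0) ^ 2) := by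
    intro x hx
    rw [← mul_div_assoc]
    exact div_le_div_of_nonneg_right (h1 x (hZK hx) (c x)) (sq_nonneg _)
  have hed0 : ∀ x ∈ HB z r', 0 ≤ C₂ * (ed L c c x).re := fun x hx =>
    (AHardy_M_nonneg hL c (hZD hx)).trans (hM x hx)
  have hfin := AHardy_lint hD hL hc hz hZD fun x hx h0 => hc0 x (hZD hx) h0
  have hreint : IntegrableOn (fun x => C₂ * (ed L c c x).re) (HB z r') :=
    hint.re.const_mul C₂
  have hub : ∫⁻ x in HB z r', ENNReal.ofReal (‖c x‖ ^ 2 / (x 0) ^ 2) ≤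
      ENNReal.ofReal (C₁ * (4 * C₂) * (En L (HB z r') c c).re) := by
    have s1 : ∫⁻ x in HB z r', ENNReal.ofReal (‖c x‖ ^ 2 / (x 0) ^ 2) ≤
        ENNReal.ofReal C₁ * ∫⁻ x in HB z r', ENNReal.ofReal (AHardy_N L c x / (x 0) ^ 2) := by
      rw [← lintegral_const_mul' _ _ ENNReal.ofReal_ne_top]
      refine setLIntegral_mono' hmeas fun x hx => ?_
      rw [← ENNReal.ofReal_mul hC₁]
      exact ENNReal.ofReal_le_ofReal (hN x hx)
    have s2 : ∫⁻ x in HB z r', ENNReal.ofReal (AHardy_M L c x) ≤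
        ENNReal.ofReal (C₂ * (En L (HB z r') c c).re) := by
      have e1 : C₂ * (En L (HB z r') c c).re = ∫ x in HB z r', C₂ * (ed L c c x).re := by
        rw [integral_const_mul, En]
        congr 1
        exact (Complex.reCLM.integral_comp_comm hint).symm
      rw [e1, ofReal_integral_eq_lintegral_ofReal hreint
        ((ae_restrict_mem hmeas).mono fun x hx => hed0 x hx)]
      exact setLIntegral_mono' hmeas fun x hx => ENNReal.ofReal_le_ofReal (hM x hx)
    calc _ ≤ ENNReal.ofReal C₁ * (4 * ENNReal.ofReal (C₂ * (En L (HB z r') c c).re)) :=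
          s1.trans (mul_le_mul_right (hfin.trans (mul_le_mul_right s2 _)) _)
      _ = ENNReal.ofReal (C₁ * (4 * C₂) * (En L (HB z r') c c).re) := by
          have e2 : (4 : ℝ≥0∞) = ENNReal.ofReal 4 := by norm_num
          rw [e2, ← ENNReal.ofReal_mul (by norm_num), ← ENNReal.ofReal_mul hC₁]
          congr 1
          ring
  have hpos : 0 ≤ᵐ[volume.restrict (HB z r')] fun x => ‖c x‖ ^ 2 / (x 0) ^ 2 :=
    ae_of_all _ fun x => by (clear L z r hz hL r' hr' hrr hD K hK hKc hKD hZK hZD hmeas C₁ hC₁ h1 C₂ hC₂ h2 hc hc0 hed hedc hint hM hN hed0 hfin hreint hub; positivity)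
  have hcm : AEStronglyMeasurable (fun x => ‖c x‖ ^ 2 / (x 0) ^ 2)
      (volume.restrict (HB z r')) := by
    have a1 : AEMeasurable (fun x => ‖c x‖ ^ 2) (volume.restrict (HB z r')) :=
      ((hc.continuousOn.mono hZD).norm.pow 2).aemeasurable hmeas
    have a2 : Measurable fun x : E n => (x 0) ^ 2 := (continuous_coord 0).measurable.pow_const 2
    exact (a1.div a2.aemeasurable).aestronglyMeasurable
  constructor
  · refine ⟨hcm, ?_⟩
    rw [hasFiniteIntegral_iff_ofReal hpos]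
    exact hub.trans_lt ENNReal.ofReal_lt_top
  · rw [integral_eq_lintegral_of_nonneg_ae hpos hcm]
    refine ENNReal.toReal_le_of_le_ofReal ?_ hub
    have h3 : 0 ≤ C₂ * (En L (HB z r') c c).re := by
      have e1 : C₂ * (En L (HB z r') c c).re = ∫ x in HB z r', C₂ * (ed L c c x).re := by
        rw [integral_const_mul, En]
        congr 1
        exact (Complex.reCLM.integral_comp_comm hint).symm
      rw [e1]
      exact setIntegral_nonneg hmeas hed0
    have h4 : C₁ * (4 * C₂) * (En L (HB z r') c c).re =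
        C₁ * 4 * (C₂ * (En L (HB z r') c c).re) := by ring
    rw [h4]
    (clear hz hr' hK h1 hC₂ hc0 hN hfin hreint hub hpos hcm h4; positivity)

end Vale.Agent.P088.EYM
end
end

section

/-!
# P088-EYM, block A: Caccioppoli inequality for real systems
-/

open MeasureTheory Set Filter Topology
open scoped ContDiff

noncomputable section

namespace Vale.Agent.P088.EYM

set_option linter.unusedSectionVars false

variable {n : ℕ} [NeZero n]

theorem AICacc_pd_eq {O : Set (E n)} (hO : IsOpen O) (hOs : O ⊆ Hs n) (i : Fin n) (f : E n → ℝ)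
    {x : E n} (hx : x ∈ O) : pd i f x = fderiv ℝ f x (ev i) := by
  unfold pd
  rw [fderivWithin_of_mem_nhds (mem_of_superset (hO.mem_nhds hx) hOs)]

/-- uniform ellipticity on compact sets -/
theorem AICacc_ell {K : Set (E n)} (hK : IsCompact K) {a : Fin n → Fin n → E n → ℝ}
    (ha : ∀ j k, ContinuousOn (a j k) K)
    (hp : ∀ x ∈ K, (Matrix.of fun j k => a j k x).PosDef) :
    ∃ l > 0, ∀ x ∈ K, ∀ ξ : Fin n → ℝ, l * ∑ j, ξ j ^ 2 ≤ ∑ j, ∑ k, a j k x * ξ j * ξ k := by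
  have hpos : ∀ x ∈ K, ∀ ξ : Fin n → ℝ, ξ ≠ 0 → 0 < ∑ j, ∑ k, a j k x * ξ j * ξ k := by
    intro x hx ξ hξ
    have h := (hp x hx).dotProduct_mulVec_pos hξ
    have h2 : star ξ ⬝ᵥ ((Matrix.of fun j k => a j k x).mulVec ξ) =
        ∑ j, ∑ k, a j k x * ξ j * ξ k := by
      simp only [dotProduct, Matrix.mulVec, Finset.mul_sum, Pi.star_apply, star_trivial,
        Matrix.of_apply]
      refine Finset.sum_congr rfl fun j _ => Finset.sum_congr rfl fun k _ => ?_
      ring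
    rw [← h2]
    exact h
  rcases K.eq_empty_or_nonempty with rfl | hne
  · exact ⟨1, one_pos, fun x hx => absurd hx (notMem_empty x)⟩
  have hSne : (Metric.sphere (0 : E n) 1).Nonempty := ⟨ev 0, by simp only [mem_sphere_iff_norm, sub_zero, PiLp.norm_single, norm_one]⟩
  have hcont : ContinuousOn (fun p : E n × E n => ∑ j, ∑ k, a j k p.1 * p.2 j * p.2 k)
      (K ×ˢ Metric.sphere (0 : E n) 1) := by
    refine continuousOn_finsetSum _ fun j _ => continuousOn_finsetSum _ fun k _ => ?_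
    refine ((ContinuousOn.comp (ha j k) continuousOn_fst fun p hp => hp.1).mul ?_).mul ?_
    · exact ((continuous_coord j).comp continuous_snd).continuousOn
    · exact ((continuous_coord k).comp continuous_snd).continuousOn
  obtain ⟨⟨x0, ξ0⟩, hmem, hmin⟩ := (hK.prod (isCompact_sphere (0 : E n) 1)).exists_isMinOn
    (hne.prod hSne) hcont
  have hξ0 : (ξ0 : Fin n → ℝ) ≠ 0 := by
    intro h
    have h1 : ξ0 = 0 := by
      ext i
      exact congrFun h i
    have h2 := hmem.2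
    rw [h1] at h2
    simp only [mem_sphere_iff_norm, sub_self, norm_zero, zero_ne_one] at h2
  refine ⟨∑ j, ∑ k, a j k x0 * ξ0 j * ξ0 k, hpos x0 hmem.1 _ hξ0, fun x hx ξ => ?_⟩
  by_cases hξ : ξ = 0
  · simp only [hξ, Pi.zero_apply, ne_eq, OfNat.ofNat_ne_zero, not_false_eq_true, zero_pow, Finset.sum_const_zero, mul_zero, Std.le_refl]
  obtain ⟨η, hη⟩ : ∃ η : E n, η = WithLp.toLp 2 ξ := ⟨_, rfl⟩
  have hηj : ∀ j, η j = ξ j := fun j => by rw [hη]
  have hη0 : η ≠ 0 := by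
    intro h
    apply hξ
    funext j
    rw [← hηj, h]
    rfl
  have hnorm : ‖η‖ ^ 2 = ∑ j, ξ j ^ 2 := by
    rw [EuclideanSpace.real_norm_sq_eq]
    exact Finset.sum_congr rfl fun j _ => by rw [hηj]
  have hnpos : 0 < ‖η‖ := norm_pos_iff.2 hη0
  have hmem2 : ((x, ‖η‖⁻¹ • η) : E n × E n) ∈ K ×ˢ Metric.sphere (0 : E n) 1 := by
    refine ⟨hx, ?_⟩
    rw [mem_sphere_zero_iff_norm, norm_smul, norm_inv, norm_norm, inv_mul_cancel₀ hnpos.ne']
  have h3 := isMinOn_iff.1 hmin _ hmem2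
  simp only at h3
  have h4 : ∑ j, ∑ k, a j k x * (‖η‖⁻¹ • η) j * (‖η‖⁻¹ • η) k =
      (‖η‖⁻¹) ^ 2 * ∑ j, ∑ k, a j k x * ξ j * ξ k := by
    rw [Finset.mul_sum]
    refine Finset.sum_congr rfl fun j _ => ?_
    rw [Finset.mul_sum]
    refine Finset.sum_congr rfl fun k _ => ?_
    simp only [PiLp.smul_apply, smul_eq_mul, hηj]
    ring
  rw [h4] at h3
  rw [← hnorm]
  calc (∑ j, ∑ k, a j k x0 * ξ0 j * ξ0 k) * ‖η‖ ^ 2 ≤
      ((‖η‖⁻¹) ^ 2 * ∑ j, ∑ k, a j k x * ξ j * ξ k) * ‖η‖ ^ 2 :=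
        mul_le_mul_of_nonneg_right h3 (sq_nonneg _)
    _ = ∑ j, ∑ k, a j k x * ξ j * ξ k := by
        (clear * - hη0; field_simp)

/-- uniform bounds on compact sets -/
theorem AICacc_bound {K : Set (E n)} (hK : IsCompact K) {κ : Type} [Fintype κ]
    {f : κ → E n → ℝ} (hf : ∀ i, ContinuousOn (f i) K) :
    ∃ L, 0 ≤ L ∧ ∀ i, ∀ x ∈ K, |f i x| ≤ L := by
  choose C hC using fun i => hK.exists_bound_of_continuousOn (hf i)
  refine ⟨∑ i, |C i|, Finset.sum_nonneg fun i _ => abs_nonneg _, fun i x hx => ?_⟩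
  refine ((hC i x hx).trans (le_abs_self _)).trans ?_
  exact Finset.single_le_sum (f := fun i => |C i|) (fun i _ => abs_nonneg _) (Finset.mem_univ i)

/-- Young's inequality -/
theorem AICacc_young {ι κ : Type} [Fintype ι] [Fintype κ] {l L : ℝ} (hl : 0 < l)
    (N : ι → κ → ℝ) (hN : ∀ b c, |N b c| ≤ L) (D : ι → ι → ℝ) (hD : ∀ b c, |D b c| ≤ L)
    (v : ι → ℝ) (q : κ → ℝ) :
    -(l / 2 * ∑ c, q c ^ 2 + (Fintype.card κ * ((Fintype.card ι + 1) * L ^ 2 / (2 * l)) +
      L * Fintype.card ι) * ∑ b, v b ^ 2) ≤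
      ∑ b, ∑ c, N b c * v b * q c + ∑ b, ∑ c, D b c * v b * v c := by
  obtain ⟨m, hm⟩ : ∃ m : ℝ, m = Fintype.card ι + 1 := ⟨_, rfl⟩
  have hmpos : 0 < m := by rw [hm]; positivity
  have h1 : ∀ b c, -(l / (2 * m) * q c ^ 2 + m * L ^ 2 / (2 * l) * v b ^ 2) ≤
      N b c * v b * q c := by
    intro b c
    have e1 : N b c ^ 2 ≤ L ^ 2 := by
      rw [← sq_abs (N b c)]
      exact pow_le_pow_left₀ (abs_nonneg _) (hN b c) 2
    have e2 : 0 ≤ l / (2 * m) * (q c + m / l * (N b c * v b)) ^ 2 := by positivity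
    have e3 : l / (2 * m) * (q c + m / l * (N b c * v b)) ^ 2 =
        l / (2 * m) * q c ^ 2 + N b c * v b * q c + m / (2 * l) * (N b c ^ 2 * v b ^ 2) := by
      field_simp
      ring
    have e4 : m / (2 * l) * (N b c ^ 2 * v b ^ 2) ≤ m / (2 * l) * (L ^ 2 * v b ^ 2) := by
      gcongr
    have e5 : m / (2 * l) * (L ^ 2 * v b ^ 2) = m * L ^ 2 / (2 * l) * v b ^ 2 := by ring
    linarith only [e2, e3, e4, e5]
  have h2 : ∀ b c, -(L / 2 * v b ^ 2 + L / 2 * v c ^ 2) ≤ D b c * v b * v c := by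
    intro b c
    have e1 := abs_le.1 (hD b c)
    have e2 : |v b * v c| ≤ (v b ^ 2 + v c ^ 2) / 2 := by
      rw [abs_le]
      constructor <;> nlinarith only [sq_nonneg (v b + v c), sq_nonneg (v b - v c)]
    have e3 : |D b c * (v b * v c)| ≤ L * ((v b ^ 2 + v c ^ 2) / 2) := by
      rw [abs_mul]
      have := (abs_nonneg _).trans (hD b c)
      gcongr
      exact hD b c
    have e4 := (abs_le.1 e3).1
    linarith only [e4]
  have h3 : ∑ b : ι, ∑ c : κ, -(l / (2 * m) * q c ^ 2 + m * L ^ 2 / (2 * l) * v b ^ 2) =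
      -(Fintype.card ι * (l / (2 * m)) * ∑ c, q c ^ 2 +
        Fintype.card κ * (m * L ^ 2 / (2 * l)) * ∑ b, v b ^ 2) := by
    simp only [Finset.sum_neg_distrib, Finset.sum_add_distrib, ← Finset.mul_sum, Finset.sum_const,
      Finset.card_univ, nsmul_eq_mul]
    ring
  have h4 : ∑ b : ι, ∑ c : ι, -(L / 2 * v b ^ 2 + L / 2 * v c ^ 2) =
      -(L * Fintype.card ι * ∑ b, v b ^ 2) := by
    simp only [Finset.sum_neg_distrib, Finset.sum_add_distrib, ← Finset.mul_sum, Finset.sum_const,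
      Finset.card_univ, nsmul_eq_mul]
    ring
  have h5 : Fintype.card ι * (l / (2 * m)) ≤ l / 2 := by
    have : Fintype.card ι * (l / (2 * m)) = (Fintype.card ι / m) * (l / 2) := by
      field_simp
    rw [this]
    have h6 : (Fintype.card ι : ℝ) / m ≤ 1 := by
      rw [div_le_one hmpos, hm]
      linarith only []
    nlinarith only [hl, h6]
  have h6 : 0 ≤ ∑ c, q c ^ 2 := Finset.sum_nonneg fun _ _ => sq_nonneg _
  have h7 := Finset.sum_le_sum fun b (_ : b ∈ Finset.univ) =>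
    Finset.sum_le_sum fun c (_ : c ∈ Finset.univ) => h1 b c
  have h8 := Finset.sum_le_sum fun b (_ : b ∈ Finset.univ) =>
    Finset.sum_le_sum fun c (_ : c ∈ Finset.univ) => h2 b c
  rw [h3] at h7
  rw [h4] at h8
  rw [← hm]
  nlinarith only [h7, h8, h5, h6]

theorem AICacc_cont {D : Set (E n)} (hD : IsOpen D) {k φ : E n → ℝ} (hk : ContinuousOn k D)
    (hφ : Continuous φ) (hs : tsupport φ ⊆ D) : Continuous (fun x => k x * φ x) := by
  rw [continuous_iff_continuousAt]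
  intro x
  by_cases hx : x ∈ tsupport φ
  · exact (hk.continuousAt (hD.mem_nhds (hs hx))).mul hφ.continuousAt
  · have h1 : (fun x => k x * φ x) =ᶠ[𝓝 x] fun _ => 0 := by
      have h2 : (tsupport φ)ᶜ ∈ 𝓝 x := (isClosed_tsupport φ).isOpen_compl.mem_nhds hx
      filter_upwards [h2] with z hz
      rw [image_eq_zero_of_notMem_tsupport hz, mul_zero]
    exact continuousAt_const.congr h1.symm

theorem AICacc_int {D : Set (E n)} (hD : IsOpen D) {k φ : E n → ℝ} (hk : ContinuousOn k D)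
    (hφ : Continuous φ) (hc : HasCompactSupport φ) (hs : tsupport φ ⊆ D) :
    Integrable (fun x => k x * φ x) :=
  (AICacc_cont hD hk hφ hs).integrable_of_hasCompactSupport hc.mul_left

/-- integration by parts -/
theorem AICacc_parts {O : Set (E n)} (hO : IsOpen O) (hOs : O ⊆ Hs n) {z : E n} {t : ℝ}
    (hzt : Metric.closedBall z t ⊆ O) {W ψ : E n → ℝ} (hW : ContDiffOn ℝ ∞ W O)
    (hψ : ContDiff ℝ ∞ ψ) (hψc : HasCompactSupport ψ) (hψs : tsupport ψ ⊆ Metric.ball z t)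
    (j : Fin n) : ∫ x in Metric.ball z t, (W x * pd j ψ x + pd j W x * ψ x) = 0 := by
  have hb : Metric.ball z t ⊆ O := Metric.ball_subset_closedBall.trans hzt
  have hψO := hψs.trans hb
  have hdW : ContinuousOn (fun z => fderiv ℝ W z (ev j)) O :=
    ((hW.fderiv_of_isOpen hO (m := ∞) (by simp)).clm_apply contDiffOn_const).continuousOn
  have hψd : Continuous (fun z => fderiv ℝ ψ z (ev j)) :=
    (hψ.continuous_fderiv (by simp)).clm_apply continuous_const
  have hψds : tsupport (fun z => fderiv ℝ ψ z (ev j)) ⊆ O :=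
    (tsupport_fderiv_apply_subset ℝ _).trans hψO
  have hψdc : HasCompactSupport (fun z => fderiv ℝ ψ z (ev j)) := hψc.fderiv_apply ℝ _
  have i1 := AICacc_int hO hdW hψ.continuous hψc hψO
  have i2 := AICacc_int hO hW.continuousOn hψd hψdc hψds
  have hparts : ∫ x, W x * fderiv ℝ ψ x (ev j) = - ∫ x, fderiv ℝ W x (ev j) * ψ x := by
    refine integral_mul_fderiv_eq_neg_fderiv_mul_of_integrable i1 i2 ?_ ?_ ?_
    · exact AICacc_int hO hW.continuousOn hψ.continuous hψc hψO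
    · intro x hx
      exact (hW.contDiffAt (hO.mem_nhds (hψO hx))).differentiableAt (by simp)
    · intro x _
      exact hψ.differentiable (by simp) x
  have h1 : ∫ x in Metric.ball z t, (W x * pd j ψ x + pd j W x * ψ x) =
      ∫ x in Metric.ball z t, (W x * fderiv ℝ ψ x (ev j) + fderiv ℝ W x (ev j) * ψ x) := by
    refine setIntegral_congr_fun measurableSet_ball fun x hx => ?_
    rw [AICacc_pd_eq hO hOs j ψ (hb hx), AICacc_pd_eq hO hOs j W (hb hx)]
  rw [h1, setIntegral_eq_integral_of_forall_compl_eq_zero, integral_add i2 i1, hparts,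
    neg_add_cancel]
  intro x hx
  rw [image_eq_zero_of_notMem_tsupport (f := fun z => fderiv ℝ ψ z (ev j)) (fun h => hx
      (hψs (tsupport_fderiv_apply_subset ℝ _ h))),
    image_eq_zero_of_notMem_tsupport (f := ψ) (fun h => hx (hψs h)), mul_zero, mul_zero, add_zero]

/-- the density of the divergence -/
def AICacc_P {ι : Type} [Fintype ι] (S : RSys n ι) (χ : E n → ℝ) (u : ι → E n → ℝ) (x : E n) : ℝ :=
  ∑ b, ∑ j, ∑ k, ((S.a j k x * (u b x * pd k (u b) x)) * pd j (fun y => χ y * χ y) x +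
    pd j (fun y => S.a j k y * (u b y * pd k (u b) y)) x * (χ x * χ x))

/-- coefficients of the mixed terms -/
def AICacc_N {ι : Type} [DecidableEq ι] (S : RSys n ι) (χ : E n → ℝ) (x : E n) (b : ι)
    (p : ι × Fin n) : ℝ :=
  χ x * S.M p.2 b p.1 x +
    if b = p.1 then ∑ j, (χ x * pd j (S.a j p.2) x + 2 * (pd j χ x * S.a j p.2 x)) else 0

theorem AICacc_identity {ι : Type} [Fintype ι] [DecidableEq ι] {S : RSys n ι} {O : Set (E n)}
    (hO : IsOpen O) (hOs : O ⊆ Hs n) (hS : S.Ok O) {χ : E n → ℝ} (hχ : ContDiff ℝ ∞ χ)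
    {u : ι → E n → ℝ} (hu : S.IsSol O u) {x : E n} (hx : x ∈ O) :
    AICacc_P S χ u x =
      ∑ b, ∑ j, ∑ k, S.a j k x * (χ x * pd j (u b) x) * (χ x * pd k (u b) x) +
      (∑ b, ∑ p : ι × Fin n, AICacc_N S χ x b p * u b x * (χ x * pd p.2 (u p.1) x) +
        ∑ b, ∑ c, (χ x * χ x * S.Z b c x) * u b x * u c x) := by
  have hD : RelOpen O := ⟨O, hO, (inter_eq_left.2 hOs).symm⟩
  have hχO : ContDiffOn ℝ ∞ χ O := hχ.contDiffOn
  have hpu : ∀ b k, ContDiffOn ℝ ∞ (pd k (u b)) O := fun b k => hD.pd_smooth (hu.1 b) k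
  have e1 : ∀ j, pd j (fun y => χ y * χ y) x = χ x * pd j χ x + pd j χ x * χ x := fun j =>
    hD.pd_mul hχO hχO hx j
  have e2 : ∀ b j k, pd j (fun y => S.a j k y * (u b y * pd k (u b) y)) x =
      S.a j k x * (u b x * pd j (pd k (u b)) x + pd j (u b) x * pd k (u b) x) +
      pd j (S.a j k) x * (u b x * pd k (u b) x) := by
    intro b j k
    have h1 := hD.pd_mul (hS.a_smooth j k) ((hu.1 b).mul (hpu b k)) hx j
    have h2 := hD.pd_mul (hu.1 b) (hpu b k) hx j
    rw [← h2]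
    exact h1
  have hb : ∀ b, ∑ j, ∑ k, ((S.a j k x * (u b x * pd k (u b) x)) * pd j (fun y => χ y * χ y) x +
      pd j (fun y => S.a j k y * (u b y * pd k (u b) y)) x * (χ x * χ x)) =
      ∑ j, ∑ k, S.a j k x * (χ x * pd j (u b) x) * (χ x * pd k (u b) x) +
      (∑ p : ι × Fin n, AICacc_N S χ x b p * u b x * (χ x * pd p.2 (u p.1) x) +
        ∑ c, (χ x * χ x * S.Z b c x) * u b x * u c x) := by
    intro b
    have h1 : ∑ j, ∑ k, ((S.a j k x * (u b x * pd k (u b) x)) * pd j (fun y => χ y * χ y) x +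
      pd j (fun y => S.a j k y * (u b y * pd k (u b) y)) x * (χ x * χ x)) =
      ∑ j, ∑ k, S.a j k x * (χ x * pd j (u b) x) * (χ x * pd k (u b) x) +
      (χ x * χ x * u b x * ∑ j, ∑ k, S.a j k x * pd j (pd k (u b)) x +
      ∑ j, ∑ k, (χ x * pd j (S.a j k) x + 2 * (pd j χ x * S.a j k x)) * u b x *
        (χ x * pd k (u b) x)) := by
      rw [Finset.mul_sum, ← Finset.sum_add_distrib, ← Finset.sum_add_distrib]
      refine Finset.sum_congr rfl fun j _ => ?_
      rw [Finset.mul_sum, ← Finset.sum_add_distrib, ← Finset.sum_add_distrib]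
      refine Finset.sum_congr rfl fun k _ => ?_
      rw [e1, e2]
      ring
    rw [h1, hu.2 x hx b]
    have h2 : ∑ p : ι × Fin n, AICacc_N S χ x b p * u b x * (χ x * pd p.2 (u p.1) x) =
        ∑ p : ι × Fin n, (χ x * S.M p.2 b p.1 x) * u b x * (χ x * pd p.2 (u p.1) x) +
        ∑ k, ∑ j, (χ x * pd j (S.a j k) x + 2 * (pd j χ x * S.a j k x)) * u b x *
        (χ x * pd k (u b) x) := by
      have h2' : ∀ p : ι × Fin n, AICacc_N S χ x b p * u b x * (χ x * pd p.2 (u p.1) x) =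
          (χ x * S.M p.2 b p.1 x) * u b x * (χ x * pd p.2 (u p.1) x) +
          (if b = p.1 then ∑ j, (χ x * pd j (S.a j p.2) x + 2 * (pd j χ x * S.a j p.2 x)) else 0) *
            u b x * (χ x * pd p.2 (u p.1) x) := by
        intro p
        unfold AICacc_N
        ring
      rw [Finset.sum_congr rfl fun p _ => h2' p, Finset.sum_add_distrib]
      congr 1
      rw [Fintype.sum_prod_type, Finset.sum_eq_single b]
      · simp only [if_true]
        refine Finset.sum_congr rfl fun k _ => ?_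
        rw [Finset.sum_mul, Finset.sum_mul]
      · intro c _ hc
        simp [Ne.symm hc]
      · intro h
        exact absurd (Finset.mem_univ _) h
    rw [h2, Finset.sum_comm (f := fun j k => (χ x * pd j (S.a j k) x +
      2 * (pd j χ x * S.a j k x)) * u b x * (χ x * pd k (u b) x))]
    have h3 : χ x * χ x * u b x * (∑ j, ∑ c, S.M j b c x * pd j (u c) x +
        ∑ c, S.Z b c x * u c x) =
        ∑ p : ι × Fin n, (χ x * S.M p.2 b p.1 x) * u b x * (χ x * pd p.2 (u p.1) x) +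
        ∑ c, (χ x * χ x * S.Z b c x) * u b x * u c x := by
      rw [mul_add]
      congr 1
      · rw [Fintype.sum_prod_type]
        conv_rhs => rw [Finset.sum_comm]
        rw [Finset.mul_sum]
        refine Finset.sum_congr rfl fun j _ => ?_
        rw [Finset.mul_sum]
        refine Finset.sum_congr rfl fun c _ => ?_
        ring
      · rw [Finset.mul_sum]
        refine Finset.sum_congr rfl fun c _ => ?_
        ring
    rw [h3]
    ring
  unfold AICacc_P
  rw [Finset.sum_congr rfl fun b _ => hb b, Finset.sum_add_distrib, Finset.sum_add_distrib]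

theorem AICacc_continuousOn_P {ι : Type} [Fintype ι] {S : RSys n ι} {O : Set (E n)}
    (hO : IsOpen O) (hOs : O ⊆ Hs n) (hS : S.Ok O) {χ : E n → ℝ} (hχ : ContDiff ℝ ∞ χ)
    {u : ι → E n → ℝ} (hu : S.IsSol O u) (b : ι) (j k : Fin n) :
    ContDiffOn ℝ ∞ (fun y => S.a j k y * (u b y * pd k (u b) y)) O ∧
    ContinuousOn (fun x => (S.a j k x * (u b x * pd k (u b) x)) * pd j (fun y => χ y * χ y) x +
      pd j (fun y => S.a j k y * (u b y * pd k (u b) y)) x * (χ x * χ x)) O := by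
  have hD : RelOpen O := ⟨O, hO, (inter_eq_left.2 hOs).symm⟩
  have hχO : ContDiffOn ℝ ∞ χ O := hχ.contDiffOn
  have hW : ContDiffOn ℝ ∞ (fun y => S.a j k y * (u b y * pd k (u b) y)) O :=
    (hS.a_smooth j k).mul ((hu.1 b).mul (hD.pd_smooth (hu.1 b) k))
  refine ⟨hW, ?_⟩
  refine (hW.continuousOn.mul (hD.pd_smooth (hχO.mul hχO) j).continuousOn).add ?_
  exact (hD.pd_smooth hW j).continuousOn.mul (hχO.continuousOn.mul hχO.continuousOn)

theorem aICacc : AICacc_statement := by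
  intro n _ ι _ S O hO hOs hS z s t hst hzt
  classical
  rcases le_or_gt s 0 with hs0 | hs0
  · refine ⟨0, le_rfl, fun u _ b j => ?_⟩
    rw [Metric.ball_eq_empty.2 hs0]
    simp only [Measure.restrict_empty, integral_zero_measure, zero_mul, Std.le_refl]
  have hD : RelOpen O := ⟨O, hO, (inter_eq_left.2 hOs).symm⟩
  have hb : Metric.ball z t ⊆ O := Metric.ball_subset_closedBall.trans hzt
  have hK : IsCompact (Metric.closedBall z t) := isCompact_closedBall z t
  -- the cut-off function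
  obtain ⟨χ, hχ, hχc, hχs, hχ1, hχ2, hχ3⟩ : ∃ χ : E n → ℝ, ContDiff ℝ ∞ χ ∧ HasCompactSupport χ ∧
      tsupport χ ⊆ Metric.ball z t ∧ (∀ x ∈ Metric.ball z s, χ x = 1) ∧ (∀ x, 0 ≤ χ x) ∧
      ∀ x, χ x ≤ 1 := by
    let f : ContDiffBump z := ⟨s, (s + t) / 2, hs0, by linarith only [hst]⟩
    refine ⟨f, f.contDiff, f.hasCompactSupport, ?_, ?_, fun x => f.nonneg, fun x => f.le_one⟩
    · rw [f.tsupport_eq]
      exact Metric.closedBall_subset_ball (by show (s + t) / 2 < t; linarith only [hst])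
    · intro x hx
      exact f.one_of_mem_closedBall (Metric.ball_subset_closedBall hx)
  have hχO : ContDiffOn ℝ ∞ χ O := hχ.contDiffOn
  obtain ⟨l, hl, hell⟩ := AICacc_ell hK (fun j k => ((hS.a_smooth j k).continuousOn.mono hzt))
    (fun x hx => hS.a_pos x (hzt hx))
  obtain ⟨L1, hL1, hL1'⟩ := AICacc_bound hK (κ := ι × (ι × Fin n))
    (f := fun p x => AICacc_N S χ x p.1 p.2) (by
      rintro ⟨b, c, k⟩
      have h1 : ContinuousOn (fun x => AICacc_N S χ x b (c, k)) O := by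
        unfold AICacc_N
        refine (hχO.continuousOn.mul (hS.M_smooth k b c).continuousOn).add ?_
        by_cases h : b = c
        · simp only [h, if_true]
          refine continuousOn_finsetSum _ fun j _ => ?_
          refine (hχO.continuousOn.mul (hD.pd_smooth (hS.a_smooth j k) j).continuousOn).add ?_
          exact continuousOn_const.mul ((hD.pd_smooth hχO j).continuousOn.mul
            (hS.a_smooth j k).continuousOn)
        · simp only [h, if_false]
          exact continuousOn_const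
      exact h1.mono hzt)
  obtain ⟨L2, hL2, hL2'⟩ := AICacc_bound hK (κ := ι × ι)
    (f := fun p x => χ x * χ x * S.Z p.1 p.2 x) (by
      rintro ⟨b, c⟩
      exact ((hχO.continuousOn.mul hχO.continuousOn).mul (hS.Z_smooth b c).continuousOn).mono hzt)
  obtain ⟨L, hLdef⟩ : ∃ L, L = L1 + L2 := ⟨_, rfl⟩
  obtain ⟨C, hC⟩ : ∃ C : ℝ, C = (Fintype.card (ι × Fin n) * ((Fintype.card ι + 1) * L ^ 2 /
    (2 * l)) + L * Fintype.card ι) := ⟨_, rfl⟩
  have hL0 : 0 ≤ L := by rw [hLdef]; (clear * - hL1 hL2; positivity)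
  have hC0 : 0 ≤ C := by rw [hC]; (clear * - hl hL0; positivity)
  refine ⟨2 * C / l, by (clear * - hC0 hl; positivity), fun u hu b j => ?_⟩
  -- the pointwise inequality
  have hpt : ∀ x ∈ Metric.closedBall z t,
      l / 2 * ∑ p : ι × Fin n, (χ x * pd p.2 (u p.1) x) ^ 2 - C * ∑ b, u b x ^ 2 ≤
        AICacc_P S χ u x := by
    intro x hx
    rw [AICacc_identity hO hOs hS hχ hu (hzt hx)]
    have h1 := AICacc_young hl (AICacc_N S χ x) (L := L) (fun b p => by
      have := hL1' (b, p) x hx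
      simp only at this
      (clear O hO hOs hS s hst hzt hs0 hD hb hK hχ hχc hχs hχ1 hχ2 hχ3 hχO l hl hell hL1 hL2' C hC hL0 hC0 u hu j; linarith)) (fun b c => χ x * χ x * S.Z b c x) (fun b c => by
      have := hL2' (b, c) x hx
      simp only at this
      linarith only [hL1, hLdef, this]) (fun b => u b x) (fun p => χ x * pd p.2 (u p.1) x)
    rw [← hC] at h1
    have h2 : l * ∑ p : ι × Fin n, (χ x * pd p.2 (u p.1) x) ^ 2 ≤
        ∑ b, ∑ j, ∑ k, S.a j k x * (χ x * pd j (u b) x) * (χ x * pd k (u b) x) := by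
      rw [Fintype.sum_prod_type, Finset.mul_sum]
      exact Finset.sum_le_sum fun b _ => hell x hx fun j => χ x * pd j (u b) x
    (clear O hO hOs hS s hst hzt hs0 hD hb hK hχ hχc hχs hχ1 hχ2 hχ3 hχO hl L1 hL1 hL1' L2 hL2 hL2' L hLdef hC hL0 hC0 hu b j; linarith)
  -- integrate
  have hKint : ∀ {f : E n → ℝ}, ContinuousOn f O → IntegrableOn f (Metric.ball z t) := fun hf =>
    ((hf.mono hzt).integrableOn_compact hK).mono_set Metric.ball_subset_closedBall
  have hint0 : ∫ x in Metric.ball z t, AICacc_P S χ u x = 0 := by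
    unfold AICacc_P
    have hc := fun b j k => AICacc_continuousOn_P hO hOs hS hχ hu b j k
    rw [integral_finsetSum]
    · refine Finset.sum_eq_zero fun b _ => ?_
      rw [integral_finsetSum]
      · refine Finset.sum_eq_zero fun j _ => ?_
        rw [integral_finsetSum]
        · refine Finset.sum_eq_zero fun k _ => ?_
          refine AICacc_parts hO hOs hzt (hc b j k).1 (hχ.mul hχ) hχc.mul_left ?_ j
          exact (closure_mono (Function.support_mul_subset_left χ χ)).trans hχs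
        · intro k _
          exact hKint (hc b j k).2
      · intro j _
        exact hKint (continuousOn_finsetSum _ fun k _ => (hc b j k).2)
    · intro b _
      exact hKint (continuousOn_finsetSum _ fun j _ => continuousOn_finsetSum _ fun k _ =>
        (hc b j k).2)
  have hPint : IntegrableOn (AICacc_P S χ u) (Metric.ball z t) := by
    unfold AICacc_P
    exact hKint (continuousOn_finsetSum _ fun b _ => continuousOn_finsetSum _ fun j _ =>
      continuousOn_finsetSum _ fun k _ => (AICacc_continuousOn_P hO hOs hS hχ hu b j k).2)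
  have hpdc : ∀ (b : ι) (j : Fin n), ContinuousOn (pd j (u b)) O := fun b j =>
    (hD.pd_smooth (hu.1 b) j).continuousOn
  have hQc : ContinuousOn (fun x => ∑ p : ι × Fin n, (χ x * pd p.2 (u p.1) x) ^ 2) O :=
    continuousOn_finsetSum _ fun p _ => (hχO.continuousOn.mul (hpdc p.1 p.2)).pow 2
  have hUc : ContinuousOn (fun x => ∑ b, u b x ^ 2) O :=
    continuousOn_finsetSum _ fun b _ => (hu.1 b).continuousOn.pow 2
  have hmono : ∫ x in Metric.ball z t, (l / 2 * ∑ p : ι × Fin n, (χ x * pd p.2 (u p.1) x) ^ 2 -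
      C * ∑ b, u b x ^ 2) ≤ ∫ x in Metric.ball z t, AICacc_P S χ u x := by
    refine setIntegral_mono_on ?_ hPint measurableSet_ball fun x hx =>
      hpt x (Metric.ball_subset_closedBall hx)
    exact ((hKint hQc).const_mul _).sub ((hKint hUc).const_mul _)
  rw [hint0, integral_sub ((hKint hQc).const_mul _) ((hKint hUc).const_mul _),
    integral_const_mul, integral_const_mul, integral_finsetSum (s := (Finset.univ : Finset ι))
      (f := fun b x => u b x ^ 2) (fun b _ => hKint ((hu.1 b).continuousOn.pow 2))] at hmono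
  have hfin : ∫ x in Metric.ball z s, (pd j (u b) x) ^ 2 ≤
      ∫ x in Metric.ball z t, ∑ p : ι × Fin n, (χ x * pd p.2 (u p.1) x) ^ 2 := by
    refine le_trans ?_ (setIntegral_mono_set (hKint hQc) (Eventually.of_forall fun x =>
      Finset.sum_nonneg fun p _ => sq_nonneg _) (LE.le.eventuallyLE
        (Metric.ball_subset_ball hst.le)))
    refine setIntegral_mono_on ?_ ?_ measurableSet_ball fun x hx => ?_
    · exact (hKint ((hpdc b j).pow 2)).mono_set (Metric.ball_subset_ball hst.le)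
    · exact (hKint hQc).mono_set (Metric.ball_subset_ball hst.le)
    · have h1 := Finset.single_le_sum (f := fun p : ι × Fin n => (χ x * pd p.2 (u p.1) x) ^ 2)
        (fun p _ => sq_nonneg _) (Finset.mem_univ (b, j))
      simp only at h1
      rw [hχ1 x hx, one_mul] at h1
      rw [hχ1 x hx]
      exact h1
  have h9 : l / 2 * ∫ x in Metric.ball z t, ∑ p : ι × Fin n, (χ x * pd p.2 (u p.1) x) ^ 2 ≤
      C * ∑ b, ∫ x in Metric.ball z t, u b x ^ 2 := by (clear S O hO hOs hS s hst hzt hs0 hD hb hK hχ hχc hχs hχ1 hχ2 hχ3 hχO hl hell L1 hL1 hL1' L2 hL2 hL2' L hLdef hC hL0 hC0 hu b j hpt hKint hint0 hPint hpdc hQc hUc hfin; linarith)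
  calc ∫ x in Metric.ball z s, (pd j (u b) x) ^ 2 ≤
      ∫ x in Metric.ball z t, ∑ p : ι × Fin n, (χ x * pd p.2 (u p.1) x) ^ 2 := hfin
    _ = 2 / l * (l / 2 * ∫ x in Metric.ball z t,
        ∑ p : ι × Fin n, (χ x * pd p.2 (u p.1) x) ^ 2) := by (clear S O hO hOs hS s hst hzt hs0 hD hb hK hχ hχc hχs hχ1 hχ2 hχ3 hχO hell L1 hL1 hL1' L2 hL2 hL2' L hLdef C hC hL0 hC0 hu b j hpt hKint hint0 hPint hpdc hQc hUc hmono hfin h9; field_simp)
    _ ≤ 2 / l * (C * ∑ b, ∫ x in Metric.ball z t, u b x ^ 2) := by (clear S O hO hOs hS s hst hzt hs0 hD hb hK hχ hχc hχs hχ1 hχ2 hχ3 hχO hell L1 hL1 hL1' L2 hL2 hL2' L hLdef hC hL0 hC0 hu b j hpt hKint hint0 hPint hpdc hQc hUc hfin; gcongr)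
    _ = 2 * C / l * ∑ b, ∫ x in Metric.ball z t, u b x ^ 2 := by ring

end Vale.Agent.P088.EYM
end
end

section

/-!
# P088-EYM, A15: interior estimate for smooth solutions
-/

open MeasureTheory Set Filter Topology
open scoped ContDiff

noncomputable section

namespace Vale.Agent.P088.EYM

variable {n N : ℕ} [NeZero n]

/-- the `p`-th real component as a continuous real linear map -/
def aInt_proj (p : Fin N × Bool) : Fib N →L[ℝ] ℝ :=
  (if p.2 then Complex.imCLM else Complex.reCLM).comp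
    ((EuclideanSpace.proj (𝕜 := ℂ) p.1).restrictScalars ℝ)

omit [NeZero n] in
theorem aInt_comps (c : E n → Fib N) (p : Fin N × Bool) :
    comps c p = fun x => aInt_proj p (c x) := by
  funext x
  rcases p with ⟨a, b⟩
  cases b <;> simp [comps, aInt_proj]

theorem aInt_norm_sq (v : Fib N) : ‖v‖ ^ 2 = ∑ p : Fin N × Bool, (aInt_proj p v) ^ 2 := by
  rw [EuclideanSpace.norm_sq_eq, Fintype.sum_prod_type]
  refine Finset.sum_congr rfl fun a _ => ?_
  rw [Fintype.sum_bool, ← Complex.normSq_eq_norm_sq, Complex.normSq_apply]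
  simp only [aInt_proj, if_true, Bool.false_eq_true, if_false, ContinuousLinearMap.comp_apply,
    Complex.imCLM_apply, Complex.reCLM_apply, ContinuousLinearMap.coe_restrictScalars']
  show (v a).re * (v a).re + (v a).im * (v a).im = (v a).im ^ 2 + (v a).re ^ 2
  ring

theorem aInt : AIHigh_statement → AISup_statement → AIReal_statement → AInt_statement := by
  intro hHigh hSup hReal n N _ L D hDo hDH hL z r hr hzr
  obtain ⟨S, hS, hsol⟩ := hReal n N L D hDo hDH hL
  have hDrel : RelOpen D := ⟨D, hDo, (inter_eq_left.mpr hDH).symm⟩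
  have hsub : Metric.closedBall z (7 * r / 8) ⊆ D :=
    (Metric.closedBall_subset_closedBall (by linarith only [hr])).trans hzr
  obtain ⟨C₁, hC₁, h1⟩ := hHigh n (n + 1) (Fin N × Bool) S D hDo hDH hS z (7 * r / 8) r
    (by linarith only [hr]) hzr
  obtain ⟨C₂, hC₂, h2⟩ := hSup n D hDo hDH z (r / 2) (7 * r / 8) (by linarith) hsub
  refine ⟨((n : ℝ) + 1) ^ 2 * (Fintype.card (Fin N × Bool) * (C₂ * C₁)), fun c hc x hx => ?_⟩
  have hu := hsol c hc
  set Q : ℝ := ∑ b, ∫ x in Metric.ball z r, (comps c b x) ^ 2 with hQ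
  have hQeq : ∫ y in Metric.ball z r, ‖c y‖ ^ 2 = Q := by
    have e1 : ∀ y, ‖c y‖ ^ 2 = ∑ b, (comps c b y) ^ 2 := by
      intro y
      rw [aInt_norm_sq]
      refine Finset.sum_congr rfl fun b _ => ?_
      rw [aInt_comps]
    simp only [e1]
    rw [integral_finsetSum]
    intro b _
    have hcont : ContinuousOn (fun y => (comps c b y) ^ 2) (Metric.closedBall z r) :=
      ((hu.1 b).continuousOn.mono hzr).pow 2
    exact (hcont.integrableOn_compact (isCompact_closedBall z r)).mono_set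
      Metric.ball_subset_closedBall
  have hQ0 : 0 ≤ Q := by
    rw [← hQeq]
    exact integral_nonneg fun y => by (clear * -; positivity)
  rw [hQeq]
  -- pointwise bounds
  have b1 : ∀ b, (comps c b x) ^ 2 ≤ C₂ * (C₁ * Q) := by
    intro b
    exact h2 (comps c b) (hu.1 b) (C₁ * Q)
      (fun l hl => h1 (comps c) hu b l (by (clear * - hl; omega))) x hx
  have b2 : ∀ j b, (pd j (comps c b) x) ^ 2 ≤ C₂ * (C₁ * Q) := by
    intro j b
    refine h2 (pd j (comps c b)) (hDrel.pd_smooth (hu.1 b) j) (C₁ * Q) (fun l hl => ?_) x hx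
    have e1 : pdl l (pd j (comps c b)) = pdl (l ++ [j]) (comps c b) := by
      unfold pdl
      rw [List.foldr_append]
      rfl
    rw [e1]
    exact h1 (comps c) hu b (l ++ [j]) (by simp only [List.length_append, List.length_cons, List.length_nil, zero_add, add_le_add_iff_right]; omega)
  have hxD : x ∈ D :=
    hzr (Metric.ball_subset_closedBall (Metric.ball_subset_ball (by linarith only [hr]) hx))
  set K : ℝ := Fintype.card (Fin N × Bool) * (C₂ * (C₁ * Q)) with hK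
  have hK0 : 0 ≤ K := by (clear * - hC₂ hC₁; positivity)
  have n1 : ‖c x‖ ≤ Real.sqrt K := by
    refine Real.le_sqrt_of_sq_le ?_
    rw [aInt_norm_sq]
    calc ∑ p : Fin N × Bool, (aInt_proj p (c x)) ^ 2
        ≤ ∑ _p : Fin N × Bool, C₂ * (C₁ * Q) := Finset.sum_le_sum fun p _ => by
          have := b1 p
          rwa [aInt_comps] at this
      _ = K := by rw [Finset.sum_const, Finset.card_univ, nsmul_eq_mul]
  have n2 : ∀ j, ‖pd j c x‖ ≤ Real.sqrt K := by
    intro j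
    refine Real.le_sqrt_of_sq_le ?_
    rw [aInt_norm_sq]
    calc ∑ p : Fin N × Bool, (aInt_proj p (pd j c x)) ^ 2
        ≤ ∑ _p : Fin N × Bool, C₂ * (C₁ * Q) := Finset.sum_le_sum fun p _ => by
          have := b2 j p
          rw [aInt_comps, hDrel.pd_clm (aInt_proj p) hc.1 hxD j] at this
          exact this
      _ = K := by rw [Finset.sum_const, Finset.card_univ, nsmul_eq_mul]
  have n3 : ‖c x‖ + ∑ j, ‖pd j c x‖ ≤ ((n : ℝ) + 1) * Real.sqrt K := by
    calc ‖c x‖ + ∑ j, ‖pd j c x‖ ≤ Real.sqrt K + ∑ _j : Fin n, Real.sqrt K :=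
          add_le_add n1 (Finset.sum_le_sum fun j _ => n2 j)
      _ = ((n : ℝ) + 1) * Real.sqrt K := by
          rw [Finset.sum_const, Finset.card_univ, Fintype.card_fin, nsmul_eq_mul]
          ring
  calc (‖c x‖ + ∑ j, ‖pd j c x‖) ^ 2 ≤ (((n : ℝ) + 1) * Real.sqrt K) ^ 2 :=
        pow_le_pow_left₀ (by (clear hHigh hSup hReal L D hDo hDH hL z r hr hzr S hS hsol hDrel hsub C₁ hC₁ h1 C₂ hC₂ h2 hc hx hu Q hQ hQeq hQ0 b1 b2 hxD K hK hK0 n1 n2 n3; positivity)) n3 2
    _ = ((n : ℝ) + 1) ^ 2 * K := by rw [mul_pow, Real.sq_sqrt hK0]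
    _ = _ := by rw [hK]; ring

end Vale.Agent.P088.EYM
end
end

section

/-!
# P088-EYM, B-T10: the equations of a model, the Ricci tensor in harmonic form
-/

open MeasureTheory Set Filter Topology
open scoped ContDiff

noncomputable section

namespace Vale.Agent.P088.EYM

set_option linter.unusedSectionVars false

variable {n N : ℕ} [NeZero n]

/-! ### Symmetry -/

theorem eqs_symm {g : Matrix (Fin n) (Fin n) ℝ} (hp : g.PosDef) (i j : Fin n) :
    g i j = g j i := by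
  have h := congrFun (congrFun hp.isHermitian i) j
  rw [Matrix.conjTranspose_apply] at h
  simpa using h.symm

theorem eqs_inv_symm {g : Matrix (Fin n) (Fin n) ℝ} (hp : g.PosDef) (i j : Fin n) :
    g⁻¹ i j = g⁻¹ j i := eqs_symm hp.inv i j

theorem eqs_mul_inv {g : Matrix (Fin n) (Fin n) ℝ} (hp : g.PosDef) (i j : Fin n) :
    ∑ l, g i l * g⁻¹ l j = if i = j then 1 else 0 := by
  have h : g * g⁻¹ = 1 := Matrix.mul_nonsing_inv g ((Matrix.isUnit_iff_isUnit_det g).1 hp.isUnit)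
  have h2 := congrFun (congrFun h i) j
  rw [Matrix.mul_apply, Matrix.one_apply] at h2
  exact h2

/-! ### Expansion of the operator -/

section Exp

variable {D : Set (E n)} {L : LD n N} {c : E n → Fib N} {x : E n}

theorem eqs_nab_smooth (hD : RelOpen D) (hL : L.Ok D) (hc : ContDiffOn ℝ ∞ c D) (k : Fin n) :
    ContDiffOn ℝ ∞ (nab L k c) D :=
  (hD.pd_smooth hc k).add (smooth_eval (hL.B_smooth k) hc)

theorem eqs_pd_nab (hD : RelOpen D) (hL : L.Ok D) (hc : ContDiffOn ℝ ∞ c D) (hx : x ∈ D)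
    (j k : Fin n) :
    pd j (nab L k c) x = pd j (pd k c) x + (L.B k x (pd j c x) + pd j (L.B k) x (c x)) := by
  have h1 := hD.pd_add (hD.pd_smooth hc k) (smooth_eval (hL.B_smooth k) hc) hx j
  have h2 := hD.pd_eval (hL.B_smooth k) hc (by simp) (by simp) hx j
  rw [h2] at h1
  exact h1

theorem eqs_pd_flux (hD : RelOpen D) (hL : L.Ok D) (hc : ContDiffOn ℝ ∞ c D) (hx : x ∈ D)
    (j : Fin n) :
    pd j (flux L j c) x = ∑ k, (gg L.g j k x • pd j (nab L k c) x +
      pd j (gg L.g j k) x • nab L k c x) := by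
  have hgg := fun k => hD.gg_smooth hL.g_smooth hL.g_pos j k
  have hnab := fun k => eqs_nab_smooth hD hL hc k
  change pd j (fun y => ∑ k, gg L.g j k y • nab L k c y) x = _
  rw [hD.pd_sum Finset.univ (f := fun k y => gg L.g j k y • nab L k c y)
    (fun k _ => (hgg k).smul (hnab k)) hx j]
  exact Finset.sum_congr rfl fun k _ => hD.pd_smul (hgg k) (hnab k) hx j

/-- the operator in expanded form -/
theorem eqs_Lop (hD : RelOpen D) (hL : L.Ok D) (hc : ContDiffOn ℝ ∞ c D) (hx : x ∈ D) :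
    Lop L c x = ∑ j, ∑ k, (gg L.g j k x • pd j (pd k c) x +
      (gg L.g j k x • (L.B k x (pd j c x)) + gg L.g j k x • pd j (L.B k) x (c x)) +
      (pd j (gg L.g j k) x • pd k c x + pd j (gg L.g j k) x • L.B k x (c x)) +
      (gg L.g j k x • L.B j x (pd k c x) + gg L.g j k x • L.B j x (L.B k x (c x)))) := by
  rw [Lop]
  refine Finset.sum_congr rfl fun j _ => ?_
  rw [eqs_pd_flux hD hL hc hx j, flux, map_sum, ← Finset.sum_add_distrib]
  refine Finset.sum_congr rfl fun k _ => ?_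
  rw [eqs_pd_nab hD hL hc hx j k, ContinuousLinearMap.map_smul_of_tower, nab, map_add]
  simp only [smul_add]

theorem eqs_gg_symm (hL : L.Ok D) (hx : x ∈ D) (j k : Fin n) : gg L.g j k x = gg L.g k j x := by
  rw [gg, gg, eqs_inv_symm (hL.g_pos x hx)]

/-- the frame equation -/
theorem eqs_frame (hD : RelOpen D) (hL : L.Ok D) (v : Fib N) (hx : x ∈ D) :
    Lop L (fun _ => v) x = ∑ j, ∑ k, (gg L.g j k x • pd j (L.B k) x v +
      pd j (gg L.g j k) x • L.B k x v + gg L.g j k x • L.B j x (L.B k x v)) := by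
  have hc : ContDiffOn ℝ ∞ (fun _ : E n => v) D := contDiffOn_const
  rw [eqs_Lop hD hL hc hx]
  refine Finset.sum_congr rfl fun j _ => Finset.sum_congr rfl fun k _ => ?_
  have h1 : ∀ l, pd l (fun _ : E n => v) = fun _ => 0 := fun l => funext fun y => pd_const v y l
  rw [h1, h1, pd_const]
  simp only [map_zero, smul_zero, zero_add]

theorem eqs_main (hD : RelOpen D) (hL : L.Ok D) (hf : ∀ v : Fib N, Lop L (fun _ => v) x = 0)
    (hc : ContDiffOn ℝ ∞ c D) (h0 : Lop L c x = 0) (hx : x ∈ D) :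
    ∑ j, ∑ k, gg L.g j k x • pd j (pd k c) x + ∑ k, (∑ j, pd j (gg L.g j k) x) • pd k c x +
      ∑ j, ∑ k, (2 * gg L.g j k x) • L.B j x (pd k c x) = 0 := by
  have h1 := hf (c x)
  rw [eqs_frame hD hL (c x) hx] at h1
  rw [eqs_Lop hD hL hc hx] at h0
  simp only [Finset.sum_add_distrib] at h0 h1
  have h2 : ∑ j, ∑ k, gg L.g j k x • (L.B k x (pd j c x)) =
      ∑ j, ∑ k, gg L.g j k x • (L.B j x (pd k c x)) := by
    rw [Finset.sum_comm]
    exact Finset.sum_congr rfl fun j _ => Finset.sum_congr rfl fun k _ => by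
      rw [eqs_gg_symm hL hx]
  have h3 : ∑ k, (∑ j, pd j (gg L.g j k) x) • pd k c x =
      ∑ j, ∑ k, pd j (gg L.g j k) x • pd k c x := by
    simp only [Finset.sum_smul]
    rw [Finset.sum_comm]
  have h4 : ∑ j, ∑ k, (2 * gg L.g j k x) • L.B j x (pd k c x) =
      ∑ j, ∑ k, gg L.g j k x • (L.B j x (pd k c x)) +
        ∑ j, ∑ k, gg L.g j k x • (L.B j x (pd k c x)) := by
    simp only [← Finset.sum_add_distrib]
    exact Finset.sum_congr rfl fun j _ => Finset.sum_congr rfl fun k _ => by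
      rw [two_mul, add_smul]
  rw [h2] at h0
  rw [h3, h4]
  have h5 := congrArg₂ (fun u v : Fib N => u - v) h0 h1
  simp only [sub_self] at h5
  refine Eq.trans ?_ h5
  abel

end Exp

/-! ### The equations of a model -/

section Mod

/-- `∑ g^{ij} Γ^a_{ij}` -/
def eqsH (g : E n → Matrix (Fin n) (Fin n) ℝ) (a : Fin n) (x : E n) : ℝ :=
  ∑ i, ∑ j, (g x)⁻¹ i j * chr g a i j x

theorem eqs_sqrt_pos {g : E n → Matrix (Fin n) (Fin n) ℝ} {x : E n} (hp : (g x).PosDef) :
    0 < Real.sqrt (g x).det := Real.sqrt_pos.2 hp.det_pos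

/-- the equation of the `c_a` before the identification of `H` -/
theorem eqs_c {D : Set (E n)} {x : E n} (hD : RelOpen D) {L : LD n N} (hL : L.Ok D)
    {c : E n → Fib N} (hf : ∀ v : Fib N, Lop L (fun _ => v) x = 0)
    (hc : ContDiffOn ℝ ∞ c D) (h0 : Lop L c x = 0) (hx : x ∈ D) :
    ∑ j, ∑ k, (L.g x)⁻¹ j k • pd j (pd k c) x =
      ∑ k, eqsH L.g k x • pd k c x -
        ∑ j, ∑ k, (2 * (L.g x)⁻¹ j k) • L.B j x (pd k c x) := by
  have h1 := eqs_main hD hL hf hc h0 hx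
  have hs := eqs_sqrt_pos (hL.g_pos x hx)
  set s := Real.sqrt (L.g x).det with hs'
  have e1 : ∑ j, ∑ k, gg L.g j k x • pd j (pd k c) x =
      s • ∑ j, ∑ k, (L.g x)⁻¹ j k • pd j (pd k c) x := by
    simp only [Finset.smul_sum, smul_smul]
    rfl
  have e2 : ∑ k, (∑ j, pd j (gg L.g j k) x) • pd k c x =
      -(s • ∑ k, eqsH L.g k x • pd k c x) := by
    simp only [hD.sum_pd_gg hL.g_smooth hL.g_pos hx, Finset.smul_sum, smul_smul,
      ← Finset.sum_neg_distrib, ← neg_smul]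
    rfl
  have e3 : ∑ j, ∑ k, (2 * gg L.g j k x) • L.B j x (pd k c x) =
      s • ∑ j, ∑ k, (2 * (L.g x)⁻¹ j k) • L.B j x (pd k c x) := by
    simp only [Finset.smul_sum, smul_smul]
    refine Finset.sum_congr rfl fun j _ => Finset.sum_congr rfl fun k _ => ?_
    congr 1
    rw [gg, ← hs']
    ring
  rw [e1, e2, e3, ← smul_neg, ← smul_add, ← smul_add] at h1
  have h2 := (smul_eq_zero.1 h1).resolve_left hs.ne'
  rw [← sub_eq_zero, ← h2]
  abel

/-- the real part of the component `j0` -/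
def eqsRe (j0 : Fin N) : Fib N →L[ℝ] ℝ :=
  Complex.reCLM.comp ((EuclideanSpace.proj (𝕜 := ℂ) j0).restrictScalars ℝ)

theorem eqsRe_apply (j0 : Fin N) (v : Fib N) : eqsRe j0 v = (v j0).re := rfl

theorem eqs_pd_coord {x : E n} (hx : x ∈ Hs n) (a k : Fin n) :
    pd k (fun y : E n => y a) x = if k = a then 1 else 0 := by
  have h : HasFDerivWithinAt (fun y : E n => y a) (EuclideanSpace.proj (𝕜 := ℝ) a) (Hs n) x :=
    (EuclideanSpace.proj (𝕜 := ℝ) a).hasFDerivAt.hasFDerivWithinAt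
  rw [pd_of_has hx h k]
  simp only [PiLp.proj_apply, PiLp.single_apply, eq_comm]

/-- `∑ g^{ij} Γ^a_{ij} = H^a` -/
theorem model_harm {κ α β : ℝ} {j0 : Fin N} {W : Model n N} {D : Set (E n)} (hD : RelOpen D)
    (hW : IsModel κ α β j0 W D) {x : E n} (hx : x ∈ D) (a : Fin n) :
    ∑ i, ∑ j, (W.g x)⁻¹ i j * chr W.g a i j x = Hco W j0 a x := by
  have hf : ∀ v : Fib N, Lop W.toLD (fun _ => v) x = 0 := fun v => (hW.frame v).2 x hx
  have hc := (hW.sol a).1
  have h1 := eqs_c hD hW.ok hf hc ((hW.sol a).2 x hx) hx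
  have hT : EqOn (fun y => eqsRe j0 (W.c a y)) (fun y => y a) D := fun y hy => hW.re a y hy
  have hT1 : ∀ k, ∀ y ∈ D, eqsRe j0 (pd k (W.c a) y) = if k = a then 1 else 0 := by
    intro k y hy
    rw [← hD.pd_clm (eqsRe j0) hc hy k, hD.pd_congr hT hy k, eqs_pd_coord (hD.subset hy)]
  have hT2 : ∀ j k, eqsRe j0 (pd j (pd k (W.c a)) x) = 0 := by
    intro j k
    rw [← hD.pd_clm (eqsRe j0) (hD.pd_smooth hc k) hx j]
    have h2 : EqOn (fun y => eqsRe j0 (pd k (W.c a) y)) (fun _ => if k = a then (1 : ℝ) else 0) D :=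
      fun y hy => hT1 k y hy
    rw [hD.pd_congr h2 hx j, pd_const]
  have h3 := congrArg (eqsRe j0) h1
  rw [map_sub] at h3
  simp only [map_sum, map_smul, hT2, hT1 _ x hx, smul_eq_mul, mul_zero, Finset.sum_const_zero,
    mul_ite, mul_one, Finset.sum_ite_eq', Finset.mem_univ, if_true] at h3
  rw [Hco, ← eqsRe_apply]
  simp only [map_sum, map_smul, smul_eq_mul]
  change eqsH W.g a x = _
  (clear κ α β D hD hW hx hf hc h1 hT hT1 hT2; linarith)

theorem model_c {κ α β : ℝ} {j0 : Fin N} {W : Model n N} {D : Set (E n)} (hD : RelOpen D)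
    (hW : IsModel κ α β j0 W D) {x : E n} (hx : x ∈ D) (a : Fin n) :
    ∑ j, ∑ k, (W.g x)⁻¹ j k • pd j (pd k (W.c a)) x =
      ∑ k, Hco W j0 k x • pd k (W.c a) x -
        ∑ j, ∑ k, (2 * (W.g x)⁻¹ j k) • W.B j x (pd k (W.c a) x) := by
  have hf : ∀ v : Fib N, Lop W.toLD (fun _ => v) x = 0 := fun v => (hW.frame v).2 x hx
  have h1 := eqs_c hD hW.ok hf (hW.sol a).1 ((hW.sol a).2 x hx) hx
  rw [h1]
  congr 1
  exact Finset.sum_congr rfl fun k _ => by
    rw [← model_harm hD hW hx k]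
    rfl

theorem model_B {κ α β : ℝ} {j0 : Fin N} {W : Model n N} {D : Set (E n)} (hD : RelOpen D)
    (hW : IsModel κ α β j0 W D) {x : E n} (hx : x ∈ D) :
    ∑ j, ∑ k, (W.g x)⁻¹ j k • pd j (W.B k) x =
      ∑ k, Hco W j0 k x • W.B k x - ∑ j, ∑ k, (W.g x)⁻¹ j k • (W.B j x * W.B k x) := by
  have hL := hW.ok
  ext1 v
  have h1 : Lop W.toLD (fun _ => v) x = 0 := (hW.frame v).2 x hx
  rw [eqs_frame hD hL v hx] at h1
  simp only [Finset.sum_add_distrib] at h1
  have hs := eqs_sqrt_pos (hL.g_pos x hx)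
  set s := Real.sqrt (W.g x).det with hs'
  have e1 : ∑ j, ∑ k, gg W.g j k x • pd j (W.B k) x v =
      s • ∑ j, ∑ k, (W.g x)⁻¹ j k • pd j (W.B k) x v := by
    simp only [Finset.smul_sum, smul_smul]
    rfl
  have e2 : ∑ j, ∑ k, pd j (gg W.g j k) x • W.B k x v =
      -(s • ∑ k, Hco W j0 k x • W.B k x v) := by
    rw [Finset.sum_comm]
    simp only [← Finset.sum_smul, hD.sum_pd_gg hL.g_smooth hL.g_pos hx, model_harm hD hW hx,
      Finset.smul_sum, smul_smul, ← Finset.sum_neg_distrib, ← neg_smul]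
    rfl
  have e3 : ∑ j, ∑ k, gg W.g j k x • W.B j x (W.B k x v) =
      s • ∑ j, ∑ k, (W.g x)⁻¹ j k • W.B j x (W.B k x v) := by
    simp only [Finset.smul_sum, smul_smul]
    rfl
  rw [e1, e2, e3, ← smul_neg, ← smul_add, ← smul_add] at h1
  have h2 := (smul_eq_zero.1 h1).resolve_left hs.ne'
  simp only [sum_apply, smul_apply, sub_apply, mul_apply_eq_comp]
  rw [← sub_eq_zero, ← h2]
  abel

end Mod

/-! ### The Ricci tensor -/

section Ric

variable {D : Set (E n)} {g : E n → Matrix (Fin n) (Fin n) ℝ} {x : E n}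

theorem eqs_pd_symm (hD : RelOpen D) (hp : ∀ x ∈ D, (g x).PosDef) (hx : x ∈ D) (l i j : Fin n) :
    pd l (fun y => g y i j) x = pd l (fun y => g y j i) x :=
  hD.pd_congr (fun _ hy => eqs_symm (hp _ hy) i j) hx l

theorem eqs_pd2_symm (hD : RelOpen D) (hp : ∀ x ∈ D, (g x).PosDef) (hx : x ∈ D)
    (m l i j : Fin n) :
    pd m (pd l (fun y => g y i j)) x = pd m (pd l (fun y => g y j i)) x :=
  hD.pd_congr (fun _ hy => eqs_pd_symm hD hp hy l i j) hx m

/-- derivative of the Christoffel symbols -/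
theorem eqs_pd_chr (hD : RelOpen D) (hg : SmM g D) (hp : ∀ x ∈ D, (g x).PosDef) (hx : x ∈ D)
    (m k i j : Fin n) :
    pd m (chr g k i j) x = ∑ l, (1 / 2) * (pd m (fun y => (g y)⁻¹ k l) x *
      (pd i (fun y => g y l j) x + pd j (fun y => g y l i) x - pd l (fun y => g y i j) x) +
      (g x)⁻¹ k l * (pd m (pd i (fun y => g y l j)) x + pd m (pd j (fun y => g y l i)) x -
        pd m (pd l (fun y => g y i j)) x)) := by
  have hG := hD.smM_inv hg hp
  have hd := fun a b c => hD.pd_smooth (hg a b) c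
  have hq : ∀ l, ContDiffOn ℝ ∞ (fun y => pd i (fun y => g y l j) y + pd j (fun y => g y l i) y -
      pd l (fun y => g y i j) y) D := fun l => ((hd l j i).add (hd l i j)).sub (hd i j l)
  have h1 : ContDiffOn ℝ ∞ (fun y => ∑ l, (g y)⁻¹ k l * (pd i (fun y => g y l j) y +
      pd j (fun y => g y l i) y - pd l (fun y => g y i j) y)) D :=
    ContDiffOn.sum fun l _ => (hG k l).mul (hq l)
  have h2 := hD.pd_const_smul (1 / 2) h1 hx m
  simp only [smul_eq_mul] at h2
  have h3 : pd m (chr g k i j) x = pd m (fun y => (1 / 2) * ∑ l, (g y)⁻¹ k l *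
      (pd i (fun y => g y l j) y + pd j (fun y => g y l i) y - pd l (fun y => g y i j) y)) x := rfl
  rw [h3, h2, hD.pd_sum Finset.univ (f := fun l y => (g y)⁻¹ k l * (pd i (fun y => g y l j) y +
    pd j (fun y => g y l i) y - pd l (fun y => g y i j) y)) (fun l _ => (hG k l).mul (hq l)) hx m,
    Finset.mul_sum]
  refine Finset.sum_congr rfl fun l _ => ?_
  rw [hD.pd_mul (hG k l) (hq l) hx m,
    hD.pd_sub (f := fun y => pd i (fun y => g y l j) y + pd j (fun y => g y l i) y)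
      (g := fun y => pd l (fun y => g y i j) y) ((hd l j i).add (hd l i j)) (hd i j l) hx m,
    hD.pd_add (f := fun y => pd i (fun y => g y l j) y) (g := fun y => pd j (fun y => g y l i) y)
      (hd l j i) (hd l i j) hx m]
  ring

theorem eqs_low (hp : ∀ x ∈ D, (g x).PosDef) (hx : x ∈ D) (j a b : Fin n) :
    ∑ l, g x j l * chr g l a b x = (1 / 2) * (pd a (fun y => g y j b) x +
      pd b (fun y => g y j a) x - pd j (fun y => g y a b) x) := by
  have h1 : ∀ l, g x j l * chr g l a b x = ∑ m, g x j l * (g x)⁻¹ l m * ((1 / 2) *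
      (pd a (fun y => g y m b) x + pd b (fun y => g y m a) x - pd m (fun y => g y a b) x)) := by
    intro l
    rw [chr, Finset.mul_sum, Finset.mul_sum]
    exact Finset.sum_congr rfl fun m _ => by ring
  simp only [h1]
  rw [Finset.sum_comm]
  simp only [← Finset.sum_mul, eqs_mul_inv (hp x hx), ite_mul, one_mul, zero_mul,
    Finset.sum_ite_eq, Finset.mem_univ, if_true]

theorem eqs_lchr (hp : ∀ x ∈ D, (g x).PosDef) (hx : x ∈ D) (j : Fin n) :
    lchr g j x = ∑ a, ∑ b, (g x)⁻¹ a b * (pd a (fun y => g y j b) x -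
      (1 / 2) * pd j (fun y => g y a b) x) := by
  have h1 : lchr g j x = ∑ a, ∑ b, (g x)⁻¹ a b * ∑ l, g x j l * chr g l a b x := by
    simp only [lchr, Finset.mul_sum]
    rw [Finset.sum_comm]
    refine Finset.sum_congr rfl fun a _ => ?_
    rw [Finset.sum_comm]
    exact Finset.sum_congr rfl fun b _ => Finset.sum_congr rfl fun l _ => by ring
  rw [h1]
  simp only [eqs_low hp hx]
  have h2 : ∑ a, ∑ b, (g x)⁻¹ a b * pd b (fun y => g y j a) x =
      ∑ a, ∑ b, (g x)⁻¹ a b * pd a (fun y => g y j b) x := by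
    rw [Finset.sum_comm]
    exact Finset.sum_congr rfl fun a _ => Finset.sum_congr rfl fun b _ => by
      rw [eqs_inv_symm (hp x hx)]
  have h3 : ∀ a b, (g x)⁻¹ a b * ((1 / 2) * (pd a (fun y => g y j b) x +
      pd b (fun y => g y j a) x - pd j (fun y => g y a b) x)) =
      (1 / 2) * ((g x)⁻¹ a b * pd a (fun y => g y j b) x) +
      (1 / 2) * ((g x)⁻¹ a b * pd b (fun y => g y j a) x) -
      (1 / 2) * ((g x)⁻¹ a b * pd j (fun y => g y a b) x) := fun a b => by ring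
  have h4 : ∀ a b, (g x)⁻¹ a b * (pd a (fun y => g y j b) x -
      (1 / 2) * pd j (fun y => g y a b) x) = (g x)⁻¹ a b * pd a (fun y => g y j b) x -
      (1 / 2) * ((g x)⁻¹ a b * pd j (fun y => g y a b) x) := fun a b => by ring
  simp only [h3, h4, Finset.sum_add_distrib, Finset.sum_sub_distrib, ← Finset.mul_sum, h2]
  ring

theorem eqs_pd_lchr (hD : RelOpen D) (hg : SmM g D) (hp : ∀ x ∈ D, (g x).PosDef) (hx : x ∈ D)
    (k j : Fin n) :
    pd k (lchr g j) x = ∑ a, ∑ b, (pd k (fun y => (g y)⁻¹ a b) x *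
      (pd a (fun y => g y j b) x - (1 / 2) * pd j (fun y => g y a b) x) +
      (g x)⁻¹ a b * (pd k (pd a (fun y => g y j b)) x -
        (1 / 2) * pd k (pd j (fun y => g y a b)) x)) := by
  have hG := hD.smM_inv hg hp
  have hd := fun a b c => hD.pd_smooth (hg a b) c
  have hq : ∀ a b, ContDiffOn ℝ ∞ (fun y => pd a (fun y => g y j b) y -
      (1 / 2) * pd j (fun y => g y a b) y) D := fun a b =>
    (hd j b a).sub (contDiffOn_const.mul (hd a b j))
  have ht : ∀ a b, ContDiffOn ℝ ∞ (fun y => (g y)⁻¹ a b * (pd a (fun y => g y j b) y -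
      (1 / 2) * pd j (fun y => g y a b) y)) D := fun a b => (hG a b).mul (hq a b)
  rw [hD.pd_congr (fun y hy => eqs_lchr hp hy j) hx k,
    hD.pd_sum Finset.univ (f := fun a y => ∑ b, (g y)⁻¹ a b * (pd a (fun y => g y j b) y -
      (1 / 2) * pd j (fun y => g y a b) y)) (fun a _ => ContDiffOn.sum fun b _ => ht a b) hx k]
  refine Finset.sum_congr rfl fun a _ => ?_
  rw [hD.pd_sum Finset.univ (f := fun b y => (g y)⁻¹ a b * (pd a (fun y => g y j b) y -
      (1 / 2) * pd j (fun y => g y a b) y)) (fun b _ => ht a b) hx k]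
  refine Finset.sum_congr rfl fun b _ => ?_
  have hs : ContDiffOn ℝ ∞ (fun y => (1 / 2 : ℝ) • pd j (fun y => g y a b) y) D :=
    (hd a b j).const_smul (1 / 2 : ℝ)
  have e1 := hD.pd_sub (f := fun y => pd a (fun y => g y j b) y)
    (g := fun y => (1 / 2 : ℝ) • pd j (fun y => g y a b) y) (hd j b a) hs hx k
  rw [hD.pd_const_smul (1 / 2) (hd a b j) hx k] at e1
  simp only [smul_eq_mul] at e1
  rw [hD.pd_mul (hG a b) (hq a b) hx k, e1]
  ring

/-- the Ricci tensor modulo `∂Γ_j` and lower order terms -/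
theorem ric_harm {D : Set (E n)} (hD : RelOpen D) {g : E n → Matrix (Fin n) (Fin n) ℝ}
    (hg : SmM g D) (hp : ∀ x ∈ D, (g x).PosDef) {x : E n} (hx : x ∈ D) (j k : Fin n) :
    ric g j k x = -(1 / 2) * ∑ a, ∑ b, (g x)⁻¹ a b * pd a (pd b (fun y => g y j k)) x +
      (1 / 2) * (pd k (lchr g j) x + pd j (lchr g k) x) +
      (∑ i, ∑ l, (1 / 2) * pd i (fun y => (g y)⁻¹ i l) x *
          (pd j (fun y => g y l k) x + pd k (fun y => g y l j) x - pd l (fun y => g y j k) x) -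
        ∑ i, ∑ l, (1 / 2) * pd j (fun y => (g y)⁻¹ i l) x *
          (pd i (fun y => g y l k) x + pd k (fun y => g y l i) x - pd l (fun y => g y i k) x) -
        ∑ a, ∑ b, (1 / 2) * pd k (fun y => (g y)⁻¹ a b) x *
          (pd a (fun y => g y j b) x - (1 / 2) * pd j (fun y => g y a b) x) -
        ∑ a, ∑ b, (1 / 2) * pd j (fun y => (g y)⁻¹ a b) x *
          (pd a (fun y => g y k b) x - (1 / 2) * pd k (fun y => g y a b) x)) +
      ∑ i, ∑ l, (chr g i i l x * chr g l j k x - chr g i j l x * chr g l i k x) := by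
  have hsplit : ∀ P a b c : Fin n → Fin n → ℝ,
      ∑ i, ∑ l, (1 / 2) * (P i l + (g x)⁻¹ i l * (a i l + b i l - c i l)) =
      ∑ i, ∑ l, (1 / 2) * P i l + (1 / 2) * (∑ i, ∑ l, (g x)⁻¹ i l * a i l +
        ∑ i, ∑ l, (g x)⁻¹ i l * b i l - ∑ i, ∑ l, (g x)⁻¹ i l * c i l) := by
    intro P a b c
    simp only [Finset.mul_sum, ← Finset.sum_add_distrib, ← Finset.sum_sub_distrib]
    exact Finset.sum_congr rfl fun i _ => Finset.sum_congr rfl fun l _ => by ring
  have hsplit2 : ∀ P a b : Fin n → Fin n → ℝ,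
      ∑ i, ∑ l, (P i l + (g x)⁻¹ i l * (a i l - (1 / 2) * b i l)) =
      ∑ i, ∑ l, P i l + (∑ i, ∑ l, (g x)⁻¹ i l * a i l -
        (1 / 2) * ∑ i, ∑ l, (g x)⁻¹ i l * b i l) := by
    intro P a b
    simp only [Finset.mul_sum, ← Finset.sum_add_distrib, ← Finset.sum_sub_distrib]
    exact Finset.sum_congr rfl fun i _ => Finset.sum_congr rfl fun l _ => by ring
  have hhalf : ∀ P : Fin n → Fin n → ℝ,
      ∑ i, ∑ l, (1 / 2) * P i l = (1 / 2) * ∑ i, ∑ l, P i l := by
    intro P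
    simp only [Finset.mul_sum]
  -- second order terms
  have hS1 : ∑ i, ∑ l, (g x)⁻¹ i l * pd i (pd j (fun y => g y l k)) x =
      ∑ i, ∑ l, (g x)⁻¹ i l * pd j (pd i (fun y => g y l k)) x :=
    Finset.sum_congr rfl fun i _ => Finset.sum_congr rfl fun l _ => by
      rw [hD.pd_comm (hg l k) hx i j]
  have hS2 : ∑ i, ∑ l, (g x)⁻¹ i l * pd i (pd k (fun y => g y l j)) x =
      ∑ i, ∑ l, (g x)⁻¹ i l * pd k (pd i (fun y => g y j l)) x :=
    Finset.sum_congr rfl fun i _ => Finset.sum_congr rfl fun l _ => by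
      rw [hD.pd_comm (hg l j) hx i k, eqs_pd2_symm hD hp hx k i l j]
  have hT2 : ∑ i, ∑ l, (g x)⁻¹ i l * pd j (pd k (fun y => g y l i)) x =
      ∑ i, ∑ l, (g x)⁻¹ i l * pd j (pd k (fun y => g y i l)) x :=
    Finset.sum_congr rfl fun i _ => Finset.sum_congr rfl fun l _ => by
      rw [eqs_pd2_symm hD hp hx j k l i]
  have hU2 : ∑ i, ∑ l, (g x)⁻¹ i l * pd k (pd j (fun y => g y i l)) x =
      ∑ i, ∑ l, (g x)⁻¹ i l * pd j (pd k (fun y => g y i l)) x :=
    Finset.sum_congr rfl fun i _ => Finset.sum_congr rfl fun l _ => by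
      rw [hD.pd_comm (hg i l) hx k j]
  have hT3 : ∑ i, ∑ l, (g x)⁻¹ i l * pd j (pd l (fun y => g y i k)) x =
      ∑ i, ∑ l, (g x)⁻¹ i l * pd j (pd i (fun y => g y k l)) x := by
    rw [Finset.sum_comm]
    exact Finset.sum_congr rfl fun i _ => Finset.sum_congr rfl fun l _ => by
      rw [eqs_pd2_symm hD hp hx j i l k, eqs_inv_symm (hp x hx)]
  have hA := hsplit
    (fun i l => pd i (fun y => (g y)⁻¹ i l) x *
      (pd j (fun y => g y l k) x + pd k (fun y => g y l j) x - pd l (fun y => g y j k) x))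
    (fun i l => pd i (pd j (fun y => g y l k)) x) (fun i l => pd i (pd k (fun y => g y l j)) x)
    (fun i l => pd i (pd l (fun y => g y j k)) x)
  have hB := hsplit
    (fun i l => pd j (fun y => (g y)⁻¹ i l) x *
      (pd i (fun y => g y l k) x + pd k (fun y => g y l i) x - pd l (fun y => g y i k) x))
    (fun i l => pd j (pd i (fun y => g y l k)) x) (fun i l => pd j (pd k (fun y => g y l i)) x)
    (fun i l => pd j (pd l (fun y => g y i k)) x)
  have hC := hsplit2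
    (fun a b => pd k (fun y => (g y)⁻¹ a b) x *
      (pd a (fun y => g y j b) x - (1 / 2) * pd j (fun y => g y a b) x))
    (fun a b => pd k (pd a (fun y => g y j b)) x) (fun a b => pd k (pd j (fun y => g y a b)) x)
  have hE := hsplit2
    (fun a b => pd j (fun y => (g y)⁻¹ a b) x *
      (pd a (fun y => g y k b) x - (1 / 2) * pd k (fun y => g y a b) x))
    (fun a b => pd j (pd a (fun y => g y k b)) x) (fun a b => pd j (pd k (fun y => g y a b)) x)
  beta_reduce at hA hB hC hE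
  have hR : ric g j k x = ∑ i, pd i (chr g i j k) x - ∑ i, pd j (chr g i i k) x +
      ∑ i, ∑ l, (chr g i i l x * chr g l j k x - chr g i j l x * chr g l i k x) := by
    rw [ric, Finset.sum_add_distrib, Finset.sum_sub_distrib]
  rw [hR, eqs_pd_lchr hD hg hp hx k j, eqs_pd_lchr hD hg hp hx j k, hC, hE]
  simp only [eqs_pd_chr hD hg hp hx]
  rw [hA, hB, hS1, hS2, hT2, hU2, hT3]
  simp only [mul_assoc, hhalf]
  ring

end Ric

end Vale.Agent.P088.EYM
end
end

section

/-!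
# P088-EYM, block A: unique continuation for smooth solutions, interior
-/

open MeasureTheory Set Filter Topology
open scoped ContDiff

noncomputable section

namespace Vale.Agent.P088.EYM

section

variable {n N : ℕ} [NeZero n]

theorem linInt_relOpen {D : Set (E n)} (hD : IsOpen D) (h : D ⊆ Hs n) : RelOpen D :=
  ⟨D, hD, (inter_eq_left.2 h).symm⟩

theorem linInt_flux_smooth {D : Set (E n)} (hD : RelOpen D) {L : LD n N} (hL : L.Ok D)
    {c : E n → Fib N} (hc : ContDiffOn ℝ ∞ c D) (j : Fin n) : ContDiffOn ℝ ∞ (flux L j c) D := by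
  have h : ContDiffOn ℝ ∞ (fun x => ∑ k, gg L.g j k x • nab L k c x) D :=
    ContDiffOn.sum fun k _ => (hD.gg_smooth hL.g_smooth hL.g_pos j k).smul
      (eqs_nab_smooth hD hL hc k)
  exact h

/-- derivative of an inner product -/
theorem linInt_pd_inner {D : Set (E n)} (hD : RelOpen D) {f g : E n → Fib N}
    (hf : ContDiffOn ℝ ∞ f D) (hg : ContDiffOn ℝ ∞ g D) {x : E n} (hx : x ∈ D) (i : Fin n) :
    pd i (fun y => (inner ℂ (f y) (g y) : ℂ)) x =
      inner ℂ (f x) (pd i g x) + inner ℂ (pd i f x) (g x) := by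
  rw [pd_of_has (hD.subset hx) ((hD.hasD hx hf (by simp)).inner ℂ (hD.hasD hx hg (by simp))) i]
  rfl

/-- the divergence identity -/
theorem linInt_div {D : Set (E n)} (hD : RelOpen D) {L : LD n N} (hL : L.Ok D)
    {c ψ : E n → Fib N} (hc : ContDiffOn ℝ ∞ c D) (hψ : ContDiffOn ℝ ∞ ψ D) {x : E n}
    (hx : x ∈ D) :
    ∑ k, pd k (fun y => (inner ℂ (flux L k c y) (L.h y (ψ y)) : ℂ)) x =
      inner ℂ (Lop L c x) (L.h x (ψ x)) + ed L c ψ x := by
  have hhψ : ContDiffOn ℝ ∞ (fun y => L.h y (ψ y)) D := smooth_eval hL.h_smooth hψ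
  have h1 : ∀ k, pd k (fun y => (inner ℂ (flux L k c y) (L.h y (ψ y)) : ℂ)) x =
      inner ℂ (flux L k c x) (L.h x (nab L k ψ x)) +
      inner ℂ (pd k (flux L k c) x + L.B k x (flux L k c x)) (L.h x (ψ x)) := by
    intro k
    rw [linInt_pd_inner hD (linInt_flux_smooth hD hL hc k) hhψ hx k,
      hD.pd_eval hL.h_smooth hψ (by simp) (by simp) hx k, hL.compat x hx k, nab]
    have e1 : (ContinuousLinearMap.adjoint (L.B k x) * L.h x + L.h x * L.B k x) (ψ x) =
        ContinuousLinearMap.adjoint (L.B k x) (L.h x (ψ x)) + L.h x (L.B k x (ψ x)) := rfl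
    rw [e1, map_add, inner_add_right, inner_add_right, inner_add_left, inner_add_right,
      ContinuousLinearMap.adjoint_inner_right]
    ring
  simp only [h1]
  rw [Finset.sum_add_distrib, add_comm]
  congr 1
  · rw [← sum_inner]
    rfl
  · unfold ed flux
    rw [Finset.sum_comm]
    refine Finset.sum_congr rfl fun k _ => ?_
    rw [sum_inner]
    refine Finset.sum_congr rfl fun j _ => ?_
    rw [← Complex.coe_smul, inner_smul_left, Complex.conj_ofReal, eqs_gg_symm hL hx]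

/-- the integral of a partial derivative of a compactly supported `C¹` function vanishes -/
theorem linInt_int_zero {D : Set (E n)} (hD : IsOpen D) (hDH : D ⊆ Hs n) {Y : E n → ℂ}
    (hY : ContDiffOn ℝ 1 Y D) {K : Set (E n)} (hK : IsCompact K) (hKD : K ⊆ D)
    (h0 : ∀ x, x ∉ K → Y x = 0) (k : Fin n) :
    IntegrableOn (pd k Y) D ∧ ∫ x in D, pd k Y x = 0 := by
  have hKc : IsClosed K := hK.isClosed
  have hsm : ContDiff ℝ 1 Y := by
    rw [contDiff_iff_contDiffAt]
    intro x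
    by_cases hx : x ∈ D
    · exact (hY x hx).contDiffAt (hD.mem_nhds hx)
    · have hxK : x ∈ Kᶜ := fun h => hx (hKD h)
      have hev : Y =ᶠ[𝓝 x] fun _ => 0 := by
        filter_upwards [hKc.isOpen_compl.mem_nhds hxK] with y hy using h0 y hy
      exact contDiffAt_const.congr_of_eventuallyEq hev
  have hsupp : HasCompactSupport Y := HasCompactSupport.intro hK h0
  have hcont : Continuous (fun x => fderiv ℝ Y x (ev k)) :=
    (hsm.continuous_fderiv (by simp)).clm_apply continuous_const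
  have hsupp' : HasCompactSupport (fun x => fderiv ℝ Y x (ev k)) := by
    refine (hsupp.fderiv (𝕜 := ℝ)).comp_left (g := fun T : E n →L[ℝ] ℂ => T (ev k)) rfl
  have hint : Integrable (fun x => fderiv ℝ Y x (ev k)) := hcont.integrable_of_hasCompactSupport hsupp'
  have hpd : ∀ x ∈ D, pd k Y x = fderiv ℝ Y x (ev k) := by
    intro x hx
    unfold pd
    rw [fderivWithin_of_mem_nhds (Filter.mem_of_superset (hD.mem_nhds hx) hDH)]
  have hz : ∀ x, x ∉ D → fderiv ℝ Y x (ev k) = 0 := by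
    intro x hx
    have hxK : x ∈ Kᶜ := fun h => hx (hKD h)
    have hev : Y =ᶠ[𝓝 x] fun _ => 0 := by
      filter_upwards [hKc.isOpen_compl.mem_nhds hxK] with y hy using h0 y hy
    rw [hev.fderiv_eq]
    simp only [fderiv_fun_const, Pi.zero_apply, zero_apply]
  constructor
  · exact (hint.integrableOn (s := D)).congr_fun (fun x hx => (hpd x hx).symm) hD.measurableSet
  · rw [setIntegral_congr_fun hD.measurableSet hpd,
      setIntegral_eq_integral_of_forall_compl_eq_zero hz]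
    have h := integral_mul_fderiv_eq_neg_fderiv_mul_of_integrable (μ := (volume : Measure (E n)))
      (𝕜 := ℂ) (f := fun _ : E n => (1 : ℂ)) (g := Y) (v := ev k) (by simp only [fderiv_fun_const, Pi.zero_apply, zero_apply, zero_mul, integrable_fun_zero])
      (by simpa only [one_mul] using hint) (by simpa only [one_mul] using hsm.continuous.integrable_of_hasCompactSupport hsupp)
      (fun x _ => differentiableAt_const _) (fun x _ => hsm.differentiable (by simp) x)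
    simpa only [one_mul, fderiv_fun_const, Pi.zero_apply, zero_apply, zero_mul, integral_zero, neg_zero] using h

/-- weak form of the equation -/
theorem linInt_weak {D : Set (E n)} (hD : IsOpen D) (hDH : D ⊆ Hs n) {L : LD n N} (hL : L.Ok D)
    {c : E n → Fib N} (hc : Sol L D c) {ψ : E n → Fib N} (hψ : Tst0 D ψ) : En L D c ψ = 0 := by
  have hDr := linInt_relOpen hD hDH
  obtain ⟨hψs, hψc, hψt⟩ := hψ
  have hY : ∀ k, IntegrableOn (pd k (fun y => (inner ℂ (flux L k c y) (L.h y (ψ y)) : ℂ))) D ∧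
      ∫ x in D, pd k (fun y => (inner ℂ (flux L k c y) (L.h y (ψ y)) : ℂ)) x = 0 := by
    intro k
    refine linInt_int_zero hD hDH (K := tsupport ψ) ?_ hψc hψt ?_ k
    · have h1 : ContDiffOn ℝ ∞ (fun y => (inner ℂ (flux L k c y) (L.h y (ψ y)) : ℂ)) D :=
        (linInt_flux_smooth hDr hL hc.1 k).inner ℂ (smooth_eval hL.h_smooth hψs.contDiffOn)
      exact h1.of_le (by simp only [WithTop.one_le_coe, le_top])
    · intro x hx
      rw [image_eq_zero_of_notMem_tsupport hx]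
      simp
  have h2 : ∀ x ∈ D, ed L c ψ x =
      ∑ k, pd k (fun y => (inner ℂ (flux L k c y) (L.h y (ψ y)) : ℂ)) x := by
    intro x hx
    rw [linInt_div hDr hL hc.1 hψs.contDiffOn hx, hc.2 x hx, inner_zero_left, zero_add]
  unfold En
  rw [setIntegral_congr_fun hD.measurableSet h2, integral_finsetSum _ fun k _ => (hY k).1]
  exact Finset.sum_eq_zero fun k _ => (hY k).2

end

theorem aLinInt : AUcpInt_statement → LinInt_statement := by
  intro hU n N _ L D hD hDH hL hDc c hc U hUo hUD hUn hU0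
  obtain ⟨z', hz'⟩ := hUn
  obtain ⟨r', hr', hball⟩ := Metric.nhds_basis_closedBall.mem_iff.1 (hUo.mem_nhds hz')
  have hkey := hU n N L D hD hDH hL hDc (fun _ => c) (fun _ => hc.1)
    (fun K _ _ ε hε => ⟨0, fun k _ l _ => by
      have e1 : (fun x => c x - c x) = fun _ => (0 : Fib N) := funext fun x => sub_self _
      unfold H1
      rw [e1]
      simp only [pd_const, norm_zero]
      simpa only [ne_eq, OfNat.ofNat_ne_zero, not_false_eq_true, zero_pow, Finset.sum_const_zero, add_zero,     integral_zero, ge_iff_le] using hε.le⟩)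
    (fun ψ hψ => by
      rw [linInt_weak hD hDH hL hc hψ]
      exact tendsto_const_nhds) z' r' hr' (hball.trans hUD) (by
      have e2 : ∫ x in Metric.ball z' r', ‖c x‖ ^ 2 = 0 := by
        rw [setIntegral_congr_fun (g := fun _ => (0 : ℝ)) measurableSet_ball]
        · simp
        · intro x hx
          simp only
          rw [hU0 x (hball (Metric.ball_subset_closedBall hx))]
          simp
      rw [e2]
      exact tendsto_const_nhds)
  intro x hx
  obtain ⟨r, hr, hb⟩ := Metric.nhds_basis_closedBall.mem_iff.1 (hD.mem_nhds hx)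
  have h0 : ∫ y in Metric.closedBall x r, ‖c y‖ ^ 2 = 0 :=
    tendsto_nhds_unique tendsto_const_nhds (hkey _ (isCompact_closedBall x r) hb)
  by_contra hne
  have hcont : ContinuousOn (fun y => ‖c y‖ ^ 2) (Metric.closedBall x r) :=
    (hc.1.continuousOn.mono hb).norm.pow 2
  have hint := hcont.integrableOn_compact (μ := volume) (isCompact_closedBall x r)
  have hpos : 0 < ‖c x‖ ^ 2 := by positivity
  -- a small ball on which the function is at least half of its value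
  have hcx : ContinuousAt (fun y => ‖c y‖ ^ 2) x :=
    hcont.continuousAt (Metric.closedBall_mem_nhds x hr)
  obtain ⟨s, hs, hsb⟩ := Metric.eventually_nhds_iff_ball.1
    (hcx.eventually (lt_mem_nhds (half_lt_self hpos)))
  set q := min s r with hq
  have hq0 : 0 < q := lt_min hs hr
  have hsub : Metric.ball x q ⊆ Metric.closedBall x r :=
    (Metric.ball_subset_ball (min_le_right _ _)).trans Metric.ball_subset_closedBall
  have h3 : ∫ _y in Metric.ball x q, ‖c x‖ ^ 2 / 2 ≤ ∫ y in Metric.closedBall x r, ‖c y‖ ^ 2 := by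
    calc ∫ _y in Metric.ball x q, ‖c x‖ ^ 2 / 2 ≤ ∫ y in Metric.ball x q, ‖c y‖ ^ 2 := by
          refine setIntegral_mono_on (by
            rw [integrableOn_const_iff]
            right
            exact measure_ball_lt_top) (hint.mono_set hsub) measurableSet_ball fun y hy => ?_
          exact (hsb y (Metric.ball_subset_ball (min_le_left _ _) hy)).le
      _ ≤ ∫ y in Metric.closedBall x r, ‖c y‖ ^ 2 :=
          setIntegral_mono_set hint (ae_of_all _ fun y => sq_nonneg _) hsub.eventuallyLE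
  rw [h0, setIntegral_const] at h3
  have h4 : 0 < (volume : Measure (E n)).real (Metric.ball x q) :=
    ENNReal.toReal_pos (Metric.measure_ball_pos volume x hq0).ne' measure_ball_lt_top.ne
  have h5 : 0 < (volume : Measure (E n)).real (Metric.ball x q) • (‖c x‖ ^ 2 / 2) := by
    rw [smul_eq_mul]; (clear * - h4 hne; positivity)
  linarith only [h3, h5]

end Vale.Agent.P088.EYM
end
end

section

/-!
# P088-EYM, block B: the elliptic inequality for the difference of two models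
-/

open MeasureTheory Set Filter Topology Asymptotics
open scoped ContDiff

noncomputable section

namespace Vale.Agent.P088.EYM

set_option linter.unusedSectionVars false

variable {n N : ℕ} [NeZero n]
variable {V V' : Type*} [NormedAddCommGroup V] [NormedSpace ℝ V] [NormedAddCommGroup V']
  [NormedSpace ℝ V']

theorem Diff_bdd {D : Set (E n)} (hD : RelOpen D) {z : E n} (hz : z ∈ D) {f : E n → V}
    (hf : ContDiffOn ℝ ∞ f D) : f =O[𝓝[Hs n] z] (fun _ => (1 : ℝ)) := by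
  have h1 : ContinuousWithinAt f (Hs n) z := (hD.contDiffWithinAt hz hf).continuousWithinAt
  exact (h1.tendsto).isBigO_one ℝ

theorem Wv_smooth {κ α β : ℝ} {j0 : Fin N} {W : Model n N} {D : Set (E n)} (hD : RelOpen D)
    (hW : IsModel κ α β j0 W D) : ContDiffOn ℝ ∞ (Wv W) D := by
  refine ContDiffOn.prodMk (contDiffOn_pi.2 fun i => contDiffOn_pi.2 fun j => hW.ok.g_smooth i j)
    (ContDiffOn.prodMk (contDiffOn_pi.2 fun i => hW.ok.B_smooth i)
    (ContDiffOn.prodMk hW.ok.h_smooth (ContDiffOn.prodMk (contDiffOn_pi.2 fun a => (hW.sol a).1)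
      (contDiffOn_pi.2 fun a => contDiffOn_pi.2 fun k => hD.pd_smooth (hW.sol a).1 k))))

theorem diffWv_smooth {κ α β : ℝ} {j0 : Fin N} {W₁ W₂ : Model n N} {D : Set (E n)} (hD : RelOpen D)
    (h₁ : IsModel κ α β j0 W₁ D) (h₂ : IsModel κ α β j0 W₂ D) :
    ContDiffOn ℝ ∞ (fun y => Wv W₁ y - Wv W₂ y) D := (Wv_smooth hD h₁).sub (Wv_smooth hD h₂)

theorem Diff_om_nonneg (W₁ W₂ : Model n N) (x : E n) : 0 ≤ om W₁ W₂ x := by
  unfold om; positivity

/-- every linear component is similar to first order, for abstract values -/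
theorem sim1_gen {W : Type*} [NormedAddCommGroup W] [NormedSpace ℝ W] {D : Set (E n)}
    (hD : RelOpen D) {z : E n} (hz : z ∈ D) {w₁ w₂ : E n → W} (s1 : ContDiffOn ℝ ∞ w₁ D)
    (s2 : ContDiffOn ℝ ∞ w₂ D) (T : W →L[ℝ] V) :
    Sim1 D z (fun x => ‖w₁ x - w₂ x‖ + ∑ j, ‖pd j (fun y => w₁ y - w₂ y) x‖)
      (fun x => T (w₁ x)) (fun x => T (w₂ x)) := by
  have t1 : ContDiffOn ℝ ∞ (fun x => T (w₁ x)) D := T.contDiff.comp_contDiffOn s1
  have t2 : ContDiffOn ℝ ∞ (fun x => T (w₂ x)) D := T.contDiff.comp_contDiffOn s2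
  have h0 : ∀ x, 0 ≤ ‖w₁ x - w₂ x‖ + ∑ j, ‖pd j (fun y => w₁ y - w₂ y) x‖ := fun x =>
    add_nonneg (norm_nonneg _) (Finset.sum_nonneg fun j _ => norm_nonneg _)
  refine ⟨t1, t2, ⟨Diff_bdd hD hz t1, Diff_bdd hD hz t2, ?_⟩, fun j =>
    ⟨Diff_bdd hD hz (hD.pd_smooth t1 j), Diff_bdd hD hz (hD.pd_smooth t2 j), ?_⟩⟩
  · refine IsBigO.of_bound ‖T‖ (Eventually.of_forall fun x => ?_)
    rw [← map_sub, Real.norm_of_nonneg (h0 x)]
    refine (T.le_opNorm _).trans (mul_le_mul_of_nonneg_left ?_ (norm_nonneg _))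
    have : 0 ≤ ∑ j, ‖pd j (fun y => w₁ y - w₂ y) x‖ :=
      Finset.sum_nonneg fun j _ => norm_nonneg _
    (clear D hD z hz s1 s2 T t1 t2 h0; linarith)
  · refine IsBigO.of_bound ‖T‖ ?_
    filter_upwards [hD.mem_nhds hz] with x hx
    rw [hD.pd_clm T s1 hx j, hD.pd_clm T s2 hx j, ← map_sub, Real.norm_of_nonneg (h0 x)]
    refine (T.le_opNorm _).trans (mul_le_mul_of_nonneg_left ?_ (norm_nonneg _))
    rw [← hD.pd_sub s1 s2 hx j]
    have h3 : ‖pd j (fun y => w₁ y - w₂ y) x‖ ≤ ∑ j, ‖pd j (fun y => w₁ y - w₂ y) x‖ :=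
      Finset.single_le_sum (f := fun j => ‖pd j (fun y => w₁ y - w₂ y) x‖)
        (fun i _ => norm_nonneg _) (Finset.mem_univ j)
    have : 0 ≤ ‖w₁ x - w₂ x‖ := norm_nonneg _
    (clear D hD z hz s1 s2 T t1 t2 h0 hx; linarith)

/-- every linear component of `W` is similar to first order -/
theorem sim1_comp {κ α β : ℝ} {j0 : Fin N} {W₁ W₂ : Model n N} {D : Set (E n)} (hD : RelOpen D)
    (h₁ : IsModel κ α β j0 W₁ D) (h₂ : IsModel κ α β j0 W₂ D) {z : E n} (hz : z ∈ D)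
    (T : VV n N →L[ℝ] V) :
    Sim1 D z (om W₁ W₂) (fun x => T (Wv W₁ x)) (fun x => T (Wv W₂ x)) :=
  sim1_gen hD hz (Wv_smooth hD h₁) (Wv_smooth hD h₂) T

/-- the principal part -/
def DfP (g : E n → Matrix (Fin n) (Fin n) ℝ) (f : E n → V) (x : E n) : V :=
  ∑ j, ∑ k, (g x)⁻¹ j k • pd j (pd k f) x

section Comp

variable {κ α β : ℝ} {j0 : Fin N} {W₁ W₂ : Model n N} {D : Set (E n)} {z : E n}

theorem s1_g (hD : RelOpen D)
    (h₁ : IsModel κ α β j0 W₁ D) (h₂ : IsModel κ α β j0 W₂ D) (hz : z ∈ D) (i j : Fin n) :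
    Sim1 D z (om W₁ W₂) (fun x => W₁.g x i j) (fun x => W₂.g x i j) :=
  sim1_comp hD h₁ h₂ hz ((ContinuousLinearMap.proj (R := ℝ) (φ := fun _ : Fin n => ℝ) j).comp
    ((ContinuousLinearMap.proj (R := ℝ) (φ := fun _ : Fin n => Fin n → ℝ) i).comp
      (ContinuousLinearMap.fst ℝ _ _)))

theorem s1_B (hD : RelOpen D)
    (h₁ : IsModel κ α β j0 W₁ D) (h₂ : IsModel κ α β j0 W₂ D) (hz : z ∈ D) (i : Fin n) :
    Sim1 D z (om W₁ W₂) (W₁.B i) (W₂.B i) :=
  sim1_comp hD h₁ h₂ hz ((ContinuousLinearMap.proj (R := ℝ) (φ := fun _ : Fin n => EndF N) i).comp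
    ((ContinuousLinearMap.fst ℝ _ _).comp (ContinuousLinearMap.snd ℝ _ _)))

theorem s1_h (hD : RelOpen D)
    (h₁ : IsModel κ α β j0 W₁ D) (h₂ : IsModel κ α β j0 W₂ D) (hz : z ∈ D) :
    Sim1 D z (om W₁ W₂) W₁.h W₂.h :=
  sim1_comp hD h₁ h₂ hz ((ContinuousLinearMap.fst ℝ _ _).comp
    ((ContinuousLinearMap.snd ℝ _ _).comp (ContinuousLinearMap.snd ℝ _ _)))

theorem s1_p (hD : RelOpen D)
    (h₁ : IsModel κ α β j0 W₁ D) (h₂ : IsModel κ α β j0 W₂ D) (hz : z ∈ D) (a k : Fin n) :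
    Sim1 D z (om W₁ W₂) (pd k (W₁.c a)) (pd k (W₂.c a)) :=
  sim1_comp hD h₁ h₂ hz ((ContinuousLinearMap.proj (R := ℝ) (φ := fun _ : Fin n => Fib N) k).comp
    ((ContinuousLinearMap.proj (R := ℝ) (φ := fun _ : Fin n => Fin n → Fib N) a).comp
    ((ContinuousLinearMap.snd ℝ _ _).comp ((ContinuousLinearMap.snd ℝ _ _).comp
    ((ContinuousLinearMap.snd ℝ _ _).comp (ContinuousLinearMap.snd ℝ _ _))))))

theorem s1_gi (hD : RelOpen D)
    (h₁ : IsModel κ α β j0 W₁ D) (h₂ : IsModel κ α β j0 W₂ D) (hz : z ∈ D) (i j : Fin n) :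
    Sim1 D z (om W₁ W₂) (fun x => (W₁.g x)⁻¹ i j) (fun x => (W₂.g x)⁻¹ i j) :=
  Sim1.minv hD hz h₁.ok.g_pos h₂.ok.g_pos (fun i j => s1_g hD h₁ h₂ hz i j) i j

theorem Sim1.rsmul (hD : RelOpen D) (hz : z ∈ D) {w : E n → ℝ} {f₁ f₂ : E n → V} (r : ℝ)
    (hf : Sim1 D z w f₁ f₂) : Sim1 D z w (fun x => r • f₁ x) (fun x => r • f₂ x) :=
  Sim1.smul hD hz (Sim1.const r) hf

/-- real part of a component -/
def dfReC (j0 : Fin N) : Fib N →L[ℝ] ℝ :=
  Complex.reCLM.comp ((EuclideanSpace.proj (𝕜 := ℂ) j0).restrictScalars ℝ)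

theorem reC_apply (j0 : Fin N) (v : Fib N) : dfReC j0 v = (v j0).re := rfl

theorem s1_twoB (hD : RelOpen D)
    (h₁ : IsModel κ α β j0 W₁ D) (h₂ : IsModel κ α β j0 W₂ D) (hz : z ∈ D) (a : Fin n) :
    Sim1 D z (om W₁ W₂) (fun x => ∑ j, ∑ k, (2 * (W₁.g x)⁻¹ j k) • W₁.B j x (pd k (W₁.c a) x))
      (fun x => ∑ j, ∑ k, (2 * (W₂.g x)⁻¹ j k) • W₂.B j x (pd k (W₂.c a) x)) :=
  Sim1.sum hD hz _ fun j _ => Sim1.sum hD hz _ fun k _ =>
    Sim1.smul hD hz (Sim1.rsmul hD hz 2 (s1_gi hD h₁ h₂ hz j k))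
      (Sim1.eval hD hz (s1_B hD h₁ h₂ hz j) (s1_p hD h₁ h₂ hz a k))

theorem s1_H (hD : RelOpen D)
    (h₁ : IsModel κ α β j0 W₁ D) (h₂ : IsModel κ α β j0 W₂ D) (hz : z ∈ D) (a : Fin n) :
    Sim1 D z (om W₁ W₂) (Hco W₁ j0 a) (Hco W₂ j0 a) :=
  Sim1.clm hD hz (dfReC j0) (s1_twoB hD h₁ h₂ hz a)

/-- right hand side of the equation of `c_a` -/
def DfRc (W : Model n N) (j0 : Fin N) (a : Fin n) (x : E n) : Fib N :=
  ∑ k, Hco W j0 k x • pd k (W.c a) x - ∑ j, ∑ k, (2 * (W.g x)⁻¹ j k) • W.B j x (pd k (W.c a) x)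

/-- right hand side of the frame equation -/
def DfRB (W : Model n N) (j0 : Fin N) (x : E n) : EndF N :=
  ∑ k, Hco W j0 k x • W.B k x - ∑ j, ∑ k, (W.g x)⁻¹ j k • (W.B j x * W.B k x)

theorem s1_Rc (hD : RelOpen D)
    (h₁ : IsModel κ α β j0 W₁ D) (h₂ : IsModel κ α β j0 W₂ D) (hz : z ∈ D) (a : Fin n) :
    Sim1 D z (om W₁ W₂) (DfRc W₁ j0 a) (DfRc W₂ j0 a) :=
  Sim1.sub hD hz (Sim1.sum hD hz _ fun k _ => Sim1.smul hD hz (s1_H hD h₁ h₂ hz k)
    (s1_p hD h₁ h₂ hz a k)) (s1_twoB hD h₁ h₂ hz a)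

theorem s1_RB (hD : RelOpen D)
    (h₁ : IsModel κ α β j0 W₁ D) (h₂ : IsModel κ α β j0 W₂ D) (hz : z ∈ D) :
    Sim1 D z (om W₁ W₂) (DfRB W₁ j0) (DfRB W₂ j0) :=
  Sim1.sub hD hz (Sim1.sum hD hz _ fun k _ => Sim1.smul hD hz (s1_H hD h₁ h₂ hz k)
    (s1_B hD h₁ h₂ hz k)) (Sim1.sum hD hz _ fun j _ => Sim1.sum hD hz _ fun k _ =>
      Sim1.smul hD hz (s1_gi hD h₁ h₂ hz j k) (Sim1.mul hD hz (s1_B hD h₁ h₂ hz j)
        (s1_B hD h₁ h₂ hz k)))

/-- the second derivatives of `c` are similar -/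
theorem s_ddc (hD : RelOpen D)
    (h₁ : IsModel κ α β j0 W₁ D) (h₂ : IsModel κ α β j0 W₂ D) (hz : z ∈ D) (a j k : Fin n) :
    Sim (𝓝[Hs n] z) (om W₁ W₂) (pd j (pd k (W₁.c a))) (pd j (pd k (W₂.c a))) :=
  (s1_p hD h₁ h₂ hz a k).dsim j

theorem c_smooth (h₁ : IsModel κ α β j0 W₁ D) (a : Fin n) : ContDiffOn ℝ ∞ (W₁.c a) D :=
  (h₁.sol a).1

theorem PP_c_eq (hD : RelOpen D) (h₁ : IsModel κ α β j0 W₁ D) (a : Fin n) :
    EqOn (DfP W₁.g (W₁.c a)) (DfRc W₁ j0 a) D := fun x hx => model_c hD h₁ hx a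

theorem s_PPc (hD : RelOpen D)
    (h₁ : IsModel κ α β j0 W₁ D) (h₂ : IsModel κ α β j0 W₂ D) (hz : z ∈ D) (a : Fin n) :
    Sim (𝓝[Hs n] z) (om W₁ W₂) (DfP W₁.g (W₁.c a)) (DfP W₂.g (W₂.c a)) := by
  refine Sim.congr (s1_Rc hD h₁ h₂ hz a).sim ?_ ?_
  · filter_upwards [hD.mem_nhds hz] with x hx
    exact (PP_c_eq hD h₁ a hx).symm
  · filter_upwards [hD.mem_nhds hz] with x hx
    exact (PP_c_eq hD h₂ a hx).symm

/-- derivative of the principal part -/
theorem pd_PP (hD : RelOpen D) (h₁ : IsModel κ α β j0 W₁ D) {f : E n → V}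
    (hf : ContDiffOn ℝ ∞ f D) {x : E n} (hx : x ∈ D) (m : Fin n) :
    DfP W₁.g (pd m f) x = pd m (DfP W₁.g f) x -
      ∑ j, ∑ k, pd m (fun y => (W₁.g y)⁻¹ j k) x • pd j (pd k f) x := by
  have hi : ∀ j k, ContDiffOn ℝ ∞ (fun y => (W₁.g y)⁻¹ j k) D :=
    fun j k => hD.smM_inv h₁.ok.g_smooth h₁.ok.g_pos j k
  have hs : ∀ j k, ContDiffOn ℝ ∞ (fun y => (W₁.g y)⁻¹ j k • pd j (pd k f) y) D := fun j k =>
    (hi j k).smul (hD.pd_smooth (hD.pd_smooth hf k) j)
  have e1 : pd m (DfP W₁.g f) x = ∑ j, ∑ k, ((W₁.g x)⁻¹ j k • pd m (pd j (pd k f)) x +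
      pd m (fun y => (W₁.g y)⁻¹ j k) x • pd j (pd k f) x) := by
    have e2 : pd m (DfP W₁.g f) x = ∑ j, pd m (fun y => ∑ k, (W₁.g y)⁻¹ j k • pd j (pd k f) y) x :=
      hD.pd_sum _ (fun j _ => ContDiffOn.sum fun k _ => hs j k) hx m
    rw [e2]
    refine Finset.sum_congr rfl fun j _ => ?_
    have e3 : pd m (fun y => ∑ k, (W₁.g y)⁻¹ j k • pd j (pd k f) y) x =
        ∑ k, pd m (fun y => (W₁.g y)⁻¹ j k • pd j (pd k f) y) x :=
      hD.pd_sum _ (fun k _ => hs j k) hx m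
    rw [e3]
    exact Finset.sum_congr rfl fun k _ => hD.pd_smul (hi j k) (hD.pd_smooth (hD.pd_smooth hf k) j) hx m
  rw [e1]
  simp only [Finset.sum_add_distrib, add_sub_cancel_right]
  unfold DfP
  refine Finset.sum_congr rfl fun j _ => Finset.sum_congr rfl fun k _ => ?_
  have e2 : pd j (pd k (pd m f)) x = pd m (pd j (pd k f)) x := by
    rw [hD.pd_comm (hD.pd_smooth hf k) hx m j]
    exact hD.pd_congr (fun y hy => hD.pd_comm hf hy k m) hx j
  rw [e2]

theorem s_PPp (hD : RelOpen D)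
    (h₁ : IsModel κ α β j0 W₁ D) (h₂ : IsModel κ α β j0 W₂ D) (hz : z ∈ D) (a m : Fin n) :
    Sim (𝓝[Hs n] z) (om W₁ W₂) (DfP W₁.g (pd m (W₁.c a))) (DfP W₂.g (pd m (W₂.c a))) := by
  have key : Sim (𝓝[Hs n] z) (om W₁ W₂)
      (fun x => pd m (DfRc W₁ j0 a) x -
        ∑ j, ∑ k, pd m (fun y => (W₁.g y)⁻¹ j k) x • pd j (pd k (W₁.c a)) x)
      (fun x => pd m (DfRc W₂ j0 a) x -
        ∑ j, ∑ k, pd m (fun y => (W₂.g y)⁻¹ j k) x • pd j (pd k (W₂.c a)) x) :=
    Sim.sub ((s1_Rc hD h₁ h₂ hz a).dsim m) (Sim.sum _ fun j _ => Sim.sum _ fun k _ =>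
      Sim.smul ((s1_gi hD h₁ h₂ hz j k).dsim m) (s_ddc hD h₁ h₂ hz a j k))
  refine Sim.congr key ?_ ?_
  · filter_upwards [hD.mem_nhds hz] with x hx
    rw [pd_PP hD h₁ (c_smooth h₁ a) hx m, hD.pd_congr (PP_c_eq hD h₁ a) hx m]
  · filter_upwards [hD.mem_nhds hz] with x hx
    rw [pd_PP hD h₂ (c_smooth h₂ a) hx m, hD.pd_congr (PP_c_eq hD h₂ a) hx m]

theorem s_PPh (hD : RelOpen D)
    (h₁ : IsModel κ α β j0 W₁ D) (h₂ : IsModel κ α β j0 W₂ D) (hz : z ∈ D) :
    Sim (𝓝[Hs n] z) (om W₁ W₂) (DfP W₁.g W₁.h) (DfP W₂.g W₂.h) := by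
  have hk : ∀ k, Sim1 D z (om W₁ W₂)
      (fun x => ContinuousLinearMap.adjoint (W₁.B k x) * W₁.h x + W₁.h x * W₁.B k x)
      (fun x => ContinuousLinearMap.adjoint (W₂.B k x) * W₂.h x + W₂.h x * W₂.B k x) := fun k =>
    Sim1.add hD hz (Sim1.mul hD hz (Sim1.clm hD hz adjRE (s1_B hD h₁ h₂ hz k))
      (s1_h hD h₁ h₂ hz)) (Sim1.mul hD hz (s1_h hD h₁ h₂ hz) (s1_B hD h₁ h₂ hz k))
  have key := Sim.sum (l := 𝓝[Hs n] z) (w := om W₁ W₂) Finset.univ (F₁ := fun j x => ∑ k, (W₁.g x)⁻¹ j k •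
      pd j (fun x => ContinuousLinearMap.adjoint (W₁.B k x) * W₁.h x + W₁.h x * W₁.B k x) x)
      (F₂ := fun j x => ∑ k, (W₂.g x)⁻¹ j k •
      pd j (fun x => ContinuousLinearMap.adjoint (W₂.B k x) * W₂.h x + W₂.h x * W₂.B k x) x)
      (fun j _ => Sim.sum _ fun k _ =>
    Sim.smul (s1_gi hD h₁ h₂ hz j k).sim ((hk k).dsim j))
  refine Sim.congr key ?_ ?_
  · filter_upwards [hD.mem_nhds hz] with x hx
    refine Finset.sum_congr rfl fun j _ => Finset.sum_congr rfl fun k _ => ?_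
    rw [hD.pd_congr (fun y hy => h₁.ok.compat y hy k) hx j]
  · filter_upwards [hD.mem_nhds hz] with x hx
    refine Finset.sum_congr rfl fun j _ => Finset.sum_congr rfl fun k _ => ?_
    rw [hD.pd_congr (fun y hy => h₂.ok.compat y hy k) hx j]

theorem s_cur (hD : RelOpen D)
    (h₁ : IsModel κ α β j0 W₁ D) (h₂ : IsModel κ α β j0 W₂ D) (hz : z ∈ D) (j k : Fin n) :
    Sim (𝓝[Hs n] z) (om W₁ W₂) (cur W₁.B j k) (cur W₂.B j k) :=
  Sim.add (Sim.sub ((s1_B hD h₁ h₂ hz k).dsim j) ((s1_B hD h₁ h₂ hz j).dsim k))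
    (Sim.sub (Sim.mul (s1_B hD h₁ h₂ hz j).sim (s1_B hD h₁ h₂ hz k).sim)
      (Sim.mul (s1_B hD h₁ h₂ hz k).sim (s1_B hD h₁ h₂ hz j).sim))

theorem s_chr (hD : RelOpen D)
    (h₁ : IsModel κ α β j0 W₁ D) (h₂ : IsModel κ α β j0 W₂ D) (hz : z ∈ D) (k i j : Fin n) :
    Sim (𝓝[Hs n] z) (om W₁ W₂) (chr W₁.g k i j) (chr W₂.g k i j) :=
  Sim.mul (Sim.const _) (Sim.sum _ fun l _ => Sim.mul (s1_gi hD h₁ h₂ hz k l).sim
    (Sim.sub (Sim.add ((s1_g hD h₁ h₂ hz l j).dsim i) ((s1_g hD h₁ h₂ hz l i).dsim j))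
      ((s1_g hD h₁ h₂ hz i j).dsim l)))

/-- the terms of the Yang-Mills equation of lower order -/
def DfEB (W : Model n N) (j0 : Fin N) (k : Fin n) (x : E n) : EndF N :=
  pd k (DfRB W j0) x - ∑ i, ∑ j, pd k (fun y => (W.g y)⁻¹ i j) x • pd i (W.B j) x -
    ∑ i, ∑ j, (W.g x)⁻¹ i j • pd i (fun y => W.B j y * W.B k y - W.B k y * W.B j y) x +
    ∑ i, ∑ j, (W.g x)⁻¹ i j •
      ∑ l, (chr W.g l i j x • cur W.B l k x + chr W.g l i k x • cur W.B j l x) -
    ∑ i, ∑ j, (W.g x)⁻¹ i j • (W.B i x * cur W.B j k x - cur W.B j k x * W.B i x)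

theorem s_EB (hD : RelOpen D)
    (h₁ : IsModel κ α β j0 W₁ D) (h₂ : IsModel κ α β j0 W₂ D) (hz : z ∈ D) (k : Fin n) :
    Sim (𝓝[Hs n] z) (om W₁ W₂) (DfEB W₁ j0 k) (DfEB W₂ j0 k) := by
  have hB := fun i => s1_B hD h₁ h₂ hz i
  have hg := fun i j => s1_gi hD h₁ h₂ hz i j
  have hc := fun i j => s_cur hD h₁ h₂ hz i j
  refine Sim.sub (Sim.add (Sim.sub (Sim.sub ((s1_RB hD h₁ h₂ hz).dsim k) ?_) ?_) ?_) ?_
  · exact Sim.sum _ fun i _ => Sim.sum _ fun j _ => Sim.smul ((hg i j).dsim k) ((hB j).dsim i)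
  · exact Sim.sum _ fun i _ => Sim.sum _ fun j _ => Sim.smul (hg i j).sim
      ((Sim1.sub hD hz (Sim1.mul hD hz (hB j) (hB k)) (Sim1.mul hD hz (hB k) (hB j))).dsim i)
  · exact Sim.sum _ fun i _ => Sim.sum _ fun j _ => Sim.smul (hg i j).sim
      (Sim.sum _ fun l _ => Sim.add (Sim.smul (s_chr hD h₁ h₂ hz l i j) (hc l k))
        (Sim.smul (s_chr hD h₁ h₂ hz l i k) (hc j l)))
  · exact Sim.sum _ fun i _ => Sim.sum _ fun j _ => Sim.smul (hg i j).sim
      (Sim.sub (Sim.mul (hB i).sim (hc j k)) (Sim.mul (hc j k) (hB i).sim))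

theorem B_smooth' (h₁ : IsModel κ α β j0 W₁ D) (i : Fin n) : ContDiffOn ℝ ∞ (W₁.B i) D :=
  h₁.ok.B_smooth i

theorem PP_B_eq (hD : RelOpen D) (h₁ : IsModel κ α β j0 W₁ D) (k : Fin n) {x : E n} (hx : x ∈ D) :
    DfP W₁.g (W₁.B k) x = DfEB W₁ j0 k x := by
  have hB := fun i => B_smooth' h₁ i
  have hi : ∀ j k, ContDiffOn ℝ ∞ (fun y => (W₁.g y)⁻¹ j k) D :=
    fun j k => hD.smM_inv h₁.ok.g_smooth h₁.ok.g_pos j k
  -- the mixed term
  have e1 : ∑ i, ∑ j, (W₁.g x)⁻¹ i j • pd i (pd k (W₁.B j)) x = pd k (DfRB W₁ j0) x -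
      ∑ i, ∑ j, pd k (fun y => (W₁.g y)⁻¹ i j) x • pd i (W₁.B j) x := by
    have hs : ∀ i j, ContDiffOn ℝ ∞ (fun y => (W₁.g y)⁻¹ i j • pd i (W₁.B j) y) D := fun i j =>
      (hi i j).smul (hD.pd_smooth (hB j) i)
    have h3 : pd k (DfRB W₁ j0) x = pd k (fun y => ∑ i, ∑ j, (W₁.g y)⁻¹ i j • pd i (W₁.B j) y) x :=
      hD.pd_congr (fun y hy => (model_B hD h₁ hy).symm) hx k
    have h4 : pd k (fun y => ∑ i, ∑ j, (W₁.g y)⁻¹ i j • pd i (W₁.B j) y) x =
        ∑ i, pd k (fun y => ∑ j, (W₁.g y)⁻¹ i j • pd i (W₁.B j) y) x :=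
      hD.pd_sum _ (fun i _ => ContDiffOn.sum fun j _ => hs i j) hx k
    have h5 : ∀ i, pd k (fun y => ∑ j, (W₁.g y)⁻¹ i j • pd i (W₁.B j) y) x =
        ∑ j, pd k (fun y => (W₁.g y)⁻¹ i j • pd i (W₁.B j) y) x := fun i =>
      hD.pd_sum _ (fun j _ => hs i j) hx k
    rw [h3, h4, ← Finset.sum_sub_distrib]
    refine Finset.sum_congr rfl fun i _ => ?_
    rw [h5 i, ← Finset.sum_sub_distrib]
    refine Finset.sum_congr rfl fun j _ => ?_
    rw [hD.pd_smul (hi i j) (hD.pd_smooth (hB j) i) hx k, add_sub_cancel_right,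
      hD.pd_comm (hB j) hx i k]
  -- derivative of the curvature
  have e2 : ∀ i j, pd i (cur W₁.B j k) x = pd i (pd j (W₁.B k)) x - pd i (pd k (W₁.B j)) x +
      pd i (fun y => W₁.B j y * W₁.B k y - W₁.B k y * W₁.B j y) x := by
    intro i j
    have a1 := hD.pd_smooth (hB k) j
    have a2 := hD.pd_smooth (hB j) k
    have a3 : ContDiffOn ℝ ∞ (fun y => W₁.B j y * W₁.B k y - W₁.B k y * W₁.B j y) D :=
      (smooth_mul (hB j) (hB k)).sub (smooth_mul (hB k) (hB j))
    have b1 := hD.pd_add (a1.sub a2) a3 hx i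
    rw [← hD.pd_sub a1 a2 hx i]
    exact b1
  have e3 := h₁.eqs.ym x hx k
  unfold ymE at e3
  simp only [e2, smul_add, smul_sub, Finset.sum_add_distrib, Finset.sum_sub_distrib] at e3
  unfold DfP DfEB
  rw [← e1]
  simp only [smul_sub, Finset.sum_sub_distrib] at e3 ⊢
  simp only [Finset.smul_sum, Finset.sum_add_distrib, smul_add] at e3 ⊢
  refine sub_eq_zero.1 (Eq.trans ?_ e3)
  abel

theorem s_PPB (hD : RelOpen D)
    (h₁ : IsModel κ α β j0 W₁ D) (h₂ : IsModel κ α β j0 W₂ D) (hz : z ∈ D) (k : Fin n) :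
    Sim (𝓝[Hs n] z) (om W₁ W₂) (DfP W₁.g (W₁.B k)) (DfP W₂.g (W₂.B k)) := by
  refine Sim.congr (s_EB hD h₁ h₂ hz k) ?_ ?_
  · filter_upwards [hD.mem_nhds hz] with x hx
    exact (PP_B_eq hD h₁ k hx).symm
  · filter_upwards [hD.mem_nhds hz] with x hx
    exact (PP_B_eq hD h₂ k hx).symm

/-- the real part of the trace as a continuous real linear map -/
def dfTrR : EndF N →L[ℝ] ℝ where
  toFun := fun T => (trE T).re
  map_add' := fun S T => by
    show (trE (S + T)).re = (trE S).re + (trE T).re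
    unfold trE
    rw [ContinuousLinearMap.toLinearMap_add, map_add, Complex.add_re]
  map_smul' := fun c T => by
    show (trE (c • T)).re = c • (trE T).re
    have h1 : c • T = (c : ℂ) • T := by ext1 w; exact (Complex.coe_smul c (T w)).symm
    rw [h1]
    unfold trE
    rw [ContinuousLinearMap.toLinearMap_smul, map_smul]
    simp
  cont := by
    have h : Continuous (fun T : EndF N => trE T) := by
      have h2 : Continuous ((LinearMap.trace ℂ (Fib N)).comp
        (ContinuousLinearMap.coeLM ℂ : EndF N →ₗ[ℂ] (Fib N →ₗ[ℂ] Fib N))) :=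
        LinearMap.continuous_of_finiteDimensional _
      exact h2
    exact Complex.continuous_re.comp h

theorem s_Tst (hD : RelOpen D)
    (h₁ : IsModel κ α β j0 W₁ D) (h₂ : IsModel κ α β j0 W₂ D) (hz : z ∈ D) (j k : Fin n) :
    Sim (𝓝[Hs n] z) (om W₁ W₂) (Tst W₁.toLD j k) (Tst W₂.toLD j k) :=
  Sim.neg (Sim.sum _ fun a _ => Sim.sum _ fun b _ => Sim.mul (s1_gi hD h₁ h₂ hz a b).sim
    (Sim.clm dfTrR (Sim.mul (s_cur hD h₁ h₂ hz j a) (s_cur hD h₁ h₂ hz k b))))

theorem s_rhsE (hD : RelOpen D)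
    (h₁ : IsModel κ α β j0 W₁ D) (h₂ : IsModel κ α β j0 W₂ D) (hz : z ∈ D) (j k : Fin n) :
    Sim (𝓝[Hs n] z) (om W₁ W₂) (rhsE κ α β W₁.toLD j k) (rhsE κ α β W₂.toLD j k) := by
  have hg := fun i j => (s1_g hD h₁ h₂ hz i j).sim
  have hi := fun i j => (s1_gi hD h₁ h₂ hz i j).sim
  have hT := fun i j => s_Tst hD h₁ h₂ hz i j
  exact Sim.add (Sim.add (Sim.mul (Sim.const κ) (hg j k)) (Sim.mul (Sim.const α) (hT j k)))
    (Sim.mul (Sim.mul (Sim.const β) (Sim.sum _ fun a _ => Sim.sum _ fun b _ =>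
      Sim.mul (hi a b) (hT a b))) (hg j k))

/-- `lchr` in solution coordinates -/
def DfLH (W : Model n N) (j0 : Fin N) (j : Fin n) (x : E n) : ℝ := ∑ l, W.g x j l * Hco W j0 l x

theorem lchr_eq (hD : RelOpen D) (h₁ : IsModel κ α β j0 W₁ D) (j : Fin n) :
    EqOn (lchr W₁.g j) (DfLH W₁ j0 j) D := by
  intro x hx
  unfold lchr DfLH
  exact Finset.sum_congr rfl fun l _ => by rw [model_harm hD h₁ hx l]

theorem s1_LH (hD : RelOpen D)
    (h₁ : IsModel κ α β j0 W₁ D) (h₂ : IsModel κ α β j0 W₂ D) (hz : z ∈ D) (j : Fin n) :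
    Sim1 D z (om W₁ W₂) (DfLH W₁ j0 j) (DfLH W₂ j0 j) :=
  Sim1.sum hD hz _ fun l _ => Sim1.mul hD hz (s1_g hD h₁ h₂ hz j l) (s1_H hD h₁ h₂ hz l)

/-- the lower order terms of the Ricci tensor -/
def DfLO (g : E n → Matrix (Fin n) (Fin n) ℝ) (j k : Fin n) (x : E n) : ℝ :=
  (∑ i, ∑ l, (1 / 2) * pd i (fun y => (g y)⁻¹ i l) x *
          (pd j (fun y => g y l k) x + pd k (fun y => g y l j) x - pd l (fun y => g y j k) x) -
        ∑ i, ∑ l, (1 / 2) * pd j (fun y => (g y)⁻¹ i l) x *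
          (pd i (fun y => g y l k) x + pd k (fun y => g y l i) x - pd l (fun y => g y i k) x) -
        ∑ a, ∑ b, (1 / 2) * pd k (fun y => (g y)⁻¹ a b) x *
          (pd a (fun y => g y j b) x - (1 / 2) * pd j (fun y => g y a b) x) -
        ∑ a, ∑ b, (1 / 2) * pd j (fun y => (g y)⁻¹ a b) x *
          (pd a (fun y => g y k b) x - (1 / 2) * pd k (fun y => g y a b) x)) +
      ∑ i, ∑ l, (chr g i i l x * chr g l j k x - chr g i j l x * chr g l i k x)

theorem s_LO (hD : RelOpen D)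
    (h₁ : IsModel κ α β j0 W₁ D) (h₂ : IsModel κ α β j0 W₂ D) (hz : z ∈ D) (j k : Fin n) :
    Sim (𝓝[Hs n] z) (om W₁ W₂) (DfLO W₁.g j k) (DfLO W₂.g j k) := by
  have hg := fun i j m => (s1_g hD h₁ h₂ hz i j).dsim m
  have hi := fun i j m => (s1_gi hD h₁ h₂ hz i j).dsim m
  have hc := fun a b c => s_chr hD h₁ h₂ hz a b c
  have hh : Sim (𝓝[Hs n] z) (om W₁ W₂) (fun _ => (1 / 2 : ℝ)) (fun _ => (1 / 2 : ℝ)) := Sim.const _
  refine Sim.add (Sim.sub (Sim.sub (Sim.sub ?_ ?_) ?_) ?_) ?_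
  · exact Sim.sum _ fun i _ => Sim.sum _ fun l _ => Sim.mul (Sim.mul hh (hi i l i))
      (Sim.sub (Sim.add (hg l k j) (hg l j k)) (hg j k l))
  · exact Sim.sum _ fun i _ => Sim.sum _ fun l _ => Sim.mul (Sim.mul hh (hi i l j))
      (Sim.sub (Sim.add (hg l k i) (hg l i k)) (hg i k l))
  · exact Sim.sum _ fun a _ => Sim.sum _ fun b _ => Sim.mul (Sim.mul hh (hi a b k))
      (Sim.sub (hg j b a) (Sim.mul hh (hg a b j)))
  · exact Sim.sum _ fun a _ => Sim.sum _ fun b _ => Sim.mul (Sim.mul hh (hi a b j))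
      (Sim.sub (hg k b a) (Sim.mul hh (hg a b k)))
  · exact Sim.sum _ fun i _ => Sim.sum _ fun l _ => Sim.sub (Sim.mul (hc i i l) (hc l j k))
      (Sim.mul (hc i j l) (hc l i k))

/-- the right hand side of the equation of `g_{jk}` -/
def DfEg (κ α β : ℝ) (W : Model n N) (j0 : Fin N) (j k : Fin n) (x : E n) : ℝ :=
  (pd k (DfLH W j0 j) x + pd j (DfLH W j0 k) x) + 2 * DfLO W.g j k x - 2 * rhsE κ α β W.toLD j k x

theorem PP_g_eq (hD : RelOpen D) (h₁ : IsModel κ α β j0 W₁ D) (j k : Fin n) {x : E n} (hx : x ∈ D) :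
    DfP W₁.g (fun y => W₁.g y j k) x = DfEg κ α β W₁ j0 j k x := by
  have e1 := ric_harm hD h₁.ok.g_smooth h₁.ok.g_pos hx j k
  rw [h₁.eqs.ein x hx j k, hD.pd_congr (lchr_eq hD h₁ j) hx k, hD.pd_congr (lchr_eq hD h₁ k) hx j]
    at e1
  unfold DfP DfEg DfLO
  simp only [smul_eq_mul]
  rw [e1]
  ring

theorem s_PPg (hD : RelOpen D)
    (h₁ : IsModel κ α β j0 W₁ D) (h₂ : IsModel κ α β j0 W₂ D) (hz : z ∈ D) (j k : Fin n) :
    Sim (𝓝[Hs n] z) (om W₁ W₂) (DfP W₁.g (fun y => W₁.g y j k)) (DfP W₂.g (fun y => W₂.g y j k)) := by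
  have h2 : Sim (𝓝[Hs n] z) (om W₁ W₂) (fun _ => (2 : ℝ)) (fun _ => (2 : ℝ)) := Sim.const _
  have key : Sim (𝓝[Hs n] z) (om W₁ W₂) (DfEg κ α β W₁ j0 j k) (DfEg κ α β W₂ j0 j k) :=
    Sim.sub (Sim.add (Sim.add ((s1_LH hD h₁ h₂ hz j).dsim k) ((s1_LH hD h₁ h₂ hz k).dsim j))
      (Sim.mul h2 (s_LO hD h₁ h₂ hz j k))) (Sim.mul h2 (s_rhsE hD h₁ h₂ hz j k))
  refine Sim.congr key ?_ ?_
  · filter_upwards [hD.mem_nhds hz] with x hx
    exact (PP_g_eq hD h₁ j k hx).symm
  · filter_upwards [hD.mem_nhds hz] with x hx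
    exact (PP_g_eq hD h₂ j k hx).symm

/-- from similarity of the principal parts to the difference -/
theorem PP_diff (hD : RelOpen D)
    (h₁ : IsModel κ α β j0 W₁ D) (h₂ : IsModel κ α β j0 W₂ D) (hz : z ∈ D) {f₁ f₂ : E n → V}
    (hf₁ : ContDiffOn ℝ ∞ f₁ D) (hf₂ : ContDiffOn ℝ ∞ f₂ D)
    (h : Sim (𝓝[Hs n] z) (om W₁ W₂) (DfP W₁.g f₁) (DfP W₂.g f₂)) :
    DfP W₁.g (fun y => f₁ y - f₂ y) =O[𝓝[Hs n] z] om W₁ W₂ := by
  have key : (fun x => (DfP W₁.g f₁ x - DfP W₂.g f₂ x) -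
      ∑ j, ∑ k, ((W₁.g x)⁻¹ j k - (W₂.g x)⁻¹ j k) • pd j (pd k f₂) x) =O[𝓝[Hs n] z] om W₁ W₂ := by
    refine h.d.sub (IsBigO.fun_sum fun j _ => IsBigO.fun_sum fun k _ => ?_)
    have a1 := (s1_gi hD h₁ h₂ hz j k).sim.d
    have a2 := Diff_bdd hD hz (hD.pd_smooth (hD.pd_smooth hf₂ k) j)
    have a3 := a1.smul a2
    simpa only [smul_eq_mul, mul_one] using a3
  refine key.congr' ?_ (EventuallyEq.refl _ _)
  filter_upwards [hD.mem_nhds hz] with x hx
  unfold DfP
  rw [← Finset.sum_sub_distrib, ← Finset.sum_sub_distrib]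
  refine Finset.sum_congr rfl fun j _ => ?_
  rw [← Finset.sum_sub_distrib, ← Finset.sum_sub_distrib]
  refine Finset.sum_congr rfl fun k _ => ?_
  have e1 : pd j (pd k (fun y => f₁ y - f₂ y)) x = pd j (pd k f₁) x - pd j (pd k f₂) x := by
    rw [hD.pd_congr (g := fun y => pd k f₁ y - pd k f₂ y) (fun y hy => hD.pd_sub hf₁ hf₂ hy k) hx j]
    exact hD.pd_sub (hD.pd_smooth hf₁ k) (hD.pd_smooth hf₂ k) hx j
  rw [e1]
  simp only [smul_sub, sub_smul]
  abel

/-- the principal part commutes with linear maps -/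
theorem PP_clm (hD : RelOpen D) {g : E n → Matrix (Fin n) (Fin n) ℝ} (T : V →L[ℝ] V') {f : E n → V}
    (hf : ContDiffOn ℝ ∞ f D) {x : E n} (hx : x ∈ D) :
    DfP g (fun y => T (f y)) x = T (DfP g f x) := by
  unfold DfP
  rw [map_sum]
  refine Finset.sum_congr rfl fun j _ => ?_
  rw [map_sum]
  refine Finset.sum_congr rfl fun k _ => ?_
  rw [map_smul, hD.pd_congr (g := fun y => T (pd k f y)) (fun y hy => hD.pd_clm T hf hy k) hx j,
    hD.pd_clm T (hD.pd_smooth hf k) hx j]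

/-- The elliptic inequality for the difference of two models. -/
theorem model_diff_aux (hD : RelOpen D)
    (h₁ : IsModel κ α β j0 W₁ D) (h₂ : IsModel κ α β j0 W₂ D) (hz : z ∈ D) :
    DfP W₁.g (fun y => Wv W₁ y - Wv W₂ y) =O[𝓝[Hs n] z] om W₁ W₂ := by
  have hs := diffWv_smooth hD h₁ h₂
  have main : ∀ {V : Type} [NormedAddCommGroup V] [NormedSpace ℝ V] (T : VV n N →L[ℝ] V)
      (_ : Sim (𝓝[Hs n] z) (om W₁ W₂) (DfP W₁.g (fun y => T (Wv W₁ y)))
        (DfP W₂.g (fun y => T (Wv W₂ y)))),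
      (fun x => T (DfP W₁.g (fun y => Wv W₁ y - Wv W₂ y) x)) =O[𝓝[Hs n] z] om W₁ W₂ := by
    intro V _ _ T hT
    have a1 := PP_diff hD h₁ h₂ hz (T.contDiff.comp_contDiffOn (Wv_smooth hD h₁))
      (T.contDiff.comp_contDiffOn (Wv_smooth hD h₂)) hT
    refine a1.congr' ?_ (EventuallyEq.refl _ _)
    filter_upwards [hD.mem_nhds hz] with x hx
    rw [← PP_clm hD T hs hx]
    simp only [Function.comp_def, map_sub]
  have c1 : (fun x => (DfP W₁.g (fun y => Wv W₁ y - Wv W₂ y) x).1) =O[𝓝[Hs n] z] om W₁ W₂ := by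
    rw [isBigO_pi]
    intro i
    rw [isBigO_pi]
    intro j
    exact main ((ContinuousLinearMap.proj (R := ℝ) (φ := fun _ : Fin n => ℝ) j).comp
      ((ContinuousLinearMap.proj (R := ℝ) (φ := fun _ : Fin n => Fin n → ℝ) i).comp
      (ContinuousLinearMap.fst ℝ _ _))) (s_PPg hD h₁ h₂ hz i j)
  have c2 : (fun x => (DfP W₁.g (fun y => Wv W₁ y - Wv W₂ y) x).2.1) =O[𝓝[Hs n] z] om W₁ W₂ := by
    rw [isBigO_pi]
    intro i
    exact main ((ContinuousLinearMap.proj (R := ℝ) (φ := fun _ : Fin n => EndF N) i).comp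
      ((ContinuousLinearMap.fst ℝ _ _).comp (ContinuousLinearMap.snd ℝ _ _))) (s_PPB hD h₁ h₂ hz i)
  have c3 : (fun x => (DfP W₁.g (fun y => Wv W₁ y - Wv W₂ y) x).2.2.1) =O[𝓝[Hs n] z] om W₁ W₂ :=
    main ((ContinuousLinearMap.fst ℝ _ _).comp
      ((ContinuousLinearMap.snd ℝ _ _).comp (ContinuousLinearMap.snd ℝ _ _))) (s_PPh hD h₁ h₂ hz)
  have c4 : (fun x => (DfP W₁.g (fun y => Wv W₁ y - Wv W₂ y) x).2.2.2.1) =O[𝓝[Hs n] z] om W₁ W₂ := by
    rw [isBigO_pi]
    intro a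
    exact main ((ContinuousLinearMap.proj (R := ℝ) (φ := fun _ : Fin n => Fib N) a).comp
      ((ContinuousLinearMap.fst ℝ _ _).comp ((ContinuousLinearMap.snd ℝ _ _).comp
      ((ContinuousLinearMap.snd ℝ _ _).comp (ContinuousLinearMap.snd ℝ _ _)))))
      (s_PPc hD h₁ h₂ hz a)
  have c5 : (fun x => (DfP W₁.g (fun y => Wv W₁ y - Wv W₂ y) x).2.2.2.2) =O[𝓝[Hs n] z] om W₁ W₂ := by
    rw [isBigO_pi]
    intro a
    rw [isBigO_pi]
    intro k
    exact main ((ContinuousLinearMap.proj (R := ℝ) (φ := fun _ : Fin n => Fib N) k).comp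
      ((ContinuousLinearMap.proj (R := ℝ) (φ := fun _ : Fin n => Fin n → Fib N) a).comp
      ((ContinuousLinearMap.snd ℝ _ _).comp ((ContinuousLinearMap.snd ℝ _ _).comp
      ((ContinuousLinearMap.snd ℝ _ _).comp (ContinuousLinearMap.snd ℝ _ _))))))
      (s_PPp hD h₁ h₂ hz a k)
  exact c1.prod_left (c2.prod_left (c3.prod_left (c4.prod_left c5)))

end Comp

theorem model_diff {κ α β : ℝ} {j0 : Fin N} {W₁ W₂ : Model n N} {D : Set (E n)} (hD : RelOpen D)
    (h₁ : IsModel κ α β j0 W₁ D) (h₂ : IsModel κ α β j0 W₂ D) {z : E n} (hz : z ∈ D) :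
    (fun x => ∑ j, ∑ k, (W₁.g x)⁻¹ j k • pd j (pd k (fun y => Wv W₁ y - Wv W₂ y)) x)
      =O[𝓝[Hs n] z] om W₁ W₂ := model_diff_aux hD h₁ h₂ hz

end Vale.Agent.P088.EYM
end
end

section

/-!
# P088-EYM, block B: rigidity of models from unique continuation
-/

open MeasureTheory Set Filter Topology Asymptotics
open scoped ContDiff

noncomputable section

namespace Vale.Agent.P088.EYM

set_option linter.unusedSectionVars false

variable {n N : ℕ} [NeZero n]

instance rigFinEndF : FiniteDimensional ℝ (EndF N) := by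
  let T : EndF N →ₗ[ℝ] (Fin N → Fib N) :=
    { toFun := fun S i => S (EuclideanSpace.single i 1)
      map_add' := fun S S' => rfl
      map_smul' := fun c S => rfl }
  have hT : Function.Injective T := by
    intro S S' h
    ext1 w
    have hw : w = ∑ i, w i • EuclideanSpace.single i (1 : ℂ) := by
      ext k
      simp [Finset.sum_apply, Pi.single_apply]
    rw [hw]
    simp only [map_sum, map_smul]
    refine Finset.sum_congr rfl fun i _ => ?_
    have := congrFun h i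
    exact congrArg _ this
  exact FiniteDimensional.of_injective T hT

/-- derivative of `Wv` in components -/
theorem rig_pd_Wv {κ α β : ℝ} {j0 : Fin N} {W : Model n N} {D : Set (E n)} (hD : RelOpen D)
    (hW : IsModel κ α β j0 W D) {x : E n} (hx : x ∈ D) (j : Fin n) :
    pd j (Wv W) x = (fun a b => pd j (fun y => W.g y a b) x, fun i => pd j (W.B i) x, pd j W.h x,
      fun a => pd j (W.c a) x, fun a k => pd j (pd k (W.c a)) x) := by
  have hs := Wv_smooth hD hW
  have key : ∀ {V : Type} [NormedAddCommGroup V] [NormedSpace ℝ V] (T : VV n N →L[ℝ] V),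
      T (pd j (Wv W) x) = pd j (fun y => T (Wv W y)) x := fun T => (hD.pd_clm T hs hx j).symm
  refine Prod.ext ?_ (Prod.ext ?_ (Prod.ext ?_ (Prod.ext ?_ ?_)))
  · funext a b
    exact key ((ContinuousLinearMap.proj (R := ℝ) (φ := fun _ : Fin n => ℝ) b).comp
      ((ContinuousLinearMap.proj (R := ℝ) (φ := fun _ : Fin n => Fin n → ℝ) a).comp
      (ContinuousLinearMap.fst ℝ _ _)))
  · funext i
    exact key ((ContinuousLinearMap.proj (R := ℝ) (φ := fun _ : Fin n => EndF N) i).comp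
      ((ContinuousLinearMap.fst ℝ _ _).comp (ContinuousLinearMap.snd ℝ _ _)))
  · exact key ((ContinuousLinearMap.fst ℝ _ _).comp
      ((ContinuousLinearMap.snd ℝ _ _).comp (ContinuousLinearMap.snd ℝ _ _)))
  · funext a
    exact key ((ContinuousLinearMap.proj (R := ℝ) (φ := fun _ : Fin n => Fib N) a).comp
      ((ContinuousLinearMap.fst ℝ _ _).comp ((ContinuousLinearMap.snd ℝ _ _).comp
      ((ContinuousLinearMap.snd ℝ _ _).comp (ContinuousLinearMap.snd ℝ _ _)))))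
  · funext a k
    exact key ((ContinuousLinearMap.proj (R := ℝ) (φ := fun _ : Fin n => Fib N) k).comp
      ((ContinuousLinearMap.proj (R := ℝ) (φ := fun _ : Fin n => Fin n → Fib N) a).comp
      ((ContinuousLinearMap.snd ℝ _ _).comp ((ContinuousLinearMap.snd ℝ _ _).comp
      ((ContinuousLinearMap.snd ℝ _ _).comp (ContinuousLinearMap.snd ℝ _ _))))))

theorem rig_eq {W₁ W₂ : Model n N} {D : Set (E n)} (h : ∀ x ∈ D, Wv W₁ x = Wv W₂ x) :
    EqOnM W₁ W₂ D where
  g := fun x hx => by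
    ext i j
    exact congrFun (congrFun (congrArg Prod.fst (h x hx)) i) j
  B := fun x hx j => congrFun (congrArg (fun v : VV n N => v.2.1) (h x hx)) j
  h := fun x hx => congrArg (fun v : VV n N => v.2.2.1) (h x hx)
  c := fun x hx a => congrFun (congrArg (fun v : VV n N => v.2.2.2.1) (h x hx)) a

theorem rig_ineq {κ α β : ℝ} {j0 : Fin N} {W₁ W₂ : Model n N} {D : Set (E n)} (hD : RelOpen D)
    (h₁ : IsModel κ α β j0 W₁ D) (h₂ : IsModel κ α β j0 W₂ D) {z : E n} (hz : z ∈ D) :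
    ∃ C : ℝ, ∀ᶠ y in 𝓝[Hs n] z,
      ‖∑ j, ∑ k, (W₁.g y)⁻¹ j k • pd j (pd k (fun y => Wv W₁ y - Wv W₂ y)) y‖ ≤
      C * (‖Wv W₁ y - Wv W₂ y‖ + ∑ j, ‖pd j (fun y => Wv W₁ y - Wv W₂ y) y‖) := by
  obtain ⟨C, hC⟩ := (model_diff hD h₁ h₂ hz).bound
  refine ⟨C, ?_⟩
  filter_upwards [hC] with y hy
  rw [Real.norm_of_nonneg (Diff_om_nonneg W₁ W₂ y)] at hy
  exact hy

theorem rig_pos {κ α β : ℝ} {j0 : Fin N} {W₁ : Model n N} {D : Set (E n)}
    (h₁ : IsModel κ α β j0 W₁ D) {x : E n} (hx : x ∈ D) :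
    (Matrix.of fun j k => (W₁.g x)⁻¹ j k).PosDef := (h₁.ok.g_pos x hx).inv

theorem relOpen_of_open {D : Set (E n)} (hD : IsOpen D) (h : D ⊆ Hs n) : RelOpen D :=
  ⟨D, hD, (inter_eq_left.2 h).symm⟩

theorem relOpen_HB (z : E n) (r : ℝ) : RelOpen (HB z r) := ⟨Metric.ball z r, Metric.isOpen_ball, rfl⟩

theorem bRigInt (hu : UcpV_statement) : BRigInt_statement := by
  intro n N _ κ α β j0 W₁ W₂ D _ hD hpos hconn h₁ h₂ U hU hUD hne heq
  have hsub : D ⊆ Hs n := fun x hx => le_of_lt (show 0 < x 0 from hpos hx)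
  have hDr : RelOpen D := relOpen_of_open hD hsub
  have hUr : RelOpen U := relOpen_of_open hU (hUD.trans hsub)
  have hs := diffWv_smooth hDr h₁ h₂
  have hw := hu n (VV n N) (fun j k x => (W₁.g x)⁻¹ j k) D hD hpos hconn
    (fun j k => hDr.smM_inv h₁.ok.g_smooth h₁.ok.g_pos j k) (fun x hx => rig_pos h₁ hx)
    (fun y => Wv W₁ y - Wv W₂ y) hs (fun x hx => rig_ineq hDr h₁ h₂ hx) U hU hUD hne ?_
  · exact rig_eq fun x hx => sub_eq_zero.1 (hw x hx)
  · intro x hx
    rw [sub_eq_zero]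
    unfold Wv
    have e1 : (fun i j => W₁.g x i j) = fun i j => W₂.g x i j := by rw [heq.g x hx]
    have e2 : (fun i => W₁.B i x) = fun i => W₂.B i x := funext fun i => heq.B x hx i
    have e3 := heq.h x hx
    have e4 : (fun a => W₁.c a x) = fun a => W₂.c a x := funext fun a => heq.c x hx a
    have e5 : (fun a k => pd k (W₁.c a) x) = fun a k => pd k (W₂.c a) x := by
      funext a k
      exact hUr.pd_congr (fun y hy => heq.c y hy a) hx k
    rw [e1, e2, e3, e4, e5]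

theorem bRigBd (hu : UcpVBd_statement) : BRigBd_statement := by
  intro n N _ κ α β j0 W₁ W₂ z r _ hr hz h₁ h₂ hjet
  have hDr : RelOpen (HB z r) := relOpen_HB z r
  have hs := diffWv_smooth hDr h₁ h₂
  have hw := hu n (VV n N) (fun j k x => (W₁.g x)⁻¹ j k) z r hr hz
    (fun j k => hDr.smM_inv h₁.ok.g_smooth h₁.ok.g_pos j k) (fun x hx => rig_pos h₁ hx)
    (fun y => Wv W₁ y - Wv W₂ y) hs (fun x hx => rig_ineq hDr h₁ h₂ hx) ?_
  · exact rig_eq fun x hx => sub_eq_zero.1 (hw x hx)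
  · intro x hx hx0
    have J := hjet x hx hx0
    have e5 : (fun a k => pd k (W₁.c a) x) = fun a k => pd k (W₂.c a) x := by
      funext a k; exact J.dc a k
    have e2 : (fun i => W₁.B i x) = fun i => W₂.B i x := funext fun i => J.B i
    have e4 : (fun a => W₁.c a x) = fun a => W₂.c a x := funext fun a => J.c a
    constructor
    · rw [sub_eq_zero]
      unfold Wv
      rw [J.g, e2, J.h, e4, e5]
    · intro j
      have e0 : pd j (fun y => Wv W₁ y - Wv W₂ y) x = pd j (Wv W₁) x - pd j (Wv W₂) x :=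
        hDr.pd_sub (Wv_smooth hDr h₁) (Wv_smooth hDr h₂) hx j
      rw [e0, sub_eq_zero, rig_pd_Wv hDr h₁ hx j, rig_pd_Wv hDr h₂ hx j]
      have d1 : (fun a b => pd j (fun y => W₁.g y a b) x) = fun a b => pd j (fun y => W₂.g y a b) x := by
        funext a b; exact J.dg a b j
      have d2 : (fun i => pd j (W₁.B i) x) = fun i => pd j (W₂.B i) x := funext fun i => J.dB i j
      have d3 : pd j W₁.h x = pd j W₂.h x := by
        rw [h₁.ok.compat x hx j, h₂.ok.compat x hx j, J.B, J.h]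
      have d4 : (fun a => pd j (W₁.c a) x) = fun a => pd j (W₂.c a) x := funext fun a => J.dc a j
      have d5 : (fun a k => pd j (pd k (W₁.c a)) x) = fun a k => pd j (pd k (W₂.c a)) x := by
        funext a k; exact J.ddc a j k
      rw [d1, d2, d3, d4, d5]

end Vale.Agent.P088.EYM
end
end

section

/-!
# P088-EYM, block A: the equation `Lop L c = 0` as a real system
-/

open MeasureTheory Set Filter Topology
open scoped ContDiff

noncomputable section

namespace Vale.Agent.P088.EYM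

set_option linter.unusedSectionVars false

variable {n N : ℕ} [NeZero n]

theorem AIReal_relOpen {O : Set (E n)} (hO : IsOpen O) (hs : O ⊆ Hs n) : RelOpen O :=
  ⟨O, hO, (inter_eq_left.2 hs).symm⟩

/-- The real component `p`. -/
def AIReal_cp (p : Fin N × Bool) : Fib N →L[ℝ] ℝ :=
  (if p.2 then Complex.imCLM else Complex.reCLM).comp
    ((EuclideanSpace.proj (𝕜 := ℂ) p.1 : Fib N →L[ℂ] ℂ).restrictScalars ℝ)

theorem AIReal_cp_apply (p : Fin N × Bool) (v : Fib N) :
    AIReal_cp p v = if p.2 then (v p.1).im else (v p.1).re := by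
  unfold AIReal_cp
  split_ifs <;> rfl

theorem AIReal_comps (c : E n → Fib N) (p : Fin N × Bool) :
    comps c p = fun x => AIReal_cp p (c x) := by
  funext x
  rw [AIReal_cp_apply]
  rfl

/-- The real basis. -/
def AIReal_e (q : Fin N × Bool) : Fib N :=
  EuclideanSpace.single q.1 (if q.2 then Complex.I else 1)

theorem AIReal_expand (v : Fib N) : v = ∑ q, AIReal_cp q v • AIReal_e q := by
  ext i
  rw [Fintype.sum_prod_type]
  simp only [Fintype.sum_bool, AIReal_cp_apply, AIReal_e]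
  have h : ∀ (i : Fin N), (∑ j : Fin N, (((v j).im • (EuclideanSpace.single j Complex.I : Fib N)) +
      ((v j).re • (EuclideanSpace.single j (1 : ℂ) : Fib N)))) i =
      ∑ j : Fin N, ((((v j).im : ℂ) * (if i = j then Complex.I else 0)) +
      (((v j).re : ℂ) * (if i = j then 1 else 0))) := by
    intro i
    refine (map_sum (EuclideanSpace.proj (𝕜 := ℂ) i : Fib N →L[ℂ] ℂ) _ _).trans ?_
    refine Finset.sum_congr rfl fun j _ => ?_
    by_cases hij : i = j
    · subst hij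
      simp
    · simp [hij]
  simp only [if_true, Bool.false_eq_true, if_false] at *
  rw [h]
  simp only [mul_ite, mul_zero, mul_one, Finset.sum_add_distrib, Finset.sum_ite_eq,
    Finset.mem_univ, if_true]
  rw [add_comm]
  exact (Complex.re_add_im (v i)).symm

/-- The real matrix of an endomorphism. -/
def AIReal_m (T : EndF N) (p q : Fin N × Bool) : ℝ := AIReal_cp p (T (AIReal_e q))

theorem AIReal_m_apply (T : EndF N) (p : Fin N × Bool) (v : Fib N) :
    AIReal_cp p (T v) = ∑ q, AIReal_m T p q * AIReal_cp q v := by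
  conv_lhs => rw [AIReal_expand v]
  rw [map_sum, map_sum]
  refine Finset.sum_congr rfl fun q _ => ?_
  rw [ContinuousLinearMap.map_smul_of_tower, map_smul, smul_eq_mul, mul_comm]
  rfl

theorem AIReal_m_smooth {O : Set (E n)} {T : E n → EndF N} (hT : ContDiffOn ℝ ∞ T O)
    (p q : Fin N × Bool) : ContDiffOn ℝ ∞ (fun x => AIReal_m (T x) p q) O :=
  (AIReal_cp p).contDiff.comp_contDiffOn (smooth_eval hT contDiffOn_const)

/-- first order coefficients -/
def AIReal_M (L : LD n N) (k : Fin n) (x : E n) : EndF N :=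
  -∑ j, (pd j (gg L.g j k) x • (1 : EndF N) + gg L.g k j x • L.B j x + gg L.g j k x • L.B j x)

/-- zeroth order coefficients -/
def AIReal_Z (L : LD n N) (x : E n) : EndF N :=
  -∑ j, ∑ k, (pd j (gg L.g j k) x • L.B k x + gg L.g j k x • pd j (L.B k) x +
    gg L.g j k x • (L.B j x * L.B k x))

theorem AIReal_M_smooth {O : Set (E n)} (hO : RelOpen O) {L : LD n N} (hL : L.Ok O) (k : Fin n) :
    ContDiffOn ℝ ∞ (AIReal_M L k) O := by
  have hgg := hO.gg_smooth hL.g_smooth hL.g_pos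
  exact (ContDiffOn.sum fun j _ => (((hO.pd_smooth (hgg j k) j).smul contDiffOn_const).add
    ((hgg k j).smul (hL.B_smooth j))).add ((hgg j k).smul (hL.B_smooth j))).neg

theorem AIReal_Z_smooth {O : Set (E n)} (hO : RelOpen O) {L : LD n N} (hL : L.Ok O) :
    ContDiffOn ℝ ∞ (AIReal_Z L) O := by
  have hgg := hO.gg_smooth hL.g_smooth hL.g_pos
  exact (ContDiffOn.sum fun j _ => ContDiffOn.sum fun k _ =>
    (((hO.pd_smooth (hgg j k) j).smul (hL.B_smooth k)).add
    ((hgg j k).smul (hO.pd_smooth (hL.B_smooth k) j))).add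
      ((hgg j k).smul (smooth_mul (hL.B_smooth j) (hL.B_smooth k)))).neg

theorem AIReal_eq {O : Set (E n)} (hO : RelOpen O) {L : LD n N} (hL : L.Ok O) {c : E n → Fib N}
    (hc : ContDiffOn ℝ ∞ c O) {x : E n} (hx : x ∈ O) (h0 : Lop L c x = 0) :
    ∑ j, ∑ k, gg L.g j k x • pd j (pd k c) x =
      ∑ k, AIReal_M L k x (pd k c x) + AIReal_Z L x (c x) := by
  have hgg := hO.gg_smooth hL.g_smooth hL.g_pos
  have hnab := Jacobi_nab_smooth hO hL hc
  have h1 : ∀ j, pd j (flux L j c) x + L.B j x (flux L j c x) =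
      ∑ k, (gg L.g j k x • (pd j (nab L k c) x + L.B j x (nab L k c x)) +
        pd j (gg L.g j k) x • nab L k c x) := by
    intro j
    have h2 : pd j (flux L j c) x = ∑ k, (gg L.g j k x • pd j (nab L k c) x +
        pd j (gg L.g j k) x • nab L k c x) := by
      have h3 : pd j (flux L j c) x = pd j (fun y => ∑ k, gg L.g j k y • nab L k c y) x := rfl
      rw [h3, hO.pd_sum Finset.univ (f := fun k y => gg L.g j k y • nab L k c y)
        (fun k _ => (hgg j k).smul (hnab k)) hx j]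
      exact Finset.sum_congr rfl fun k _ => hO.pd_smul (hgg j k) (hnab k) hx j
    have h4 : L.B j x (flux L j c x) = ∑ k, gg L.g j k x • L.B j x (nab L k c x) := by
      unfold flux
      rw [map_sum]
      exact Finset.sum_congr rfl fun k _ => ContinuousLinearMap.map_smul_of_tower _ _ _
    rw [h2, h4, ← Finset.sum_add_distrib]
    refine Finset.sum_congr rfl fun k _ => ?_
    rw [smul_add]
    abel
  have h5 : ∀ j k, pd j (nab L k c) x =
      pd j (pd k c) x + (L.B k x (pd j c x) + pd j (L.B k) x (c x)) := by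
    intro j k
    have h6 : pd j (nab L k c) x = pd j (fun y => pd k c y + L.B k y (c y)) x := rfl
    rw [h6, hO.pd_add (hO.pd_smooth hc k) (smooth_eval (hL.B_smooth k) hc) hx j,
      hO.pd_eval (hL.B_smooth k) hc (by simp) (by simp) hx j]
  unfold Lop at h0
  simp only [h1, h5] at h0
  have hM : ∑ k, AIReal_M L k x (pd k c x) =
      -(∑ j, ∑ k, (pd j (gg L.g j k) x • pd k c x + gg L.g j k x • L.B k x (pd j c x) +
        gg L.g j k x • L.B j x (pd k c x))) := by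
    have e1 : ∀ k, AIReal_M L k x (pd k c x) = -(∑ j, pd j (gg L.g j k) x • pd k c x +
        ∑ j, gg L.g k j x • L.B j x (pd k c x) + ∑ j, gg L.g j k x • L.B j x (pd k c x)) := by
      intro k
      unfold AIReal_M
      rw [← Finset.sum_add_distrib, ← Finset.sum_add_distrib]
      simp only [neg_apply, sum_apply, add_apply, smul_apply, one_apply_eq_self]
    simp only [e1, Finset.sum_neg_distrib, Finset.sum_add_distrib]
    congr 2
    · congr 1
      rw [Finset.sum_comm]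
    · rw [Finset.sum_comm]
  have hZ : AIReal_Z L x (c x) =
      -(∑ j, ∑ k, (pd j (gg L.g j k) x • L.B k x (c x) + gg L.g j k x • pd j (L.B k) x (c x) +
        gg L.g j k x • L.B j x (L.B k x (c x)))) := by
    unfold AIReal_Z
    simp only [neg_apply, sum_apply, add_apply, smul_apply]
    rfl
  rw [hM, hZ, ← sub_eq_zero, ← h0]
  rw [sub_eq_add_neg, neg_add, neg_neg, neg_neg, ← Finset.sum_add_distrib,
    ← Finset.sum_add_distrib]
  refine Finset.sum_congr rfl fun j _ => ?_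
  rw [← Finset.sum_add_distrib, ← Finset.sum_add_distrib]
  refine Finset.sum_congr rfl fun k _ => ?_
  unfold nab
  simp only [map_add, smul_add]
  abel

theorem aIReal : AIReal_statement := by
  intro n N _ L O hO hs hL
  have hR := AIReal_relOpen hO hs
  have hgg := hR.gg_smooth hL.g_smooth hL.g_pos
  refine ⟨⟨gg L.g, fun j p q x => AIReal_m (AIReal_M L j x) p q,
    fun p q x => AIReal_m (AIReal_Z L x) p q⟩, ⟨hgg, fun x hx => ?_, fun j p q =>
      AIReal_m_smooth (AIReal_M_smooth hR hL j) p q, fun p q =>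
      AIReal_m_smooth (AIReal_Z_smooth hR hL) p q⟩, fun c hc => ⟨fun p => ?_, fun x hx p => ?_⟩⟩
  · have h1 : (Matrix.of fun j k => gg L.g j k x) = Real.sqrt (L.g x).det • (L.g x)⁻¹ := by
      ext j k
      rfl
    rw [h1]
    exact (hL.g_pos x hx).inv.smul (Real.sqrt_pos.2 (hL.g_pos x hx).det_pos)
  · rw [AIReal_comps]
    exact (AIReal_cp p).contDiff.comp_contDiffOn hc.1
  · have e := congrArg (AIReal_cp p) (AIReal_eq hR hL hc.1 hx (hc.2 x hx))
    have hpd : ∀ q j y, y ∈ O → pd j (comps c q) y = AIReal_cp q (pd j c y) := by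
      intro q j y hy
      rw [AIReal_comps]
      exact hR.pd_clm (AIReal_cp q) hc.1 hy j
    have hpd2 : ∀ j k, pd j (pd k (comps c p)) x = AIReal_cp p (pd j (pd k c) x) := by
      intro j k
      rw [hR.pd_congr (fun y hy => hpd p k y hy) hx j]
      exact hR.pd_clm (AIReal_cp p) (hR.pd_smooth hc.1 k) hx j
    simp only [map_sum, map_add, map_smul, smul_eq_mul, AIReal_m_apply] at e
    simp only [hpd2, hpd _ _ x hx]
    rw [e]
    simp only [AIReal_comps]

end Vale.Agent.P088.EYM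
end
end

section

set_option linter.all false

/-!
# P088-EYM, block A: the energy form in real components
-/

open MeasureTheory Set Filter Topology
open scoped ContDiff

noncomputable section

namespace Vale.Agent.P088.EYM

variable {n N : ℕ} [NeZero n]

/-- real basis of `Fib N` -/
def ur_eb (p : Fin N × Bool) : Fib N :=
  EuclideanSpace.single p.1 (if p.2 then Complex.I else (1 : ℂ))

omit [NeZero n] in
theorem ur_inner (v : Fib N) (p : Fin N × Bool) :
    (inner ℂ v (ur_eb p) : ℂ).re = aInt_proj p v := by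
  rcases p with ⟨a, b⟩
  unfold ur_eb
  rw [EuclideanSpace.inner_single_right]
  cases b <;> simp [aInt_proj]

omit [NeZero n] in
theorem ur_proj_eb (p q : Fin N × Bool) : aInt_proj p (ur_eb q) = if p = q then 1 else 0 := by
  rcases p with ⟨a, b⟩
  rcases q with ⟨c, e⟩
  unfold ur_eb aInt_proj
  by_cases hac : a = c
  · subst hac
    cases b <;> cases e <;> simp
  · cases b <;> cases e <;> simp [hac]

omit [NeZero n] in
theorem ur_expand (v : Fib N) : v = ∑ p : Fin N × Bool, aInt_proj p v • ur_eb p := by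
  have h : ∀ w : Fib N, (∀ q, aInt_proj q w = 0) → w = 0 := by
    intro w hw
    have h1 := aInt_norm_sq w
    simp only [hw] at h1
    have : ‖w‖ ^ 2 = 0 := by simpa only [ne_eq, OfNat.ofNat_ne_zero, not_false_eq_true, pow_eq_zero_iff, norm_eq_zero, zero_pow,     Finset.sum_const_zero] using h1
    exact norm_eq_zero.1 (pow_eq_zero_iff (by norm_num) |>.1 this)
  rw [← sub_eq_zero]
  apply h
  intro q
  rw [map_sub, map_sum]
  simp only [map_smul, ur_proj_eb, smul_eq_mul, mul_ite, mul_one, mul_zero]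
  simp only [Finset.sum_ite_eq, Finset.mem_univ, ↓reduceIte, sub_self]

omit [NeZero n] in
theorem ur_map (T : EndF N) (v : Fib N) (p : Fin N × Bool) :
    aInt_proj p (T v) = ∑ q, aInt_proj p (T (ur_eb q)) * aInt_proj q v := by
  conv_lhs => rw [ur_expand v]
  rw [map_sum, map_sum]
  refine Finset.sum_congr rfl fun q _ => ?_
  rw [ContinuousLinearMap.map_smul_of_tower, map_smul, smul_eq_mul, mul_comm]


section

variable {D : Set (E n)} {L : LD n N} {c : E n → Fib N} {x : E n}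

/-- `h c` -/
def ur_w (L : LD n N) (c : E n → Fib N) (y : E n) : Fib N := L.h y (c y)

theorem ur_w_smooth (hL : L.Ok D) (hc : ContDiffOn ℝ ∞ c D) : ContDiffOn ℝ ∞ (ur_w L c) D :=
  smooth_eval hL.h_smooth hc

theorem ur_hnab (hD : RelOpen D) (hL : L.Ok D) (hc : ContDiffOn ℝ ∞ c D) (hx : x ∈ D)
    (j : Fin n) : L.h x (nab L j c x) =
      pd j (ur_w L c) x - ContinuousLinearMap.adjoint (L.B j x) (ur_w L c x) := by
  have h1 : pd j (ur_w L c) x = L.h x (pd j c x) + pd j L.h x (c x) :=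
    hD.pd_eval hL.h_smooth hc (by simp) (by simp) hx j
  rw [h1, hL.compat x hx j]
  unfold nab ur_w
  rw [map_add]
  change _ = L.h x (pd j c x) + (ContinuousLinearMap.adjoint (L.B j x) (L.h x (c x))
    + L.h x (L.B j x (c x))) - _
  abel

theorem ur_pd_test (hD : RelOpen D) {φ : E n → ℝ} (hφ : ContDiff ℝ ∞ φ) (e : Fib N) (hx : x ∈ D)
    (k : Fin n) : pd k (fun y => φ y • e) x = pd k φ x • e := by
  have h := hD.pd_smul (f := fun _ : E n => e) hφ.contDiffOn contDiffOn_const hx k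
  rw [h, pd_const, smul_zero, zero_add]

theorem ur_ed (hD : RelOpen D) (hL : L.Ok D) (hc : ContDiffOn ℝ ∞ c D) {φ : E n → ℝ}
    (hφ : ContDiff ℝ ∞ φ) (p : Fin N × Bool) (hx : x ∈ D) :
    (ed L c (fun y => φ y • ur_eb p) x).re = ∑ j, ∑ k, gg L.g j k x *
      (pd k φ x * aInt_proj p (pd j (ur_w L c) x
          - ContinuousLinearMap.adjoint (L.B j x) (ur_w L c x))
        + φ x * aInt_proj p (ContinuousLinearMap.adjoint (L.B k x) (pd j (ur_w L c) x
          - ContinuousLinearMap.adjoint (L.B j x) (ur_w L c x)))) := by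
  unfold ed
  rw [Complex.re_sum]
  refine Finset.sum_congr rfl fun j _ => ?_
  rw [Complex.re_sum]
  refine Finset.sum_congr rfl fun k _ => ?_
  rw [Complex.re_ofReal_mul]
  congr 1
  have h1 : (inner ℂ (nab L j c x) (L.h x (nab L k (fun y => φ y • ur_eb p) x)) : ℂ)
      = inner ℂ (L.h x (nab L j c x)) (nab L k (fun y => φ y • ur_eb p) x) := by
    rw [← ContinuousLinearMap.adjoint_inner_left, hL.h_adj x hx]
  rw [h1, ur_hnab hD hL hc hx j]
  have h2 : nab L k (fun y => φ y • ur_eb p) x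
      = ((pd k φ x : ℝ) : ℂ) • ur_eb p + ((φ x : ℝ) : ℂ) • L.B k x (ur_eb p) := by
    unfold nab
    rw [ur_pd_test hD hφ _ hx k]
    congr 1
    rw [ContinuousLinearMap.map_smul_of_tower]
    exact (Complex.coe_smul _ _).symm
  rw [h2, inner_add_right, inner_smul_right, inner_smul_right, Complex.add_re,
    Complex.re_ofReal_mul, Complex.re_ofReal_mul, ur_inner]
  congr 2
  rw [← ContinuousLinearMap.adjoint_inner_left, ur_inner]

/-- first order coefficients -/
def ur_Q (L : LD n N) (k : Fin n) (p q : Fin N × Bool) (x : E n) : ℝ :=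
  aInt_proj p ((∑ j, (2 * gg L.g j k x) • ContinuousLinearMap.adjoint (L.B j x)) (ur_eb q))

/-- zeroth order coefficients -/
def ur_R (L : LD n N) (p q : Fin N × Bool) (x : E n) : ℝ :=
  aInt_proj p ((∑ j, ∑ k,
    (pd k (fun y => gg L.g j k y • ContinuousLinearMap.adjoint (L.B j y)) x
      - gg L.g j k x • (ContinuousLinearMap.adjoint (L.B k x)
        * ContinuousLinearMap.adjoint (L.B j x)))) (ur_eb q))

/-- the divergence part -/
def ur_Y (L : LD n N) (c : E n → Fib N) (p : Fin N × Bool) (k : Fin n) (x : E n) : ℝ :=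
  aInt_proj p ((∑ j, gg L.g j k x • ContinuousLinearMap.adjoint (L.B j x)) (ur_w L c x))

theorem ur_BG_smooth (hD : RelOpen D) (hL : L.Ok D) (j k : Fin n) :
    ContDiffOn ℝ ∞ (fun y => gg L.g j k y • ContinuousLinearMap.adjoint (L.B j y)) D :=
  (hD.gg_smooth hL.g_smooth hL.g_pos j k).smul (smooth_adj (hL.B_smooth j))

theorem ur_Y_smooth (hD : RelOpen D) (hL : L.Ok D) (hc : ContDiffOn ℝ ∞ c D) (p : Fin N × Bool)
    (k : Fin n) : ContDiffOn ℝ ∞ (ur_Y L c p k) D := by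
  have h1 : ContDiffOn ℝ ∞ (fun y => ∑ j, gg L.g j k y
      • ContinuousLinearMap.adjoint (L.B j y)) D :=
    ContDiffOn.sum fun j _ => ur_BG_smooth hD hL j k
  exact (aInt_proj p).contDiff.comp_contDiffOn (smooth_eval h1 (ur_w_smooth hL hc))

theorem ur_pd_Y (hD : RelOpen D) (hL : L.Ok D) (hc : ContDiffOn ℝ ∞ c D) (p : Fin N × Bool)
    (hx : x ∈ D) (k : Fin n) : pd k (ur_Y L c p k) x =
      ∑ j, (aInt_proj p (pd k (fun y => gg L.g j k y
          • ContinuousLinearMap.adjoint (L.B j y)) x (ur_w L c x))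
        + gg L.g j k x * aInt_proj p (ContinuousLinearMap.adjoint (L.B j x)
          (pd k (ur_w L c) x))) := by
  have h1 : ContDiffOn ℝ ∞ (fun y => ∑ j, gg L.g j k y
      • ContinuousLinearMap.adjoint (L.B j y)) D :=
    ContDiffOn.sum fun j _ => ur_BG_smooth hD hL j k
  have h2 := hD.pd_clm (aInt_proj p) (smooth_eval h1 (ur_w_smooth hL hc)) hx k
  have h3 : pd k (ur_Y L c p k) x = _ := h2
  rw [h3, hD.pd_eval h1 (ur_w_smooth hL hc) (by simp) (by simp) hx k,
    hD.pd_sum Finset.univ (fun j _ => ur_BG_smooth hD hL j k) hx k]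
  rw [map_add, ContinuousLinearMap.sum_apply, ContinuousLinearMap.sum_apply, map_sum, map_sum,
    ← Finset.sum_add_distrib]
  refine Finset.sum_congr rfl fun j _ => ?_
  rw [add_comm]
  congr 1
  rw [ContinuousLinearMap.smul_apply, map_smul, smul_eq_mul]


theorem ur_Qsum (k : Fin n) (p : Fin N × Bool) (v : Fib N) :
    ∑ q, ur_Q L k p q x * aInt_proj q v
      = ∑ j, 2 * gg L.g j k x * aInt_proj p (ContinuousLinearMap.adjoint (L.B j x) v) := by
  unfold ur_Q
  rw [← ur_map, ContinuousLinearMap.sum_apply, map_sum]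
  refine Finset.sum_congr rfl fun j _ => ?_
  rw [ContinuousLinearMap.smul_apply, map_smul, smul_eq_mul]

theorem ur_Rsum (p : Fin N × Bool) (v : Fib N) :
    ∑ q, ur_R L p q x * aInt_proj q v
      = ∑ j, ∑ k, (aInt_proj p (pd k (fun y => gg L.g j k y
            • ContinuousLinearMap.adjoint (L.B j y)) x v)
          - gg L.g j k x * aInt_proj p (ContinuousLinearMap.adjoint (L.B k x)
            (ContinuousLinearMap.adjoint (L.B j x) v))) := by
  unfold ur_R
  rw [← ur_map, ContinuousLinearMap.sum_apply, map_sum]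
  refine Finset.sum_congr rfl fun j _ => ?_
  rw [ContinuousLinearMap.sum_apply, map_sum]
  refine Finset.sum_congr rfl fun k _ => ?_
  rw [ContinuousLinearMap.sub_apply, map_sub, ContinuousLinearMap.smul_apply, map_smul,
    smul_eq_mul]
  rfl

theorem ur_comps (hD : RelOpen D) {u : E n → Fib N} (hu : ContDiffOn ℝ ∞ u D) (hx : x ∈ D)
    (q : Fin N × Bool) (k : Fin n) :
    pd k (fun y => aInt_proj q (u y)) x = aInt_proj q (pd k u x) :=
  hD.pd_clm (aInt_proj q) hu hx k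

/-- The energy density in real components, up to a divergence. -/
theorem ur_main (hD : RelOpen D) (hL : L.Ok D) (hc : ContDiffOn ℝ ∞ c D) {φ : E n → ℝ}
    (hφ : ContDiff ℝ ∞ φ) (p : Fin N × Bool) (hx : x ∈ D) :
    (∑ j, ∑ k, gg L.g j k x * pd j (fun y => aInt_proj p (ur_w L c y)) x * pd k φ x)
      + (∑ k, ∑ q, ur_Q L k p q x * pd k (fun y => aInt_proj q (ur_w L c y)) x) * φ x
      + (∑ q, ur_R L p q x * aInt_proj q (ur_w L c x)) * φ x
      = (ed L c (fun y => φ y • ur_eb p) x).re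
        + ∑ k, (ur_Y L c p k x * pd k φ x + pd k (ur_Y L c p k) x * φ x) := by
  have hw := ur_w_smooth hL hc
  rw [ur_ed hD hL hc hφ p hx, ur_Rsum]
  simp only [ur_comps hD hw hx, ur_Qsum, ur_pd_Y hD hL hc p hx]
  have hY : ∀ k, ur_Y L c p k x = ∑ j, gg L.g j k x * aInt_proj p
      (ContinuousLinearMap.adjoint (L.B j x) (ur_w L c x)) := by
    intro k
    unfold ur_Y
    rw [ContinuousLinearMap.sum_apply, map_sum]
    refine Finset.sum_congr rfl fun j _ => ?_
    rw [ContinuousLinearMap.smul_apply, map_smul, smul_eq_mul]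
  simp only [hY]
  -- rewrite everything as double sums
  have e1 : (∑ k, ∑ j, 2 * gg L.g j k x * aInt_proj p
      (ContinuousLinearMap.adjoint (L.B j x) (pd k (ur_w L c) x))) * φ x
      = ∑ j, ∑ k, (gg L.g j k x * aInt_proj p
        (ContinuousLinearMap.adjoint (L.B j x) (pd k (ur_w L c) x)) * φ x
        + gg L.g j k x * aInt_proj p
        (ContinuousLinearMap.adjoint (L.B k x) (pd j (ur_w L c) x)) * φ x) := by
    simp only [Finset.sum_add_distrib]
    have e2 : ∑ j, ∑ k, gg L.g j k x * aInt_proj p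
        (ContinuousLinearMap.adjoint (L.B k x) (pd j (ur_w L c) x)) * φ x
        = ∑ j, ∑ k, gg L.g j k x * aInt_proj p
        (ContinuousLinearMap.adjoint (L.B j x) (pd k (ur_w L c) x)) * φ x := by
      rw [Finset.sum_comm]
      refine Finset.sum_congr rfl fun j _ => Finset.sum_congr rfl fun k _ => ?_
      rw [eqs_gg_symm hL hx]
    rw [e2, Finset.sum_comm, Finset.sum_mul, ← Finset.sum_add_distrib]
    refine Finset.sum_congr rfl fun j _ => ?_
    rw [Finset.sum_mul, ← Finset.sum_add_distrib]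
    refine Finset.sum_congr rfl fun k _ => ?_
    ring
  rw [e1]
  have e3 : ∑ k, ((∑ j, gg L.g j k x * aInt_proj p
        (ContinuousLinearMap.adjoint (L.B j x) (ur_w L c x))) * pd k φ x
      + (∑ j, (aInt_proj p (pd k (fun y => gg L.g j k y
          • ContinuousLinearMap.adjoint (L.B j y)) x (ur_w L c x))
        + gg L.g j k x * aInt_proj p (ContinuousLinearMap.adjoint (L.B j x)
          (pd k (ur_w L c) x)))) * φ x)
      = ∑ j, ∑ k, (gg L.g j k x * aInt_proj p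
        (ContinuousLinearMap.adjoint (L.B j x) (ur_w L c x)) * pd k φ x
        + (aInt_proj p (pd k (fun y => gg L.g j k y
          • ContinuousLinearMap.adjoint (L.B j y)) x (ur_w L c x))
        + gg L.g j k x * aInt_proj p (ContinuousLinearMap.adjoint (L.B j x)
          (pd k (ur_w L c) x))) * φ x) := by
    rw [Finset.sum_comm]
    refine Finset.sum_congr rfl fun k _ => ?_
    rw [Finset.sum_mul, Finset.sum_mul, ← Finset.sum_add_distrib]
  rw [e3, Finset.sum_mul, ← Finset.sum_add_distrib, ← Finset.sum_add_distrib,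
    ← Finset.sum_add_distrib]
  refine Finset.sum_congr rfl fun j _ => ?_
  rw [Finset.sum_mul, ← Finset.sum_add_distrib, ← Finset.sum_add_distrib,
    ← Finset.sum_add_distrib]
  refine Finset.sum_congr rfl fun k _ => ?_
  simp only [map_sub]
  ring

end

end Vale.Agent.P088.EYM
end
end

section

set_option linter.all false

/-!
# P088-EYM, block A: bounds for `h c` on compact sets
-/

open MeasureTheory Set Filter Topology
open scoped ContDiff

noncomputable section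

namespace Vale.Agent.P088.EYM

variable {n N : ℕ} [NeZero n] {D : Set (E n)} {L : LD n N}

theorem ub_proj_le (p : Fin N × Bool) (v : Fib N) : (aInt_proj p v) ^ 2 ≤ ‖v‖ ^ 2 := by
  rw [aInt_norm_sq]
  exact Finset.single_le_sum (f := fun q => (aInt_proj q v) ^ 2) (fun q _ => sq_nonneg _)
    (Finset.mem_univ p)

theorem ub_one (hD : RelOpen D) (hL : L.Ok D) {K : Set (E n)} (hK : IsCompact K) (hKD : K ⊆ D) :
    ∃ C : ℝ, 0 ≤ C ∧ ∀ c : E n → Fib N, ContDiffOn ℝ ∞ c D → ∀ x ∈ K, ∀ p : Fin N × Bool,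
      (aInt_proj p (ur_w L c x)) ^ 2 + ∑ k, (pd k (fun y => aInt_proj p (ur_w L c y)) x) ^ 2
        ≤ C * (‖c x‖ ^ 2 + ∑ k, ‖pd k c x‖ ^ 2) := by
  have hh : ContinuousOn L.h K := hL.h_smooth.continuousOn.mono hKD
  obtain ⟨M₀, hM₀⟩ := hK.exists_bound_of_continuousOn hh
  have hk : ∀ k : Fin n, ∃ M, ∀ x ∈ K, ‖pd k L.h x‖ ≤ M := fun k =>
    hK.exists_bound_of_continuousOn ((hD.pd_smooth hL.h_smooth k).continuousOn.mono hKD)
  choose M hM using hk
  refine ⟨(1 + 2 * n) * M₀ ^ 2 + 2 * ∑ k, M k ^ 2, by (clear * -; positivity), fun c hc x hx p => ?_⟩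
  have h1 : (aInt_proj p (ur_w L c x)) ^ 2 ≤ M₀ ^ 2 * ‖c x‖ ^ 2 := by
    refine (ub_proj_le _ _).trans ?_
    rw [← mul_pow]
    refine pow_le_pow_left₀ (norm_nonneg _) ?_ 2
    exact ((L.h x).le_opNorm _).trans (mul_le_mul_of_nonneg_right (hM₀ x hx) (norm_nonneg _))
  have h2 : ∀ k, (pd k (fun y => aInt_proj p (ur_w L c y)) x) ^ 2
      ≤ 2 * (M₀ ^ 2 * ‖pd k c x‖ ^ 2) + 2 * (M k ^ 2 * ‖c x‖ ^ 2) := by
    intro k
    rw [ur_comps hD (ur_w_smooth hL hc) (hKD hx)]
    refine (ub_proj_le _ _).trans ?_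
    have e1 : pd k (ur_w L c) x = L.h x (pd k c x) + pd k L.h x (c x) :=
      hD.pd_eval hL.h_smooth hc (by simp) (by simp) (hKD hx) k
    rw [e1]
    have e2 : ‖L.h x (pd k c x)‖ ≤ M₀ * ‖pd k c x‖ :=
      ((L.h x).le_opNorm _).trans (mul_le_mul_of_nonneg_right (hM₀ x hx) (norm_nonneg _))
    have e3 : ‖pd k L.h x (c x)‖ ≤ M k * ‖c x‖ :=
      ((pd k L.h x).le_opNorm _).trans (mul_le_mul_of_nonneg_right (hM k x hx) (norm_nonneg _))
    have e4 : ‖L.h x (pd k c x) + pd k L.h x (c x)‖ ≤ M₀ * ‖pd k c x‖ + M k * ‖c x‖ :=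
      (norm_add_le _ _).trans (add_le_add e2 e3)
    calc ‖L.h x (pd k c x) + pd k L.h x (c x)‖ ^ 2
        ≤ (M₀ * ‖pd k c x‖ + M k * ‖c x‖) ^ 2 := pow_le_pow_left₀ (norm_nonneg _) e4 2
      _ ≤ _ := by nlinarith [sq_nonneg (M₀ * ‖pd k c x‖ - M k * ‖c x‖)]
  have h3 := Finset.sum_le_sum fun k (_ : k ∈ Finset.univ) => h2 k
  rw [Finset.sum_add_distrib, ← Finset.mul_sum, ← Finset.mul_sum, ← Finset.mul_sum,
    ← Finset.sum_mul] at h3
  set S : ℝ := ∑ k, ‖pd k c x‖ ^ 2 with hS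
  set T : ℝ := ∑ k, M k ^ 2 with hT
  have hS0 : 0 ≤ S := Finset.sum_nonneg fun k _ => sq_nonneg _
  have hT0 : 0 ≤ T := Finset.sum_nonneg fun k _ => sq_nonneg _
  have hn : (1 : ℝ) ≤ n := by
    have := NeZero.one_le (n := n)
    exact_mod_cast this
  have hc0 : 0 ≤ ‖c x‖ ^ 2 := sq_nonneg _
  have hM2 : 0 ≤ M₀ ^ 2 := sq_nonneg _
  calc _ ≤ M₀ ^ 2 * ‖c x‖ ^ 2 + (2 * (M₀ ^ 2 * S) + 2 * (T * ‖c x‖ ^ 2)) := add_le_add h1 h3
    _ ≤ _ := by
      nlinarith only [hS0, hT0, mul_nonneg (mul_nonneg (by linarith : (0:ℝ) ≤ n - 1) hM2) hS0, mul_nonneg (mul_nonneg (by linarith : (0:ℝ) ≤ n) hM2) hc0]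

theorem ub_two (hL : L.Ok D) {K : Set (E n)} (hK : IsCompact K) (hKD : K ⊆ D) :
    ∃ C : ℝ, 0 ≤ C ∧ ∀ x ∈ K, ∀ v : Fib N, ‖v‖ ^ 2 ≤ C * ∑ p, (aInt_proj p (L.h x v)) ^ 2 := by
  obtain ⟨C, hC, h⟩ := AHardy_const1 hL hK hKD
  refine ⟨C ^ 2, sq_nonneg _, fun x hx v => ?_⟩
  rw [← aInt_norm_sq]
  have h1 := h x hx v
  have h2 : (inner ℂ v (L.h x v) : ℂ).re ≤ ‖v‖ * ‖L.h x v‖ :=
    (Complex.re_le_norm _).trans (norm_inner_le_norm _ _)
  by_cases hv : ‖v‖ = 0
  · rw [hv, zero_pow two_ne_zero]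
    (clear * -; positivity)
  have hv' : 0 < ‖v‖ := lt_of_le_of_ne (norm_nonneg _) (Ne.symm hv)
  have h3 : ‖v‖ * ‖v‖ ≤ ‖v‖ * (C * ‖L.h x v‖) := by
    calc ‖v‖ * ‖v‖ = ‖v‖ ^ 2 := by ring
      _ ≤ C * (‖v‖ * ‖L.h x v‖) := h1.trans (mul_le_mul_of_nonneg_left h2 hC)
      _ = _ := by ring
  have h4 : ‖v‖ ≤ C * ‖L.h x v‖ := le_of_mul_le_mul_left h3 hv'
  calc ‖v‖ ^ 2 ≤ (C * ‖L.h x v‖) ^ 2 := pow_le_pow_left₀ (norm_nonneg _) h4 2
    _ = _ := by ring

theorem ub_sub (c c' : E n → Fib N) (x : E n) :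
    ur_w L (fun y => c y - c' y) x = ur_w L c x - ur_w L c' x := by
  unfold ur_w
  rw [map_sub]

end Vale.Agent.P088.EYM
end
end
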