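import Vale.Agent.P088.MathlibUsed
import Vale.Agent.P088.Bdl.B1

set_option linter.all false

section

/-!
# P088-EYM: curvature of a connection form with values in a normed ring, pull back and gauge
-/

open Set Filter
open scoped ContDiff Topology

noncomputable section

namespace Vale.Agent.P088.EYM

set_option linter.unusedSectionVars false

variable {n : ℕ} [NeZero n]
variable {𝔸 : Type*} [NormedRing 𝔸] [NormedSpace ℝ 𝔸] [IsScalarTower ℝ 𝔸 𝔸] [SMulCommClass ℝ 𝔸 𝔸]

/-- curvature of the connection form `B` -/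
def curv (B : Fin n → E n → 𝔸) (j k : Fin n) (x : E n) : 𝔸 :=
  pd j (B k) x - pd k (B j) x + B j x * B k x - B k x * B j x

/-- pull back of a one form -/
def pull {V : Type*} [AddCommGroup V] [Module ℝ V] (Y : E n → E n) (B : Fin n → E n → V) (j : Fin n)
    (x : E n) : V := ∑ k, pd j (fun y => Y y k) x • B k (Y x)

/-- gauge transform of a one form -/
def gau (S Si : E n → 𝔸) (B : Fin n → E n → 𝔸) (j : Fin n) (x : E n) : 𝔸 :=
  Si x * (pd j S x + B j x * S x)

theorem RelOpen.pull_smooth {V : Type*} [NormedAddCommGroup V] [NormedSpace ℝ V]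
    {D D' : Set (E n)} (hD : RelOpen D) {Y : E n → E n} (hY : ContDiffOn ℝ ∞ Y D)
    (hm : MapsTo Y D D') {B : Fin n → E n → V} (hB : ∀ k, ContDiffOn ℝ ∞ (B k) D') (j : Fin n) :
    ContDiffOn ℝ ∞ (pull Y B j) D := by
  unfold pull
  exact ContDiffOn.sum fun k _ => (hD.pd_smooth (coord_smooth hY k) j).smul ((hB k).comp hY hm)

theorem RelOpen.curv_smooth {D : Set (E n)} (hD : RelOpen D) {B : Fin n → E n → 𝔸}
    (hB : ∀ k, ContDiffOn ℝ ∞ (B k) D) (j k : Fin n) : ContDiffOn ℝ ∞ (curv B j k) D := by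
  unfold curv
  exact (((hD.pd_smooth (hB k) j).sub (hD.pd_smooth (hB j) k)).add (smooth_mul (hB j) (hB k))).sub
    (smooth_mul (hB k) (hB j))

/-- derivative of the pull back of a one form -/
theorem RelOpen.pd_pull {V : Type*} [NormedAddCommGroup V] [NormedSpace ℝ V]
    {D D' : Set (E n)} (hD : RelOpen D) (hD' : RelOpen D') {Y : E n → E n} (hY : ContDiffOn ℝ ∞ Y D)
    (hm : MapsTo Y D D') {B : Fin n → E n → V} (hB : ∀ k, ContDiffOn ℝ ∞ (B k) D') {x : E n}
    (hx : x ∈ D) (i j : Fin n) :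
    pd i (pull Y B j) x = ∑ k, pd i (pd j (fun y => Y y k)) x • B k (Y x) +
      ∑ k, ∑ l, (pd i (fun y => Y y l) x * pd j (fun y => Y y k) x) • pd l (B k) (Y x) := by
  have h1 : pd i (pull Y B j) x = ∑ k, pd i (fun x => pd j (fun y => Y y k) x • B k (Y x)) x :=
    hD.pd_sum Finset.univ (fun k _ => (hD.pd_smooth (coord_smooth hY k) j).smul ((hB k).comp hY hm)) hx i
  rw [h1, ← Finset.sum_add_distrib]
  refine Finset.sum_congr rfl fun k _ => ?_
  have hBk : ContDiffOn ℝ ∞ (fun x => B k (Y x)) D := (hB k).comp hY hm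
  rw [hD.pd_smul (hD.pd_smooth (coord_smooth hY k) j) hBk hx i,
    hD.pd_comp hD' hY hm (hB k) hx i, add_comm, Finset.smul_sum]
  congr 1
  refine Finset.sum_congr rfl fun l _ => ?_
  rw [smul_smul, mul_comm]

/-- the curvature of the pull back -/
theorem RelOpen.curv_pull {D D' : Set (E n)} (hD : RelOpen D) (hD' : RelOpen D') {Y : E n → E n}
    (hY : ContDiffOn ℝ ∞ Y D) (hm : MapsTo Y D D') {B : Fin n → E n → 𝔸}
    (hB : ∀ k, ContDiffOn ℝ ∞ (B k) D') {x : E n} (hx : x ∈ D) (i j : Fin n) :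
    curv (pull Y B) i j x = ∑ k, ∑ l,
      (pd i (fun y => Y y k) x * pd j (fun y => Y y l) x) • curv B k l (Y x) := by
  unfold curv
  rw [hD.pd_pull hD' hY hm hB hx i j, hD.pd_pull hD' hY hm hB hx j i]
  have h0 : ∀ k, pd i (pd j (fun y => Y y k)) x = pd j (pd i (fun y => Y y k)) x := fun k =>
    hD.pd_comm (coord_smooth hY k) hx i j
  simp only [h0]
  have h1 : ∑ k, ∑ l, (pd i (fun y => Y y l) x * pd j (fun y => Y y k) x) • pd l (B k) (Y x) =
      ∑ k, ∑ l, (pd i (fun y => Y y k) x * pd j (fun y => Y y l) x) • pd k (B l) (Y x) :=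
    Finset.sum_comm
  have h2 : ∑ k, ∑ l, (pd j (fun y => Y y l) x * pd i (fun y => Y y k) x) • pd l (B k) (Y x) =
      ∑ k, ∑ l, (pd i (fun y => Y y k) x * pd j (fun y => Y y l) x) • pd l (B k) (Y x) := by
    refine Finset.sum_congr rfl fun k _ => Finset.sum_congr rfl fun l _ => ?_
    rw [mul_comm]
  have h3 : pull Y B i x * pull Y B j x = ∑ k, ∑ l,
      (pd i (fun y => Y y k) x * pd j (fun y => Y y l) x) • (B k (Y x) * B l (Y x)) := by
    unfold pull
    rw [Finset.sum_mul]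
    refine Finset.sum_congr rfl fun k _ => ?_
    rw [Finset.mul_sum]
    refine Finset.sum_congr rfl fun l _ => ?_
    rw [smul_mul_smul_comm]
  have h4 : pull Y B j x * pull Y B i x = ∑ k, ∑ l,
      (pd i (fun y => Y y k) x * pd j (fun y => Y y l) x) • (B l (Y x) * B k (Y x)) := by
    unfold pull
    rw [Finset.mul_sum]
    refine Finset.sum_congr rfl fun k _ => ?_
    rw [Finset.sum_mul]
    refine Finset.sum_congr rfl fun l _ => ?_
    rw [smul_mul_smul_comm, mul_comm (pd j _ _)]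
  rw [h1, h2, h3, h4]
  simp only [smul_sub, smul_add, Finset.sum_sub_distrib, Finset.sum_add_distrib]
  abel

/-- derivative of the inverse -/
theorem RelOpen.pd_inv {D : Set (E n)} (hD : RelOpen D) {S Si : E n → 𝔸} (hS : ContDiffOn ℝ ∞ S D)
    (hSi : ContDiffOn ℝ ∞ Si D) (h1 : ∀ x ∈ D, S x * Si x = 1) (h2 : ∀ x ∈ D, Si x * S x = 1)
    {x : E n} (hx : x ∈ D) (i : Fin n) : pd i Si x = - (Si x * pd i S x * Si x) := by
  have h3 := hD.pd_mul hSi hS hx i
  have h4 : pd i (fun y => Si y * S y) x = 0 := by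
    rw [hD.pd_congr (g := fun _ => (1 : 𝔸)) (fun y hy => h2 y hy) hx i, pd_const]
  rw [h4] at h3
  have h5 : pd i Si x * S x * Si x = - (Si x * pd i S x * Si x) := by
    have : pd i Si x * S x = - (Si x * pd i S x) := eq_neg_of_add_eq_zero_right h3.symm
    rw [this, neg_mul]
  rw [← h5, mul_assoc, h1 x hx, mul_one]

/-- the curvature of the gauge transform -/
theorem RelOpen.curv_gau {D : Set (E n)} (hD : RelOpen D) {S Si : E n → 𝔸} (hS : ContDiffOn ℝ ∞ S D)
    (hSi : ContDiffOn ℝ ∞ Si D) (h1 : ∀ x ∈ D, S x * Si x = 1) (h2 : ∀ x ∈ D, Si x * S x = 1)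
    {B : Fin n → E n → 𝔸} (hB : ∀ k, ContDiffOn ℝ ∞ (B k) D)
    {x : E n} (hx : x ∈ D) (i j : Fin n) :
    curv (gau S Si B) i j x = Si x * curv B i j x * S x := by
  have hp : ∀ i j, pd i (gau S Si B j) x = Si x * (pd i (pd j S) x + (B j x * pd i S x + pd i (B j) x * S x)) -
      Si x * pd i S x * Si x * (pd j S x + B j x * S x) := by
    intro i j
    unfold gau
    rw [hD.pd_mul hSi ((hD.pd_smooth hS j).add (smooth_mul (hB j) hS)) hx i,
      hD.pd_add (hD.pd_smooth hS j) (smooth_mul (hB j) hS) hx i, hD.pd_mul (hB j) hS hx i,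
      hD.pd_inv hS hSi h1 h2 hx i]
    rw [neg_mul, sub_eq_add_neg]
  unfold curv
  rw [hp i j, hp j i, hD.pd_comm hS hx i j]
  have key : ∀ a b c : 𝔸, Si x * a * S x * (Si x * b) = Si x * a * b := by
    intro a b _
    rw [mul_assoc (Si x * a), ← mul_assoc (S x), h1 x hx, one_mul]
  have e1 : gau S Si B i x * gau S Si B j x =
      Si x * pd i S x * Si x * (pd j S x + B j x * S x) + Si x * B i x * (pd j S x + B j x * S x) := by
    unfold gau
    rw [mul_add (Si x) (pd i S x), add_mul, ← mul_assoc (Si x) (B i x) (S x), key _ _ 0]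
    rw [mul_assoc (Si x * pd i S x)]
  have e2 : gau S Si B j x * gau S Si B i x =
      Si x * pd j S x * Si x * (pd i S x + B i x * S x) + Si x * B j x * (pd i S x + B i x * S x) := by
    unfold gau
    rw [mul_add (Si x) (pd j S x), add_mul, ← mul_assoc (Si x) (B j x) (S x), key _ _ 0]
    rw [mul_assoc (Si x * pd j S x)]
  rw [e1, e2]
  simp only [mul_add, mul_sub, sub_mul, add_mul, mul_assoc]
  abel

end Vale.Agent.P088.EYM
end
end

section

/-!
# P088-EYM, block A: integration by parts on the half space and on half balls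
-/

open MeasureTheory Set Filter Topology
open scoped ContDiff

noncomputable section

namespace Vale.Agent.P088.EYM

set_option linter.unusedSectionVars false

section Div

variable {V : Type*} [NormedAddCommGroup V] [NormedSpace ℝ V]

theorem AGreen_pd_zero {n : ℕ} [NeZero n] {F : E n → V} {x : E n} (k : Fin n)
    (h : F =ᶠ[𝓝[Hs n] x] fun _ => 0) (hx : F x = 0) : pd k F x = 0 := by
  unfold pd
  rw [Filter.EventuallyEq.fderivWithin_eq h hx, fderivWithin_const_apply]
  rfl

theorem AGreen_far {n : ℕ} [NeZero n] {F : E n → V} {R : ℝ}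
    (hR : ∀ x ∈ Hs n, R ≤ ‖x‖ → F x = 0) {x : E n} (hx : x ∈ Hs n) (hRx : R < ‖x‖) (k : Fin n) :
    pd k F x = 0 := by
  refine AGreen_pd_zero k ?_ (hR x hx hRx.le)
  have h1 : ∀ᶠ y in 𝓝 x, R < ‖y‖ := continuous_norm.continuousAt.eventually (lt_mem_nhds hRx)
  filter_upwards [mem_nhdsWithin_of_mem_nhds h1, self_mem_nhdsWithin] with y hy hys
  exact hR y hys (le_of_lt hy)

theorem AGreen_coord_le {n : ℕ} (x : E n) (i : Fin n) : |x i| ≤ ‖x‖ := by
  simpa using PiLp.norm_apply_le x i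

/-- the divergence theorem on the half space, one component at a time -/
theorem AGreen_div_succ [CompleteSpace V] {m : ℕ} (F : E (m + 1) → V)
    (hF : ContDiffOn ℝ 1 F (Hs (m + 1))) {R : ℝ} (hR : ∀ x ∈ Hs (m + 1), R ≤ ‖x‖ → F x = 0)
    (k : Fin (m + 1)) :
    ∫ x in Hs (m + 1), pd k F x =
      if k = 0 then - ∫ y : Fin m → ℝ, F (WithLp.toLp 2 (Fin.cons 0 y : Fin (m + 1) → ℝ)) else 0 := by
  classical
  set ρ : ℝ := max R 0 + 1 with hρ
  have hρR : R < ρ := by have := le_max_left R 0; linarith only [this]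
  have hρ0 : 0 < ρ := by have := le_max_right R 0; linarith
  set a : Fin (m + 1) → ℝ := fun i => if i = 0 then 0 else -ρ with ha
  set b : Fin (m + 1) → ℝ := fun _ => ρ with hb
  have hab : a ≤ b := fun i => by
    simp only [ha, hb]; split_ifs <;> linarith
  set s : Set (E (m + 1)) := {x | WithLp.ofLp x ∈ Icc a b} with hs
  have hsHs : s ⊆ Hs (m + 1) := fun x hx => by
    have := hx.1 0
    simpa only [Hs, mem_ofPred_eq, ge_iff_le, ha, ↓reduceIte] using this
  have hmHs : MeasurableSet (Hs (m + 1)) := isClosed_Hs.measurableSet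
  have hout : ∀ x ∈ Hs (m + 1) \ s, R < ‖x‖ := by
    rintro x ⟨hx, hxs⟩
    by_contra hcon
    push Not at hcon
    apply hxs
    refine ⟨fun i => ?_, fun i => ?_⟩
    · have h1 := AGreen_coord_le x i
      have h2 := neg_le_of_abs_le h1
      by_cases hi : i = 0
      · subst hi
        have hx0 : 0 ≤ x 0 := hx
        simpa only [ha, ↓reduceIte, ge_iff_le] using hx0
      · simp only [ha, if_neg hi]; linarith only [hρR, hcon, h2]
    · have h1 := AGreen_coord_le x i
      have h2 := le_of_abs_le h1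
      simp only [hb]; linarith only [hρR, hcon, h2]
  have h1 : ∫ x in Hs (m + 1), pd k F x = ∫ x in s, pd k F x :=
    setIntegral_eq_of_subset_of_forall_sdiff_eq_zero hmHs hsHs
      (fun x hx => AGreen_far hR hx.1 (hout x hx) k)
  have hemb : MeasurableEmbedding (WithLp.toLp 2 : (Fin (m + 1) → ℝ) → E (m + 1)) :=
    (MeasurableEquiv.toLp 2 (Fin (m + 1) → ℝ)).measurableEmbedding
  have h2 : ∫ x in s, pd k F x = ∫ x in Icc a b, pd k F (WithLp.toLp 2 x) := by
    rw [← (PiLp.volume_preserving_toLp (Fin (m + 1))).setIntegral_preimage_emb hemb (pd k F) s]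
    rfl
  have hc0 : Continuous (WithLp.toLp 2 : (Fin (m + 1) → ℝ) → E (m + 1)) :=
    PiLp.continuous_toLp 2 _
  set T : (Fin (m + 1) → ℝ) →L[ℝ] E (m + 1) :=
    ((PiLp.continuousLinearEquiv 2 ℝ (fun _ : Fin (m + 1) => ℝ)).symm :
      (Fin (m + 1) → ℝ) →L[ℝ] E (m + 1)) with hT
  have hTx : ∀ x, T x = WithLp.toLp 2 x := fun x => rfl
  have hmaps : MapsTo (WithLp.toLp 2 : (Fin (m + 1) → ℝ) → E (m + 1)) (Icc a b) (Hs (m + 1)) :=
    fun x hx => hsHs (show WithLp.ofLp (WithLp.toLp 2 x) ∈ Icc a b from hx)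
  have hcont : ContinuousOn (fun x => F (WithLp.toLp 2 x)) (Icc a b) :=
    hF.continuousOn.comp hc0.continuousOn hmaps
  have hpdc : ContinuousOn (pd k F) (Hs (m + 1)) := by
    have h := hF.continuousOn_fderivWithin uniqueDiffOn_Hs le_rfl
    exact h.clm_apply continuousOn_const
  have hpdc' : ContinuousOn (fun x => pd k F (WithLp.toLp 2 x)) (Icc a b) :=
    hpdc.comp hc0.continuousOn hmaps
  have hdiv := integral_divergence_of_hasFDerivAt_off_countable' a b hab
    (fun i x => if i = k then F (WithLp.toLp 2 x) else 0)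
    (fun i x => if i = k then (fderivWithin ℝ F (Hs (m + 1)) (WithLp.toLp 2 x)).comp T else 0)
    ∅ countable_empty ?_ ?_ ?_
  rotate_left
  · intro i
    by_cases hi : i = k
    · simpa only [if_pos hi] using hcont
    · simpa only [if_neg hi] using continuousOn_const
  · rintro x ⟨hx, -⟩ i
    by_cases hi : i = k
    · simp only [if_pos hi]
      have hx0 : 0 < (WithLp.toLp 2 x : E (m + 1)) 0 := by
        have := (hx 0 (mem_univ _)).1
        simpa [ha] using this
      have hmem : (WithLp.toLp 2 x : E (m + 1)) ∈ Hs (m + 1) := le_of_lt hx0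
      have hnh : Hs (m + 1) ∈ 𝓝 (WithLp.toLp 2 x : E (m + 1)) := by
        have h3 : IsOpen {y : E (m + 1) | 0 < y 0} := isOpen_lt continuous_const (continuous_coord 0)
        exact mem_of_superset (h3.mem_nhds hx0) (fun y hy => le_of_lt (show 0 < y 0 from hy))
      have h4 : HasFDerivAt F (fderivWithin ℝ F (Hs (m + 1)) (WithLp.toLp 2 x)) (WithLp.toLp 2 x) :=
        ((hF.differentiableOn one_ne_zero _ hmem).hasFDerivWithinAt).hasFDerivAt hnh
      exact h4.comp x T.hasFDerivAt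
    · simp only [if_neg hi]
      exact hasFDerivAt_const _ _
  · refine ContinuousOn.integrableOn_compact isCompact_Icc ?_
    refine hpdc'.congr fun x hx => ?_
    rw [Finset.sum_eq_single k]
    · simp only [if_true]
      rfl
    · intro i _ hi
      simp only [if_neg hi]
      rfl
    · simp only [Finset.mem_univ, not_true_eq_false, ↓reduceIte, ContinuousLinearMap.comp_apply, IsEmpty.forall_iff]
  have hL : (∫ x in Icc a b, ∑ i, (if i = k then
      (fderivWithin ℝ F (Hs (m + 1)) (WithLp.toLp 2 x)).comp T else 0) (Pi.single i 1)) =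
      ∫ x in Icc a b, pd k F (WithLp.toLp 2 x) := by
    refine setIntegral_congr_fun measurableSet_Icc fun x hx => ?_
    show ∑ i, _ = _
    rw [Finset.sum_eq_single k]
    · simp only [if_true]
      rfl
    · intro i _ hi
      simp only [if_neg hi]
      rfl
    · simp only [Finset.mem_univ, not_true_eq_false, ↓reduceIte, ContinuousLinearMap.comp_apply, IsEmpty.forall_iff]
  rw [h1, h2, ← hL, hdiv, Finset.sum_eq_single k]
  rotate_left
  · intro i _ hi
    simp only [if_neg hi, integral_zero, sub_zero]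
  · simp only [Finset.mem_univ, not_true_eq_false, ↓reduceIte, IsEmpty.forall_iff]
  simp only [if_true]
  have hbig : ∀ y : E (m + 1), y ∈ Hs (m + 1) → ρ ≤ |y k| → F y = 0 := fun y hy hyk =>
    hR y hy (hρR.le.trans (hyk.trans (AGreen_coord_le y k)))
  have hins : ∀ (t : ℝ) (y : Fin m → ℝ), 0 ≤ t ∨ k ≠ 0 →
      y ∈ Icc (a ∘ k.succAbove) (b ∘ k.succAbove) →
      (WithLp.toLp 2 (k.insertNth t y : Fin (m + 1) → ℝ) : E (m + 1)) ∈ Hs (m + 1) := by
    intro t y ht hy
    show 0 ≤ (k.insertNth t y : Fin (m + 1) → ℝ) 0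
    by_cases hk : k = 0
    · subst hk
      rcases ht with ht | ht
      · simpa only [Fin.insertNth_apply_same] using ht
      · exact absurd rfl ht
    · obtain ⟨j, hj⟩ := Fin.exists_succAbove_eq (Ne.symm hk)
      rw [← hj, Fin.insertNth_apply_succAbove]
      have := hy.1 j
      simpa only [ge_iff_le, ha, Function.comp_apply, hj, ↓reduceIte] using this
  have hfront : ∫ y in Icc (a ∘ k.succAbove) (b ∘ k.succAbove),
      F (WithLp.toLp 2 (k.insertNth (b k) y : Fin (m + 1) → ℝ)) = 0 := by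
    refine setIntegral_eq_zero_of_forall_eq_zero fun y hy => ?_
    refine hbig _ (hins _ y (Or.inl hρ0.le) hy) ?_
    show ρ ≤ |(k.insertNth (b k) y : Fin (m + 1) → ℝ) k|
    rw [Fin.insertNth_apply_same]
    exact le_abs_self _
  rw [hfront, zero_sub]
  by_cases hk : k = 0
  · subst hk
    simp only [if_true]
    congr 1
    have e1 : ∀ y : Fin m → ℝ, (Fin.insertNth (α := fun _ => ℝ) 0 (a 0) y : Fin (m + 1) → ℝ) =
        Fin.cons 0 y := by
      intro y
      rw [show a 0 = 0 by simp [ha], Fin.insertNth_zero']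
    simp only [e1]
    have e2 : ∫ y : Fin m → ℝ, F (WithLp.toLp 2 (Fin.cons 0 y : Fin (m + 1) → ℝ)) =
        ∫ y in Icc (a ∘ (0 : Fin (m + 1)).succAbove) (b ∘ (0 : Fin (m + 1)).succAbove),
          F (WithLp.toLp 2 (Fin.cons 0 y : Fin (m + 1) → ℝ)) := by
      conv_lhs => rw [← setIntegral_univ]
      refine setIntegral_eq_of_subset_of_forall_sdiff_eq_zero MeasurableSet.univ (subset_univ _) ?_
      rintro y ⟨-, hy⟩
      have hyH : (WithLp.toLp 2 (Fin.cons 0 y : Fin (m + 1) → ℝ) : E (m + 1)) ∈ Hs (m + 1) := by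
        show 0 ≤ (Fin.cons 0 y : Fin (m + 1) → ℝ) 0
        simp
      refine hR _ hyH ?_
      by_contra hcon
      push Not at hcon
      apply hy
      have hyi : ∀ i, |y i| < ρ := fun i => by
        have h5 := AGreen_coord_le (WithLp.toLp 2 (Fin.cons 0 y : Fin (m + 1) → ℝ) : E (m + 1)) i.succ
        have h6 : (WithLp.toLp 2 (Fin.cons 0 y : Fin (m + 1) → ℝ) : E (m + 1)) i.succ = y i := by
          show (Fin.cons 0 y : Fin (m + 1) → ℝ) i.succ = y i
          simp
        rw [h6] at h5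
        linarith only [hρR, hcon, h5]
      refine ⟨fun i => ?_, fun i => ?_⟩
      · have h7 := (abs_lt.1 (hyi i)).1
        simp only [Function.comp, ha]
        rw [if_neg (by simp only [Fin.succAbove, not_lt_zero, ↓reduceIte, Fin.succ_ne_zero, not_false_eq_true])]
        linarith only [h7]
      · have h7 := (abs_lt.1 (hyi i)).2
        simp only [Function.comp, hb]
        linarith only [h7]
    exact e2.symm
  · simp only [if_neg hk]
    rw [neg_eq_zero]
    refine setIntegral_eq_zero_of_forall_eq_zero fun y hy => ?_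
    refine hbig _ (hins _ y (Or.inr hk) hy) ?_
    show ρ ≤ |(k.insertNth (a k) y : Fin (m + 1) → ℝ) k|
    rw [Fin.insertNth_apply_same]
    simp only [ha, if_neg hk, abs_neg]
    exact le_abs_self _

/-- the divergence theorem on the half space, one component at a time, without boundary term -/
theorem AGreen_div [CompleteSpace V] {n : ℕ} [NeZero n] (F : E n → V)
    (hF : ContDiffOn ℝ 1 F (Hs n)) {R : ℝ} (hR : ∀ x ∈ Hs n, R ≤ ‖x‖ → F x = 0)
    (k : Fin n) (hk : k ≠ 0 ∨ ∀ x : E n, x 0 = 0 → F x = 0) :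
    ∫ x in Hs n, pd k F x = 0 := by
  obtain ⟨m, rfl⟩ : ∃ m, n = m + 1 := Nat.exists_eq_succ_of_ne_zero (NeZero.ne n)
  have h := AGreen_div_succ F hF hR k
  rcases hk with hk | hk
  · rw [if_neg hk] at h
    exact h
  · by_cases hk0 : k = 0
    · rw [if_pos hk0] at h
      have h2 : ∀ y : Fin m → ℝ, F (WithLp.toLp 2 (Fin.cons 0 y : Fin (m + 1) → ℝ)) = 0 :=
        fun y => hk _ (by
          show (Fin.cons 0 y : Fin (m + 1) → ℝ) 0 = 0
          simp)
      simp only [h2, integral_zero, neg_zero] at h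
      exact h
    · rw [if_neg hk0] at h
      exact h

variable {n : ℕ} [NeZero n]

theorem AGreen_rel_HB (z : E n) (r : ℝ) : RelOpen (HB z r) := ⟨Metric.ball z r, Metric.isOpen_ball, rfl⟩

theorem AGreen_meas_HB (z : E n) (r : ℝ) : MeasurableSet (HB z r) :=
  Metric.isOpen_ball.measurableSet.inter isClosed_Hs.measurableSet

theorem AGreen_far_zero {z : E n} {r r' : ℝ} (hr : r' < r) {f : E n → V}
    (h0 : ∀ x ∈ HB z r, x ∉ Metric.ball z r' → f x = 0) {x : E n} (hx : x ∈ Hs n)
    (hxn : x ∉ HB z r) : (HB z r).indicator f =ᶠ[𝓝[Hs n] x] fun _ => 0 := by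
  have hd : r' < dist x z := by
    by_contra hcon
    push Not at hcon
    exact hxn ⟨Metric.mem_ball.2 (lt_of_le_of_lt hcon hr), hx⟩
  have h1 : ∀ᶠ y in 𝓝 x, r' < dist y z :=
    (continuous_id.dist continuous_const).continuousAt.eventually (lt_mem_nhds hd)
  filter_upwards [mem_nhdsWithin_of_mem_nhds h1] with y hy
  by_cases hyH : y ∈ HB z r
  · rw [indicator_of_mem hyH]
    exact h0 y hyH (fun h => absurd (Metric.mem_ball.1 h) (not_lt.2 (le_of_lt hy)))
  · rw [indicator_of_notMem hyH]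

theorem AGreen_ext {z : E n} {r r' : ℝ} (hr : r' < r) {f : E n → V} {m : WithTop ℕ∞}
    (hf : ContDiffOn ℝ m f (HB z r)) (h0 : ∀ x ∈ HB z r, x ∉ Metric.ball z r' → f x = 0) :
    ContDiffOn ℝ m ((HB z r).indicator f) (Hs n) := by
  intro x hx
  by_cases hxH : x ∈ HB z r
  · refine ((AGreen_rel_HB z r).contDiffWithinAt hxH hf).congr_of_eventuallyEq ?_
      (indicator_of_mem hxH f)
    filter_upwards [(AGreen_rel_HB z r).mem_nhds hxH] with y hy
    exact indicator_of_mem hy f
  · exact (contDiffWithinAt_const (c := (0 : V))).congr_of_eventuallyEq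
      (AGreen_far_zero hr h0 hx hxH) (indicator_of_notMem hxH f)

theorem AGreen_ext_pd {z : E n} {r r' : ℝ} (hr : r' < r) {f : E n → V}
    (h0 : ∀ x ∈ HB z r, x ∉ Metric.ball z r' → f x = 0) (k : Fin n) {x : E n} (hx : x ∈ Hs n) :
    pd k ((HB z r).indicator f) x = (HB z r).indicator (pd k f) x := by
  by_cases hxH : x ∈ HB z r
  · rw [indicator_of_mem hxH]
    exact (AGreen_rel_HB z r).pd_congr (fun y hy => indicator_of_mem hy f) hxH k
  · rw [indicator_of_notMem hxH]
    exact AGreen_pd_zero k (AGreen_far_zero hr h0 hx hxH) (indicator_of_notMem hxH f)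

theorem AGreen_ext_int {z : E n} {r r' : ℝ} (hr : r' < r) {f : E n → V}
    (h0 : ∀ x ∈ HB z r, x ∉ Metric.ball z r' → f x = 0) (k : Fin n) :
    ∫ x in HB z r, pd k f x = ∫ x in Hs n, pd k ((HB z r).indicator f) x := by
  rw [setIntegral_congr_fun (g := (HB z r).indicator (pd k f)) isClosed_Hs.measurableSet
    (fun x hx => AGreen_ext_pd hr h0 k hx), setIntegral_indicator (AGreen_meas_HB z r)]
  congr 2
  exact (inter_eq_right.2 inter_subset_right).symm

theorem AGreen_bound (z : E n) (r : ℝ) {x : E n} (hx : ‖z‖ + |r| + 1 ≤ ‖x‖) : x ∉ HB z r := by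
  rintro ⟨h1, -⟩
  have h2 : dist x z < r := Metric.mem_ball.1 h1
  have h3 : ‖x‖ ≤ dist x z + ‖z‖ := by
    rw [dist_eq_norm]
    calc ‖x‖ = ‖(x - z) + z‖ := by rw [sub_add_cancel]
      _ ≤ ‖x - z‖ + ‖z‖ := norm_add_le _ _
  have h4 := le_abs_self r
  linarith

/-- integration by parts on the half ball: no boundary term -/
theorem AGreen_int [CompleteSpace V] {z : E n} {r r' : ℝ} (hr : r' < r) {f : E n → V}
    (hf : ContDiffOn ℝ 1 f (HB z r)) (h0 : ∀ x ∈ HB z r, x ∉ Metric.ball z r' → f x = 0)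
    (k : Fin n) (hk : k ≠ 0 ∨ ∀ x ∈ HB z r, x 0 = 0 → f x = 0) :
    ∫ x in HB z r, pd k f x = 0 := by
  rw [AGreen_ext_int hr h0 k]
  refine AGreen_div _ (AGreen_ext hr hf h0) (R := ‖z‖ + |r| + 1)
    (fun x _ hx => indicator_of_notMem (AGreen_bound z r hx) f) k ?_
  rcases hk with hk | hk
  · exact Or.inl hk
  · refine Or.inr fun x hx => ?_
    by_cases hxH : x ∈ HB z r
    · rw [indicator_of_mem hxH]
      exact hk x hxH hx
    · exact indicator_of_notMem hxH f

/-- a continuous function on the half ball, vanishing off a smaller one, is integrable -/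
theorem AGreen_integrable {z : E n} {r r' : ℝ} (hr : r' < r) {f : E n → V}
    (hf : ContinuousOn f (HB z r)) (h0 : ∀ x ∈ HB z r, x ∉ Metric.ball z r' → f x = 0) :
    IntegrableOn f (HB z r) := by
  have hK : IsCompact (Metric.closedBall z r' ∩ Hs n) :=
    (isCompact_closedBall z r').inter_right isClosed_Hs
  have hsub : Metric.closedBall z r' ∩ Hs n ⊆ HB z r := fun x hx =>
    ⟨Metric.mem_ball.2 (lt_of_le_of_lt (Metric.mem_closedBall.1 hx.1) hr), hx.2⟩
  refine IntegrableOn.of_forall_sdiff_eq_zero ((hf.mono hsub).integrableOn_compact hK)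
    (AGreen_meas_HB z r) ?_
  rintro x ⟨hx, hxn⟩
  refine h0 x hx fun hb => hxn ⟨Metric.ball_subset_closedBall hb, hx.2⟩

end Div

end Vale.Agent.P088.EYM
end
end

section

/-!
# P088-EYM, block A: equality of the energies with all test sections gives equality of the fluxes
-/

open MeasureTheory Set Filter Topology
open scoped ContDiff

noncomputable section

namespace Vale.Agent.P088.EYM

set_option linter.unusedSectionVars false

variable {n N : ℕ} [NeZero n]

theorem aFlux_relHB (z : E n) (r : ℝ) : RelOpen (HB z r) :=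
  ⟨Metric.ball z r, Metric.isOpen_ball, rfl⟩

theorem aFlux_smooth {D : Set (E n)} (hD : RelOpen D) {L : LD n N} (hL : L.Ok D)
    {c : E n → Fib N} (hc : ContDiffOn ℝ ∞ c D) (j : Fin n) : ContDiffOn ℝ ∞ (flux L j c) D := by
  have h : ContDiffOn ℝ ∞ (fun x => ∑ k, gg L.g j k x • nab L k c x) D :=
    ContDiffOn.sum fun k _ => (hD.gg_smooth hL.g_smooth hL.g_pos j k).smul
      (Jacobi_nab_smooth hD hL hc k)
  exact h

/-- The current `⟨c, h flux_k d⟩`. -/
def aFlux_Y (L : LD n N) (d c : E n → Fib N) (k : Fin n) (x : E n) : ℂ :=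
  inner ℂ (c x) (L.h x (flux L k d x))

theorem aFlux_Y_smooth {D : Set (E n)} (hD : RelOpen D) {L : LD n N} (hL : L.Ok D)
    {c d : E n → Fib N} (hc : ContDiffOn ℝ ∞ c D) (hd : ContDiffOn ℝ ∞ d D) (k : Fin n) :
    ContDiffOn ℝ ∞ (aFlux_Y L d c k) D :=
  dc_smooth_bil dc_bil_inner hc (smooth_eval hL.h_smooth (aFlux_smooth hD hL hd k))

theorem aFlux_inner_comp (B h : EndF N) (u v : Fib N) :
    inner ℂ u ((ContinuousLinearMap.adjoint B * h + h * B) v) =
      inner ℂ (B u) (h v) + inner ℂ u (h (B v)) := by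
  have h1 : (ContinuousLinearMap.adjoint B * h + h * B) v =
      ContinuousLinearMap.adjoint B (h v) + h (B v) := rfl
  rw [h1, inner_add_right, ContinuousLinearMap.adjoint_inner_right]

theorem aFlux_div {D : Set (E n)} (hD : RelOpen D) {L : LD n N} (hL : L.Ok D)
    {c d : E n → Fib N} (hc : ContDiffOn ℝ ∞ c D) (hd : Sol L D d) {x : E n} (hx : x ∈ D) :
    ∑ k, pd k (aFlux_Y L d c k) x = ed L c d x := by
  have h1 : ∀ k, pd k (aFlux_Y L d c k) x = inner ℂ (nab L k c x) (L.h x (flux L k d x)) +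
      inner ℂ (c x) (L.h x (pd k (flux L k d) x + L.B k x (flux L k d x))) := by
    intro k
    have hf := aFlux_smooth hD hL hd.1 k
    have e1 := dc_pd_bil hD dc_bil_inner hc (smooth_eval hL.h_smooth hf) hx k
    have e2 := hD.pd_eval hL.h_smooth hf (by simp) (by simp) hx k
    have e3 : pd k (aFlux_Y L d c k) x = inner ℂ (pd k c x) (L.h x (flux L k d x)) +
      inner ℂ (c x) (pd k (fun y => L.h y (flux L k d y)) x) := e1
    rw [e3, e2, hL.compat x hx k]
    have e4 : inner ℂ (c x) ((ContinuousLinearMap.adjoint (L.B k x) * L.h x +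
        L.h x * L.B k x) (flux L k d x)) = inner ℂ (L.B k x (c x)) (L.h x (flux L k d x)) +
        inner ℂ (c x) (L.h x (L.B k x (flux L k d x))) := aFlux_inner_comp _ _ _ _
    rw [inner_add_right, e4, nab, inner_add_left, map_add, inner_add_right]
    ring
  simp only [h1, Finset.sum_add_distrib]
  have h2 : ∑ k, inner ℂ (c x) (L.h x (pd k (flux L k d) x + L.B k x (flux L k d x))) = 0 := by
    rw [← inner_sum, ← map_sum]
    have : ∑ k, (pd k (flux L k d) x + L.B k x (flux L k d x)) = 0 := hd.2 x hx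
    rw [this, map_zero, inner_zero_right]
  rw [h2, add_zero]
  unfold ed
  refine Finset.sum_congr rfl fun j _ => ?_
  unfold flux
  rw [map_sum, inner_sum]
  refine Finset.sum_congr rfl fun k _ => ?_
  rw [← Complex.coe_smul, map_smul, inner_smul_right]

theorem aFlux_int_zero {f : E n → ℝ} (hf : ContDiff ℝ ∞ f) (hc : HasCompactSupport f) (v : E n) :
    ∫ x, fderiv ℝ f x v = 0 := by
  have h1 : Continuous (fun x => fderiv ℝ f x v) :=
    (hf.continuous_fderiv (by simp)).clm_apply continuous_const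
  have h2 : HasCompactSupport (fun x => fderiv ℝ f x v) := by
    refine (hc.fderiv ℝ).mono ?_
    intro x hx
    rw [Function.mem_support] at hx ⊢
    intro h
    exact hx (by rw [h]; rfl)
  have h3 := integral_mul_fderiv_eq_neg_fderiv_mul_of_integrable (μ := (volume : Measure (E n)))
    (f := fun _ : E n => (1 : ℝ)) (g := f) (v := v) (by simp only [fderiv_fun_const, Pi.zero_apply, zero_apply, zero_mul, integrable_fun_zero])
    (by simpa only [one_mul] using h1.integrable_of_hasCompactSupport h2)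
    (by simpa only [one_mul] using hf.continuous.integrable_of_hasCompactSupport hc)
    (fun x _ => differentiableAt_const _) (fun x _ => hf.differentiable (by simp) x)
  simpa only [one_mul, fderiv_fun_const, Pi.zero_apply, zero_apply, zero_mul, integral_zero, neg_zero] using h3

theorem aFlux_integrable {F : Type*} [NormedAddCommGroup F] {D : Set (E n)} (hD : RelOpen D)
    {f : E n → F} (hf : ContinuousOn f D) {K : Set (E n)} (hK : IsCompact K) (hKD : K ⊆ D) (hf0 : ∀ x ∈ D, x ∉ K → f x = 0) :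
    IntegrableOn f D := by
  have h1 : IntegrableOn f K := (hf.mono hKD).integrableOn_compact hK
  exact h1.of_forall_sdiff_eq_zero (dc_meas hD) fun x hx => hf0 x hx.1 hx.2

/-- Cut off at height `a` and integrate by parts. -/
theorem aFlux_parts {z x₁ : E n} {r ρ a : ℝ} (ha : 0 < a)
    (hρ : Metric.closedBall x₁ ρ ⊆ Metric.ball z r) {W χ : E n → ℝ}
    (hW : ContDiffOn ℝ ∞ W (HB z r)) (hW0 : ∀ x, x ∉ Metric.closedBall x₁ ρ → W x = 0)
    (hχ : ContDiff ℝ ∞ χ) (hχ0 : ∀ x, x 0 < a → χ x = 0) (k : Fin n) :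
    ∫ x in HB z r, (χ x * pd k W x + fderiv ℝ χ x (ev k) * W x) = 0 := by
  have hopen : IsOpen {x : E n | x 0 < a} := isOpen_lt (continuous_coord 0) continuous_const
  have hχn : ∀ x : E n, x 0 < a → χ =ᶠ[𝓝 x] fun _ => 0 := fun x hx =>
    Filter.eventuallyEq_of_mem (hopen.mem_nhds hx) fun y hy => hχ0 y hy
  have hWn : ∀ x : E n, x ∉ Metric.closedBall x₁ ρ → W =ᶠ[𝓝 x] fun _ => 0 := fun x hx =>
    Filter.eventuallyEq_of_mem (Metric.isClosed_closedBall.isOpen_compl.mem_nhds hx)
      fun y hy => hW0 y hy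
  have hDn : ∀ x : E n, x ∈ Metric.closedBall x₁ ρ → 0 < x 0 → HB z r ∈ 𝓝 x := by
    intro x hx h0
    refine Filter.inter_mem (Metric.isOpen_ball.mem_nhds (hρ hx)) ?_
    exact mem_of_superset (isOpen_interior.mem_nhds (open_pos_subset h0)) interior_subset
  have hs : ContDiff ℝ ∞ (fun x => χ x * W x) := by
    rw [contDiff_iff_contDiffAt]
    intro x
    by_cases hx : x ∈ Metric.closedBall x₁ ρ
    · by_cases h0 : x 0 < a
      · refine (contDiffAt_const (c := (0 : ℝ))).congr_of_eventuallyEq ?_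
        filter_upwards [hχn x h0] with y hy
        rw [hy, zero_mul]
      · exact hχ.contDiffAt.mul (hW.contDiffAt (hDn x hx (by linarith)))
    · refine (contDiffAt_const (c := (0 : ℝ))).congr_of_eventuallyEq ?_
      filter_upwards [hWn x hx] with y hy
      rw [hy, mul_zero]
  have hcs : HasCompactSupport (fun x => χ x * W x) := by
    refine HasCompactSupport.intro (isCompact_closedBall x₁ ρ) fun x hx => ?_
    rw [hW0 x hx, mul_zero]
  have key := aFlux_int_zero hs hcs (ev k)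
  have hm : MeasurableSet (HB z r) := dc_meas (aFlux_relHB z r)
  rw [← integral_indicator hm]
  rw [← key]
  congr 1
  funext x
  by_cases hx : x ∈ Metric.closedBall x₁ ρ
  · by_cases h0 : x 0 < a
    · have e1 : fderiv ℝ (fun x => χ x * W x) x = 0 := by
        have : (fun x => χ x * W x) =ᶠ[𝓝 x] fun _ => (0 : ℝ) := by
          filter_upwards [hχn x h0] with y hy
          rw [hy, zero_mul]
        rw [this.fderiv_eq]
        simp
      have e2 : fderiv ℝ χ x = 0 := by
        rw [(hχn x h0).fderiv_eq]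
        simp
      rw [e1]
      by_cases hxD : x ∈ HB z r
      · rw [indicator_of_mem hxD, e2, hχ0 x h0]
        simp
      · rw [indicator_of_notMem hxD]
        simp
    · have h0' : 0 < x 0 := by linarith
      have hn := hDn x hx h0'
      have hxD : x ∈ HB z r := mem_of_mem_nhds hn
      rw [indicator_of_mem hxD]
      have d1 : DifferentiableAt ℝ W x := (hW.contDiffAt hn).differentiableAt (by simp)
      have d2 : DifferentiableAt ℝ χ x := hχ.differentiable (by simp) x
      have e1 : pd k W x = fderiv ℝ W x (ev k) := by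
        unfold pd
        rw [fderivWithin_of_mem_nhds (mem_of_superset hn inter_subset_right)]
      rw [e1]
      have e2 := fderiv_fun_mul d2 d1
      rw [e2]
      simp only [add_apply, smul_apply, smul_eq_mul]
      ring
  · have e1 : fderiv ℝ (fun x => χ x * W x) x = 0 := by
      have : (fun x => χ x * W x) =ᶠ[𝓝 x] fun _ => (0 : ℝ) := by
        filter_upwards [hWn x hx] with y hy
        rw [hy, mul_zero]
      rw [this.fderiv_eq]
      simp only [fderiv_fun_const, Pi.zero_apply]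
    rw [e1]
    by_cases hxD : x ∈ HB z r
    · have e2 : pd k W x = 0 := by
        have h1 : W =ᶠ[𝓝[Hs n] x] (fun _ => (0 : ℝ)) := (hWn x hx).filter_mono nhdsWithin_le_nhds
        unfold pd
        rw [h1.fderivWithin_eq ((hWn x hx).self_of_nhds)]
        simp only [fderivWithin_fun_const, Pi.zero_apply, zero_apply]
      rw [indicator_of_mem hxD, e2, hW0 x hx]
      simp
    · rw [indicator_of_notMem hxD]
      simp

/-- The cut off function. -/
def aFlux_chi (m : ℕ) (x : E n) : ℝ := Real.smoothTransition ((m : ℝ) * x 0 - 1)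

theorem aFlux_chi_smooth (m : ℕ) : ContDiff ℝ ∞ (aFlux_chi (n := n) m) := by
  unfold aFlux_chi
  refine Real.smoothTransition.contDiff.comp ?_
  refine (contDiff_const.mul ?_).sub contDiff_const
  exact (EuclideanSpace.proj (𝕜 := ℝ) (0 : Fin n)).contDiff

theorem aFlux_chi_zero {m : ℕ} (hm : 0 < m) {x : E n} (hx : x 0 < 1 / (m : ℝ)) :
    aFlux_chi m x = 0 := by
  have hm' : (0 : ℝ) < m := by exact_mod_cast hm
  rw [lt_div_iff₀ hm'] at hx
  exact Real.smoothTransition.zero_of_nonpos (by (clear hm hm'; linarith))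

theorem aFlux_chi_fderiv (m : ℕ) (x : E n) (k : Fin n) :
    fderiv ℝ (aFlux_chi m) x (ev k) =
      deriv Real.smoothTransition ((m : ℝ) * x 0 - 1) * ((m : ℝ) * if k = 0 then 1 else 0) := by
  have h1 : HasDerivAt Real.smoothTransition (deriv Real.smoothTransition ((m : ℝ) * x 0 - 1))
      ((m : ℝ) * x 0 - 1) :=
    (Real.smoothTransition.contDiff (n := 1)).differentiable (by simp) _ |>.hasDerivAt
  have h2 : HasFDerivAt (fun y : E n => (m : ℝ) * y 0 - 1)
      ((m : ℝ) • (EuclideanSpace.proj (𝕜 := ℝ) (0 : Fin n) : E n →L[ℝ] ℝ)) x :=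
    ((EuclideanSpace.proj (𝕜 := ℝ) (0 : Fin n) : E n →L[ℝ] ℝ).hasFDerivAt.const_mul (m : ℝ)).sub_const 1
  have h3 := h1.comp_hasFDerivAt x h2
  have h4 : HasFDerivAt (aFlux_chi (n := n) m) _ x := h3
  rw [h4.fderiv]
  simp [eq_comm]

theorem aFlux_chi_mono {m m' : ℕ} (h : m ≤ m') {x : E n} (hx : 0 ≤ x 0) :
    aFlux_chi m x ≤ aFlux_chi m' x := by
  refine Real.smoothTransition.monotone ?_
  have : (m : ℝ) ≤ m' := by exact_mod_cast h
  nlinarith

theorem aFlux_chi_nonneg (m : ℕ) (x : E n) : 0 ≤ aFlux_chi m x := Real.smoothTransition.nonneg _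

theorem aFlux_chi_le_one (m : ℕ) (x : E n) : aFlux_chi m x ≤ 1 := Real.smoothTransition.le_one _

theorem aFlux_plane : volume {x : E n | x 0 = 0} = 0 := by
  have h := Measure.addHaar_submodule (volume : Measure (E n))
    (LinearMap.ker ((EuclideanSpace.proj (𝕜 := ℝ) (0 : Fin n) : E n →L[ℝ] ℝ) : E n →ₗ[ℝ] ℝ)) (by
      intro h
      have h1 : (ev 0 : E n) ∈ LinearMap.ker
        ((EuclideanSpace.proj (𝕜 := ℝ) (0 : Fin n) : E n →L[ℝ] ℝ) : E n →ₗ[ℝ] ℝ) := by
        rw [h]; trivial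
      simp only [LinearMap.mem_ker, ContinuousLinearMap.coe_coe, PiLp.proj_apply, PiLp.single_eq_same, one_ne_zero] at h1)
  have e : {x : E n | x 0 = 0} = ((LinearMap.ker
      ((EuclideanSpace.proj (𝕜 := ℝ) (0 : Fin n) : E n →L[ℝ] ℝ) : E n →ₗ[ℝ] ℝ) : Submodule ℝ (E n)) : Set (E n)) := by
    ext x
    simp
  rw [e]
  exact h

/-- the bump function -/
def aFlux_eta (x₁ : E n) (ρ : ℝ) (x : E n) : ℝ := expNegInvGlue (ρ ^ 2 - ‖x - x₁‖ ^ 2)

theorem aFlux_eta_smooth (x₁ : E n) (ρ : ℝ) : ContDiff ℝ ∞ (aFlux_eta x₁ ρ) := by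
  unfold aFlux_eta
  refine expNegInvGlue.contDiff.comp ?_
  exact contDiff_const.sub ((contDiff_id.sub contDiff_const).norm_sq ℝ)

theorem aFlux_eta_zero {x₁ : E n} {ρ : ℝ} (hρ : 0 < ρ) {x : E n} (hx : x ∉ Metric.closedBall x₁ ρ) :
    aFlux_eta x₁ ρ x = 0 := by
  rw [Metric.mem_closedBall, dist_eq_norm, not_le] at hx
  refine expNegInvGlue.zero_of_nonpos ?_
  nlinarith [norm_nonneg (x - x₁)]

theorem aFlux_eta_nonneg (x₁ : E n) (ρ : ℝ) (x : E n) : 0 ≤ aFlux_eta x₁ ρ x :=
  expNegInvGlue.nonneg _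

theorem aFlux_eta_cs {x₁ : E n} {ρ : ℝ} (hρ : 0 < ρ) : HasCompactSupport (aFlux_eta x₁ ρ) :=
  HasCompactSupport.intro (isCompact_closedBall x₁ ρ) fun _ hx => aFlux_eta_zero hρ hx

theorem aFlux_glue_deriv (s : ℝ) : HasDerivAt expNegInvGlue ((s⁻¹) ^ 2 * expNegInvGlue s) s := by
  have h := expNegInvGlue.hasDerivAt_polynomial_eval_inv_mul 1 s
  simpa only [inv_pow, Polynomial.eval_one, one_mul, Polynomial.derivative_one, sub_zero, mul_one,     Polynomial.eval_pow, Polynomial.eval_X] using h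

theorem aFlux_eta_fderiv (x₁ : E n) (ρ : ℝ) (x v : E n) :
    fderiv ℝ (aFlux_eta x₁ ρ) x v =
      -(((ρ ^ 2 - ‖x - x₁‖ ^ 2)⁻¹) ^ 2 * expNegInvGlue (ρ ^ 2 - ‖x - x₁‖ ^ 2)) *
        (2 * inner ℝ (x - x₁) v) := by
  have h1 := aFlux_glue_deriv (ρ ^ 2 - ‖x - x₁‖ ^ 2)
  have h2 : HasFDerivAt (fun y : E n => ‖y - x₁‖ ^ 2) (2 • (innerSL ℝ (x - x₁)).comp
      (ContinuousLinearMap.id ℝ (E n))) x :=
    ((hasFDerivAt_id x).sub_const x₁).norm_sq
  have h3 := h1.comp_hasFDerivAt x (h2.const_sub (ρ ^ 2))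
  have h4 : HasFDerivAt (aFlux_eta x₁ ρ) _ x := h3
  rw [h4.fderiv]
  simp only [smul_apply, neg_apply, ContinuousLinearMap.comp_apply, ContinuousLinearMap.id_apply,
    innerSL_apply_apply, smul_eq_mul, nsmul_eq_mul, Nat.cast_ofNat]
  ring

theorem aFlux_lower {x₁ : E n} {ρ : ℝ} (hρ : 0 < ρ) (h0 : x₁ 0 = 0) :
    ∃ κ > 0, ∃ M : ℕ, 0 < M ∧ ∀ m ≥ M,
      κ ≤ ∫ x, fderiv ℝ (aFlux_chi m) x (ev 0) * aFlux_eta x₁ ρ x := by
  obtain ⟨M, hM⟩ := exists_nat_gt (2 / ρ)
  have hM0 : 0 < M := by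
    have : (0 : ℝ) < M := lt_trans (by (clear * - hρ; positivity)) hM
    exact_mod_cast this
  have hη := aFlux_eta_smooth x₁ ρ
  have hηd : Continuous (fun x => fderiv ℝ (aFlux_eta x₁ ρ) x (ev 0)) :=
    (hη.continuous_fderiv (by simp)).clm_apply continuous_const
  have hηc := aFlux_eta_cs (x₁ := x₁) hρ
  have hηdc : HasCompactSupport (fun x => fderiv ℝ (aFlux_eta x₁ ρ) x (ev 0)) := by
    refine (hηc.fderiv ℝ).mono ?_
    intro x hx
    rw [Function.mem_support] at hx ⊢
    intro h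
    exact hx (by rw [h]; rfl)
  have hχc : ∀ m, Continuous (aFlux_chi (n := n) m) := fun m => (aFlux_chi_smooth m).continuous
  have hform : ∀ x : E n, -fderiv ℝ (aFlux_eta x₁ ρ) x (ev 0) =
      (((ρ ^ 2 - ‖x - x₁‖ ^ 2)⁻¹) ^ 2 * expNegInvGlue (ρ ^ 2 - ‖x - x₁‖ ^ 2)) * (2 * x 0) := by
    intro x
    rw [aFlux_eta_fderiv]
    have : inner ℝ (x - x₁) (ev 0) = x 0 := by
      simp only [ev, EuclideanSpace.inner_single_right, PiLp.sub_apply, h0, sub_zero, Real.ringHom_apply, one_mul]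
    rw [this]
    ring
  have hnn : ∀ x : E n, 0 ≤ x 0 → 0 ≤ -fderiv ℝ (aFlux_eta x₁ ρ) x (ev 0) := by
    intro x hx
    rw [hform]
    have := expNegInvGlue.nonneg (ρ ^ 2 - ‖x - x₁‖ ^ 2)
    (clear hρ h0 M hM hM0 hη hηd hηc hηdc hχc hform; positivity)
  have hle : ∀ m ≥ M, ∀ x, aFlux_chi M x * -fderiv ℝ (aFlux_eta x₁ ρ) x (ev 0) ≤
      aFlux_chi m x * -fderiv ℝ (aFlux_eta x₁ ρ) x (ev 0) := by
    intro m hm x
    by_cases hx : 0 ≤ x 0
    · exact mul_le_mul_of_nonneg_right (aFlux_chi_mono hm hx) (hnn x hx)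
    · have h1 : ∀ k : ℕ, 0 < k → aFlux_chi k x = 0 := fun k hk =>
        aFlux_chi_zero hk (lt_of_lt_of_le (not_le.1 hx) (by (clear x₁ ρ hρ h0 M hM hM0 hη hηd hηc hηdc hχc hform hnn m hm x hx; positivity)))
      rw [h1 M hM0, h1 m (hM0.trans_le hm)]
  have hcont : ∀ m, Continuous (fun x => aFlux_chi m x * -fderiv ℝ (aFlux_eta x₁ ρ) x (ev 0)) :=
    fun m => (hχc m).mul hηd.neg
  have hcs : ∀ m, HasCompactSupport (fun x => aFlux_chi m x * -fderiv ℝ (aFlux_eta x₁ ρ) x (ev 0)) := by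
    intro m
    refine hηdc.mono ?_
    intro x hx
    rw [Function.mem_support] at hx ⊢
    intro h
    exact hx (by rw [h]; simp only [neg_zero, mul_zero])
  have hint : ∀ m, Integrable (fun x => aFlux_chi m x * -fderiv ℝ (aFlux_eta x₁ ρ) x (ev 0)) :=
    fun m => (hcont m).integrable_of_hasCompactSupport (hcs m)
  refine ⟨∫ x, aFlux_chi M x * -fderiv ℝ (aFlux_eta x₁ ρ) x (ev 0), ?_, M, hM0, ?_⟩
  · refine (hcont M).integral_pos_of_hasCompactSupport_nonneg_nonzero
      (x := x₁ + (ρ / 2) • ev 0) (hcs M) ?_ ?_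
    · intro x
      show 0 ≤ aFlux_chi M x * -fderiv ℝ (aFlux_eta x₁ ρ) x (ev 0)
      by_cases hx : 0 ≤ x 0
      · exact mul_nonneg (aFlux_chi_nonneg _ _) (hnn x hx)
      · rw [aFlux_chi_zero hM0 (lt_of_lt_of_le (not_le.1 hx) (by (clear x₁ h0 hη hηd hηc hηdc hχc hform hnn hle hcont hcs hint x hx; positivity))), zero_mul]
    · rw [hform]
      have hx0 : (x₁ + (ρ / 2) • ev 0 : E n) 0 = ρ / 2 := by
        simp [h0]
      have hnorm : ‖(x₁ + (ρ / 2) • ev 0 : E n) - x₁‖ ^ 2 = ρ ^ 2 / 4 := by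
        rw [add_sub_cancel_left, norm_smul]
        simp only [norm_div, Real.norm_eq_abs, abs_of_pos hρ, Real.norm_ofNat, PiLp.norm_single, norm_one, mul_one]
        ring
      rw [hnorm, hx0]
      have h1 : 0 < aFlux_chi M (x₁ + (ρ / 2) • ev 0 : E n) := by
        refine Real.smoothTransition.pos_of_pos ?_
        rw [hx0]
        rw [div_lt_iff₀ hρ] at hM
        (clear x₁ hρ h0 hM0 hη hηd hηc hηdc hχc hform hnn hle hcont hcs hint hx0 hnorm; linarith)
      have h2 : 0 < ρ ^ 2 - ρ ^ 2 / 4 := by nlinarith only [hρ]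
      have h3 := expNegInvGlue.pos_of_pos h2
      (clear hM0 hη hηd hηc hηdc hχc hform hnn hle hcont hcs hint hnorm; positivity)
  · intro m hm
    have hparts := integral_mul_fderiv_eq_neg_fderiv_mul_of_integrable
      (μ := (volume : Measure (E n))) (f := aFlux_chi (n := n) m) (g := aFlux_eta x₁ ρ) (v := ev 0)
      ?_ ?_ ?_ (fun x _ => (aFlux_chi_smooth m).differentiable (by simp) x)
      (fun x _ => hη.differentiable (by simp) x)
    · have h1 : ∫ x, fderiv ℝ (aFlux_chi m) x (ev 0) * aFlux_eta x₁ ρ x =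
          ∫ x, aFlux_chi m x * -fderiv ℝ (aFlux_eta x₁ ρ) x (ev 0) := by
        rw [← neg_inj, ← hparts, ← integral_neg]
        congr 1
        funext x
        ring
      rw [h1]
      exact integral_mono (hint M) (hint m) (hle m hm)
    · refine Continuous.integrable_of_hasCompactSupport
        ((((aFlux_chi_smooth m).continuous_fderiv (by simp)).clm_apply continuous_const).mul
          hη.continuous) ?_
      exact hηc.mul_left
    · exact ((hχc m).mul hηd).integrable_of_hasCompactSupport hηdc.mul_left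
    · exact ((hχc m).mul hη.continuous).integrable_of_hasCompactSupport hηc.mul_left

theorem aFlux_lim {D : Set (E n)} (hD : RelOpen D) {S : E n → ℝ} (hS : IntegrableOn S D) :
    Tendsto (fun m : ℕ => ∫ x in D, aFlux_chi m x * S x) atTop (𝓝 (∫ x in D, S x)) := by
  refine tendsto_integral_of_dominated_convergence (fun x => ‖S x‖) ?_ hS.norm ?_ ?_
  · intro m
    exact (aFlux_chi_smooth m).continuous.aestronglyMeasurable.mul hS.aestronglyMeasurable
  · intro m
    refine Eventually.of_forall fun x => ?_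
    rw [norm_mul, Real.norm_of_nonneg (aFlux_chi_nonneg m x)]
    exact mul_le_of_le_one_left (norm_nonneg _) (aFlux_chi_le_one m x)
  · rw [ae_restrict_iff' (dc_meas hD)]
    have h0 : ∀ᵐ x : E n, x 0 ≠ 0 := by
      rw [ae_iff]
      simpa only [ne_eq, Decidable.not_not] using aFlux_plane (n := n)
    filter_upwards [h0] with x hx hxD
    have hx' : 0 < x 0 := lt_of_le_of_ne (hD.subset hxD) (Ne.symm hx)
    refine tendsto_const_nhds.congr' ?_
    obtain ⟨M, hM⟩ := exists_nat_gt (2 / x 0)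
    filter_upwards [eventually_ge_atTop M] with m hm
    have h1 : aFlux_chi m x = 1 := by
      refine Real.smoothTransition.one_of_one_le ?_
      rw [div_lt_iff₀ hx'] at hM
      have : (M : ℝ) ≤ m := by exact_mod_cast hm
      nlinarith
    rw [h1, one_mul]

theorem aFlux : AFlux_statement := by
  intro n N _ L₁ L₂ z r hr hz hL₁ hL₂ hh d₁ d₂ hd₁ hd₂ hE x₁ hx₁ hx₁0
  have hD := aFlux_relHB z r
  have hm : MeasurableSet (HB z r) := dc_meas hD
  let Z : E n → Fib N := fun x => L₁.h x (flux L₁ 0 d₁ x) - L₂.h x (flux L₂ 0 d₂ x)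
  have hZs : ContDiffOn ℝ ∞ Z (HB z r) :=
    (smooth_eval hL₁.h_smooth (aFlux_smooth hD hL₁ hd₁.1 0)).sub
      (smooth_eval hL₂.h_smooth (aFlux_smooth hD hL₂ hd₂.1 0))
  have hmain : Z x₁ = 0 := by
    by_contra he
    obtain ⟨e, hee⟩ : ∃ e, e = Z x₁ := ⟨_, rfl⟩
    have he0 : 0 < ‖e‖ ^ 2 := by
      have : 0 < ‖e‖ := norm_pos_iff.2 (by rw [hee]; exact he)
      (clear * - this; positivity)
    have hG : ContinuousWithinAt (fun x => (inner ℂ e (Z x) : ℂ).re) (HB z r) x₁ :=
      Complex.continuous_re.continuousAt.comp_continuousWithinAt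
        (continuousWithinAt_const.inner (𝕜 := ℂ) (hZs.continuousOn x₁ hx₁))
    have hG1 : (inner ℂ e (Z x₁) : ℂ).re = ‖e‖ ^ 2 := by
      rw [← hee, inner_self_eq_norm_sq_to_K]
      norm_cast
    obtain ⟨ρ, hρ0, hρ1, hρ2⟩ : ∃ ρ > 0, Metric.closedBall x₁ ρ ⊆ Metric.ball z r ∧
        ∀ x ∈ Metric.closedBall x₁ ρ ∩ Hs n, ‖e‖ ^ 2 / 2 ≤ (inner ℂ e (Z x) : ℂ).re := by
      have h1 : ∀ᶠ x in 𝓝[HB z r] x₁, ‖e‖ ^ 2 / 2 < (inner ℂ e (Z x) : ℂ).re := by
        refine hG.eventually (lt_mem_nhds ?_)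
        show ‖e‖ ^ 2 / 2 < (inner ℂ e (Z x₁) : ℂ).re
        rw [hG1]; linarith only [he0]
      rw [hD.nhdsWithin hx₁] at h1
      have h2 : ∀ᶠ x in 𝓝 x₁, x ∈ Metric.ball z r := Metric.isOpen_ball.mem_nhds hx₁.1
      rw [eventually_nhdsWithin_iff] at h1
      obtain ⟨ε, hε, h3⟩ := Metric.eventually_nhds_iff_ball.1 (h1.and h2)
      refine ⟨ε / 2, by (clear * - hε; positivity), fun x hx => (h3 x ?_).2, fun x hx => ((h3 x ?_).1 hx.2).le⟩
      · exact Metric.closedBall_subset_ball (by linarith only [hε]) hx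
      · exact Metric.closedBall_subset_ball (by linarith only [hε]) hx.1
    let c : E n → Fib N := fun x => aFlux_eta x₁ ρ x • e
    have hc0 : ∀ x, x ∉ Metric.closedBall x₁ ρ → c x = 0 := fun x hx => by
      show aFlux_eta x₁ ρ x • e = 0
      rw [aFlux_eta_zero hρ0 hx, zero_smul]
    have hcs : ContDiff ℝ ∞ c := (aFlux_eta_smooth x₁ ρ).smul contDiff_const
    have hT : Tst0 (Metric.ball z r) c := by
      refine ⟨hcs, HasCompactSupport.intro (isCompact_closedBall x₁ ρ) hc0, ?_⟩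
      refine (closure_minimal ?_ Metric.isClosed_closedBall).trans hρ1
      intro x hx
      by_contra h
      exact hx (hc0 x h)
    have hEc := hE c hT
    have hcD : ContDiffOn ℝ ∞ c (HB z r) := hcs.contDiffOn
    have hY₁ := fun k => aFlux_Y_smooth hD hL₁ hcD hd₁.1 k
    have hY₂ := fun k => aFlux_Y_smooth hD hL₂ hcD hd₂.1 k
    let W : Fin n → E n → ℝ := fun k x => (aFlux_Y L₁ d₁ c k x - aFlux_Y L₂ d₂ c k x).re
    have hWs : ∀ k, ContDiffOn ℝ ∞ (W k) (HB z r) := fun k =>
      dc_smooth_clm Complex.reCLM ((hY₁ k).sub (hY₂ k))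
    have hW0 : ∀ k x, x ∉ Metric.closedBall x₁ ρ → W k x = 0 := by
      intro k x hx
      show (aFlux_Y L₁ d₁ c k x - aFlux_Y L₂ d₂ c k x).re = 0
      unfold aFlux_Y
      rw [hc0 x hx]
      simp
    have hK : IsCompact (Metric.closedBall x₁ ρ ∩ Hs n) :=
      (isCompact_closedBall x₁ ρ).inter_right isClosed_Hs
    have hKD : Metric.closedBall x₁ ρ ∩ Hs n ⊆ HB z r := inter_subset_inter_left _ hρ1
    have hout : ∀ x ∈ HB z r, x ∉ Metric.closedBall x₁ ρ ∩ Hs n → x ∉ Metric.closedBall x₁ ρ :=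
      fun x hx h h' => h ⟨h', hx.2⟩
    have hpd0 : ∀ {F : Type} [NormedAddCommGroup F] [NormedSpace ℝ F] (f : E n → F) (k : Fin n),
        (∀ x, x ∉ Metric.closedBall x₁ ρ → f x = 0) → ∀ x ∈ HB z r,
        x ∉ Metric.closedBall x₁ ρ ∩ Hs n → pd k f x = 0 := fun f k hf x hx h =>
      dc_pd_supp Metric.isClosed_closedBall (fun y _ hy => hf y hy) k x hx.2 (hout x hx h)
    have hY0 : ∀ (L : LD n N) (d : E n → Fib N) k x, x ∉ Metric.closedBall x₁ ρ →
        aFlux_Y L d c k x = 0 := by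
      intro L d k x hx
      unfold aFlux_Y
      rw [hc0 x hx, inner_zero_left]
    -- integrability of the energy densities
    have hedI : ∀ (L : LD n N) (d : E n → Fib N), L.Ok (HB z r) → Sol L (HB z r) d →
        IntegrableOn (ed L c d) (HB z r) := by
      intro L d hL hd
      have h1 : IntegrableOn (fun x => ∑ k, pd k (aFlux_Y L d c k) x) (HB z r) := by
        refine aFlux_integrable hD ?_ hK hKD ?_
        · exact (dc_smooth_sum (D := HB z r) Finset.univ fun k _ =>
            hD.pd_smooth (aFlux_Y_smooth hD hL hcD hd.1 k) k).continuousOn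
        · intro x hx h
          exact Finset.sum_eq_zero fun k _ => hpd0 _ k (hY0 L d k) x hx h
      exact h1.congr_fun (fun x hx => aFlux_div hD hL hcD hd hx) hm
    have hS : ∀ x ∈ HB z r, ∑ k, pd k (W k) x = (ed L₁ c d₁ x - ed L₂ c d₂ x).re := by
      intro x hx
      rw [← aFlux_div hD hL₁ hcD hd₁ hx, ← aFlux_div hD hL₂ hcD hd₂ hx, ← Finset.sum_sub_distrib,
        Complex.re_sum]
      refine Finset.sum_congr rfl fun k _ => ?_
      have h1 := hD.pd_clm Complex.reCLM ((hY₁ k).sub (hY₂ k)) hx k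
      have h2 := hD.pd_sub (hY₁ k) (hY₂ k) hx k
      rw [← h2]
      exact h1
    have hWpI : ∀ k, IntegrableOn (pd k (W k)) (HB z r) := fun k =>
      aFlux_integrable hD (hD.pd_smooth (hWs k) k).continuousOn hK hKD (hpd0 _ k (hW0 k))
    have hSI : IntegrableOn (fun x => ∑ k, pd k (W k) x) (HB z r) :=
      integrable_finsetSum _ fun k _ => hWpI k
    have hS0 : ∫ x in HB z r, ∑ k, pd k (W k) x = 0 := by
      rw [setIntegral_congr_fun hm hS]
      have h1 := Complex.reCLM.integral_comp_comm ((hedI L₁ d₁ hL₁ hd₁).sub (hedI L₂ d₂ hL₂ hd₂))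
      have h2 : ∫ x in HB z r, (ed L₁ c d₁ x - ed L₂ c d₂ x).re =
          (∫ x in HB z r, (ed L₁ c d₁ x - ed L₂ c d₂ x)).re := h1
      rw [h2, integral_sub (hedI L₁ d₁ hL₁ hd₁) (hedI L₂ d₂ hL₂ hd₂)]
      have h3 : (∫ x in HB z r, ed L₁ c d₁ x) = ∫ x in HB z r, ed L₂ c d₂ x := hEc
      rw [h3, sub_self, Complex.zero_re]
    obtain ⟨κ, hκ, M, hM, hlow⟩ := aFlux_lower (n := n) hρ0 hx₁0
    have hbound : ∀ m ≥ M, ∫ x in HB z r, aFlux_chi m x * ∑ k, pd k (W k) x ≤
        -(‖e‖ ^ 2 / 2 * κ) := by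
      intro m hmM
      have hm0 : 0 < m := hM.trans_le hmM
      have hm0' : (0 : ℝ) < m := by exact_mod_cast hm0
      have hχ := aFlux_chi_smooth (n := n) m
      have hχd : ∀ k, Continuous (fun x => fderiv ℝ (aFlux_chi (n := n) m) x (ev k)) := fun k =>
        (hχ.continuous_fderiv (by simp)).clm_apply continuous_const
      have hp := fun k => aFlux_parts (a := 1 / (m : ℝ)) (by (clear N L₁ L₂ z r hr hz hL₁ hL₂ hh d₁ d₂ hd₁ hd₂ hE x₁ hx₁ hx₁0 hD hm Z hZs he e hee he0 hG hG1 ρ hρ0 hρ1 hρ2 c hc0 hcs hT hEc hcD hY₁ hY₂ W hWs hW0 hK hKD hout hpd0 hY0 hedI hS hWpI hSI hS0 κ hκ hlow hm0' hχ hχd k; positivity)) hρ1 (hWs k) (hW0 k) hχ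
        (fun x hx => aFlux_chi_zero hm0 hx) k
      have hI1 : ∀ k, IntegrableOn (fun x => aFlux_chi m x * pd k (W k) x) (HB z r) := fun k =>
        aFlux_integrable hD (hχ.continuous.continuousOn.mul (hD.pd_smooth (hWs k) k).continuousOn)
          hK hKD fun x hx h => by rw [hpd0 _ k (hW0 k) x hx h, mul_zero]
      have hI2 : ∀ k, IntegrableOn (fun x => fderiv ℝ (aFlux_chi m) x (ev k) * W k x) (HB z r) :=
        fun k => aFlux_integrable hD ((hχd k).continuousOn.mul (hWs k).continuousOn)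
          hK hKD fun x hx h => by rw [hW0 k x (hout x hx h), mul_zero]
      have h1 : ∫ x in HB z r, aFlux_chi m x * ∑ k, pd k (W k) x =
          -∫ x in HB z r, fderiv ℝ (aFlux_chi m) x (ev 0) * W 0 x := by
        have h2 : ∑ k, ∫ x in HB z r, fderiv ℝ (aFlux_chi m) x (ev k) * W k x =
            ∫ x in HB z r, fderiv ℝ (aFlux_chi m) x (ev 0) * W 0 x := by
          refine Finset.sum_eq_single (0 : Fin n) (fun k _ hk => ?_) (fun h => absurd (Finset.mem_univ _) h)
          have : ∀ x : E n, fderiv ℝ (aFlux_chi m) x (ev k) * W k x = 0 := fun x => by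
            rw [aFlux_chi_fderiv, if_neg hk]; simp
          simp only [this, integral_zero]
        rw [← h2, ← Finset.sum_neg_distrib]
        simp only [Finset.mul_sum]
        rw [integral_finsetSum _ fun k _ => hI1 k]
        refine Finset.sum_congr rfl fun k _ => ?_
        have := hp k
        rw [integral_add (hI1 k) (hI2 k)] at this
        (clear hr hz hL₁ hL₂ hh hd₁ hd₂ hE hx₁ hx₁0 hD hm Z hZs he hee he0 hG hG1 hρ0 hρ1 hρ2 hc0 hcs hT hEc hcD hY₁ hY₂ hWs hW0 hK hKD hout hpd0 hY0 hedI hS hWpI hSI hS0 κ hκ M hM hlow hmM hm0 hm0' hχ hχd hp hI1 hI2 h2; linarith)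
      rw [h1, neg_le_neg_iff]
      have hpos : ∀ x : E n, 0 ≤ fderiv ℝ (aFlux_chi m) x (ev 0) := fun x => by
        rw [aFlux_chi_fderiv, if_pos rfl]
        have := Real.smoothTransition.monotone.deriv_nonneg (x := (m : ℝ) * x 0 - 1)
        (clear N L₁ L₂ z r hr hz hL₁ hL₂ hh d₁ d₂ hd₁ hd₂ hE x₁ hx₁ hx₁0 hD hm Z hZs he e hee he0 hG hG1 ρ hρ0 hρ1 hρ2 c hc0 hcs hT hEc hcD hY₁ hY₂ W hWs hW0 hK hKD hout hpd0 hY0 hedI hS hWpI hSI hS0 κ hκ hlow hm0' hχ hχd hp hI1 hI2 h1; positivity)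
      have hIη : IntegrableOn (fun x => ‖e‖ ^ 2 / 2 *
          (fderiv ℝ (aFlux_chi m) x (ev 0) * aFlux_eta x₁ ρ x)) (HB z r) :=
        aFlux_integrable hD (continuous_const.mul ((hχd 0).mul
          (aFlux_eta_smooth x₁ ρ).continuous)).continuousOn hK hKD fun x hx h => by
            rw [aFlux_eta_zero hρ0 (hout x hx h)]; simp
      have h3 : ∫ x in HB z r, ‖e‖ ^ 2 / 2 *
          (fderiv ℝ (aFlux_chi m) x (ev 0) * aFlux_eta x₁ ρ x) ≤
          ∫ x in HB z r, fderiv ℝ (aFlux_chi m) x (ev 0) * W 0 x := by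
        refine setIntegral_mono_on hIη (hI2 0) hm fun x hx => ?_
        by_cases hxb : x ∈ Metric.closedBall x₁ ρ
        · have h4 := hρ2 x ⟨hxb, hx.2⟩
          have h5 : W 0 x = aFlux_eta x₁ ρ x * (inner ℂ e (Z x) : ℂ).re := by
            show (inner ℂ (aFlux_eta x₁ ρ x • e) (L₁.h x (flux L₁ 0 d₁ x)) -
              inner ℂ (aFlux_eta x₁ ρ x • e) (L₂.h x (flux L₂ 0 d₂ x)) : ℂ).re = _
            have h9 : ∀ w : Fib N, (inner ℂ (aFlux_eta x₁ ρ x • e) w : ℂ) =
                (aFlux_eta x₁ ρ x : ℂ) * inner ℂ e w := fun w => by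
              rw [← Complex.coe_smul, inner_smul_left, Complex.conj_ofReal]
            rw [← inner_sub_right, h9, Complex.re_ofReal_mul]
          rw [h5]
          have h6 := aFlux_eta_nonneg x₁ ρ x
          have h7 := mul_nonneg (hpos x) h6
          (clear hr hz hL₁ hL₂ hh hd₁ hd₂ hE hx₁ hx₁0 hD hm hZs he hee he0 hG hG1 hρ0 hρ1 c hc0 hcs hT hEc hcD hY₁ hY₂ W hWs hW0 hK hKD hout hpd0 hY0 hedI hS hWpI hSI hS0 κ hκ hlow hm0' hχ hχd hp hI1 hI2 h1 hIη h5; nlinarith)
        · rw [hW0 0 x hxb, aFlux_eta_zero hρ0 hxb]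
          simp
      refine le_trans ?_ h3
      rw [integral_const_mul]
      refine mul_le_mul_of_nonneg_left ?_ (by (clear * - he0; positivity))
      refine (hlow m hmM).trans (le_of_eq ?_)
      symm
      refine setIntegral_eq_integral_of_forall_compl_eq_zero fun x hx => ?_
      by_cases hxb : x ∈ Metric.closedBall x₁ ρ
      · have hx0 : ¬ (0 ≤ x 0) := fun h => hx ⟨hρ1 hxb, h⟩
        have hxm : x 0 < 1 / (m : ℝ) := (not_le.1 hx0).trans (by (clear N L₁ L₂ z r hr hz hL₁ hL₂ hh d₁ d₂ hd₁ hd₂ hE x₁ hx₁ hx₁0 hD hm Z hZs he e hee he0 hG hG1 ρ hρ0 hρ1 hρ2 c hc0 hcs hT hEc hcD hY₁ hY₂ W hWs hW0 hK hKD hout hpd0 hY0 hedI hS hWpI hSI hS0 κ hκ hlow hm0' hχ hχd hp hI1 hI2 h1 hpos hIη h3 x hx hxb hx0; positivity))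
        have h8 : aFlux_chi m =ᶠ[𝓝 x] fun _ => (0 : ℝ) := by
          refine Filter.eventuallyEq_of_mem
            ((isOpen_lt (continuous_coord (n := n) 0) continuous_const).mem_nhds hxm) fun y hy => ?_
          exact aFlux_chi_zero hm0 hy
        rw [h8.fderiv_eq]
        simp only [fderiv_fun_const, Pi.zero_apply, zero_apply, zero_mul]
      · rw [aFlux_eta_zero hρ0 hxb, mul_zero]
    have hlim := aFlux_lim hD hSI
    rw [hS0] at hlim
    have hfin := le_of_tendsto hlim (Filter.eventually_atTop.2 ⟨M, fun m hm => hbound m hm⟩)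
    have : 0 < ‖e‖ ^ 2 / 2 * κ := by (clear * - he0 hκ; positivity)
    linarith only [hfin, this]
  -- conclusion
  by_contra hne
  have h1 : flux L₁ 0 d₁ x₁ - flux L₂ 0 d₂ x₁ ≠ 0 := sub_ne_zero.2 hne
  have h2 := hL₁.h_pos x₁ hx₁ _ h1
  have h3 : L₁.h x₁ (flux L₁ 0 d₁ x₁ - flux L₂ 0 d₂ x₁) = 0 := by
    rw [map_sub]
    have h4 : L₁.h x₁ (flux L₁ 0 d₁ x₁) - L₂.h x₁ (flux L₂ 0 d₂ x₁) = 0 := hmain
    rw [← hh x₁ hx₁ hx₁0] at h4
    exact h4
  rw [h3, inner_zero_right] at h2
  simp at h2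

end Vale.Agent.P088.EYM
end
end

section

/-!
# P088-EYM, block B: Christoffel symbols (metric, symmetric, transformation law)
-/

open Set Filter Topology
open scoped ContDiff

noncomputable section

namespace Vale.Agent.P088.EYM

variable {n : ℕ} [NeZero n]

/-! ### calculus of matrices of functions -/

omit [NeZero n] in
theorem Chr_sm_mul {D : Set (E n)} {F G : E n → Matrix (Fin n) (Fin n) ℝ} (hF : SmM F D)
    (hG : SmM G D) : SmM (fun y => F y * G y) D := by
  intro a b
  have h : (fun y => (F y * G y) a b) = fun y => ∑ c, F y a c * G y c b := by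
    funext y
    exact Matrix.mul_apply
  rw [h]
  exact ContDiffOn.sum fun c _ => (hF a c).mul (hG c b)

omit [NeZero n] in
theorem Chr_sm_transpose {D : Set (E n)} {F : E n → Matrix (Fin n) (Fin n) ℝ} (hF : SmM F D) :
    SmM (fun y => (F y).transpose) D := fun a b => hF b a

theorem Chr_sm_jac {D : Set (E n)} (hD : RelOpen D) {X : E n → E n} (hX : ContDiffOn ℝ ∞ X D) :
    SmM (Jac X) D := fun a b => hD.pd_smooth (coord_smooth hX a) b

theorem Chr_pdM_mul {D : Set (E n)} (hD : RelOpen D) {F G : E n → Matrix (Fin n) (Fin n) ℝ}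
    (hF : SmM F D) (hG : SmM G D) {x : E n} (hx : x ∈ D) (i : Fin n) :
    pdM i (fun y => F y * G y) x = pdM i F x * G x + F x * pdM i G x := by
  ext a b
  have h : (fun y => (F y * G y) a b) = fun y => ∑ c, F y a c * G y c b := by
    funext y
    exact Matrix.mul_apply
  change pd i (fun y => (F y * G y) a b) x = _
  rw [h, hD.pd_sum Finset.univ (fun c _ => (hF a c).mul (hG c b)) hx i, Matrix.add_apply,
    Matrix.mul_apply, Matrix.mul_apply, ← Finset.sum_add_distrib]
  refine Finset.sum_congr rfl fun c _ => ?_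
  rw [hD.pd_mul (hF a c) (hG c b) hx i, add_comm]
  rfl

theorem Chr_pdM_congr {D : Set (E n)} (hD : RelOpen D) {F G : E n → Matrix (Fin n) (Fin n) ℝ}
    (h : ∀ y ∈ D, F y = G y) {x : E n} (hx : x ∈ D) (i : Fin n) : pdM i F x = pdM i G x := by
  ext a b
  exact hD.pd_congr (fun y hy => by rw [h y hy]) hx i

theorem Chr_pdM_comp {D D' : Set (E n)} (hD : RelOpen D) (hD' : RelOpen D') {X : E n → E n}
    (hX : ContDiffOn ℝ ∞ X D) (hm : MapsTo X D D') {F : E n → Matrix (Fin n) (Fin n) ℝ}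
    (hF : SmM F D') {x : E n} (hx : x ∈ D) (i : Fin n) :
    pdM i (fun y => F (X y)) x = ∑ k, Jac X x k i • pdM k F (X x) := by
  ext a b
  rw [Matrix.sum_apply]
  exact hD.pd_comp hD' hX hm (hF a b) hx i

/-! ### Christoffel symbols -/

theorem Chr_symm_pd {D : Set (E n)} (hD : RelOpen D) {g : E n → Matrix (Fin n) (Fin n) ℝ}
    (hp : ∀ x ∈ D, (g x).PosDef) {x : E n} (hx : x ∈ D) (i a b : Fin n) :
    pd i (fun y => g y a b) x = pd i (fun y => g y b a) x := by
  refine hD.pd_congr (fun y hy => ?_) hx i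
  have h := (hp y hy).isHermitian.apply a b
  rw [← h]
  rfl

theorem chr_symm {D : Set (E n)} (hD : RelOpen D) {g : E n → Matrix (Fin n) (Fin n) ℝ}
    (hp : ∀ x ∈ D, (g x).PosDef) {x : E n} (hx : x ∈ D) (k i j : Fin n) :
    chr g k i j x = chr g k j i x := by
  unfold chr
  congr 1
  refine Finset.sum_congr rfl fun l _ => ?_
  rw [Chr_symm_pd hD hp hx l i j]
  ring

/-- lowering the index of the Christoffel symbols -/
theorem Chr_low {g : E n → Matrix (Fin n) (Fin n) ℝ} {x : E n} (hg : IsUnit (g x).det)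
    (b i a : Fin n) : ∑ c, g x b c * chr g c i a x =
      1 / 2 * (pd i (fun y => g y b a) x + pd a (fun y => g y b i) x -
        pd b (fun y => g y i a) x) := by
  unfold chr
  have h : ∀ l : Fin n, ∑ c, g x b c * (g x)⁻¹ c l = (1 : Matrix (Fin n) (Fin n) ℝ) b l := by
    intro l
    rw [← Matrix.mul_apply, Matrix.mul_nonsing_inv _ hg]
  set T : Fin n → ℝ := fun l => pd i (fun y => g y l a) x + pd a (fun y => g y l i) x -
    pd l (fun y => g y i a) x with hT
  calc ∑ c, g x b c * (1 / 2 * ∑ l, (g x)⁻¹ c l * T l)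
      = 1 / 2 * ∑ c, ∑ l, (g x b c * (g x)⁻¹ c l) * T l := by
        rw [Finset.mul_sum]
        refine Finset.sum_congr rfl fun c _ => ?_
        rw [Finset.mul_sum, Finset.mul_sum, Finset.mul_sum]
        exact Finset.sum_congr rfl fun l _ => by ring
    _ = 1 / 2 * ∑ l, (∑ c, g x b c * (g x)⁻¹ c l) * T l := by
        rw [Finset.sum_comm]
        congr 1
        exact Finset.sum_congr rfl fun l _ => by rw [Finset.sum_mul]
    _ = 1 / 2 * T b := by
        congr 1
        simp_rw [h]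
        simp [Matrix.one_apply]

/-- `∂_i g = Γ_iᵀ g + g Γ_i` -/
theorem chr_metric {D : Set (E n)} (hD : RelOpen D) {g : E n → Matrix (Fin n) (Fin n) ℝ}
    (hp : ∀ x ∈ D, (g x).PosDef) {x : E n} (hx : x ∈ D) (i : Fin n) :
    pdM i g x = (mchr g i x).transpose * g x + g x * mchr g i x := by
  have hu : IsUnit (g x).det := (hp x hx).det_pos.ne'.isUnit
  have hs : ∀ a b, g x a b = g x b a := fun a b => by
    have h := (hp x hx).isHermitian.apply a b
    rw [← h]
    rfl
  ext a b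
  rw [Matrix.add_apply, Matrix.mul_apply, Matrix.mul_apply]
  have e1 : ∑ c, (mchr g i x).transpose a c * g x c b = ∑ c, g x b c * chr g c i a x := by
    refine Finset.sum_congr rfl fun c _ => ?_
    rw [hs c b, mul_comm]
    rfl
  have e2 : ∑ c, g x a c * mchr g i x c b = ∑ c, g x a c * chr g c i b x := rfl
  rw [e1, e2, Chr_low hu, Chr_low hu, Chr_symm_pd hD hp hx i b a, Chr_symm_pd hD hp hx a b i,
    Chr_symm_pd hD hp hx b a i]
  change pd i (fun y => g y a b) x = _
  ring

omit [NeZero n] in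
/-- uniqueness of a symmetric metric family (Koszul) -/
theorem Chr_unique {G : Matrix (Fin n) (Fin n) ℝ} (hG : IsUnit G.det) (hs : ∀ a b, G a b = G b a)
    {C : Fin n → Matrix (Fin n) (Fin n) ℝ} (h1 : ∀ i j a, C i a j = C j a i)
    (h2 : ∀ i, (C i).transpose * G + G * C i = 0) (i : Fin n) : C i = 0 := by
  have hd1 : ∀ i j b, (G * C i) b j = (G * C j) b i := by
    intro i j b
    rw [Matrix.mul_apply, Matrix.mul_apply]
    exact Finset.sum_congr rfl fun a _ => by rw [h1]
  have hd2 : ∀ i j b, (G * C i) b j + (G * C i) j b = 0 := by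
    intro i j b
    have h := congrFun (congrFun (h2 i) b) j
    rw [Matrix.add_apply, Matrix.mul_apply] at h
    have e : ∑ c, (C i).transpose b c * G c j = (G * C i) j b := by
      rw [Matrix.mul_apply]
      refine Finset.sum_congr rfl fun c _ => ?_
      rw [hs c j, mul_comm]
      rfl
    rw [e, add_comm] at h
    exact h
  have h0 : G * C i = 0 := by
    ext b j
    have a1 := hd2 i j b
    have a2 := hd1 i b j
    have a3 := hd2 b j i
    have a4 := hd1 b j i
    have a5 := hd2 j b i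
    have a6 := hd1 i j b
    rw [Matrix.zero_apply]
    linarith only [a1, a2, a3, a4, a5, a6]
  have h3 : G⁻¹ * (G * C i) = 0 := by rw [h0, Matrix.mul_zero]
  rwa [← Matrix.mul_assoc, Matrix.nonsing_inv_mul _ hG, Matrix.one_mul] at h3

/-- transformation of the Christoffel symbols: `J Γ_i = ∂_i J + (∑_k J_{ki} Γ'_k(X)) J` -/
theorem chr_pull {D D' : Set (E n)} (hD : RelOpen D) (hD' : RelOpen D')
    {g g' : E n → Matrix (Fin n) (Fin n) ℝ} {X : E n → E n} (hm : MapsTo X D D')
    (hX : ContDiffOn ℝ ∞ X D) (hg' : SmM g' D') (hp : ∀ x ∈ D, (g x).PosDef)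
    (hp' : ∀ x ∈ D', (g' x).PosDef) (h : GPull g g' D X) {x : E n} (hx : x ∈ D) (i : Fin n) :
    Jac X x * mchr g i x =
      pdM i (Jac X) x + (∑ k, Jac X x k i • mchr g' k (X x)) * Jac X x := by
  have hu : IsUnit (g x).det := (hp x hx).det_pos.ne'.isUnit
  have hs : ∀ a b, g x a b = g x b a := fun a b => by
    have h := (hp x hx).isHermitian.apply a b
    rw [← h]
    rfl
  have hJ : IsUnit (Jac X x).det := by
    rw [isUnit_iff_ne_zero]
    intro h0
    have h1 : (g x).det = 0 := by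
      rw [h x hx, Matrix.det_mul, h0, mul_zero]
    rw [h1] at hu
    exact not_isUnit_zero hu
  -- notation
  set J := Jac X x with hJdef
  let A : Fin n → Matrix (Fin n) (Fin n) ℝ := fun i => ∑ k, J k i • mchr g' k (X x)
  let M : Fin n → Matrix (Fin n) (Fin n) ℝ := fun i => pdM i (Jac X) x + A i * J
  let C : Fin n → Matrix (Fin n) (Fin n) ℝ := fun i => J⁻¹ * M i
  have hJC : ∀ i, J * C i = M i := fun i => by
    change J * (J⁻¹ * M i) = M i
    rw [← Matrix.mul_assoc, Matrix.mul_nonsing_inv _ hJ, Matrix.one_mul]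
  -- symmetry
  have hMs : ∀ i j a, M i a j = M j a i := by
    intro i j a
    have e1 : pdM i (Jac X) x a j = pdM j (Jac X) x a i := hD.pd_comm (coord_smooth hX a) hx i j
    have e2 : ∀ i j, (A i * J) a j = ∑ b, ∑ k, J k i * J b j * chr g' a k b (X x) := by
      intro i j
      rw [Matrix.mul_apply]
      refine Finset.sum_congr rfl fun b _ => ?_
      change (∑ k, J k i • mchr g' k (X x)) a b * J b j = _
      rw [Matrix.sum_apply, Finset.sum_mul]
      refine Finset.sum_congr rfl fun k _ => ?_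
      change J k i * chr g' a k b (X x) * J b j = _
      ring
    change pdM i (Jac X) x a j + (A i * J) a j = pdM j (Jac X) x a i + (A j * J) a i
    rw [e1, e2, e2, Finset.sum_comm]
    congr 1
    refine Finset.sum_congr rfl fun k _ => Finset.sum_congr rfl fun b _ => ?_
    rw [chr_symm hD' hp' (hm hx) a k b]
    ring
  have hCs : ∀ i j a, C i a j = C j a i := by
    intro i j a
    change (J⁻¹ * M i) a j = (J⁻¹ * M j) a i
    rw [Matrix.mul_apply, Matrix.mul_apply]
    exact Finset.sum_congr rfl fun b _ => by rw [hMs]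
  -- metric
  have hJs : SmM (Jac X) D := Chr_sm_jac hD hX
  have hgs : SmM (fun y => g' (X y)) D := fun a b => (hg' a b).comp hX hm
  have hCm : ∀ i, pdM i g x = (C i).transpose * g x + g x * C i := by
    intro i
    have e1 : pdM i g x = pdM i (fun y => ((Jac X y).transpose * g' (X y)) * Jac X y) x :=
      Chr_pdM_congr hD h hx i
    have e2 : pdM i (fun y => (Jac X y).transpose) x = (pdM i (Jac X) x).transpose := rfl
    have e3 : pdM i (fun y => g' (X y)) x =
        (A i).transpose * g' (X x) + g' (X x) * A i := by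
      rw [Chr_pdM_comp hD hD' hX hm hg' hx i]
      change ∑ k, J k i • pdM k g' (X x) = (∑ k, J k i • mchr g' k (X x)).transpose * g' (X x) +
        g' (X x) * ∑ k, J k i • mchr g' k (X x)
      rw [Matrix.transpose_sum, Finset.sum_mul, Finset.mul_sum, ← Finset.sum_add_distrib]
      refine Finset.sum_congr rfl fun k _ => ?_
      rw [chr_metric hD' hp' (hm hx) k, smul_add, Matrix.transpose_smul, Matrix.smul_mul,
        Matrix.mul_smul]
    have e4 : g x = J.transpose * g' (X x) * J := h x hx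
    rw [e1, Chr_pdM_mul hD (Chr_sm_mul (Chr_sm_transpose hJs) hgs) hJs hx i,
      Chr_pdM_mul hD (Chr_sm_transpose hJs) hgs hx i, e2, e3]
    have e5 : (C i).transpose * g x + g x * C i =
        (M i).transpose * (g' (X x) * J) + J.transpose * g' (X x) * M i := by
      have hT : (C i).transpose * J.transpose = (M i).transpose := by
        rw [← Matrix.transpose_mul, hJC]
      rw [e4]
      calc (C i).transpose * (J.transpose * g' (X x) * J) + J.transpose * g' (X x) * J * C i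
          = ((C i).transpose * J.transpose) * (g' (X x) * J) +
            J.transpose * g' (X x) * (J * C i) := by simp only [Matrix.mul_assoc]
        _ = _ := by rw [hT, hJC]
    rw [e5]
    change ((pdM i (Jac X) x).transpose * g' (X x) +
      J.transpose * ((A i).transpose * g' (X x) + g' (X x) * A i)) * J +
      J.transpose * g' (X x) * pdM i (Jac X) x =
      (pdM i (Jac X) x + A i * J).transpose * (g' (X x) * J) +
        J.transpose * g' (X x) * (pdM i (Jac X) x + A i * J)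
    rw [Matrix.transpose_add, Matrix.transpose_mul]
    simp only [Matrix.mul_add, Matrix.add_mul, Matrix.mul_assoc]
    abel
  -- conclusion
  have key := Chr_unique hu hs (C := fun i => mchr g i x - C i)
    (fun i j a => by
      rw [Matrix.sub_apply, Matrix.sub_apply, hCs i j a]
      congr 1
      exact chr_symm hD hp hx a i j)
    (fun i => by
      rw [Matrix.transpose_sub, Matrix.sub_mul, Matrix.mul_sub]
      have a1 := chr_metric hD hp hx i
      have a2 := hCm i
      rw [a1] at a2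
      calc (mchr g i x).transpose * g x - (C i).transpose * g x +
            (g x * mchr g i x - g x * C i)
          = ((mchr g i x).transpose * g x + g x * mchr g i x) -
            ((C i).transpose * g x + g x * C i) := by abel
        _ = 0 := by rw [a2, sub_self]) i
  have h2 : mchr g i x = C i := sub_eq_zero.1 key
  rw [h2, hJC]

end Vale.Agent.P088.EYM
end
end

section

/-!
# P088-EYM, block B, B-T3: the Ricci tensor of a pull back
-/

set_option linter.all false

open MeasureTheory Set Filter Topology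
open scoped ContDiff

noncomputable section

namespace Vale.Agent.P088.EYM

variable {n N : ℕ} [NeZero n]

section Ric

attribute [local instance] Matrix.linftyOpNormedRing Matrix.linftyOpNormedAlgebra

/-- the entry as a continuous linear map -/
def Ric_entry (a b : Fin n) : Matrix (Fin n) (Fin n) ℝ →L[ℝ] ℝ :=
  LinearMap.toContinuousLinearMap (Matrix.entryLinearMap ℝ ℝ a b)

theorem Ric_smooth_iff {D : Set (E n)} {f : E n → Matrix (Fin n) (Fin n) ℝ} :
    ContDiffOn ℝ ∞ f D ↔ ∀ a b, ContDiffOn ℝ ∞ (fun x => f x a b) D := by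
  constructor
  · intro h a b
    exact (Ric_entry a b).contDiff.comp_contDiffOn h
  · intro h
    have h1 : f = fun x => ∑ a, ∑ b, f x a b • Matrix.single a b (1 : ℝ) := by
      funext x
      conv_lhs => rw [Matrix.matrix_eq_sum_single (f x)]
      simp only [Matrix.smul_single, smul_eq_mul, mul_one]
    rw [h1]
    exact ContDiffOn.sum fun a _ => ContDiffOn.sum fun b _ => (h a b).smul contDiffOn_const

theorem Ric_pd_entry {D : Set (E n)} (hD : RelOpen D) {f : E n → Matrix (Fin n) (Fin n) ℝ}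
    (hf : ContDiffOn ℝ ∞ f D) {x : E n} (hx : x ∈ D) (i a b : Fin n) :
    pd i f x a b = pd i (fun y => f y a b) x :=
  (hD.pd_clm (Ric_entry a b) hf hx i).symm

theorem Ric_inv_smooth {D : Set (E n)} {f : E n → Matrix (Fin n) (Fin n) ℝ}
    (hf : ContDiffOn ℝ ∞ f D) (hu : ∀ x ∈ D, IsUnit (f x)) :
    ContDiffOn ℝ ∞ (fun x => (f x)⁻¹) D := by
  have := smooth_ringInverse hf hu
  simpa only [Matrix.nonsing_inv_eq_ringInverse] using this

theorem Ric_chr_smooth {D : Set (E n)} (hD : RelOpen D) {g : E n → Matrix (Fin n) (Fin n) ℝ}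
    (hg : SmM g D) (hp : ∀ x ∈ D, (g x).PosDef) (k i j : Fin n) : ContDiffOn ℝ ∞ (chr g k i j) D := by
  have h1 : ContDiffOn ℝ ∞ (fun x => (g x)⁻¹) D :=
    Ric_inv_smooth (Ric_smooth_iff.2 hg) fun x hx => (hp x hx).isUnit
  unfold chr
  refine contDiffOn_const.mul (ContDiffOn.sum fun l _ => ?_)
  exact (Ric_smooth_iff.1 h1 k l).mul (((hD.pd_smooth (hg l j) i).add (hD.pd_smooth (hg l i) j)).sub
    (hD.pd_smooth (hg i j) l))

theorem Ric_mchr_smooth {D : Set (E n)} (hD : RelOpen D) {g : E n → Matrix (Fin n) (Fin n) ℝ}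
    (hg : SmM g D) (hp : ∀ x ∈ D, (g x).PosDef) (j : Fin n) : ContDiffOn ℝ ∞ (mchr g j) D :=
  Ric_smooth_iff.2 fun a b => Ric_chr_smooth hD hg hp a j b

theorem Ric_jac_smooth {D : Set (E n)} (hD : RelOpen D) {X : E n → E n} (hX : ContDiffOn ℝ ∞ X D) :
    ContDiffOn ℝ ∞ (Jac X) D :=
  Ric_smooth_iff.2 fun a b => hD.pd_smooth (coord_smooth hX a) b

theorem Ric_jac_unit {D D' : Set (E n)} {g g' : E n → Matrix (Fin n) (Fin n) ℝ} {X : E n → E n}
    (hp : ∀ x ∈ D, (g x).PosDef) (h : GPull g g' D X) {x : E n} (hx : x ∈ D) :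
    IsUnit (Jac X x) := by
  rw [Matrix.isUnit_iff_isUnit_det, isUnit_iff_ne_zero]
  intro h0
  have h1 := (hp x hx).det_pos
  rw [h x hx, Matrix.det_mul, Matrix.det_mul, h0, mul_zero] at h1
  exact lt_irrefl _ h1

theorem Ric_ric_eq {D : Set (E n)} (hD : RelOpen D) {g : E n → Matrix (Fin n) (Fin n) ℝ}
    (hg : SmM g D) (hp : ∀ x ∈ D, (g x).PosDef) {x : E n} (hx : x ∈ D) (j k : Fin n) :
    ric g j k x = ∑ i, curv (mchr g) i j x i k := by
  unfold ric curv
  refine Finset.sum_congr rfl fun i _ => ?_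
  have h1 := Ric_pd_entry hD (Ric_mchr_smooth hD hg hp j) hx i i k
  have h2 := Ric_pd_entry hD (Ric_mchr_smooth hD hg hp i) hx j i k
  simp only [Matrix.sub_apply, Matrix.add_apply, Matrix.mul_apply, h1, h2, Finset.sum_sub_distrib]
  simp only [mchr, Matrix.of_apply]
  ring

theorem Ric_curv_pull {D D' : Set (E n)} (hD : RelOpen D) (hD' : RelOpen D')
    {g g' : E n → Matrix (Fin n) (Fin n) ℝ} {X : E n → E n} (hm : MapsTo X D D')
    (hX : ContDiffOn ℝ ∞ X D) (hg : SmM g D) (hg' : SmM g' D') (hp : ∀ x ∈ D, (g x).PosDef)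
    (hp' : ∀ x ∈ D', (g' x).PosDef) (h : GPull g g' D X) {x : E n} (hx : x ∈ D) (i j : Fin n) :
    curv (mchr g) i j x = (Jac X x)⁻¹ *
      (∑ p, ∑ q, (Jac X x p i * Jac X x q j) • curv (mchr g') p q (X x)) * Jac X x := by
  have hJ := Ric_jac_smooth hD hX
  have hu : ∀ x ∈ D, IsUnit (Jac X x) := fun x hx => Ric_jac_unit (D' := D') hp h hx
  have hJi := Ric_inv_smooth hJ hu
  have h1 : ∀ x ∈ D, Jac X x * (Jac X x)⁻¹ = 1 := fun x hx =>
    Matrix.mul_nonsing_inv _ ((Matrix.isUnit_iff_isUnit_det _).1 (hu x hx))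
  have h2 : ∀ x ∈ D, (Jac X x)⁻¹ * Jac X x = 1 := fun x hx =>
    Matrix.nonsing_inv_mul _ ((Matrix.isUnit_iff_isUnit_det _).1 (hu x hx))
  have hB : ∀ k, ContDiffOn ℝ ∞ (mchr g' k) D' := Ric_mchr_smooth hD' hg' hp'
  have hP : ∀ k, ContDiffOn ℝ ∞ (pull X (mchr g') k) D := hD.pull_smooth hX hm hB
  have key : ∀ k, EqOn (mchr g k) (gau (Jac X) (fun y => (Jac X y)⁻¹) (pull X (mchr g')) k) D := by
    intro k y hy
    have h3 := chr_pull hD hD' hm hX hg' hp hp' h hy k
    have h4 : mchr g k y = (Jac X y)⁻¹ * (Jac X y * mchr g k y) := by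
      rw [← mul_assoc, h2 y hy, one_mul]
    rw [h4, h3]
    have h5 : pdM k (Jac X) y = pd k (Jac X) y := by
      ext a b
      exact (Ric_pd_entry hD hJ hy k a b).symm
    rw [h5]
    rfl
  have hc : curv (mchr g) i j x =
      curv (gau (Jac X) (fun y => (Jac X y)⁻¹) (pull X (mchr g'))) i j x := by
    unfold curv
    rw [hD.pd_congr (key j) hx i, hD.pd_congr (key i) hx j, key i hx, key j hx]
  rw [hc, hD.curv_gau hJ hJi h1 h2 hP hx i j, hD.curv_pull hD' hX hm hB hx i j]
  rfl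

theorem ric_pull {D D' : Set (E n)} (hD : RelOpen D) (hD' : RelOpen D')
    {g g' : E n → Matrix (Fin n) (Fin n) ℝ} {X : E n → E n} (hm : MapsTo X D D')
    (hX : ContDiffOn ℝ ∞ X D) (hg : SmM g D) (hg' : SmM g' D') (hp : ∀ x ∈ D, (g x).PosDef)
    (hp' : ∀ x ∈ D', (g' x).PosDef) (h : GPull g g' D X) {x : E n} (hx : x ∈ D) (j k : Fin n) :
    ric g j k x = ∑ p, ∑ q, Jac X x p j * Jac X x q k * ric g' p q (X x) := by
  have hu : IsUnit (Jac X x) := Ric_jac_unit (D' := D') hp h hx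
  have h1 : Jac X x * (Jac X x)⁻¹ = 1 :=
    Matrix.mul_nonsing_inv _ ((Matrix.isUnit_iff_isUnit_det _).1 hu)
  rw [Ric_ric_eq hD hg hp hx j k]
  simp only [Ric_curv_pull hD hD' hm hX hg hg' hp hp' h hx, Ric_ric_eq hD' hg' hp' (hm hx)]
  set J := Jac X x with hJ
  set R : Fin n → Fin n → Matrix (Fin n) (Fin n) ℝ := fun p q => curv (mchr g') p q (X x) with hR
  have e1 : ∀ i, (J⁻¹ * (∑ p, ∑ q, (J p i * J q j) • R p q) * J) i k =
      ∑ p, J p i * (J⁻¹ * ((∑ q, J q j • R p q) * J)) i k := by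
    intro i
    have : (J⁻¹ * (∑ p, ∑ q, (J p i * J q j) • R p q) * J) =
        ∑ p, J p i • (J⁻¹ * ((∑ q, J q j • R p q) * J)) := by
      rw [mul_assoc, Finset.sum_mul, Finset.mul_sum]
      refine Finset.sum_congr rfl fun p _ => ?_
      rw [← Matrix.mul_smul, ← Matrix.smul_mul, Finset.smul_sum]
      simp only [smul_smul]
    rw [this, Matrix.sum_apply]
    rfl
  have e2 : ∑ i, (J⁻¹ * (∑ p, ∑ q, (J p i * J q j) • R p q) * J) i k =
      ∑ p, ((∑ q, J q j • R p q) * J) p k := by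
    simp only [e1]
    rw [Finset.sum_comm]
    refine Finset.sum_congr rfl fun p _ => ?_
    rw [← Matrix.mul_apply, ← mul_assoc, h1, one_mul]
  have e3 : ∀ p, ((∑ q, J q j • R p q) * J) p k = ∑ q, ∑ d, J q j * J d k * R p q p d := by
    intro p
    rw [Finset.sum_mul, Matrix.sum_apply]
    refine Finset.sum_congr rfl fun q _ => ?_
    rw [Matrix.smul_mul, Matrix.smul_apply, Matrix.mul_apply, smul_eq_mul, Finset.mul_sum]
    exact Finset.sum_congr rfl fun d _ => by ring
  calc ∑ i, (J⁻¹ * (∑ p, ∑ q, (J p i * J q j) • R p q) * J) i k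
      = ∑ p, ∑ q, ∑ d, J q j * J d k * R p q p d := by
        rw [e2]; exact Finset.sum_congr rfl fun p _ => e3 p
    _ = ∑ q, ∑ p, ∑ d, J q j * J d k * R p q p d := Finset.sum_comm
    _ = ∑ q, ∑ d, J q j * J d k * ∑ p, R p q p d := by
        refine Finset.sum_congr rfl fun q _ => ?_
        rw [Finset.sum_comm]
        refine Finset.sum_congr rfl fun d _ => ?_
        rw [Finset.mul_sum]

end Ric

end Vale.Agent.P088.EYM
end
end

section

/-!
# P088-EYM, task B-T4: curvature, stress tensor and Yang-Mills expression of a pull back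
-/

set_option linter.all false

open MeasureTheory Set Filter Topology
open scoped ContDiff

noncomputable section

namespace Vale.Agent.P088.EYM

variable {n N : ℕ} [NeZero n]

/-! ### Preliminaries -/

section Alg

variable {𝔸 : Type*} [Ring 𝔸]

theorem Ym_alg1 (s si p d : 𝔸) (h1 : s * si = 1) :
    s * p * si - d * si = s * (-(si * d * si) + p * si) := by
  have : s * (si * d * si) = d * si := by rw [← mul_assoc, ← mul_assoc, h1, one_mul]
  rw [mul_add, mul_neg, this, ← mul_assoc]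
  abel

/-- `∂(SΦS⁻¹) + [B, SΦS⁻¹] = S (∂Φ + [P, Φ]) S⁻¹` for `B = S P S⁻¹ - ∂S S⁻¹` -/
theorem Ym_alg2 (s si p d f df : 𝔸) (h1 : s * si = 1) (h2 : si * s = 1) :
    (s * f * (-(si * d * si)) + (s * df + d * f) * si) +
      ((s * p * si - d * si) * (s * f * si) - (s * f * si) * (s * p * si - d * si)) =
    s * (df + (p * f - f * p)) * si := by
  have e1 : s * p * si * (s * f * si) = s * (p * f) * si := by
    have : s * p * si * (s * f * si) = s * p * (si * s) * f * si := by simp only [mul_assoc]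
    rw [this, h2, mul_one, mul_assoc s p f]
  have e2 : d * si * (s * f * si) = d * f * si := by
    have : d * si * (s * f * si) = d * (si * s) * f * si := by simp only [mul_assoc]
    rw [this, h2, mul_one]
  have e3 : s * f * si * (s * p * si) = s * (f * p) * si := by
    have : s * f * si * (s * p * si) = s * f * (si * s) * p * si := by simp only [mul_assoc]
    rw [this, h2, mul_one, mul_assoc s f p]
  have e4 : s * f * si * (d * si) = s * f * (si * d * si) := by simp only [mul_assoc]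
  rw [sub_mul, mul_sub, e1, e2, e3, e4]
  simp only [mul_neg, add_mul, mul_add, mul_sub, sub_mul]
  abel

end Alg

section Pre

variable {L L' : LD n N} {D D' : Set (E n)} {X Y : E n → E n} {S : E n → EndF N}

theorem Ym_Si1 (h : IsPull L L' D D' X Y S) {x : E n} (hx : x ∈ D) :
    S x * Ring.inverse (S x) = 1 := Ring.mul_inverse_cancel _ (h.unit x hx)

theorem Ym_Si2 (h : IsPull L L' D D' X Y S) {x : E n} (hx : x ∈ D) :
    Ring.inverse (S x) * S x = 1 := Ring.inverse_mul_cancel _ (h.unit x hx)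

theorem Ym_smSi (h : IsPull L L' D D' X Y S) :
    ContDiffOn ℝ ∞ (fun x => Ring.inverse (S x)) D := smooth_ringInverse h.smS h.unit

theorem Ym_smPull (hD : RelOpen D) (hL' : L'.Ok D') (h : IsPull L L' D D' X Y S) (j : Fin n) :
    ContDiffOn ℝ ∞ (pull X L'.B j) D :=
  hD.pull_smooth h.diffeo.smX h.diffeo.mapsX hL'.B_smooth j

theorem Ym_B (hD : RelOpen D) (h : IsPull L L' D D' X Y S) {x : E n} (hx : x ∈ D) (j : Fin n) :
    L.B j x = S x * pull X L'.B j x * Ring.inverse (S x) - pd j S x * Ring.inverse (S x) := by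
  have h1 : pd j S x + L.B j x * S x = S x * pull X L'.B j x := h.B_eq x hx j
  have h2 : L.B j x * S x * Ring.inverse (S x) = L.B j x := by
    rw [mul_assoc, Ym_Si1 h hx, mul_one]
  rw [← h1, add_mul, h2]
  abel

theorem Ym_pdSi (hD : RelOpen D) (h : IsPull L L' D D' X Y S) {x : E n} (hx : x ∈ D) (j : Fin n) :
    pd j (fun y => Ring.inverse (S y)) x =
      -(Ring.inverse (S x) * pd j S x * Ring.inverse (S x)) :=
  hD.pd_inv h.smS (Ym_smSi h) (fun y hy => Ym_Si1 h hy) (fun y hy => Ym_Si2 h hy) hx j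

theorem Ym_gau (hD : RelOpen D) (h : IsPull L L' D D' X Y S) (j : Fin n) :
    EqOn (L.B j) (gau (fun y => Ring.inverse (S y)) S (pull X L'.B) j) D := by
  intro x hx
  rw [Ym_B hD h hx j]
  unfold gau
  rw [Ym_pdSi hD h hx j]
  exact Ym_alg1 _ _ _ _ (Ym_Si1 h hx)

theorem Ym_det (hL : L.Ok D) (h : IsPull L L' D D' X Y S) {x : E n} (hx : x ∈ D) :
    IsUnit (Jac X x).det := by
  have h1 := (hL.g_pos x hx).det_pos
  rw [h.g_eq x hx, Matrix.det_mul, Matrix.det_mul, Matrix.det_transpose] at h1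
  exact isUnit_iff_ne_zero.2 fun h0 => by rw [h0] at h1; simp at h1

/-- `J g⁻¹ Jᵀ = g'⁻¹(X)` -/
theorem Ym_ginv (hL : L.Ok D) (h : IsPull L L' D D' X Y S) {x : E n} (hx : x ∈ D) :
    Jac X x * (L.g x)⁻¹ * (Jac X x).transpose = (L'.g (X x))⁻¹ := by
  have hu := Ym_det hL h hx
  have hut : IsUnit (Jac X x).transpose.det := by rw [Matrix.det_transpose]; exact hu
  rw [h.g_eq x hx, Matrix.mul_inv_rev, Matrix.mul_inv_rev, ← Matrix.mul_assoc,
    Matrix.mul_nonsing_inv _ hu, Matrix.one_mul, Matrix.mul_assoc, Matrix.nonsing_inv_mul _ hut,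
    Matrix.mul_one]

theorem Ym_contr (hL : L.Ok D) (h : IsPull L L' D D' X Y S) {x : E n} (hx : x ∈ D) (l m : Fin n) :
    ∑ a, ∑ b, (L.g x)⁻¹ a b * (Jac X x l a * Jac X x m b) = (L'.g (X x))⁻¹ l m := by
  rw [← Ym_ginv hL h hx, Matrix.mul_apply]
  simp only [Matrix.mul_apply, Matrix.transpose_apply, Finset.sum_mul]
  rw [Finset.sum_comm]
  refine Finset.sum_congr rfl fun a _ => Finset.sum_congr rfl fun b _ => ?_
  ring

end Pre

/-! ### The trace -/

theorem Ym_trE_comm (A B : EndF N) : trE (A * B) = trE (B * A) :=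
  LinearMap.trace_mul_comm ℂ (A : Fib N →ₗ[ℂ] Fib N) (B : Fib N →ₗ[ℂ] Fib N)

/-- The real part of the trace. -/
def ymTr : EndF N →ₗ[ℝ] ℝ where
  toFun T := (trE T).re
  map_add' A B := by
    have h : trE (A + B) = trE A + trE B :=
      map_add (LinearMap.trace ℂ (Fib N)) (A : Fib N →ₗ[ℂ] Fib N) (B : Fib N →ₗ[ℂ] Fib N)
    rw [h, Complex.add_re]
  map_smul' c A := by
    have h1 : c • A = (c : ℂ) • A := by ext1 w; exact (Complex.coe_smul c (A w)).symm
    have h : trE ((c : ℂ) • A) = (c : ℂ) • trE A :=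
      map_smul (LinearMap.trace ℂ (Fib N)) (c : ℂ) (A : Fib N →ₗ[ℂ] Fib N)
    rw [h1, h, smul_eq_mul, Complex.re_ofReal_mul, RingHom.id_apply, smul_eq_mul]

theorem ymTr_apply (T : EndF N) : ymTr T = (trE T).re := rfl

theorem ymTr_conj {S Si A B : EndF N} (h : Si * S = 1) :
    ymTr (S * A * Si * (S * B * Si)) = ymTr (A * B) := by
  have h1 : S * A * Si * (S * B * Si) = S * (A * B) * Si := by
    have : S * A * Si * (S * B * Si) = S * A * (Si * S) * B * Si := by simp only [mul_assoc]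
    rw [this, h, mul_one, mul_assoc S A B]
  rw [h1, ymTr_apply, ymTr_apply, Ym_trE_comm, ← mul_assoc, h, one_mul]

/-! ### Sums -/

section Sums

variable {V : Type*} [AddCommGroup V] [Module ℝ V]

theorem Ym_swap4 (f : Fin n → Fin n → Fin n → Fin n → V) :
    ∑ a, ∑ b, ∑ c, ∑ d, f a b c d = ∑ c, ∑ d, ∑ a, ∑ b, f a b c d := by
  calc ∑ a, ∑ b, ∑ c, ∑ d, f a b c d
      = ∑ a, ∑ c, ∑ b, ∑ d, f a b c d :=
        Finset.sum_congr rfl fun a _ => Finset.sum_comm
    _ = ∑ c, ∑ a, ∑ b, ∑ d, f a b c d := Finset.sum_comm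
    _ = ∑ c, ∑ a, ∑ d, ∑ b, f a b c d :=
        Finset.sum_congr rfl fun c _ => Finset.sum_congr rfl fun a _ => Finset.sum_comm
    _ = ∑ c, ∑ d, ∑ a, ∑ b, f a b c d :=
        Finset.sum_congr rfl fun c _ => Finset.sum_comm

/-- contraction with the inverse metric -/
theorem Ym_contrV {G G' J : Matrix (Fin n) (Fin n) ℝ}
    (h : ∀ l m, ∑ a, ∑ b, G a b * (J l a * J m b) = G' l m) (T : Fin n → Fin n → V) :
    ∑ a, ∑ b, G a b • ∑ l, ∑ m, (J l a * J m b) • T l m = ∑ l, ∑ m, G' l m • T l m := by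
  simp only [Finset.smul_sum, smul_smul]
  rw [Ym_swap4]
  refine Finset.sum_congr rfl fun l _ => Finset.sum_congr rfl fun m _ => ?_
  rw [← h, Finset.sum_smul]
  refine Finset.sum_congr rfl fun a _ => ?_
  rw [Finset.sum_smul]

theorem Ym_addsmul (a b : ℝ) (v : V) : (a + b) • v = a • v + b • v := add_smul a b v

theorem Ym_sum0 (c : Fin n → ℝ) (F : Fin n → V) (h : ∀ q, F q = 0) : ∑ q, c q • F q = 0 :=
  Finset.sum_eq_zero fun q _ => by rw [h, smul_zero]

theorem Ym_c1 (J : Matrix (Fin n) (Fin n) ℝ) (Γ c : Fin n → ℝ) (F : Fin n → Fin n → V) :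
    ∑ l, Γ l • ∑ p, ∑ q, (J p l * c q) • F p q =
      ∑ p, ∑ q, ((∑ l, J p l * Γ l) * c q) • F p q := by
  calc ∑ l, Γ l • ∑ p, ∑ q, (J p l * c q) • F p q
      = ∑ l, ∑ p, ∑ q, (J p l * Γ l * c q) • F p q := by
        simp only [Finset.smul_sum, smul_smul]
        refine Finset.sum_congr rfl fun l _ => Finset.sum_congr rfl fun p _ =>
          Finset.sum_congr rfl fun q _ => ?_
        congr 1
        ring
    _ = ∑ p, ∑ l, ∑ q, (J p l * Γ l * c q) • F p q := Finset.sum_comm
    _ = ∑ p, ∑ q, ∑ l, (J p l * Γ l * c q) • F p q :=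
        Finset.sum_congr rfl fun p _ => Finset.sum_comm
    _ = _ := by
        refine Finset.sum_congr rfl fun p _ => Finset.sum_congr rfl fun q _ => ?_
        rw [Finset.sum_mul, Finset.sum_smul]

theorem Ym_c2 (a b c : Fin n → ℝ) (Γ' : Fin n → Fin n → Fin n → ℝ) (F : Fin n → Fin n → V) :
    ∑ p, ∑ q, ((∑ r, (∑ o, a o * Γ' p o r) * b r) * c q) • F p q =
      ∑ o, ∑ r, ∑ q, (a o * b r * c q) • ∑ p, Γ' p o r • F p q := by
  calc ∑ p, ∑ q, ((∑ r, (∑ o, a o * Γ' p o r) * b r) * c q) • F p q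
      = ∑ p, ∑ q, ∑ r, ∑ o, ((a o * b r * c q) * Γ' p o r) • F p q := by
        refine Finset.sum_congr rfl fun p _ => Finset.sum_congr rfl fun q _ => ?_
        rw [Finset.sum_mul, Finset.sum_smul]
        refine Finset.sum_congr rfl fun r _ => ?_
        rw [Finset.sum_mul, Finset.sum_mul, Finset.sum_smul]
        refine Finset.sum_congr rfl fun o _ => ?_
        congr 1
        ring
    _ = ∑ r, ∑ o, ∑ p, ∑ q, ((a o * b r * c q) * Γ' p o r) • F p q := Ym_swap4 _
    _ = ∑ o, ∑ r, ∑ p, ∑ q, ((a o * b r * c q) * Γ' p o r) • F p q := Finset.sum_comm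
    _ = ∑ o, ∑ r, ∑ q, ∑ p, ((a o * b r * c q) * Γ' p o r) • F p q :=
        Finset.sum_congr rfl fun o _ => Finset.sum_congr rfl fun r _ => Finset.sum_comm
    _ = _ := by
        simp only [Finset.smul_sum, smul_smul]

/-- the Christoffel terms for the first index -/
theorem Ym_c3 {J : Matrix (Fin n) (Fin n) ℝ} {dJ : Fin n → Fin n → ℝ} {Γ : Fin n → Fin n → ℝ}
    {Γ' : Fin n → Fin n → Fin n → ℝ} {i : Fin n}
    (hΓ : ∀ p j, ∑ l, J p l * Γ l j = dJ p j + ∑ r, (∑ o, J o i * Γ' p o r) * J r j)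
    (j : Fin n) (c : Fin n → ℝ) (F : Fin n → Fin n → V) :
    ∑ l, Γ l j • ∑ p, ∑ q, (J p l * c q) • F p q =
      ∑ p, ∑ q, (dJ p j * c q) • F p q +
        ∑ o, ∑ p, ∑ q, (J o i * J p j * c q) • ∑ l, Γ' l o p • F l q := by
  rw [Ym_c1 J (fun l => Γ l j) c F]
  rw [← Ym_c2 (fun o => J o i) (fun r => J r j) c Γ' F, ← Finset.sum_add_distrib]
  refine Finset.sum_congr rfl fun p _ => ?_
  rw [← Finset.sum_add_distrib]
  refine Finset.sum_congr rfl fun q _ => ?_
  rw [hΓ, add_mul, add_smul]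

/-- the Christoffel terms for the second index -/
theorem Ym_c4 {J : Matrix (Fin n) (Fin n) ℝ} {dJ : Fin n → Fin n → ℝ} {Γ : Fin n → Fin n → ℝ}
    {Γ' : Fin n → Fin n → Fin n → ℝ} {i : Fin n}
    (hΓ : ∀ p j, ∑ l, J p l * Γ l j = dJ p j + ∑ r, (∑ o, J o i * Γ' p o r) * J r j)
    (k : Fin n) (c : Fin n → ℝ) (F : Fin n → Fin n → V) :
    ∑ l, Γ l k • ∑ p, ∑ q, (c p * J q l) • F p q =
      ∑ p, ∑ q, (c p * dJ q k) • F p q +
        ∑ o, ∑ p, ∑ q, (J o i * c p * J q k) • ∑ l, Γ' l o q • F p l := by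
  have h1 : ∀ l, ∑ p, ∑ q, (c p * J q l) • F p q = ∑ q, ∑ p, (J q l * c p) • F p q := by
    intro l
    rw [Finset.sum_comm]
    refine Finset.sum_congr rfl fun p _ => Finset.sum_congr rfl fun q _ => ?_
    rw [mul_comm]
  simp only [h1]
  rw [Ym_c3 hΓ k c (fun q p => F p q)]
  congr 1
  · rw [Finset.sum_comm]
    refine Finset.sum_congr rfl fun p _ => Finset.sum_congr rfl fun q _ => ?_
    rw [mul_comm]
  · refine Finset.sum_congr rfl fun o _ => ?_
    rw [Finset.sum_comm]
    refine Finset.sum_congr rfl fun p _ => Finset.sum_congr rfl fun q _ => ?_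
    rw [mul_right_comm]

theorem Ym_rot (a : Fin n → ℝ) (b : Fin n → Fin n → ℝ) (F : Fin n → Fin n → Fin n → V) :
    ∑ p, ∑ q, b p q • ∑ o, a o • F o p q = ∑ o, ∑ p, ∑ q, (a o * b p q) • F o p q := by
  calc ∑ p, ∑ q, b p q • ∑ o, a o • F o p q
      = ∑ p, ∑ q, ∑ o, (a o * b p q) • F o p q := by
        simp only [Finset.smul_sum, smul_smul]
        refine Finset.sum_congr rfl fun p _ => Finset.sum_congr rfl fun q _ =>
          Finset.sum_congr rfl fun o _ => ?_
        rw [mul_comm]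
    _ = ∑ p, ∑ o, ∑ q, (a o * b p q) • F o p q :=
        Finset.sum_congr rfl fun p _ => Finset.sum_comm
    _ = _ := Finset.sum_comm

end Sums

/-! ### The curvature -/

theorem Ym_cur_eq (B : Fin n → E n → EndF N) (i j : Fin n) (x : E n) :
    cur B i j x = curv B i j x := by
  unfold cur curv
  abel

theorem Ym_curv_congr {D : Set (E n)} (hD : RelOpen D) {B B' : Fin n → E n → EndF N}
    (h : ∀ j, EqOn (B j) (B' j) D) {x : E n} (hx : x ∈ D) (i j : Fin n) :
    curv B i j x = curv B' i j x := by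
  unfold curv
  rw [hD.pd_congr (h j) hx i, hD.pd_congr (h i) hx j, h i hx, h j hx]

theorem cur_pull {L L' : LD n N} {D D' : Set (E n)} {X Y : E n → E n} {S : E n → EndF N}
    (hD : RelOpen D) (hD' : RelOpen D') (hL' : L'.Ok D') (h : IsPull L L' D D' X Y S) {x : E n}
    (hx : x ∈ D) (i j : Fin n) :
    cur L.B i j x = S x * (∑ k, ∑ l, (Jac X x k i * Jac X x l j) • cur L'.B k l (X x)) *
      Ring.inverse (S x) := by
  rw [Ym_cur_eq, Ym_curv_congr hD (Ym_gau hD h) hx i j,
    hD.curv_gau (Ym_smSi h) h.smS (fun y hy => Ym_Si2 h hy) (fun y hy => Ym_Si1 h hy)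
      (Ym_smPull hD hL' h) hx i j,
    hD.curv_pull hD' h.diffeo.smX h.diffeo.mapsX hL'.B_smooth hx i j]
  simp only [Ym_cur_eq]
  rfl

theorem Ym_prod (J : Matrix (Fin n) (Fin n) ℝ) (F : Fin n → Fin n → EndF N) (j a k b : Fin n) :
    (∑ p, ∑ l, (J p j * J l a) • F p l) * (∑ q, ∑ m, (J q k * J m b) • F q m) =
      ∑ l, ∑ m, (J l a * J m b) • ∑ p, ∑ q, (J p j * J q k) • (F p l * F q m) := by
  calc (∑ p, ∑ l, (J p j * J l a) • F p l) * (∑ q, ∑ m, (J q k * J m b) • F q m)
      = ∑ p, ∑ l, ∑ q, ∑ m, (J l a * J m b) • ((J p j * J q k) • (F p l * F q m)) := by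
        rw [Finset.sum_mul]
        refine Finset.sum_congr rfl fun p _ => ?_
        rw [Finset.sum_mul]
        refine Finset.sum_congr rfl fun l _ => ?_
        rw [Finset.mul_sum]
        refine Finset.sum_congr rfl fun q _ => ?_
        rw [Finset.mul_sum]
        refine Finset.sum_congr rfl fun m _ => ?_
        rw [smul_mul_smul_comm, smul_smul]
        congr 1
        ring
    _ = ∑ l, ∑ p, ∑ q, ∑ m, (J l a * J m b) • ((J p j * J q k) • (F p l * F q m)) :=
        Finset.sum_comm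
    _ = ∑ l, ∑ p, ∑ m, ∑ q, (J l a * J m b) • ((J p j * J q k) • (F p l * F q m)) :=
        Finset.sum_congr rfl fun l _ => Finset.sum_congr rfl fun p _ => Finset.sum_comm
    _ = ∑ l, ∑ m, ∑ p, ∑ q, (J l a * J m b) • ((J p j * J q k) • (F p l * F q m)) :=
        Finset.sum_congr rfl fun l _ => Finset.sum_comm
    _ = _ := by
        simp only [Finset.smul_sum]

theorem Tst_pull {L L' : LD n N} {D D' : Set (E n)} {X Y : E n → E n} {S : E n → EndF N}
    (hD : RelOpen D) (hD' : RelOpen D') (hL : L.Ok D) (hL' : L'.Ok D')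
    (h : IsPull L L' D D' X Y S) {x : E n} (hx : x ∈ D) (j k : Fin n) :
    Tst L j k x = ∑ p, ∑ q, Jac X x p j * Jac X x q k * Tst L' p q (X x) := by
  set J := Jac X x with hJ
  have h1 : ∀ a b, (trE (cur L.B j a x * cur L.B k b x)).re =
      ∑ l, ∑ m, (J l a * J m b) • ∑ p, ∑ q, (J p j * J q k) •
        ymTr (cur L'.B p l (X x) * cur L'.B q m (X x)) := by
    intro a b
    rw [← ymTr_apply, cur_pull hD hD' hL' h hx j a, cur_pull hD hD' hL' h hx k b,
      ymTr_conj (Ym_Si2 h hx), ← hJ, Ym_prod J (fun p l => cur L'.B p l (X x)) j a k b]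
    simp only [map_sum, map_smul]
  have h2 : Tst L j k x = -∑ a, ∑ b, (L.g x)⁻¹ a b • ∑ l, ∑ m, (J l a * J m b) •
      ∑ p, ∑ q, (J p j * J q k) • ymTr (cur L'.B p l (X x) * cur L'.B q m (X x)) := by
    unfold Tst
    simp only [h1, smul_eq_mul]
  rw [h2, Ym_contrV (Ym_contr hL h hx)]
  simp only [Finset.smul_sum]
  rw [Ym_swap4]
  simp only [Tst, mul_neg, Finset.sum_neg_distrib, Finset.mul_sum, ymTr_apply, smul_eq_mul]
  refine neg_inj.mpr ?_
  refine Finset.sum_congr rfl fun p _ => Finset.sum_congr rfl fun q _ =>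
    Finset.sum_congr rfl fun l _ => Finset.sum_congr rfl fun m _ => ?_
  ring

/-! ### The covariant derivative of the curvature -/

theorem Ym_key {J : Matrix (Fin n) (Fin n) ℝ} {dJ : Fin n → Fin n → ℝ} {Γ : Fin n → Fin n → ℝ}
    {Γ' : Fin n → Fin n → Fin n → ℝ} {i : Fin n}
    (hΓ : ∀ p j, ∑ l, J p l * Γ l j = dJ p j + ∑ r, (∑ o, J o i * Γ' p o r) * J r j)
    (F : Fin n → Fin n → EndF N) (dF : Fin n → Fin n → Fin n → EndF N) (B : Fin n → EndF N)
    (j k : Fin n) :
    (∑ p, ∑ q, ((J p j * J q k) • ∑ o, J o i • dF o p q +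
        (J p j * dJ q k + dJ p j * J q k) • F p q) +
      ((∑ o, J o i • B o) * (∑ p, ∑ q, (J p j * J q k) • F p q) -
        (∑ p, ∑ q, (J p j * J q k) • F p q) * (∑ o, J o i • B o))) -
      ∑ l, (Γ l j • ∑ p, ∑ q, (J p l * J q k) • F p q +
        Γ l k • ∑ p, ∑ q, (J p j * J q l) • F p q) =
    ∑ o, ∑ p, ∑ q, (J o i * J p j * J q k) • (dF o p q -
      ∑ l, (Γ' l o p • F l q + Γ' l o q • F p l) + (B o * F p q - F p q * B o)) := by
  have e1 : (∑ o, J o i • B o) * (∑ p, ∑ q, (J p j * J q k) • F p q) =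
      ∑ o, ∑ p, ∑ q, (J o i * J p j * J q k) • (B o * F p q) := by
    rw [Finset.sum_mul]
    refine Finset.sum_congr rfl fun o _ => ?_
    rw [Finset.mul_sum]
    refine Finset.sum_congr rfl fun p _ => ?_
    rw [Finset.mul_sum]
    refine Finset.sum_congr rfl fun q _ => ?_
    rw [smul_mul_smul_comm, mul_assoc]
  have e2 : (∑ p, ∑ q, (J p j * J q k) • F p q) * (∑ o, J o i • B o) =
      ∑ o, ∑ p, ∑ q, (J o i * J p j * J q k) • (F p q * B o) := by
    rw [Finset.mul_sum]
    refine Finset.sum_congr rfl fun o _ => ?_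
    rw [Finset.sum_mul]
    refine Finset.sum_congr rfl fun p _ => ?_
    rw [Finset.sum_mul]
    refine Finset.sum_congr rfl fun q _ => ?_
    rw [smul_mul_smul_comm]
    congr 1
    ring
  have e3 : ∑ p, ∑ q, ((J p j * J q k) • ∑ o, J o i • dF o p q +
        (J p j * dJ q k + dJ p j * J q k) • F p q) =
      ∑ o, ∑ p, ∑ q, (J o i * J p j * J q k) • dF o p q +
        (∑ p, ∑ q, (J p j * dJ q k) • F p q + ∑ p, ∑ q, (dJ p j * J q k) • F p q) := by
    have e5 : ∀ p q, (J p j * dJ q k + dJ p j * J q k) • F p q =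
        (J p j * dJ q k) • F p q + (dJ p j * J q k) • F p q := fun p q =>
        Ym_addsmul (V := EndF N) _ _ _
    simp only [e5, Finset.sum_add_distrib]
    rw [Ym_rot (fun o => J o i) (fun p q => J p j * J q k) dF]
    simp only [mul_assoc]
  rw [e1, e2, e3, Finset.sum_add_distrib, Ym_c3 hΓ j (fun q => J q k) F,
    Ym_c4 hΓ k (fun p => J p j) F]
  have e4 : ∑ o, ∑ p, ∑ q, (J o i * J p j * J q k) • (dF o p q -
      ∑ l, (Γ' l o p • F l q + Γ' l o q • F p l) + (B o * F p q - F p q * B o)) =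
      ∑ o, ∑ p, ∑ q, (J o i * J p j * J q k) • dF o p q -
        (∑ o, ∑ p, ∑ q, (J o i * J p j * J q k) • ∑ l, Γ' l o p • F l q +
          ∑ o, ∑ p, ∑ q, (J o i * J p j * J q k) • ∑ l, Γ' l o q • F p l) +
        (∑ o, ∑ p, ∑ q, (J o i * J p j * J q k) • (B o * F p q) -
          ∑ o, ∑ p, ∑ q, (J o i * J p j * J q k) • (F p q * B o)) := by
    simp only [smul_add, smul_sub, Finset.sum_add_distrib, Finset.sum_sub_distrib]
  rw [e4]
  abel

section Cov

variable {L L' : LD n N} {D D' : Set (E n)} {X Y : E n → E n} {S : E n → EndF N}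

/-- The curvature in the pulled back frame. -/
def ymPhi (L' : LD n N) (X : E n → E n) (j k : Fin n) (y : E n) : EndF N :=
  ∑ p, ∑ q, (Jac X y p j * Jac X y q k) • cur L'.B p q (X y)

theorem Ym_smJ (hD : RelOpen D) (hX : ContDiffOn ℝ ∞ X D) (p j : Fin n) :
    ContDiffOn ℝ ∞ (fun y => Jac X y p j) D := hD.pd_smooth (coord_smooth hX p) j

theorem Ym_smF (hD' : RelOpen D') (hL' : L'.Ok D') (p q : Fin n) :
    ContDiffOn ℝ ∞ (cur L'.B p q) D' := by
  have h1 : cur L'.B p q = curv L'.B p q := funext fun x => Ym_cur_eq _ _ _ _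
  rw [h1]
  exact hD'.curv_smooth hL'.B_smooth p q

theorem Ym_smPhi (hD : RelOpen D) (hD' : RelOpen D') (hL' : L'.Ok D')
    (h : IsPull L L' D D' X Y S) (j k : Fin n) : ContDiffOn ℝ ∞ (ymPhi L' X j k) D := by
  unfold ymPhi
  refine ContDiffOn.sum fun p _ => ContDiffOn.sum fun q _ => ?_
  exact ((Ym_smJ hD h.diffeo.smX p j).mul (Ym_smJ hD h.diffeo.smX q k)).smul
    ((Ym_smF hD' hL' p q).comp h.diffeo.smX h.diffeo.mapsX)

theorem Ym_pdPhi (hD : RelOpen D) (hD' : RelOpen D') (hL' : L'.Ok D')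
    (h : IsPull L L' D D' X Y S) {x : E n} (hx : x ∈ D) (i j k : Fin n) :
    pd i (ymPhi L' X j k) x =
      ∑ p, ∑ q, ((Jac X x p j * Jac X x q k) • ∑ o, Jac X x o i • pd o (cur L'.B p q) (X x) +
        (Jac X x p j * pdM i (Jac X) x q k + pdM i (Jac X) x p j * Jac X x q k) •
          cur L'.B p q (X x)) := by
  have hJ := fun p j => Ym_smJ hD h.diffeo.smX p j
  have hF : ∀ p q, ContDiffOn ℝ ∞ (fun y => cur L'.B p q (X y)) D := fun p q =>
    (Ym_smF hD' hL' p q).comp h.diffeo.smX h.diffeo.mapsX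
  have hJJ : ∀ p q, ContDiffOn ℝ ∞ (fun y => Jac X y p j * Jac X y q k) D := fun p q =>
    (hJ p j).mul (hJ q k)
  have h1 : pd i (ymPhi L' X j k) x =
      ∑ p, pd i (fun y => ∑ q, (Jac X y p j * Jac X y q k) • cur L'.B p q (X y)) x :=
    hD.pd_sum Finset.univ (fun p _ => ContDiffOn.sum fun q _ => (hJJ p q).smul (hF p q)) hx i
  rw [h1]
  refine Finset.sum_congr rfl fun p _ => ?_
  have h2 : pd i (fun y => ∑ q, (Jac X y p j * Jac X y q k) • cur L'.B p q (X y)) x =
      ∑ q, pd i (fun y => (Jac X y p j * Jac X y q k) • cur L'.B p q (X y)) x :=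
    hD.pd_sum Finset.univ (fun q _ => (hJJ p q).smul (hF p q)) hx i
  rw [h2]
  refine Finset.sum_congr rfl fun q _ => ?_
  rw [hD.pd_smul (hJJ p q) (hF p q) hx i, hD.pd_mul (hJ p j) (hJ q k) hx i,
    hD.pd_comp hD' h.diffeo.smX h.diffeo.mapsX (Ym_smF hD' hL' p q) hx i]
  rfl

theorem Ym_Gamma (hD : RelOpen D) (hD' : RelOpen D') (hL : L.Ok D) (hL' : L'.Ok D')
    (h : IsPull L L' D D' X Y S) {x : E n} (hx : x ∈ D) (i p j : Fin n) :
    ∑ l, Jac X x p l * chr L.g l i j x = pdM i (Jac X) x p j +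
      ∑ r, (∑ o, Jac X x o i * chr L'.g p o r (X x)) * Jac X x r j := by
  have h1 := congrFun (congrFun (chr_pull hD hD' h.diffeo.mapsX h.diffeo.smX hL'.g_smooth
    hL.g_pos hL'.g_pos h.g_eq hx i) p) j
  rw [Matrix.mul_apply, Matrix.add_apply, Matrix.mul_apply] at h1
  simp only [Matrix.sum_apply, Matrix.smul_apply, smul_eq_mul] at h1
  exact h1

end Cov

theorem covF_pull {L L' : LD n N} {D D' : Set (E n)} {X Y : E n → E n} {S : E n → EndF N}
    (hD : RelOpen D) (hD' : RelOpen D') (hL : L.Ok D) (hL' : L'.Ok D')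
    (h : IsPull L L' D D' X Y S) {x : E n} (hx : x ∈ D) (i j k : Fin n) :
    covF L i j k x = S x * (∑ o, ∑ p, ∑ q, (Jac X x o i * Jac X x p j * Jac X x q k) •
      covF L' o p q (X x)) * Ring.inverse (S x) := by
  have hc : ∀ a b, EqOn (cur L.B a b)
      (fun y => S y * ymPhi L' X a b y * Ring.inverse (S y)) D := fun a b y hy =>
    cur_pull hD hD' hL' h hy a b
  have hΦ := fun a b => Ym_smPhi hD hD' hL' h a b
  have h1 : pd i (cur L.B j k) x =
      S x * ymPhi L' X j k x * (-(Ring.inverse (S x) * pd i S x * Ring.inverse (S x))) +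
        (S x * pd i (ymPhi L' X j k) x + pd i S x * ymPhi L' X j k x) * Ring.inverse (S x) := by
    rw [hD.pd_congr (hc j k) hx i,
      hD.pd_mul (a := fun y => S y * ymPhi L' X j k y) (smooth_mul h.smS (hΦ j k)) (Ym_smSi h) hx i,
      hD.pd_mul h.smS (hΦ j k) hx i, Ym_pdSi hD h hx i]
  have h2 : ∀ a b, cur L.B a b x = S x * ymPhi L' X a b x * Ring.inverse (S x) := fun a b =>
    hc a b hx
  have h3 : covF L i j k x = (pd i (cur L.B j k) x +
      (L.B i x * cur L.B j k x - cur L.B j k x * L.B i x)) -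
      ∑ l, (chr L.g l i j x • cur L.B l k x + chr L.g l i k x • cur L.B j l x) := by
    unfold covF
    abel
  have h4 : ∑ l, (chr L.g l i j x • cur L.B l k x + chr L.g l i k x • cur L.B j l x) =
      S x * (∑ l, (chr L.g l i j x • ymPhi L' X l k x + chr L.g l i k x • ymPhi L' X j l x)) *
        Ring.inverse (S x) := by
    rw [Finset.mul_sum, Finset.sum_mul]
    refine Finset.sum_congr rfl fun l _ => ?_
    rw [h2, h2, mul_add, add_mul, mul_smul_comm, mul_smul_comm, smul_mul_assoc, smul_mul_assoc]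
  rw [h3, h4, h1, h2, Ym_B hD h hx i, Ym_alg2 _ _ _ _ _ _ (Ym_Si1 h hx) (Ym_Si2 h hx),
    Ym_pdPhi hD hD' hL' h hx i j k, ← sub_mul, ← mul_sub]
  congr 2
  exact Ym_key (Γ := fun l j => chr L.g l i j x) (Γ' := fun l o p => chr L'.g l o p (X x))
    (dJ := fun p j => pdM i (Jac X) x p j) (fun p j => Ym_Gamma hD hD' hL hL' h hx i p j)
    (fun p q => cur L'.B p q (X x)) (fun o p q => pd o (cur L'.B p q) (X x))
    (fun o => L'.B o (X x)) j k

theorem eym_pull {L L' : LD n N} {D D' : Set (E n)} {X Y : E n → E n} {S : E n → EndF N}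
    (hD : RelOpen D) (hD' : RelOpen D') (hL : L.Ok D) (hL' : L'.Ok D')
    (h : IsPull L L' D D' X Y S) {κ α β : ℝ} (he : EYMeq κ α β L' D') : EYMeq κ α β L D := by
  refine ⟨fun x hx j k => ?_, fun x hx k => ?_⟩
  · have hX := h.diffeo.mapsX hx
    rw [ric_pull hD hD' h.diffeo.mapsX h.diffeo.smX hL.g_smooth hL'.g_smooth hL.g_pos hL'.g_pos
      h.g_eq hx j k]
    have hg : L.g x j k = ∑ p, ∑ q, Jac X x p j * Jac X x q k * L'.g (X x) p q := by
      rw [h.g_eq x hx, Matrix.mul_apply]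
      simp only [Matrix.mul_apply, Matrix.transpose_apply, Finset.sum_mul]
      rw [Finset.sum_comm]
      refine Finset.sum_congr rfl fun p _ => Finset.sum_congr rfl fun q _ => ?_
      ring
    have ht : ∑ a, ∑ b, (L.g x)⁻¹ a b * Tst L a b x =
        ∑ a, ∑ b, (L'.g (X x))⁻¹ a b * Tst L' a b (X x) := by
      have h1 := Ym_contrV (Ym_contr hL h hx) (fun l m => Tst L' l m (X x))
      simp only [smul_eq_mul] at h1
      rw [← h1]
      refine Finset.sum_congr rfl fun a _ => Finset.sum_congr rfl fun b _ => ?_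
      rw [Tst_pull hD hD' hL hL' h hx a b]
    have h2 : ∀ p q, Jac X x p j * Jac X x q k * ric L'.g p q (X x) =
        κ * (Jac X x p j * Jac X x q k * L'.g (X x) p q) +
          α * (Jac X x p j * Jac X x q k * Tst L' p q (X x)) +
          β * (∑ a, ∑ b, (L'.g (X x))⁻¹ a b * Tst L' a b (X x)) *
            (Jac X x p j * Jac X x q k * L'.g (X x) p q) := by
      intro p q
      rw [he.ein _ hX]
      unfold rhsE
      ring
    unfold rhsE
    rw [ht, Tst_pull hD hD' hL hL' h hx j k, hg]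
    simp only [h2, Finset.sum_add_distrib, ← Finset.mul_sum]
  · have hX := h.diffeo.mapsX hx
    have h1 : ymE L k x = ∑ i, ∑ j, (L.g x)⁻¹ i j • covF L i j k x := rfl
    have h2 : ∀ q, ymE L' q (X x) = ∑ o, ∑ p, (L'.g (X x))⁻¹ o p • covF L' o p q (X x) :=
      fun q => rfl
    have h3 : ∀ i j, covF L i j k x = S x * (∑ o, ∑ p, (Jac X x o i * Jac X x p j) •
        ∑ q, Jac X x q k • covF L' o p q (X x)) * Ring.inverse (S x) := by
      intro i j
      rw [covF_pull hD hD' hL hL' h hx i j k]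
      simp only [Finset.smul_sum, smul_smul]
    have h4 : ymE L k x = S x * (∑ i, ∑ j, (L.g x)⁻¹ i j • ∑ o, ∑ p,
        (Jac X x o i * Jac X x p j) • ∑ q, Jac X x q k • covF L' o p q (X x)) *
          Ring.inverse (S x) := by
      rw [h1]
      simp only [h3]
      rw [Finset.mul_sum, Finset.sum_mul]
      refine Finset.sum_congr rfl fun i _ => ?_
      rw [Finset.mul_sum, Finset.sum_mul]
      refine Finset.sum_congr rfl fun j _ => ?_
      rw [mul_smul_comm, smul_mul_assoc]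
    have h6 : ∑ i, ∑ j, (L.g x)⁻¹ i j • ∑ o, ∑ p,
        (Jac X x o i * Jac X x p j) • ∑ q, Jac X x q k • covF L' o p q (X x) =
        ∑ o, ∑ p, (L'.g (X x))⁻¹ o p • ∑ q, Jac X x q k • covF L' o p q (X x) :=
      Ym_contrV (Ym_contr hL h hx) (fun o p => ∑ q, Jac X x q k • covF L' o p q (X x))
    rw [h4, h6]
    have h5 : ∑ o, ∑ p, (L'.g (X x))⁻¹ o p • ∑ q, Jac X x q k • covF L' o p q (X x) =
        ∑ q, Jac X x q k • ymE L' q (X x) := by
      simp only [Finset.smul_sum, smul_smul, h2]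
      calc ∑ o, ∑ p, ∑ q, ((L'.g (X x))⁻¹ o p * Jac X x q k) • covF L' o p q (X x)
          = ∑ o, ∑ q, ∑ p, ((L'.g (X x))⁻¹ o p * Jac X x q k) • covF L' o p q (X x) :=
            Finset.sum_congr rfl fun o _ => Finset.sum_comm
        _ = ∑ q, ∑ o, ∑ p, ((L'.g (X x))⁻¹ o p * Jac X x q k) • covF L' o p q (X x) :=
            Finset.sum_comm
        _ = _ := by
            refine Finset.sum_congr rfl fun q _ => Finset.sum_congr rfl fun o _ =>
              Finset.sum_congr rfl fun p _ => ?_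
            rw [mul_comm]
    rw [h5, Ym_sum0 (fun q => Jac X x q k) (fun q => ymE L' q (X x)) (he.ym _ hX), mul_zero,
      zero_mul]

end Vale.Agent.P088.EYM
end
end

section

/-!
# P088-EYM, block B, B-T7: inverse, composition, push forward of local data
-/

open MeasureTheory Set Filter Topology
open scoped ContDiff

noncomputable section

namespace Vale.Agent.P088.EYM

variable {n N : ℕ} [NeZero n]

theorem push_jac_comp {D D' : Set (E n)} (hD : RelOpen D) (hD' : RelOpen D') {X X' : E n → E n}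
    (hX : ContDiffOn ℝ ∞ X D) (hm : MapsTo X D D') (hX' : ContDiffOn ℝ ∞ X' D') {x : E n}
    (hx : x ∈ D) : Jac (fun y => X' (X y)) x = Jac X' (X x) * Jac X x := by
  ext i j
  simp only [Jac, Matrix.of_apply, Matrix.mul_apply]
  rw [hD.pd_comp hD' hX hm (coord_smooth hX' i) hx j]
  refine Finset.sum_congr rfl fun k _ => ?_
  rw [smul_eq_mul, mul_comm]

theorem push_jac_id {x : E n} (hx : x ∈ Hs n) : Jac (fun y : E n => y) x = 1 := by
  ext i j
  simp only [Jac, Matrix.of_apply]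
  have h : HasFDerivWithinAt (fun y : E n => y i) (EuclideanSpace.proj (𝕜 := ℝ) i) (Hs n) x :=
    (EuclideanSpace.proj (𝕜 := ℝ) i).hasFDerivWithinAt
  rw [pd_of_has hx h j]
  simp [Matrix.one_apply]

theorem push_jac_inv {D D' : Set (E n)} (hD : RelOpen D) (hD' : RelOpen D') {X Y : E n → E n}
    (h : IsDiffeo D D' X Y) {x : E n} (hx : x ∈ D) : Jac Y (X x) * Jac X x = 1 := by
  rw [← push_jac_comp hD hD' h.smX h.mapsX h.smY hx, ← push_jac_id (hD.subset hx)]
  ext i j
  simp only [Jac, Matrix.of_apply]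
  exact hD.pd_congr (fun y hy => by simp only [h.inv1 y hy]) hx j

omit [NeZero n] in
theorem push_diffeo_symm {D D' : Set (E n)} {X Y : E n → E n}
    (h : IsDiffeo D D' X Y) : IsDiffeo D' D Y X :=
  ⟨h.mapsY, h.mapsX, h.inv2, h.inv1, h.smY, h.smX⟩

theorem push_jac_smooth {D : Set (E n)} (hD : RelOpen D) {X : E n → E n}
    (hX : ContDiffOn ℝ ∞ X D) (i j : Fin n) : ContDiffOn ℝ ∞ (fun x => Jac X x i j) D :=
  hD.pd_smooth (coord_smooth hX i) j

/-- composition with a map -/
theorem push_comp {F : Type*} [NormedAddCommGroup F] [NormedSpace ℝ F] {D D' : Set (E n)}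
    (hD : RelOpen D) (hD' : RelOpen D') {Y : E n → E n}
    (hY : ContDiffOn ℝ ∞ Y D) (hm : MapsTo Y D D') {f : E n → F} (hf : ContDiffOn ℝ ∞ f D')
    {x : E n} (hx : x ∈ D) (j : Fin n) :
    pd j (fun y => f (Y y)) x = ∑ k, Jac Y x k j • pd k f (Y x) :=
  hD.pd_comp hD' hY hm hf hx j

theorem bSymm : BSymm_statement := by
  intro n N _ L L' D D' X Y S hD hD' h
  have hd := push_diffeo_symm h.diffeo
  have hSY : ContDiffOn ℝ ∞ (fun y => S (Y y)) D' := h.smS.comp h.diffeo.smY h.diffeo.mapsY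
  have hu : ∀ y ∈ D', IsUnit (S (Y y)) := fun y hy => h.unit _ (h.diffeo.mapsY hy)
  have hSi : ContDiffOn ℝ ∞ (fun y => Ring.inverse (S (Y y))) D' := smooth_ringInverse hSY hu
  refine ⟨hd, hSi, fun y hy => (hu y hy).ringInverse, fun y hy => ?_, fun y hy j => ?_,
    fun y hy => ?_⟩
  · have h1 := h.g_eq _ (h.diffeo.mapsY hy)
    rw [h.diffeo.inv2 y hy] at h1
    have h2 := push_jac_inv hD' hD hd hy
    rw [h1]
    have h3 : (Jac Y y).transpose * (Jac X (Y y)).transpose = 1 := by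
      rw [← Matrix.transpose_mul, h2, Matrix.transpose_one]
    calc L'.g y = 1 * L'.g y * 1 := by rw [one_mul, mul_one]
      _ = ((Jac Y y).transpose * (Jac X (Y y)).transpose) * L'.g y * (Jac X (Y y) * Jac Y y) := by
          rw [h3, h2]
      _ = _ := by simp only [Matrix.mul_assoc]
  · have h1 := hD'.pd_inv hSY hSi (fun y hy => Ring.mul_inverse_cancel _ (hu y hy))
      (fun y hy => Ring.inverse_mul_cancel _ (hu y hy)) hy j
    have h2 := push_comp hD' hD h.diffeo.smY h.diffeo.mapsY h.smS hy j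
    have h3 : ∀ k, pd k S (Y y) = S (Y y) * (∑ l, Jac X (Y y) l k • L'.B l y) -
        L.B k (Y y) * S (Y y) := by
      intro k
      have := h.B_eq _ (h.diffeo.mapsY hy) k
      rw [h.diffeo.inv2 y hy] at this
      rw [← this]
      abel
    have h4 : ∑ k, Jac Y y k j • pd k S (Y y) = S (Y y) * L'.B j y -
        (∑ k, Jac Y y k j • L.B k (Y y)) * S (Y y) := by
      simp only [h3, smul_sub, Finset.sum_sub_distrib]
      congr 1
      · simp only [Finset.mul_sum, Finset.smul_sum, mul_smul_comm, smul_smul]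
        rw [Finset.sum_comm]
        have h5 : ∀ l, ∑ k, (Jac Y y k j * Jac X (Y y) l k) • (S (Y y) * L'.B l y) =
            (if l = j then (1:ℝ) else 0) • (S (Y y) * L'.B l y) := by
          intro l
          rw [← Finset.sum_smul]
          congr 1
          have h6 := congrFun (congrFun (push_jac_inv hD' hD hd hy) l) j
          rw [Matrix.mul_apply, Matrix.one_apply] at h6
          rw [← h6]
          exact Finset.sum_congr rfl fun k _ => mul_comm _ _
        rw [Finset.sum_congr rfl fun l _ => h5 l, Finset.sum_eq_single j]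
        · rw [if_pos rfl, one_smul]
        · intro l _ hl
          rw [if_neg hl]
          exact zero_smul ℝ (S (Y y) * L'.B l y)
        · intro hj
          exact absurd (Finset.mem_univ j) hj
      · simp only [Finset.sum_mul, smul_mul_assoc]
    rw [h2, h4] at h1
    rw [h1]
    have e1 : Ring.inverse (S (Y y)) * S (Y y) = 1 := Ring.inverse_mul_cancel _ (hu y hy)
    have e2 : S (Y y) * Ring.inverse (S (Y y)) = 1 := Ring.mul_inverse_cancel _ (hu y hy)
    have e3 : Ring.inverse (S (Y y)) * (S (Y y) * L'.B j y) = L'.B j y := by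
      rw [← mul_assoc, e1, one_mul]
    have e4 : Ring.inverse (S (Y y)) * ((∑ k, Jac Y y k j • L.B k (Y y)) * S (Y y)) *
        Ring.inverse (S (Y y)) =
        Ring.inverse (S (Y y)) * (∑ k, Jac Y y k j • L.B k (Y y)) := by
      rw [mul_assoc, mul_assoc, e2, mul_one]
    rw [mul_sub, sub_mul, e3, e4]
    abel
  · have h1 := h.h_eq _ (h.diffeo.mapsY hy)
    rw [h.diffeo.inv2 y hy] at h1
    rw [← h1]
    have e2 : S (Y y) * Ring.inverse (S (Y y)) = 1 := Ring.mul_inverse_cancel _ (hu y hy)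
    have e3 : ContinuousLinearMap.adjoint (Ring.inverse (S (Y y))) *
        ContinuousLinearMap.adjoint (S (Y y)) = 1 := by
      rw [← adj_mulE, e2]
      exact ContinuousLinearMap.adjoint_id
    calc ContinuousLinearMap.adjoint (Ring.inverse (S (Y y))) *
          (ContinuousLinearMap.adjoint (S (Y y)) * L.h (Y y) * S (Y y)) *
            Ring.inverse (S (Y y))
        = (ContinuousLinearMap.adjoint (Ring.inverse (S (Y y))) *
          ContinuousLinearMap.adjoint (S (Y y))) * L.h (Y y) *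
            (S (Y y) * Ring.inverse (S (Y y))) := by simp only [mul_assoc]
      _ = L.h (Y y) := by rw [e2, e3, one_mul, mul_one]

theorem bComp : BComp_statement := by
  intro n N _ L L' L'' D D' D'' X Y X' Y' S S' hD hD' hD'' h h'
  have hS'X : ContDiffOn ℝ ∞ (fun x => S' (X x)) D := h'.smS.comp h.diffeo.smX h.diffeo.mapsX
  have hJ : ∀ x ∈ D, Jac (X' ∘ X) x = Jac X' (X x) * Jac X x := fun x hx =>
    push_jac_comp hD hD' h.diffeo.smX h.diffeo.mapsX h'.diffeo.smX hx
  refine ⟨⟨h'.diffeo.mapsX.comp h.diffeo.mapsX, h.diffeo.mapsY.comp h'.diffeo.mapsY, ?_, ?_,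
    h'.diffeo.smX.comp h.diffeo.smX h.diffeo.mapsX,
    h.diffeo.smY.comp h'.diffeo.smY h'.diffeo.mapsY⟩, smooth_mul h.smS hS'X,
    fun x hx => (h.unit x hx).mul (h'.unit _ (h.diffeo.mapsX hx)), fun x hx => ?_,
    fun x hx j => ?_, fun x hx => ?_⟩
  · intro x hx
    simp only [Function.comp_apply]
    rw [h'.diffeo.inv1 _ (h.diffeo.mapsX hx), h.diffeo.inv1 x hx]
  · intro x hx
    simp only [Function.comp_apply]
    rw [h.diffeo.inv2 _ (h'.diffeo.mapsY hx), h'.diffeo.inv2 x hx]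
  · rw [hJ x hx, h.g_eq x hx, h'.g_eq _ (h.diffeo.mapsX hx), Matrix.transpose_mul]
    simp only [Matrix.mul_assoc, Function.comp_apply]
  · have h1 := hD.pd_mul h.smS hS'X hx j
    have h2 := push_comp hD hD' h.diffeo.smX h.diffeo.mapsX h'.smS hx j
    have h3 : pd j S x = S x * (∑ k, Jac X x k j • L'.B k (X x)) - L.B j x * S x := by
      rw [← h.B_eq x hx j]; abel
    have h4 : ∀ k, pd k S' (X x) = S' (X x) * (∑ l, Jac X' (X x) l k • L''.B l (X' (X x))) -
        L'.B k (X x) * S' (X x) := by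
      intro k
      rw [← h'.B_eq _ (h.diffeo.mapsX hx) k]; abel
    have h5 : ∑ k, Jac X x k j • pd k S' (X x) =
        S' (X x) * (∑ l, Jac (X' ∘ X) x l j • L''.B l (X' (X x))) -
        (∑ k, Jac X x k j • L'.B k (X x)) * S' (X x) := by
      simp only [h4, smul_sub, Finset.sum_sub_distrib]
      congr 1
      · simp only [Finset.mul_sum, Finset.smul_sum, mul_smul_comm, smul_smul]
        rw [Finset.sum_comm]
        refine Finset.sum_congr rfl fun l _ => ?_
        rw [← Finset.sum_smul, hJ x hx, Matrix.mul_apply]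
        congr 1
        exact Finset.sum_congr rfl fun k _ => mul_comm _ _
      · simp only [Finset.sum_mul, smul_mul_assoc]
    simp only [Function.comp_apply]
    rw [h1, h2, h5, h3]
    simp only [mul_sub, sub_mul, mul_assoc]
    abel
  · have h1 := h.h_eq x hx
    have h2 := h'.h_eq _ (h.diffeo.mapsX hx)
    simp only [Function.comp_apply]
    rw [← h2, ← h1, adj_mulE]
    simp only [mul_assoc]

/-- the push forward of local data -/
theorem push_exists {L : LD n N} {D D' : Set (E n)} {X Y : E n → E n} {S : E n → EndF N}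
    (hD : RelOpen D) (hD' : RelOpen D') (hL : L.Ok D) (hXY : IsDiffeo D D' X Y)
    (hS : ContDiffOn ℝ ∞ S D) (hu : ∀ x ∈ D, IsUnit (S x)) :
    ∃ L' : LD n N, L'.Ok D' ∧ IsPull L L' D D' X Y S := by
  have hYX := push_diffeo_symm hXY
  have hSY : ContDiffOn ℝ ∞ (fun y => S (Y y)) D' := hS.comp hXY.smY hXY.mapsY
  have hhY : ContDiffOn ℝ ∞ (fun y => L.h (Y y)) D' := hL.h_smooth.comp hXY.smY hXY.mapsY
  have hBY : ∀ k, ContDiffOn ℝ ∞ (fun y => L.B k (Y y)) D' := fun k =>
    (hL.B_smooth k).comp hXY.smY hXY.mapsY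
  have huY : ∀ y ∈ D', IsUnit (S (Y y)) := fun y hy => hu _ (hXY.mapsY hy)
  have hSi : ContDiffOn ℝ ∞ (fun y => Ring.inverse (S (Y y))) D' := smooth_ringInverse hSY huY
  set L' : LD n N :=
    { g := fun y => (Jac Y y).transpose * L.g (Y y) * Jac Y y
      B := fun j y => Ring.inverse (S (Y y)) *
        (∑ k, Jac Y y k j • (pd k S (Y y) + L.B k (Y y) * S (Y y)))
      h := fun y => ContinuousLinearMap.adjoint (S (Y y)) * L.h (Y y) * S (Y y) } with hL'
  have hJJ : ∀ x ∈ D, Jac Y (X x) * Jac X x = 1 := fun x hx => push_jac_inv hD hD' hXY hx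
  have hJJ' : ∀ y ∈ D', Jac X (Y y) * Jac Y y = 1 := fun y hy => push_jac_inv hD' hD hYX hy
  refine ⟨L', ⟨?_, ?_, ?_, ?_, ?_, ?_, ?_⟩, ⟨hXY, hS, hu, ?_, ?_, ?_⟩⟩
  · intro i j
    simp only [hL', Matrix.mul_apply, Matrix.transpose_apply]
    refine ContDiffOn.sum fun k _ => ContDiffOn.mul (ContDiffOn.sum fun l _ => ContDiffOn.mul ?_ ?_) ?_
    · exact push_jac_smooth hD' hXY.smY l i
    · exact (hL.g_smooth l k).comp hXY.smY hXY.mapsY
    · exact push_jac_smooth hD' hXY.smY k j
  · intro y hy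
    have h1 := (hL.g_pos _ (hXY.mapsY hy)).conjTranspose_mul_mul_same (B := Jac Y y) ?_
    · rwa [Matrix.conjTranspose_eq_transpose_of_trivial] at h1
    · intro v w hvw
      have : (Jac X (Y y)).mulVec ((Jac Y y).mulVec v) =
          (Jac X (Y y)).mulVec ((Jac Y y).mulVec w) := by rw [hvw]
      rwa [Matrix.mulVec_mulVec, Matrix.mulVec_mulVec, hJJ' y hy, Matrix.one_mulVec,
        Matrix.one_mulVec] at this
  · intro j
    simp only [hL']
    refine smooth_mul hSi (ContDiffOn.sum fun k _ => ContDiffOn.smul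
      (push_jac_smooth hD' hXY.smY k j) (ContDiffOn.add ?_ (smooth_mul (hBY k) hSY)))
    exact (hD.pd_smooth hS k).comp hXY.smY hXY.mapsY
  · simp only [hL']
    exact smooth_mul (smooth_mul (smooth_adj hSY) hhY) hSY
  · intro y hy
    simp only [hL']
    rw [adj_mulE, adj_mulE, ContinuousLinearMap.adjoint_adjoint, hL.h_adj _ (hXY.mapsY hy),
      mul_assoc]
  · intro y hy v hv
    simp only [hL']
    have hv' : S (Y y) v ≠ 0 := by
      intro h0
      apply hv
      have : (Ring.inverse (S (Y y)) * S (Y y)) v = 0 := by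
        rw [mul_apply_eq_comp, h0, map_zero]
      rwa [Ring.inverse_mul_cancel _ (huY y hy), one_apply_eq_self] at this
    have := hL.h_pos _ (hXY.mapsY hy) _ hv'
    rw [mul_apply_eq_comp, mul_apply_eq_comp,
      ContinuousLinearMap.adjoint_inner_right]
    exact this
  · intro y hy j
    have hy' := hXY.mapsY hy
    have hadj : ContDiffOn ℝ ∞ (fun y => ContinuousLinearMap.adjoint (S (Y y))) D' :=
      smooth_adj hSY
    simp only [hL']
    rw [hD'.pd_mul (smooth_mul hadj hhY) hSY hy j, hD'.pd_mul hadj hhY hy j,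
      hD'.pd_adj hSY hy j, push_comp hD' hD hXY.smY hXY.mapsY hS hy j,
      push_comp hD' hD hXY.smY hXY.mapsY hL.h_smooth hy j]
    set T := S (Y y) with hT
    set P := ∑ k, Jac Y y k j • pd k S (Y y) with hP
    set M := ∑ k, Jac Y y k j • L.B k (Y y) with hM
    have e1 : T * Ring.inverse T = 1 := Ring.mul_inverse_cancel _ (huY y hy)
    have e2 : (∑ k, Jac Y y k j • (pd k S (Y y) + L.B k (Y y) * T)) = P + M * T := by
      simp only [hP, hM, smul_add, Finset.sum_add_distrib, Finset.sum_mul, smul_mul_assoc]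
    have e3 : ∑ k, Jac Y y k j • pd k L.h (Y y) =
        ContinuousLinearMap.adjoint M * L.h (Y y) + L.h (Y y) * M := by
      have : ∀ k, Jac Y y k j • pd k L.h (Y y) =
          adjRE (Jac Y y k j • L.B k (Y y)) * L.h (Y y) +
            L.h (Y y) * (Jac Y y k j • L.B k (Y y)) := by
        intro k
        rw [hL.compat _ hy' k, smul_add, map_smul, smul_mul_assoc, mul_smul_comm, adjRE_apply]
      rw [Finset.sum_congr rfl fun k _ => this k, Finset.sum_add_distrib, ← Finset.sum_mul,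
        ← Finset.mul_sum, ← map_sum, adjRE_apply]
    have e4 : T * (Ring.inverse T * (P + M * T)) = P + M * T := by
      rw [← mul_assoc, e1, one_mul]
    have e5 : ContinuousLinearMap.adjoint (Ring.inverse T * (P + M * T)) *
        (ContinuousLinearMap.adjoint T * L.h (Y y) * T) =
        ContinuousLinearMap.adjoint (P + M * T) * L.h (Y y) * T := by
      rw [← mul_assoc, ← mul_assoc, ← adj_mulE, e4]
    have e6 : (ContinuousLinearMap.adjoint T * L.h (Y y) * T) *
        (Ring.inverse T * (P + M * T)) =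
        ContinuousLinearMap.adjoint T * L.h (Y y) * (P + M * T) := by
      rw [mul_assoc (ContinuousLinearMap.adjoint T * L.h (Y y)) T, e4]
    rw [e2, e3, e5, e6, map_add, adj_mulE]
    simp only [mul_assoc, mul_add, add_mul]
    abel
  · intro x hx
    simp only [hL']
    rw [hXY.inv1 x hx]
    have h3 : (Jac X x).transpose * (Jac Y (X x)).transpose = 1 := by
      rw [← Matrix.transpose_mul, hJJ x hx, Matrix.transpose_one]
    calc L.g x = 1 * L.g x * 1 := by rw [one_mul, mul_one]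
      _ = ((Jac X x).transpose * (Jac Y (X x)).transpose) * L.g x *
          (Jac Y (X x) * Jac X x) := by rw [h3, hJJ x hx]
      _ = _ := by simp only [Matrix.mul_assoc]
  · intro x hx j
    simp only [hL']
    rw [hXY.inv1 x hx]
    set T := S x with hT
    have e1 : T * Ring.inverse T = 1 := Ring.mul_inverse_cancel _ (hu x hx)
    have h5 : ∑ k, Jac X x k j • (Ring.inverse T *
        ∑ l, Jac Y (X x) l k • (pd l S x + L.B l x * T)) =
        Ring.inverse T * (pd j S x + L.B j x * T) := by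
      simp only [Finset.mul_sum, Finset.smul_sum, mul_smul_comm, smul_smul]
      rw [Finset.sum_comm]
      have h6 : ∀ l, ∑ k, (Jac X x k j * Jac Y (X x) l k) •
          (Ring.inverse T * (pd l S x + L.B l x * T)) =
          (if l = j then (1:ℝ) else 0) • (Ring.inverse T * (pd l S x + L.B l x * T)) := by
        intro l
        rw [← Finset.sum_smul]
        congr 1
        have h6 := congrFun (congrFun (hJJ x hx) l) j
        rw [Matrix.mul_apply, Matrix.one_apply] at h6
        rw [← h6]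
        exact Finset.sum_congr rfl fun k _ => mul_comm _ _
      rw [Finset.sum_congr rfl fun l _ => h6 l, Finset.sum_eq_single j]
      · rw [if_pos rfl, one_smul]
      · intro l _ hl
        rw [if_neg hl]
        exact zero_smul ℝ (Ring.inverse T * (pd l S x + L.B l x * T))
      · intro hj
        exact absurd (Finset.mem_univ j) hj
    rw [h5, ← mul_assoc, e1, one_mul]
  · intro x hx
    simp only [hL']
    rw [hXY.inv1 x hx]

theorem bPush : BPush_statement := by
  intro n N _ L D D' X Y S hD hD' hL hXY hS hu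
  obtain ⟨L', hL', hP⟩ := push_exists hD hD' hL hXY hS hu
  exact ⟨L', hL', hP, fun κ α β he =>
    eym_pull hD' hD hL' hL (bSymm n N L L' D D' X Y S hD hD' hP) he⟩

theorem bChr : BChr_statement := by
  intro n _ g g' D D' X hDo hDH hDo' hDH' hm hX hg hg' hp hp' hpull x hx i j k
  have hD : RelOpen D := ⟨D, hDo, (inter_eq_left.mpr hDH).symm⟩
  have hD' : RelOpen D' := ⟨D', hDo', (inter_eq_left.mpr hDH').symm⟩
  have h := congrFun (congrFun (chr_pull hD hD' hm hX hg' hp hp' hpull hx i) k) j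
  simp only [Matrix.mul_apply, Matrix.add_apply, mchr, pdM, Matrix.of_apply, Matrix.sum_apply,
    Matrix.smul_apply, smul_eq_mul] at h
  have h1 : ∑ l, chr g l i j x * Jac X x k l = ∑ l, Jac X x k l * chr g l i j x :=
    Finset.sum_congr rfl fun l _ => mul_comm _ _
  have h2 : ∑ a, ∑ b, chr g' k a b (X x) * Jac X x a i * Jac X x b j =
      ∑ b, (∑ a, Jac X x a i * chr g' k a b (X x)) * Jac X x b j := by
    rw [Finset.sum_comm]
    refine Finset.sum_congr rfl fun b _ => ?_
    rw [Finset.sum_mul]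
    exact Finset.sum_congr rfl fun a _ => by ring
  rw [h1, h2, h]
  ring

end Vale.Agent.P088.EYM
end
end

section

/-!
# P088-EYM, block D, module D6: the real part of the phase decays away from the face
-/

open MeasureTheory Set Filter Topology
open scoped ContDiff

noncomputable section

namespace Vale.Agent.P088.EYM

variable {n : ℕ} [NeZero n] {N : ℕ}
variable {D : Set (E n)}

/-- positivity of `ρ` -/
theorem db_rho_pos {A : Matrix (Fin n) (Fin n) ℝ} (hA : A.PosDef) {ξ : Fin n → ℝ} (hξ0 : ξ 0 = 0)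
    (hξ : ξ ≠ 0) : 0 < rho A ξ := by
  have h00 : 0 < A 0 0 := by
    have h := hA.diag_pos (i := 0)
    exact h
  set β : ℝ := (∑ k, A 0 k * ξ k) / A 0 0 with hβ
  set η : Fin n → ℝ := fun j => ξ j - if j = 0 then β else 0 with hη
  have hη0 : η ≠ 0 := by
    intro h
    apply hξ
    funext j
    by_cases hj : j = 0
    · rw [hj, hξ0]; rfl
    · have := congrFun h j
      simpa only [Pi.zero_apply, hη, hj, ↓reduceIte, sub_zero] using this
  have hpos := hA.dotProduct_mulVec_pos hη0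
  have hsym : ∀ j k, A j k = A k j := fun j k => by
    have := hA.isHermitian.apply j k
    simpa using this.symm
  have hval : star η ⬝ᵥ A.mulVec η =
      (∑ j, ∑ k, A j k * ξ j * ξ k) - (∑ k, A 0 k * ξ k) ^ 2 / A 0 0 := by
    have h1 : star η ⬝ᵥ A.mulVec η = ∑ j, ∑ k, A j k * η j * η k := by
      simp only [dotProduct, Matrix.mulVec, star_trivial, Finset.mul_sum, Pi.star_apply]
      refine Finset.sum_congr rfl fun j _ => Finset.sum_congr rfl fun k _ => ?_
      ring
    have h2 : ∀ j k, A j k * η j * η k = A j k * ξ j * ξ k - (if k = 0 then A j k * ξ j * β else 0)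
        - (if j = 0 then A j k * ξ k * β else 0)
        + (if j = 0 then (if k = 0 then A j k * β * β else 0) else 0) := by
      intro j k
      simp only [hη]
      by_cases hj : j = 0 <;> by_cases hk : k = 0 <;> simp [hj, hk] <;> ring
    rw [h1]
    simp only [h2, Finset.sum_add_distrib, Finset.sum_sub_distrib]
    have h3 : ∑ j, ∑ k, (if k = 0 then A j k * ξ j * β else 0) = (∑ k, A 0 k * ξ k) * β := by
      simp only [Finset.sum_ite_eq', Finset.mem_univ, if_true]
      rw [Finset.sum_mul]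
      refine Finset.sum_congr rfl fun j _ => ?_
      rw [hsym j 0]
    have h4 : ∑ j, ∑ k, (if j = 0 then A j k * ξ k * β else 0) = (∑ k, A 0 k * ξ k) * β := by
      rw [Finset.sum_comm]
      simp only [Finset.sum_ite_eq', Finset.mem_univ, if_true]
      rw [Finset.sum_mul]
    have h5 : ∑ j, ∑ k, (if j = 0 then (if k = 0 then A j k * β * β else 0) else 0) =
        A 0 0 * β * β := by
      rw [Finset.sum_comm]
      simp only [Finset.sum_ite_eq', Finset.mem_univ, ↓reduceIte]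
    rw [h3, h4, h5, hβ]
    field_simp
    ring
  rw [hval] at hpos
  unfold rho
  exact Real.sqrt_pos.2 (div_pos hpos h00)

/-- the vertical segment: one-dimensional derivative -/
theorem db_vert (hD : RelOpen D) {f : E n → ℂ} (hf : ContDiffOn ℝ ∞ f D) {x : E n}
    {s : ℝ} (hxs : x + s • ev 0 ∈ D) :
    HasDerivWithinAt (fun τ : ℝ => f (x + τ • ev 0)) (pd 0 f (x + s • ev 0))
      {τ | 0 ≤ x 0 + τ} s := by
  have h1 := hD.hasD hxs hf (by simp)
  have h2 : HasDerivWithinAt (fun τ : ℝ => x + τ • (ev 0 : E n)) (ev 0) {τ | 0 ≤ x 0 + τ} s := by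
    have h3 : HasDerivAt (fun τ : ℝ => τ • (ev 0 : E n)) ((1 : ℝ) • (ev 0 : E n)) s :=
      (hasDerivAt_id s).smul_const _
    rw [one_smul] at h3
    exact (h3.const_add x).hasDerivWithinAt
  refine h1.comp_hasDerivWithinAt s h2 fun τ hτ => ?_
  show 0 ≤ (x + τ • ev 0 : E n) 0
  simpa only [PiLp.add_apply, PiLp.smul_apply, PiLp.single_eq_same, smul_eq_mul, mul_one, mem_ofPred_eq] using     hτ

theorem db_norm_le {x p : E n} (hp0 : p 0 = 0) : ‖sc 0 x - p‖ ≤ ‖x - p‖ := by
  rw [EuclideanSpace.norm_eq, EuclideanSpace.norm_eq]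
  refine Real.sqrt_le_sqrt (Finset.sum_le_sum fun j _ => ?_)
  by_cases hj : j = 0
  · have : (sc 0 x - p) j = 0 := by
      rw [hj]
      simp only [sc, zero_sub, neg_mul, one_mul, neg_smul, PiLp.sub_apply, PiLp.add_apply, PiLp.neg_apply, PiLp.smul_apply, PiLp.single_eq_same, smul_eq_mul, mul_one, add_neg_cancel, hp0, sub_self]
    have h2 := sq_nonneg ‖(x - p) j‖
    rw [this, norm_zero]
    simpa only [ne_eq, OfNat.ofNat_ne_zero, not_false_eq_true, zero_pow, PiLp.sub_apply, Real.norm_eq_abs, sq_abs,     ge_iff_le] using h2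
  · have : (sc 0 x - p) j = (x - p) j := by
      simp only [sc, zero_sub, neg_mul, one_mul, neg_smul, PiLp.sub_apply, PiLp.add_apply, PiLp.neg_apply, PiLp.smul_apply, ne_eq, hj, not_false_eq_true, PiLp.single_eq_of_ne, smul_eq_mul, mul_zero, neg_zero, add_zero]
    rw [this]

theorem dp_exists_ball (hD : RelOpen D) {G : E n → Matrix (Fin n) (Fin n) ℝ} (hG : GOk D G)
    {ξ : Fin n → ℝ} (hξ0 : ξ 0 = 0) (hξ : ξ ≠ 0) {ψ : E n → ℂ} (hψ : IsPhase D G ξ ψ) {p : E n}
    (hp : p ∈ D) (hp0 : p 0 = 0) : ∃ r > 0, ∃ δ > 0, Metric.closedBall p r ∩ Hs n ⊆ D ∧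
      ∀ x ∈ Metric.closedBall p r ∩ Hs n, (ψ x).re ≤ -(δ * x 0) := by
  set ρ := rho (G p) ξ with hρd
  have hρ : 0 < ρ := db_rho_pos (hG.pos p hp) hξ0 hξ
  have hpre : (pd 0 ψ p).re = -ρ := by
    rw [hψ.grad p hp hp0 0]
    simp only [zz, hξ0, Complex.ofReal_zero, mul_zero, ↓reduceIte, zero_sub, neg_add_rev, Complex.add_re, Complex.neg_re, Complex.mul_re, Complex.I_re, Complex.ofReal_re, zero_mul, Complex.I_im, Complex.ofReal_im, sub_self, neg_zero, zero_add, hρd]
  have hcont : ContinuousWithinAt (fun x => (pd 0 ψ x).re) D p :=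
    Complex.continuous_re.continuousAt.comp_continuousWithinAt
      ((hD.pd_smooth hψ.sm 0).continuousOn p hp)
  have hev : ∀ᶠ x in 𝓝[Hs n] p, (pd 0 ψ x).re < -(ρ / 2) ∧ x ∈ D := by
    rw [← hD.nhdsWithin hp]
    refine (hcont.eventually (gt_mem_nhds ?_)).and self_mem_nhdsWithin
    show (pd 0 ψ p).re < -(ρ / 2)
    rw [hpre]
    linarith
  obtain ⟨ε, hε, hball⟩ := Metric.mem_nhdsWithin_iff.1 hev
  have hsub : ∀ x ∈ Metric.closedBall p (ε / 2) ∩ Hs n, (pd 0 ψ x).re < -(ρ / 2) ∧ x ∈ D := by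
    intro x hx
    refine hball ⟨?_, hx.2⟩
    rw [Metric.mem_ball]
    have := Metric.mem_closedBall.1 hx.1
    linarith only [hε, this]
  refine ⟨ε / 2, by positivity, ρ / 2, by positivity, fun x hx => (hsub x hx).2, fun x hx => ?_⟩
  have hx0 : 0 ≤ x 0 := hx.2
  -- the vertical segment
  have hy0 : (sc 0 x) 0 = 0 := by simp only [sc, zero_sub, neg_mul, one_mul, neg_smul, PiLp.add_apply, PiLp.neg_apply, PiLp.smul_apply, PiLp.single_eq_same, smul_eq_mul, mul_one, add_neg_cancel]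
  have hend : sc 0 x + (x 0) • ev 0 = x := by
    unfold sc
    rw [add_assoc, ← add_smul]
    simp only [zero_sub, neg_mul, one_mul, neg_add_cancel, zero_smul, add_zero]
  have hyb : sc 0 x ∈ Metric.closedBall p (ε / 2) := by
    rw [mem_closedBall_iff_norm]
    exact (db_norm_le hp0).trans (mem_closedBall_iff_norm.1 hx.1)
  have hseg : ∀ τ ∈ Icc 0 (x 0), sc 0 x + τ • ev 0 ∈ Metric.closedBall p (ε / 2) ∩ Hs n := by
    intro τ hτ
    constructor
    · rcases eq_or_lt_of_le hx0 with h0 | h0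
      · have : τ = 0 := le_antisymm (by rw [h0]; exact hτ.2) hτ.1
        rw [this, zero_smul, add_zero]
        exact hyb
      · have hc1 : 0 ≤ 1 - τ / x 0 := by rw [sub_nonneg, div_le_one h0]; exact hτ.2
        have hc2 : 0 ≤ τ / x 0 := div_nonneg hτ.1 h0.le
        have hc := (convex_closedBall p (ε / 2)) hyb hx.1 hc1 hc2 (by ring)
        have he : (1 - τ / x 0) • sc 0 x + (τ / x 0) • x = sc 0 x + τ • ev 0 := by
          have h7 : (τ / x 0) • (sc 0 x + x 0 • ev 0) = (τ / x 0) • sc 0 x + τ • (ev 0 : E n) := by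
            rw [smul_add, smul_smul, div_mul_cancel₀ _ h0.ne']
          rw [hend] at h7
          rw [h7, ← add_assoc, ← add_smul, sub_add_cancel, one_smul]
        rw [he] at hc
        exact hc
    · show 0 ≤ (sc 0 x + τ • ev 0 : E n) 0
      have : (sc 0 x + τ • ev 0 : E n) 0 = τ := by
        rw [PiLp.add_apply, hy0]
        simp
      rw [this]
      exact hτ.1
  have hset : {τ : ℝ | 0 ≤ (sc 0 x) 0 + τ} = Ici 0 := by
    ext τ
    rw [hy0]
    simp only [zero_add, mem_ofPred_eq, mem_Ici]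
  have hder : ∀ τ ∈ Icc 0 (x 0), HasDerivWithinAt (fun τ : ℝ => (ψ (sc 0 x + τ • ev 0)).re)
      (pd 0 ψ (sc 0 x + τ • ev 0)).re (Ici 0) τ := by
    intro τ hτ
    have h1 := db_vert hD hψ.sm (x := sc 0 x) (s := τ) (hsub _ (hseg τ hτ)).2
    rw [hset] at h1
    exact Complex.reCLM.hasFDerivAt.comp_hasDerivWithinAt τ h1
  have hmv := (convex_Icc (0 : ℝ) (x 0)).image_sub_le_mul_sub_of_deriv_le
    (f := fun τ : ℝ => (ψ (sc 0 x + τ • ev 0)).re) (C := -(ρ / 2))
    (fun τ hτ => ((hder τ hτ).continuousWithinAt).mono Icc_subset_Ici_self)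
    (fun τ hτ => by
      rw [interior_Icc] at hτ
      have h1 := (hder τ (Ioo_subset_Icc_self hτ)).hasDerivAt (Ici_mem_nhds hτ.1)
      exact h1.differentiableAt.differentiableWithinAt)
    (fun τ hτ => by
      rw [interior_Icc] at hτ
      have h1 := (hder τ (Ioo_subset_Icc_self hτ)).hasDerivAt (Ici_mem_nhds hτ.1)
      rw [h1.deriv]
      exact (hsub _ (hseg τ (Ioo_subset_Icc_self hτ))).1.le)
    0 (left_mem_Icc.2 hx0) (x 0) (right_mem_Icc.2 hx0) hx0
  simp only [zero_smul, add_zero, sub_zero] at hmv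
  rw [hend] at hmv
  have hre0 : (ψ (sc 0 x)).re = 0 := by
    have h1 := hseg 0 (left_mem_Icc.2 hx0)
    rw [zero_smul, add_zero] at h1
    exact hψ.re0 _ (hsub _ h1).2 hy0
  rw [hre0, sub_zero] at hmv
  linarith

end Vale.Agent.P088.EYM
end
end

section

/-!
# P088-EYM, block D, module D9: the operator `LopR` on `exp (t ψ) a`
-/

open MeasureTheory Set Filter Topology
open scoped ContDiff

noncomputable section

namespace Vale.Agent.P088.EYM

variable {n : ℕ} [NeZero n] {N : ℕ} {D : Set (E n)}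

/-- the exponential factor is smooth -/
theorem do_smooth_exp {ψ : E n → ℂ} (hψ : ContDiffOn ℝ ∞ ψ D) (t : ℝ) :
    ContDiffOn ℝ ∞ (fun y => Complex.exp (t * ψ y)) D :=
  (contDiffOn_const.mul hψ).cexp

theorem do_pd_exp (hD : RelOpen D) {ψ : E n → ℂ} (hψ : ContDiffOn ℝ ∞ ψ D) (t : ℝ) {x : E n}
    (hx : x ∈ D) (k : Fin n) :
    pd k (fun y => Complex.exp (t * ψ y)) x = Complex.exp (t * ψ x) * (t * pd k ψ x) := by
  have h1 : ContDiffOn ℝ ∞ (fun y => (t : ℂ) * ψ y) D := contDiffOn_const.mul hψ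
  have h2 := dc_pd_exp hD h1 hx k
  rw [h2]
  congr 1
  have h3 : pd k (fun y => (t : ℂ) * ψ y) x = (t : ℂ) * pd k ψ x := by
    have h4 := dc_pd_bil hD dc_bil_mulC (contDiffOn_const (c := (t : ℂ))) hψ hx k
    simp only at h4
    rw [h4, pd_const, zero_mul, zero_add]
  exact h3

theorem do_pd_smul (hD : RelOpen D) {u : E n → ℂ} {a : E n → Fib N}
    (hu : ContDiffOn ℝ ∞ u D) (ha : ContDiffOn ℝ ∞ a D) {x : E n} (hx : x ∈ D) (k : Fin n) :
    pd k (fun y => u y • a y) x = pd k u x • a x + u x • pd k a x :=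
  dc_pd_bil hD dc_bil_smulC hu ha hx k

theorem do_smooth_smul {u : E n → ℂ} {a : E n → Fib N}
    (hu : ContDiffOn ℝ ∞ u D) (ha : ContDiffOn ℝ ∞ a D) :
    ContDiffOn ℝ ∞ (fun y => u y • a y) D :=
  dc_smooth_bil dc_bil_smulC hu ha

theorem do_pd_osc (hD : RelOpen D) {ψ : E n → ℂ} (hψ : ContDiffOn ℝ ∞ ψ D) {a : E n → Fib N}
    (ha : ContDiffOn ℝ ∞ a D) (t : ℝ) {x : E n} (hx : x ∈ D) (k : Fin n) :
    pd k (osc ψ a t) x = Complex.exp (t * ψ x) • (((t : ℂ) * pd k ψ x) • a x + pd k a x) := by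
  have h := do_pd_smul hD (do_smooth_exp hψ t) ha hx k
  have h' : pd k (osc ψ a t) x = pd k (fun y => Complex.exp (t * ψ y) • a y) x := rfl
  rw [h', h, do_pd_exp hD hψ t hx k, smul_add, mul_smul]

/-- `∑_k G_jk ∂_k ψ` -/
def doP (G : E n → Matrix (Fin n) (Fin n) ℝ) (ψ : E n → ℂ) (j : Fin n) (y : E n) : ℂ :=
  ∑ k, (G y j k : ℂ) * pd k ψ y

/-- `∑_k G_jk ∂_k a` -/
def doA (G : E n → Matrix (Fin n) (Fin n) ℝ) (a : E n → Fib N) (j : Fin n) (y : E n) : Fib N :=
  ∑ k, G y j k • pd k a y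

theorem do_smooth_P (hD : RelOpen D) {G : E n → Matrix (Fin n) (Fin n) ℝ} (hG : GOk D G)
    {ψ : E n → ℂ} (hψ : ContDiffOn ℝ ∞ ψ D) (j : Fin n) : ContDiffOn ℝ ∞ (doP G ψ j) D := by
  unfold doP
  refine dc_smooth_sum _ fun k _ => ?_
  have h1 : ContDiffOn ℝ ∞ (fun y => ((G y j k : ℝ) : ℂ)) D :=
    dc_smooth_clm Complex.ofRealCLM (hG.smG j k)
  exact h1.mul (hD.pd_smooth hψ k)

theorem do_smooth_A (hD : RelOpen D) {G : E n → Matrix (Fin n) (Fin n) ℝ} (hG : GOk D G)
    {a : E n → Fib N} (ha : ContDiffOn ℝ ∞ a D) (j : Fin n) : ContDiffOn ℝ ∞ (doA G a j) D := by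
  unfold doA
  refine dc_smooth_sum _ fun k _ => ?_
  exact (hG.smG j k).smul (hD.pd_smooth ha k)

theorem do_rsmul (r : ℝ) (v : Fib N) : r • v = (r : ℂ) • v := (Complex.coe_smul r v).symm

theorem do_V (hD : RelOpen D) {G : E n → Matrix (Fin n) (Fin n) ℝ} {ψ : E n → ℂ}
    (hψ : ContDiffOn ℝ ∞ ψ D) {a : E n → Fib N} (ha : ContDiffOn ℝ ∞ a D) (t : ℝ) (j : Fin n)
    {y : E n} (hy : y ∈ D) :
    ∑ k, G y j k • pd k (osc ψ a t) y =
      Complex.exp (t * ψ y) • (((t : ℂ) * doP G ψ j y) • a y + doA G a j y) := by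
  have h1 : ∀ k, G y j k • pd k (osc ψ a t) y =
      Complex.exp (t * ψ y) • (((t : ℂ) * ((G y j k : ℂ) * pd k ψ y)) • a y +
        G y j k • pd k a y) := by
    intro k
    rw [do_pd_osc hD hψ ha t hy k, do_rsmul, do_rsmul]
    module
  simp only [h1]
  rw [← Finset.smul_sum, Finset.sum_add_distrib, ← Finset.sum_smul, ← Finset.mul_sum]
  rfl

theorem do_pd_V (hD : RelOpen D) {G : E n → Matrix (Fin n) (Fin n) ℝ} (hG : GOk D G) {ψ : E n → ℂ}
    (hψ : ContDiffOn ℝ ∞ ψ D) {a : E n → Fib N} (ha : ContDiffOn ℝ ∞ a D) (t : ℝ) (j : Fin n)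
    {x : E n} (hx : x ∈ D) :
    pd j (fun y => ∑ k, G y j k • pd k (osc ψ a t) y) x =
      Complex.exp (t * ψ x) •
        (((t : ℂ) ^ 2 * (pd j ψ x * doP G ψ j x)) • a x +
          (t : ℂ) • (pd j (doP G ψ j) x • a x + (pd j ψ x • doA G a j x + doP G ψ j x • pd j a x)) +
          pd j (doA G a j) x) := by
  have hP := do_smooth_P hD hG hψ j
  have hA := do_smooth_A hD hG ha j
  have htP : ContDiffOn ℝ ∞ (fun y => (t : ℂ) * doP G ψ j y) D := contDiffOn_const.mul hP
  have hW : ContDiffOn ℝ ∞ (fun y => ((t : ℂ) * doP G ψ j y) • a y + doA G a j y) D :=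
    (do_smooth_smul htP ha).add hA
  rw [hD.pd_congr (fun y hy => do_V hD hψ ha t j hy) hx j,
    do_pd_smul hD (do_smooth_exp hψ t) hW hx j, do_pd_exp hD hψ t hx j,
    hD.pd_add (do_smooth_smul htP ha) hA hx j, do_pd_smul hD htP ha hx j]
  have h3 : pd j (fun y => (t : ℂ) * doP G ψ j y) x = (t : ℂ) * pd j (doP G ψ j) x := by
    have h4 := dc_pd_bil hD dc_bil_mulC (contDiffOn_const (c := (t : ℂ))) hP hx j
    simp only at h4
    rw [h4, pd_const, zero_mul, zero_add]
  rw [h3]
  have h5 : pd j (fun y => doA G a j y) x = pd j (doA G a j) x := rfl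
  rw [h5]
  module

theorem do_first (hD : RelOpen D) {G : E n → Matrix (Fin n) (Fin n) ℝ} (hG : GOk D G) {ψ : E n → ℂ}
    (hψ : ContDiffOn ℝ ∞ ψ D) {a : E n → Fib N} (ha : ContDiffOn ℝ ∞ a D) (t : ℝ)
    {x : E n} (hx : x ∈ D) :
    ∑ j, pd j (fun y => ∑ k, G y j k • pd k (osc ψ a t) y) x =
      Complex.exp (t * ψ x) • (((t : ℂ) ^ 2 * eik G ψ x) • a x +
        (t : ℂ) • ((∑ j, pd j (doP G ψ j) x) • a x +
          (2 : ℂ) • (∑ j, ∑ k, ((G x j k : ℂ) * pd k ψ x) • pd j a x)) +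
        ∑ j, pd j (doA G a j) x) := by
  simp only [do_pd_V hD hG hψ ha t _ hx]
  rw [← Finset.smul_sum, Finset.sum_add_distrib, Finset.sum_add_distrib, ← Finset.sum_smul,
    ← Finset.mul_sum, ← Finset.smul_sum, Finset.sum_add_distrib, Finset.sum_add_distrib,
    ← Finset.sum_smul]
  have h1 : ∑ j, pd j ψ x * doP G ψ j x = eik G ψ x := by
    unfold doP eik
    refine Finset.sum_congr rfl fun j _ => ?_
    rw [Finset.mul_sum]
    refine Finset.sum_congr rfl fun k _ => ?_
    ring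
  have h2 : ∑ j, doP G ψ j x • pd j a x = ∑ j, ∑ k, ((G x j k : ℂ) * pd k ψ x) • pd j a x := by
    unfold doP
    refine Finset.sum_congr rfl fun j _ => ?_
    rw [Finset.sum_smul]
  have h3 : ∑ j, pd j ψ x • doA G a j x = ∑ j, ∑ k, ((G x j k : ℂ) * pd k ψ x) • pd j a x := by
    unfold doA
    simp only [Finset.smul_sum]
    rw [Finset.sum_comm]
    refine Finset.sum_congr rfl fun j _ => ?_
    refine Finset.sum_congr rfl fun k _ => ?_
    rw [do_rsmul, hG.symm x hx k j, smul_smul, mul_comm]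
  rw [h1, h2, h3, two_smul ℂ (∑ j, ∑ k, ((G x j k : ℂ) * pd k ψ x) • pd j a x)]

theorem do_second (hD : RelOpen D) {G : E n → Matrix (Fin n) (Fin n) ℝ}
    {B : Fin n → E n → EndF N} {ψ : E n → ℂ}
    (hψ : ContDiffOn ℝ ∞ ψ D) {a : E n → Fib N} (ha : ContDiffOn ℝ ∞ a D) (t : ℝ)
    {x : E n} (hx : x ∈ D) :
    ∑ j, ∑ k, G x j k • B j x (pd k (osc ψ a t) x) =
      Complex.exp (t * ψ x) • ((t : ℂ) • (∑ j, ∑ k, ((G x j k : ℂ) * pd k ψ x) • B j x (a x)) +
        ∑ j, ∑ k, G x j k • B j x (pd k a x)) := by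
  have h1 : ∀ j k, G x j k • B j x (pd k (osc ψ a t) x) =
      Complex.exp (t * ψ x) • ((t : ℂ) • (((G x j k : ℂ) * pd k ψ x) • B j x (a x)) +
        G x j k • B j x (pd k a x)) := by
    intro j k
    rw [do_pd_osc hD hψ ha t hx k, map_smul, map_add, map_smul, do_rsmul, do_rsmul]
    module
  simp only [h1]
  simp only [← Finset.smul_sum, Finset.sum_add_distrib]

theorem do_lopR_osc (hD : RelOpen D) {G : E n → Matrix (Fin n) (Fin n) ℝ} (hG : GOk D G)
    {B : Fin n → E n → EndF N} (hB : ∀ j, ContDiffOn ℝ ∞ (B j) D) {ψ : E n → ℂ}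
    (hψ : ContDiffOn ℝ ∞ ψ D) {a : E n → Fib N} (ha : ContDiffOn ℝ ∞ a D) (t : ℝ) {x : E n}
    (hx : x ∈ D) : LopR G B (osc ψ a t) x = Complex.exp (t * ψ x) •
      (((t : ℂ) ^ 2 * eik G ψ x) • a x + (t : ℂ) • Mop G B ψ a x + LopR G B a x) := by
  unfold LopR
  rw [do_first hD hG hψ ha t hx, do_second hD hψ ha t hx]
  have e1 : ∀ v : Fib N, (2 : ℝ) • v = (2 : ℂ) • v := by
    intro v
    rw [do_rsmul]; norm_num
  rw [e1, e1]
  have e2 : Mop G B ψ a x = (∑ j, pd j (doP G ψ j) x) • a x +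
      (2 : ℂ) • (∑ j, ∑ k, ((G x j k : ℂ) * pd k ψ x) • pd j a x) +
      (2 : ℂ) • (∑ j, ∑ k, ((G x j k : ℂ) * pd k ψ x) • B j x (a x)) := rfl
  have e3 : (∑ j, pd j (doA G a j) x) =
      ∑ j, pd j (fun y => ∑ k, G y j k • pd k a y) x := rfl
  rw [e2, e3]
  module

end Vale.Agent.P088.EYM
end
end

section

/-!
# P088-EYM, local solvability: the Wiener norm of a smooth family
-/

open MeasureTheory Set Filter Topology
open scoped ContDiff Real FourierTransform

noncomputable section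

namespace Vale.Agent.P088.EYM.ES

variable {n N : ℕ} [NeZero n]

/-- the frequency as a point of `E n`. -/
def STan_pt (k : La n) : E n := WithLp.toLp 2 (fun j => (k j : ℝ))

theorem STan_fco_eq {F : Type*} [NormedAddCommGroup F] [NormedSpace ℂ F] (f : E n → F) (k : La n) :
    fco f k = 𝓕 f (STan_pt k) := by
  rw [fco, Real.fourier_eq']
  congr 1
  ext v
  congr 2
  have h : inner ℝ v (STan_pt k) = ∑ j, (k j : ℝ) * v j := by
    rw [PiLp.inner_apply]
    refine Finset.sum_congr rfl fun j _ => ?_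
    simp [STan_pt]
  rw [h]
  push_cast
  ring

theorem STan_inst_eq {F : Type*} [NormedAddCommGroup F] [NormedSpace ℂ F] (i : NormedSpace ℝ F)
    [h : IsScalarTower ℝ ℂ F] : i = NormedSpace.complexToReal := by
  have h1 : i.toModule = (NormedSpace.complexToReal (E := F)).toModule := by
    apply Module.ext'
    intro r x
    have h2 := h.smul_assoc r (1 : ℂ) x
    rw [one_smul] at h2
    rw [← h2]
    have h3 : r • (1 : ℂ) = (r : ℂ) := by simp
    rw [h3]
    rfl
  cases i
  simp only at h1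
  subst h1
  rfl

theorem STan_pt_mem (k : La n) :
    STan_pt k ∈ Submodule.span ℤ (Set.range (EuclideanSpace.basisFun (Fin n) ℝ).toBasis) := by
  have h2 : STan_pt k = ∑ j, (k j) • (EuclideanSpace.basisFun (Fin n) ℝ).toBasis j := by
    ext i
    rw [WithLp.ofLp_sum, Finset.sum_apply]
    rw [Finset.sum_eq_single i]
    · simp [STan_pt]
    · intro j _ hj
      simp only [OrthonormalBasis.coe_toBasis, EuclideanSpace.basisFun_apply, PiLp.smul_apply, ne_eq, hj.symm, not_false_eq_true, PiLp.single_eq_of_ne, smul_zero]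
    · simp
  rw [h2]
  exact Submodule.sum_mem _ fun j _ => Submodule.smul_mem _ _ (Submodule.subset_span ⟨j, rfl⟩)

theorem STan_pt_inj {k k' : La n} (h3 : STan_pt k = STan_pt k') : k = k' := by
  ext j
  have h4 := congrFun (congrArg (WithLp.ofLp) h3) j
  simpa [STan_pt] using h4

theorem STan_gen {V ι : Type*} [NormedAddCommGroup V] [NormedSpace ℝ V] [FiniteDimensional ℝ V]
    (L : Submodule ℤ V) [DiscreteTopology L] (g : ι → V) (hg : ∀ k, g k ∈ L)
    (hi : ∀ k k', g k = g k' → k = k') : ∃ m : ℕ, Summable fun k : ι => ‖g k‖⁻¹ ^ m := by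
  obtain ⟨m, hm⟩ : ∃ m, Module.finrank ℤ L < m := ⟨_, lt_add_one _⟩
  have h1 := ZLattice.summable_norm_pow_inv L m hm
  have hinj : Function.Injective (fun k : ι => (⟨g k, hg k⟩ : L)) := fun k k' h =>
    hi k k' (congrArg Subtype.val h)
  have h2 := h1.comp_injective hinj
  refine ⟨m, ?_⟩
  exact h2

/-- summability of the comparison series -/
theorem STan_summable : ∃ m : ℕ, Summable fun k : La n => ‖STan_pt k‖⁻¹ ^ m :=
  STan_gen (Submodule.span ℤ (Set.range (EuclideanSpace.basisFun (Fin n) ℝ).toBasis))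
    STan_pt STan_pt_mem fun _ _ => STan_pt_inj

theorem STan_pt_norm_pos {k : La n} (hk : k ≠ 0) : 0 < ‖STan_pt k‖ := by
  rw [norm_pos_iff]
  intro h
  apply hk
  ext j
  have h4 := congrFun (congrArg (WithLp.ofLp) h) j
  simpa only [Pi.zero_apply, STan_pt, PiLp.zero_apply, Int.cast_eq_zero] using h4

section canonical

variable {F : Type*} [NormedAddCommGroup F] [NormedSpace ℂ F]

/-- derivatives of the slices. -/
theorem STan_deriv {Φ : ℝ → E n → F} (hΦ : ContDiff ℝ ∞ (Function.uncurry Φ)) (p : ℕ) (ρ : ℝ)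
    (y : E n) :
    ‖iteratedFDeriv ℝ p (Φ ρ) y‖ ≤ ‖iteratedFDeriv ℝ p (Function.uncurry Φ) (ρ, y)‖ := by
  set g : E n →L[ℝ] ℝ × E n := ContinuousLinearMap.inr ℝ ℝ (E n) with hg
  set h : ℝ × E n → F := fun z => Function.uncurry Φ ((ρ, 0) + z) with hh
  have h1 : Φ ρ = h ∘ g := by
    ext v
    simp [hh, hg]
  have hcd : ContDiff ℝ ∞ h := hΦ.comp (contDiff_const.add contDiff_id)
  rw [h1, g.iteratedFDeriv_comp_right (hcd.of_le (m := p) (by exact_mod_cast le_top)) y le_rfl]
  have h2 : iteratedFDeriv ℝ p h (g y) = iteratedFDeriv ℝ p (Function.uncurry Φ) (ρ, y) := by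
    rw [hh, iteratedFDeriv_comp_add_left]
    simp only [hg, ContinuousLinearMap.inr_apply, Prod.mk_add_mk, add_zero, zero_add]
  rw [h2]
  refine (ContinuousMultilinearMap.norm_compContinuousLinearMap_le _ _).trans ?_
  refine mul_le_of_le_one_right (norm_nonneg _) ?_
  refine Finset.prod_le_one (fun _ _ => norm_nonneg _) (fun _ _ => ?_)
  exact ContinuousLinearMap.norm_inr_le_one ℝ ℝ (E n)

/-- uniform bound of the integrals of derivatives. -/
theorem STan_int {Φ : ℝ → E n → F} (hΦ : ContDiff ℝ ∞ (Function.uncurry Φ))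
    (hc : HasCompactSupport (Function.uncurry Φ)) :
    (∀ ρ, HasCompactSupport (Φ ρ)) ∧ ∀ p : ℕ, ∃ C : ℝ, ∀ ρ,
      ∫ v, ‖iteratedFDeriv ℝ p (Φ ρ) v‖ ≤ C := by
  set K : Set (E n) := Prod.snd '' tsupport (Function.uncurry Φ) with hK
  have hKc : IsCompact K := hc.image continuous_snd
  have hsub : ∀ ρ, Function.support (Φ ρ) ⊆ K := by
    intro ρ v hv
    exact ⟨(ρ, v), subset_tsupport _ hv, rfl⟩
  have hcs : ∀ ρ, HasCompactSupport (Φ ρ) := fun ρ =>
    HasCompactSupport.of_support_subset_isCompact hKc (hsub ρ)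
  have hts : ∀ ρ, tsupport (Φ ρ) ⊆ K := fun ρ =>
    closure_minimal (hsub ρ) hKc.isClosed
  refine ⟨hcs, fun p => ?_⟩
  have hcont : Continuous (iteratedFDeriv ℝ p (Function.uncurry Φ)) :=
    hΦ.continuous_iteratedFDeriv (by exact_mod_cast le_top)
  obtain ⟨C, hC⟩ := hcont.bounded_above_of_compact_support (hc.iteratedFDeriv p)
  refine ⟨∫ v, K.indicator (fun _ => C) v, fun ρ => ?_⟩
  have hslice : ContDiff ℝ ∞ (Φ ρ) := by
    have := hΦ.comp (contDiff_const.prodMk contDiff_id : ContDiff ℝ ∞ fun v : E n => ((ρ, v) : ℝ × E n))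
    exact this
  refine integral_mono ?_ ?_ ?_
  · have h3 : Continuous (iteratedFDeriv ℝ p (Φ ρ)) :=
      hslice.continuous_iteratedFDeriv (by exact_mod_cast le_top)
    exact h3.norm.integrable_of_hasCompactSupport ((hcs ρ).iteratedFDeriv p).norm
  · rw [integrable_indicator_iff hKc.measurableSet]
    exact integrableOn_const hKc.measure_lt_top.ne
  · intro v
    by_cases hv : v ∈ K
    · simp only [Set.indicator_of_mem hv]
      exact (STan_deriv hΦ p ρ v).trans (hC _)
    · simp only [Set.indicator_of_notMem hv]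
      have h4 : iteratedFDeriv ℝ p (Φ ρ) v = 0 := by
        by_contra hne
        exact hv (hts ρ (support_iteratedFDeriv_subset p hne))
      rw [h4, norm_zero]

theorem STan_decay {Φ : ℝ → E n → F} (hΦ : ContDiff ℝ ∞ (Function.uncurry Φ))
    (hc : HasCompactSupport (Function.uncurry Φ)) (m : ℕ) :
    ∃ B : ℝ, ∀ ρ k, ‖STan_pt k‖ ^ m * ‖fco (Φ ρ) k‖ ≤ B := by
  obtain ⟨hcs, hint⟩ := STan_int hΦ hc
  choose C hC using hint
  refine ⟨(2 : ℝ) ^ m * ∑ p ∈ Finset.range (0 + 1) ×ˢ Finset.range (m + 1), C p.2, fun ρ k => ?_⟩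
  have hslice : ContDiff ℝ ∞ (Φ ρ) := by
    have := hΦ.comp (contDiff_const.prodMk contDiff_id : ContDiff ℝ ∞ fun v : E n => ((ρ, v) : ℝ × E n))
    exact this
  have h1 := Real.pow_mul_norm_iteratedFDeriv_fourier_le (K := 0) (N := m) (f := Φ ρ)
    (hslice.of_le (by exact_mod_cast le_top)) (by
      intro k' n' hk' hn'
      have hk0 : k' = 0 := by simpa only [nonpos_iff_eq_zero, Nat.cast_eq_zero] using hk'
      subst hk0
      simp only [pow_zero, one_mul]
      have h3 : Continuous (iteratedFDeriv ℝ n' (Φ ρ)) :=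
        hslice.continuous_iteratedFDeriv (by exact_mod_cast le_top)
      exact h3.norm.integrable_of_hasCompactSupport ((hcs ρ).iteratedFDeriv n').norm)
    (k := 0) (n := m) le_rfl le_rfl (STan_pt k)
  rw [norm_iteratedFDeriv_zero, ← STan_fco_eq] at h1
  refine h1.trans ?_
  simp only [pow_zero, one_mul, Nat.cast_zero, mul_zero, zero_add]
  refine mul_le_mul_of_nonneg_left ?_ (by positivity)
  refine Finset.sum_le_sum fun p hp => ?_
  have hp1 : p.1 = 0 := by
    have := (Finset.mem_product.mp hp).1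
    simpa using this
  simp only [hp1, pow_zero, one_mul]
  exact hC p.2 ρ

theorem STan_main {Φ : ℝ → E n → F} (hΦ : ContDiff ℝ ∞ (Function.uncurry Φ))
    (hc : HasCompactSupport (Function.uncurry Φ)) (h0 : ∀ y, Φ 0 y = 0) :
    (∀ ρ, Summable fun k : La n => ‖fco (Φ ρ) k‖) ∧
      Tendsto (fun ρ => ∑' k : La n, ‖fco (Φ ρ) k‖) (𝓝 0) (𝓝 0) := by
  classical
  obtain ⟨m, hm⟩ := STan_summable (n := n)
  obtain ⟨B, hB⟩ := STan_decay hΦ hc m
  obtain ⟨B0, hB0⟩ := STan_decay hΦ hc 0
  set u : La n → ℝ := fun k => B * ‖STan_pt k‖⁻¹ ^ m + (if k = 0 then B0 else 0) with hu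
  have hus : Summable u := by
    refine (hm.mul_left B).add ?_
    exact (hasSum_ite_eq 0 B0).summable
  have hBn : 0 ≤ B := (by (clear * -; positivity) : (0 : ℝ) ≤ ‖STan_pt (0 : La n)‖ ^ m * ‖fco (Φ 0) (0 : La n)‖).trans (hB 0 0)
  have hle : ∀ ρ k, ‖fco (Φ ρ) k‖ ≤ u k := by
    intro ρ k
    by_cases hk : k = 0
    · have h1 := hB0 ρ k
      rw [pow_zero, one_mul] at h1
      simp only [hu, hk, if_true]
      rw [hk] at h1
      have h2 : 0 ≤ B * ‖STan_pt (0 : La n)‖⁻¹ ^ m := by (clear * - hBn; positivity)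
      linarith only [h1, h2]
    · have h1 := hB ρ k
      have h2 := STan_pt_norm_pos hk
      simp only [hu, hk, if_false, add_zero]
      rw [inv_pow, ← div_eq_mul_inv, le_div_iff₀ (pow_pos h2 m), mul_comm]
      exact h1
  refine ⟨fun ρ => Summable.of_nonneg_of_le (fun _ => norm_nonneg _) (hle ρ) hus, ?_⟩
  have key : ∀ k : La n, Tendsto (fun ρ => ‖fco (Φ ρ) k‖) (𝓝 0) (𝓝 0) := by
    intro k
    set K : Set (E n) := Prod.snd '' tsupport (Function.uncurry Φ) with hK
    have hKc : IsCompact K := hc.image continuous_snd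
    obtain ⟨C, hC⟩ := hΦ.continuous.bounded_above_of_compact_support hc
    have h1 : Tendsto (fun ρ => fco (Φ ρ) k) (𝓝 0) (𝓝 (fco (Φ 0) k)) := by
      refine tendsto_integral_filter_of_dominated_convergence (K.indicator fun _ => C) ?_ ?_ ?_ ?_
      · refine Eventually.of_forall fun ρ => ?_
        refine Continuous.aestronglyMeasurable ?_
        refine Continuous.smul ?_ ?_
        · refine Complex.continuous_exp.comp ?_
          refine Continuous.neg ?_
          refine continuous_const.mul ?_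
          refine Complex.continuous_ofReal.comp ?_
          fun_prop
        · exact hΦ.continuous.comp (continuous_const.prodMk continuous_id)
      · refine Eventually.of_forall fun ρ => Eventually.of_forall fun v => ?_
        have e1 : ‖Complex.exp (-(2 * π * Complex.I * ((∑ j, (k j : ℝ) * v j : ℝ) : ℂ)))‖ = 1 := by
          have e2 : -(2 * π * Complex.I * ((∑ j, (k j : ℝ) * v j : ℝ) : ℂ)) =
              ((-(2 * π * (∑ j, (k j : ℝ) * v j)) : ℝ) : ℂ) * Complex.I := by
            push_cast; ring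
          rw [e2, Complex.norm_exp_ofReal_mul_I]
        rw [norm_smul, e1, one_mul]
        by_cases hv : v ∈ K
        · rw [Set.indicator_of_mem hv]
          exact hC (ρ, v)
        · rw [Set.indicator_of_notMem hv]
          have h4 : Φ ρ v = 0 := by
            by_contra hne
            exact hv ⟨(ρ, v), subset_tsupport _ hne, rfl⟩
          rw [h4, norm_zero]
      · rw [integrable_indicator_iff hKc.measurableSet]
        exact integrableOn_const hKc.measure_lt_top.ne
      · refine Eventually.of_forall fun v => ?_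
        refine Tendsto.const_smul ?_ _
        have h5 : Continuous fun ρ => Φ ρ v := hΦ.continuous.comp (continuous_id.prodMk continuous_const)
        exact h5.tendsto 0
    have h2 : fco (Φ 0) k = 0 := by
      rw [fco]
      simp only [Complex.ofReal_sum, Complex.ofReal_mul, Complex.ofReal_intCast, h0, smul_zero, integral_zero]
    rw [h2] at h1
    simpa only [norm_zero] using h1.norm
  have h6 := tendsto_tsum_of_dominated_convergence (f := fun ρ k => ‖fco (Φ ρ) k‖)
    (g := fun _ : La n => (0 : ℝ)) hus key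
    (Eventually.of_forall fun ρ k => by rw [norm_norm]; exact hle ρ k)
  simpa only [tsum_zero] using h6

end canonical

/-- the Wiener norm of a smooth family tends to zero -/
theorem fco_small {F : Type*} [NormedAddCommGroup F] [NormedSpace ℂ F] [NormedSpace ℝ F]
    [IsScalarTower ℝ ℂ F] [FiniteDimensional ℂ F] (Φ : ℝ → E n → F)
    (hΦ : ContDiff ℝ ∞ (Function.uncurry Φ)) (hc : HasCompactSupport (Function.uncurry Φ))
    (h0 : ∀ y, Φ 0 y = 0) :
    (∀ ρ, Summable fun k : La n => ‖fco (Φ ρ) k‖) ∧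
      Tendsto (fun ρ => ∑' k : La n, ‖fco (Φ ρ) k‖) (𝓝 0) (𝓝 0) := by
  rename_i i1 i2 i3 i4 i5
  have hi := STan_inst_eq i3
  subst hi
  exact STan_main hΦ hc h0

end Vale.Agent.P088.EYM.ES
end
end
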