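import Vale.Agent.P088.MathlibUsed
import Vale.Agent.P088.Bdl.B4
import Vale.Agent.P088.Bdl.B1
import Vale.Agent.P088.Bdl.B6
import Vale.Agent.P088.Bdl.B3
import Vale.Agent.P088.E.St

set_option linter.all false

section

/-!
# P088-EYM, block A: pointwise bound by `n` derivatives in `L²`
-/

open MeasureTheory Set Filter Topology
open scoped ContDiff ENNReal

noncomputable section

namespace Vale.Agent.P088.EYM

set_option linter.unusedSectionVars false

variable {n : ℕ} [NeZero n]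

/-- The usual directional derivative along the `i`-th unit vector. -/
def aisD (i : Fin n) (f : E n → ℝ) (x : E n) : ℝ := fderiv ℝ f x (ev i)

/-- Iterated usual partial derivatives. -/
def aisDl (l : List (Fin n)) (f : E n → ℝ) : E n → ℝ := l.foldr (fun i g => aisD i g) f

theorem aisDl_nil (f : E n → ℝ) : aisDl [] f = f := rfl

theorem aisDl_cons (i : Fin n) (l : List (Fin n)) (f : E n → ℝ) :
    aisDl (i :: l) f = aisD i (aisDl l f) := rfl

theorem ais_pdl_nil (f : E n → ℝ) : pdl [] f = f := rfl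

theorem ais_pdl_cons (i : Fin n) (l : List (Fin n)) (f : E n → ℝ) :
    pdl (i :: l) f = pd i (pdl l f) := rfl

theorem ais_pdl_concat (i : Fin n) (l : List (Fin n)) (f : E n → ℝ) :
    pdl (l ++ [i]) f = pdl l (pd i f) := by
  simp [pdl, List.foldr_append]

theorem aisD_smooth {f : E n → ℝ} (hf : ContDiff ℝ ∞ f) (i : Fin n) :
    ContDiff ℝ ∞ (aisD i f) :=
  (hf.fderiv_right (m := ∞) (by simp)).clm_apply contDiff_const

theorem aisDl_smooth {f : E n → ℝ} (hf : ContDiff ℝ ∞ f) (l : List (Fin n)) :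
    ContDiff ℝ ∞ (aisDl l f) := by
  induction l with
  | nil => exact hf
  | cons i l ih => exact aisD_smooth ih i

theorem aisD_support (f : E n → ℝ) (i : Fin n) : tsupport (aisD i f) ⊆ tsupport f := by
  have h1 : Function.support (aisD i f) ⊆ Function.support (fderiv ℝ f) := by
    intro x hx hx'
    exact hx (by simp only [aisD, hx']; rfl)
  exact (closure_mono h1).trans (tsupport_fderiv_subset ℝ)

theorem aisDl_support (f : E n → ℝ) (l : List (Fin n)) : tsupport (aisDl l f) ⊆ tsupport f := by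
  induction l with
  | nil => exact subset_rfl
  | cons i l ih => exact (aisD_support _ i).trans ih

theorem aisDl_compact {f : E n → ℝ} (hf : HasCompactSupport f) (l : List (Fin n)) :
    HasCompactSupport (aisDl l f) :=
  hf.of_isClosed_subset (isClosed_tsupport _) (aisDl_support f l)

/-- One variable: `|g(x)| ≤ ∫ |∂_i g|` along the `i`-th coordinate line. -/
theorem ais_line {g : E n → ℝ} (hg : ContDiff ℝ ∞ g) (hc : HasCompactSupport g) (i : Fin n)
    (x : Fin n → ℝ) :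
    ‖g (WithLp.toLp 2 x)‖ₑ ≤
      ∫⁻ t, ‖aisD i g (WithLp.toLp 2 (Function.update x i t))‖ₑ := by
  set e : (Fin n → ℝ) ≃L[ℝ] E n := (EuclideanSpace.equiv (Fin n) ℝ).symm with he
  have hex : ∀ y, WithLp.toLp 2 y = e y := fun y => rfl
  set u : (Fin n → ℝ) → ℝ := fun y => g (WithLp.toLp 2 y) with hu
  have hus : ContDiff ℝ 1 u := (hg.of_le (by simp)).comp e.contDiff
  have huc : HasCompactSupport u := hc.comp_homeomorph e.toHomeomorph
  have hud : ∀ y, ∀ v, fderiv ℝ u y v = fderiv ℝ g (WithLp.toLp 2 y) (e v) := by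
    intro y v
    have h1 : HasFDerivAt g (fderiv ℝ g (e y)) (e y) :=
      (hg.differentiable (by simp)).differentiableAt.hasFDerivAt
    have h2 := h1.comp y e.hasFDerivAt
    rw [show u = g ∘ e from rfl, h2.fderiv]
    rfl
  calc ‖u x‖ₑ
    _ ≤ ∫⁻ t in Iic (x i), ‖deriv (u ∘ Function.update x i) t‖ₑ := by
        apply le_trans (by simp) (HasCompactSupport.enorm_le_lintegral_Ici_deriv _ _ _)
        · exact hus.comp (by convert! contDiff_update 1 x i)
        · exact huc.comp_isClosedEmbedding (isClosedEmbedding_update x i)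
    _ ≤ ∫⁻ t, ‖deriv (u ∘ Function.update x i) t‖ₑ := by
        gcongr
        exact Measure.restrict_le_self
    _ = ∫⁻ t, ‖aisD i g (WithLp.toLp 2 (Function.update x i t))‖ₑ := by
        congr 1
        ext t
        rw [fderiv_comp_deriv _ (hus.differentiable one_ne_zero).differentiableAt
          (hasDerivAt_update x i t).differentiableAt, hud, deriv_update]
        rfl

/-- `|g(x)|` is at most the integral of the mixed derivative over the coordinates used. -/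
theorem ais_marginal {g : E n → ℝ} (hg : ContDiff ℝ ∞ g) (hc : HasCompactSupport g)
    (l : List (Fin n)) (hl : l.Nodup) (x : Fin n → ℝ) :
    ‖g (WithLp.toLp 2 x)‖ₑ ≤
      (lmarginal (fun _ => (volume : Measure ℝ)) l.toFinset
        (fun y => ‖aisDl l g (WithLp.toLp 2 y)‖ₑ)) x := by
  induction l with
  | nil => simp [aisDl_nil]
  | cons i l ih =>
    have hil : i ∉ l.toFinset := by simpa using (List.nodup_cons.1 hl).1
    refine (ih (List.nodup_cons.1 hl).2).trans ?_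
    have hm : Measurable fun y : Fin n → ℝ => ‖aisDl (i :: l) g (WithLp.toLp 2 y)‖ₑ := by
      have h1 : Continuous (aisDl (i :: l) g) := (aisDl_smooth hg _).continuous
      have h2 : Continuous fun y : Fin n → ℝ => (WithLp.toLp 2 y : E n) :=
        (EuclideanSpace.equiv (Fin n) ℝ).symm.continuous
      exact (h1.comp h2).measurable.enorm
    rw [List.toFinset_cons, Finset.insert_eq, Finset.union_comm,
      lmarginal_union _ _ hm (by simpa using hil)]
    refine lmarginal_mono (fun y => ?_) x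
    rw [lmarginal_singleton]
    exact ais_line (aisDl_smooth hg l) (aisDl_compact hc l) i y

theorem ais_sup {g : E n → ℝ} (hg : ContDiff ℝ ∞ g) (hc : HasCompactSupport g) (x : E n) :
    |g x| ≤ ∫ y, |aisDl (List.finRange n) g y| := by
  have h := ais_marginal hg hc (List.finRange n) (List.nodup_finRange n) (WithLp.ofLp x)
  have h0 : (List.finRange n).toFinset = Finset.univ := by ext; simp
  rw [h0, lmarginal_univ] at h
  have h1 : ∫⁻ y : Fin n → ℝ, ‖aisDl (List.finRange n) g (WithLp.toLp 2 y)‖ₑ =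
      ∫⁻ y : E n, ‖aisDl (List.finRange n) g y‖ₑ := by
    rw [← (PiLp.volume_preserving_toLp (Fin n)).lintegral_comp_emb
      (MeasurableEquiv.toLp 2 (Fin n → ℝ)).measurableEmbedding]
  have hint : Integrable (aisDl (List.finRange n) g) :=
    (aisDl_smooth hg _).continuous.integrable_of_hasCompactSupport (aisDl_compact hc _)
  have h2 : ‖g x‖ₑ ≤ ∫⁻ y : E n, ‖aisDl (List.finRange n) g y‖ₑ := by
    rw [← h1]; exact h
  rw [← ofReal_integral_norm_eq_lintegral_enorm hint] at h2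
  have h3 : ENNReal.ofReal ‖g x‖ ≤
      ENNReal.ofReal (∫ y : E n, ‖aisDl (List.finRange n) g y‖) := by
    rwa [ofReal_norm]
  exact (ENNReal.ofReal_le_ofReal_iff (integral_nonneg fun _ => norm_nonneg _)).1 h3

/-! ### relation with `pd` on open subsets of the half space -/

theorem ais_relOpen {O : Set (E n)} (hO : IsOpen O) (hH : O ⊆ Hs n) : RelOpen O :=
  ⟨O, hO, by rw [inter_eq_left.2 hH]⟩

theorem ais_pd_eq {O : Set (E n)} (hO : IsOpen O) (hH : O ⊆ Hs n) (f : E n → ℝ) {x : E n}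
    (hx : x ∈ O) (i : Fin n) : pd i f x = aisD i f x := by
  unfold pd aisD
  rw [fderivWithin_of_mem_nhds (Filter.mem_of_superset (hO.mem_nhds hx) hH)]

theorem ais_pdl_congr {O : Set (E n)} (hO : IsOpen O) (hH : O ⊆ Hs n) {f g : E n → ℝ}
    (h : EqOn f g O) (l : List (Fin n)) : EqOn (pdl l f) (pdl l g) O := by
  induction l with
  | nil => exact h
  | cons i l ih => exact fun x hx => (ais_relOpen hO hH).pd_congr ih hx i

theorem ais_pdl_eq {O : Set (E n)} (hO : IsOpen O) (hH : O ⊆ Hs n) (f : E n → ℝ)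
    (l : List (Fin n)) : EqOn (pdl l f) (aisDl l f) O := by
  induction l with
  | nil => exact fun x _ => rfl
  | cons i l ih =>
    intro x hx
    rw [ais_pdl_cons, aisDl_cons, (ais_relOpen hO hH).pd_congr ih hx i, ais_pd_eq hO hH _ hx]

theorem ais_pdl_smooth {O : Set (E n)} (hO : IsOpen O) (hH : O ⊆ Hs n) {f : E n → ℝ}
    (hf : ContDiffOn ℝ ∞ f O) (l : List (Fin n)) : ContDiffOn ℝ ∞ (pdl l f) O := by
  induction l with
  | nil => exact hf
  | cons i l ih => exact (ais_relOpen hO hH).pd_smooth ih i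

theorem ais_pdl_add {O : Set (E n)} (hO : IsOpen O) (hH : O ⊆ Hs n) {f g : E n → ℝ}
    (hf : ContDiffOn ℝ ∞ f O) (hg : ContDiffOn ℝ ∞ g O) (l : List (Fin n)) :
    EqOn (pdl l (fun x => f x + g x)) (fun x => pdl l f x + pdl l g x) O := by
  induction l with
  | nil => exact fun x _ => rfl
  | cons i l ih =>
    intro x hx
    rw [ais_pdl_cons, (ais_relOpen hO hH).pd_congr ih hx i,
      (ais_relOpen hO hH).pd_add (ais_pdl_smooth hO hH hf l) (ais_pdl_smooth hO hH hg l) hx i]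
    rfl

/-- Continuous functions on the closed ball are integrable on the open ball. -/
theorem ais_integrable {O : Set (E n)} {z : E n} {t : ℝ} (hb : Metric.closedBall z t ⊆ O)
    {f : E n → ℝ} (hf : ContinuousOn f O) : IntegrableOn f (Metric.ball z t) :=
  ((hf.mono hb).integrableOn_compact (isCompact_closedBall z t)).mono_set
    Metric.ball_subset_closedBall

/-- `∫ (pdl l (χ f))² ≤ C B`. -/
theorem ais_cut {O : Set (E n)} (hO : IsOpen O) (hH : O ⊆ Hs n) {z : E n} {t : ℝ}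
    (hb : Metric.closedBall z t ⊆ O) (l : List (Fin n)) :
    ∀ χ : E n → ℝ, ContDiff ℝ ∞ χ → HasCompactSupport χ →
      ∃ C : ℝ, 0 ≤ C ∧ ∀ f : E n → ℝ, ContDiffOn ℝ ∞ f O → ∀ B : ℝ,
      (∀ l' : List (Fin n), l'.length ≤ l.length →
        ∫ x in Metric.ball z t, (pdl l' f x) ^ 2 ≤ B) →
      ∫ x in Metric.ball z t, (pdl l (fun y => χ y * f y) x) ^ 2 ≤ C * B := by
  induction l using List.reverseRecOn with
  | nil =>
    intro χ hχ hc
    obtain ⟨K, hK⟩ := hc.exists_bound_of_continuous hχ.continuous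
    have hK0 : 0 ≤ K := (norm_nonneg _).trans (hK 0)
    refine ⟨K ^ 2, by positivity, fun f hf B hB => ?_⟩
    have h0 := hB [] le_rfl
    simp only [ais_pdl_nil] at h0 ⊢
    calc ∫ x in Metric.ball z t, (χ x * f x) ^ 2
        ≤ ∫ x in Metric.ball z t, K ^ 2 * (f x) ^ 2 := by
          refine setIntegral_mono_on
            (ais_integrable hb ((hχ.continuous.continuousOn.mul hf.continuousOn).pow 2))
            (ais_integrable hb (continuousOn_const.mul (hf.continuousOn.pow 2)))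
            measurableSet_ball fun x _ => ?_
          rw [mul_pow]
          have h2 : (χ x) ^ 2 ≤ K ^ 2 := by
            rw [← sq_abs]
            exact pow_le_pow_left₀ (abs_nonneg _) (hK x) 2
          exact mul_le_mul_of_nonneg_right h2 (sq_nonneg _)
      _ = K ^ 2 * ∫ x in Metric.ball z t, (f x) ^ 2 := integral_const_mul _ _
      _ ≤ K ^ 2 * B := mul_le_mul_of_nonneg_left h0 (by positivity)
  | append_singleton l i ih =>
    intro χ hχ hc
    have hcD : HasCompactSupport (aisD i χ) :=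
      hc.of_isClosed_subset (isClosed_tsupport _) (aisD_support χ i)
    obtain ⟨C1, hC1, h1⟩ := ih (aisD i χ) (aisD_smooth hχ i) hcD
    obtain ⟨C2, hC2, h2⟩ := ih χ hχ hc
    refine ⟨2 * C1 + 2 * C2, by positivity, fun f hf B hB => ?_⟩
    have hR := ais_relOpen hO hH
    have hpf : ContDiffOn ℝ ∞ (pd i f) O := hR.pd_smooth hf i
    have e1 := h1 f hf B fun l' hl' => hB l' (by simp; omega)
    have e2 := h2 (pd i f) hpf B fun l' hl' => by
      rw [← ais_pdl_concat]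
      exact hB (l' ++ [i]) (by simp; omega)
    have hsm1 : ContDiffOn ℝ ∞ (fun y => aisD i χ y * f y) O :=
      (aisD_smooth hχ i).contDiffOn.mul hf
    have hsm2 : ContDiffOn ℝ ∞ (fun y => χ y * pd i f y) O := hχ.contDiffOn.mul hpf
    have heq : EqOn (pdl (l ++ [i]) fun y => χ y * f y)
        (fun x => pdl l (fun y => aisD i χ y * f y) x + pdl l (fun y => χ y * pd i f y) x) O := by
      rw [ais_pdl_concat]
      have h3 : EqOn (pd i fun y => χ y * f y)
          (fun y => aisD i χ y * f y + χ y * pd i f y) O := by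
        intro x hx
        rw [hR.pd_mul hχ.contDiffOn hf hx i, ais_pd_eq hO hH χ hx]
        ring
      exact (ais_pdl_congr hO hH h3 l).trans (ais_pdl_add hO hH hsm1 hsm2 l)
    have c1 := (ais_pdl_smooth hO hH hsm1 l).continuousOn
    have c2 := (ais_pdl_smooth hO hH hsm2 l).continuousOn
    have hm : IntegrableOn (fun x => (pdl l (fun y => aisD i χ y * f y) x) ^ 2)
      (Metric.ball z t) := ais_integrable hb (c1.pow 2)
    have hm' : IntegrableOn (fun x => (pdl l (fun y => χ y * pd i f y) x) ^ 2)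
      (Metric.ball z t) := ais_integrable hb (c2.pow 2)
    calc ∫ x in Metric.ball z t, (pdl (l ++ [i]) (fun y => χ y * f y) x) ^ 2
        = ∫ x in Metric.ball z t, (pdl l (fun y => aisD i χ y * f y) x +
            pdl l (fun y => χ y * pd i f y) x) ^ 2 := by
          refine setIntegral_congr_fun measurableSet_ball fun x hx => ?_
          have hx2 := heq (hb (Metric.ball_subset_closedBall hx))
          simp only at hx2
          rw [hx2]
      _ ≤ ∫ x in Metric.ball z t, (2 * (pdl l (fun y => aisD i χ y * f y) x) ^ 2 +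
            2 * (pdl l (fun y => χ y * pd i f y) x) ^ 2) := by
          refine setIntegral_mono_on (ais_integrable hb ((c1.add c2).pow 2))
            ((hm.const_mul 2).add (hm'.const_mul 2)) measurableSet_ball fun x _ => ?_
          nlinarith [sq_nonneg (pdl l (fun y => aisD i χ y * f y) x -
            pdl l (fun y => χ y * pd i f y) x)]
      _ = 2 * (∫ x in Metric.ball z t, (pdl l (fun y => aisD i χ y * f y) x) ^ 2) +
            2 * ∫ x in Metric.ball z t, (pdl l (fun y => χ y * pd i f y) x) ^ 2 := by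
          rw [integral_add (hm.const_mul 2) (hm'.const_mul 2), integral_const_mul,
            integral_const_mul]
      _ ≤ (2 * C1 + 2 * C2) * B := by linarith

/-- Cauchy-Schwarz on a set of finite measure. -/
theorem ais_cs {A : Set (E n)} (hA : volume A ≠ ⊤) {h : E n → ℝ}
    (h1 : IntegrableOn (fun x => |h x|) A) (h2 : IntegrableOn (fun x => (h x) ^ 2) A) :
    (∫ x in A, |h x|) ^ 2 ≤ volume.real A * ∫ x in A, (h x) ^ 2 := by
  set V := volume.real A with hV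
  set I := ∫ x in A, |h x| with hI
  set Q := ∫ x in A, (h x) ^ 2 with hQ
  have hV0 : 0 ≤ V := measureReal_nonneg
  have key : 0 ≤ ∫ x in A, (V * |h x| - I) ^ 2 := integral_nonneg fun x => sq_nonneg _
  have hc : IntegrableOn (fun _ : E n => I ^ 2) A := integrableOn_const hA
  have e : ∫ x in A, (V * |h x| - I) ^ 2 = V ^ 2 * Q - 2 * V * I * I + I ^ 2 * V := by
    have e1 : ∀ x, (V * |h x| - I) ^ 2 = V ^ 2 * (h x) ^ 2 - 2 * V * I * |h x| + I ^ 2 := by
      intro x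
      rw [← sq_abs (h x)]
      ring
    simp_rw [e1]
    have i1 : IntegrableOn (fun x => V ^ 2 * (h x) ^ 2 - 2 * V * I * |h x|) A :=
      (h2.const_mul _).sub (h1.const_mul _)
    rw [integral_add i1 hc, integral_sub (h2.const_mul _) (h1.const_mul _),
      integral_const_mul, integral_const_mul]
    simp only [integral_const, smul_eq_mul, measureReal_restrict_apply_univ]
    ring
  rw [e] at key
  rcases hV0.eq_or_lt with h0 | h0
  · have hA0 : volume A = 0 := by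
      rcases (ENNReal.toReal_eq_zero_iff _).1 (show (volume A).toReal = 0 from h0.symm) with h | h
      · exact h
      · exact absurd h hA
    have : I = 0 := by
      rw [hI, Measure.restrict_eq_zero.2 hA0]; simp
    rw [this, ← h0]; simp
  · have h3 : 0 ≤ V * (V * Q - I ^ 2) := by nlinarith
    have h4 := nonneg_of_mul_nonneg_right h3 h0
    linarith

theorem aISup : AISup_statement := by
  intro n _ O hO hH z s t hst hb
  by_cases ht : 0 < t
  swap
  · refine ⟨0, le_rfl, fun f _ B _ x hx => ?_⟩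
    exact absurd hx (by rw [Metric.ball_eq_empty.2 (hst.le.trans (not_lt.1 ht))]; simp)
  set a : ℝ := max s (t / 2) with ha
  have ha0 : 0 < a := lt_of_lt_of_le (by linarith) (le_max_right _ _)
  have hat : a < t := max_lt hst (by linarith)
  let φ : ContDiffBump z := ⟨a, (a + t) / 2, ha0, by linarith⟩
  have hφs : ContDiff ℝ ∞ (φ : E n → ℝ) := φ.contDiff
  have hφc : HasCompactSupport (φ : E n → ℝ) := φ.hasCompactSupport
  have hφt : tsupport (φ : E n → ℝ) ⊆ Metric.ball z t := by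
    rw [φ.tsupport_eq]
    exact Metric.closedBall_subset_ball (by show (a + t) / 2 < t; linarith)
  obtain ⟨C, hC, hcut⟩ := ais_cut hO hH hb (List.finRange n) φ hφs hφc
  refine ⟨volume.real (Metric.ball z t) * C, by positivity, fun f hf B hB x hx => ?_⟩
  have hcut' := hcut f hf B fun l' hl' => hB l' (by simpa using hl')
  set g : E n → ℝ := fun y => φ y * f y with hg
  have hgt : tsupport g ⊆ tsupport (φ : E n → ℝ) :=
    closure_mono (Function.support_mul_subset_left _ _)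
  have hgs : ContDiff ℝ ∞ g := by
    rw [contDiff_iff_contDiffAt]
    intro y
    by_cases hy : y ∈ O
    · exact hφs.contDiffAt.mul (hf.contDiffAt (hO.mem_nhds hy))
    · have hy' : y ∉ tsupport g := fun h =>
        hy (hb (Metric.ball_subset_closedBall (hφt (hgt h))))
      exact contDiffAt_const.congr_of_eventuallyEq (notMem_tsupport_iff_eventuallyEq.1 hy')
  have hgc : HasCompactSupport g := hφc.of_isClosed_subset (isClosed_tsupport _) hgt
  have hsup := ais_sup hgs hgc x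
  have hx1 : g x = f x := by
    have : φ x = 1 := φ.one_of_mem_closedBall
      (Metric.closedBall_subset_closedBall (le_max_left _ _) (Metric.ball_subset_closedBall hx))
    simp only [hg, this, one_mul]
  rw [hx1] at hsup
  have hsupp : ∀ y, y ∉ Metric.ball z t → |aisDl (List.finRange n) g y| = 0 := by
    intro y hy
    rw [abs_eq_zero]
    by_contra h
    exact hy (hφt (hgt (aisDl_support g _ (subset_tsupport _ h))))
  have e1 : ∫ y, |aisDl (List.finRange n) g y| =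
      ∫ y in Metric.ball z t, |pdl (List.finRange n) g y| := by
    rw [← setIntegral_eq_integral_of_forall_compl_eq_zero (s := Metric.ball z t) hsupp]
    refine setIntegral_congr_fun measurableSet_ball fun y hy => ?_
    have := ais_pdl_eq hO hH g (List.finRange n) (hb (Metric.ball_subset_closedBall hy))
    simp only [this]
  have hgO : ContDiffOn ℝ ∞ g O := hgs.contDiffOn
  have hcont := (ais_pdl_smooth hO hH hgO (List.finRange n)).continuousOn
  have hcs := ais_cs (A := Metric.ball z t) measure_ball_lt_top.ne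
    (h := pdl (List.finRange n) g) (ais_integrable hb hcont.abs) (ais_integrable hb (hcont.pow 2))
  rw [e1] at hsup
  calc (f x) ^ 2 = |f x| ^ 2 := (sq_abs _).symm
    _ ≤ (∫ y in Metric.ball z t, |pdl (List.finRange n) g y|) ^ 2 :=
        pow_le_pow_left₀ (abs_nonneg _) hsup 2
    _ ≤ volume.real (Metric.ball z t) *
        ∫ y in Metric.ball z t, (pdl (List.finRange n) g y) ^ 2 := hcs
    _ ≤ volume.real (Metric.ball z t) * (C * B) :=
        mul_le_mul_of_nonneg_left hcut' measureReal_nonneg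
    _ = volume.real (Metric.ball z t) * C * B := by ring

end Vale.Agent.P088.EYM
end
end

section

/-!
# P088-EYM, block B-T5: second covariant derivative and the operator of a pull back
-/

open MeasureTheory Set Filter Topology
open scoped ContDiff

noncomputable section

namespace Vale.Agent.P088.EYM

variable {n N : ℕ} [NeZero n]

theorem Hess_one_le {m : WithTop ℕ∞} (hm : m ≠ 0) : (1 : WithTop ℕ∞) ≤ m := by
  rcases m with _ | m
  · exact le_top
  · refine WithTop.coe_le_coe.2 (Order.one_le_iff_ne_zero.2 fun h => hm ?_)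
    rw [h]
    rfl

/-- chain rule for `C^m` sections, `m ≠ 0` -/
theorem Hess_pd_comp {F : Type*} [NormedAddCommGroup F] [NormedSpace ℝ F] {D D' : Set (E n)}
    (hD : RelOpen D) (hD' : RelOpen D') {X : E n → E n}
    (hX : ContDiffOn ℝ ∞ X D) (hm : MapsTo X D D') {m : WithTop ℕ∞} (hm0 : m ≠ 0) {f : E n → F}
    (hf : ContDiffOn ℝ m f D') {x : E n} (hx : x ∈ D) (j : Fin n) :
    pd j (fun y => f (X y)) x = ∑ k, Jac X x k j • pd k f (X x) := by
  have h1 : HasFDerivWithinAt X (fderivWithin ℝ X (Hs n) x) D x :=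
    (hD.hasD hx hX (by simp)).mono hD.subset
  have h2 := (hD'.hasD (hm hx) hf hm0).comp x h1 (fun y hy => hD'.subset (hm hy))
  have h3 : HasFDerivWithinAt (fun y => f (X y)) _ (Hs n) x :=
    h2.mono_of_mem_nhdsWithin (hD.mem_nhds hx)
  rw [pd_of_has (hD.subset hx) h3 j]
  simp only [ContinuousLinearMap.comp_apply]
  rw [fderivWithin_eq_sum]
  refine Finset.sum_congr rfl fun k _ => ?_
  congr 1
  exact (hD.pd_clm (EuclideanSpace.proj (𝕜 := ℝ) k) hX hx j).symm

theorem Hess_smul (T : EndF N) (a : ℝ) (v : Fib N) : T (a • v) = a • T v :=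
  ContinuousLinearMap.map_smul_of_tower T a v

theorem nab_pull {L L' : LD n N} {D D' : Set (E n)} {X Y : E n → E n} {S : E n → EndF N}
    (hD : RelOpen D) (hD' : RelOpen D') (h : IsPull L L' D D' X Y S) {m : WithTop ℕ∞} (hm : m ≠ 0)
    {c : E n → Fib N} (hc : ContDiffOn ℝ m c D') {x : E n} (hx : x ∈ D) (j : Fin n) :
    nab L j (fun x => S x (c (X x))) x = S x (∑ k, Jac X x k j • nab L' k c (X x)) := by
  have hc1 : ContDiffOn ℝ 1 c D' := hc.of_le (Hess_one_le hm)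
  have hX1 : ContDiffOn ℝ 1 X D := h.diffeo.smX.of_le (by simp)
  have hcX : ContDiffOn ℝ 1 (fun x => c (X x)) D := hc1.comp hX1 h.diffeo.mapsX
  have e1 := hD.pd_eval h.smS hcX (by simp) (by simp) hx j
  have e2 := Hess_pd_comp hD hD' h.diffeo.smX h.diffeo.mapsX hm hc hx j
  have e3 : (pd j S x + L.B j x * S x) (c (X x)) =
      (S x * ∑ k, Jac X x k j • L'.B k (X x)) (c (X x)) := by rw [h.B_eq x hx j]
  have e4 : (S x * ∑ k, Jac X x k j • L'.B k (X x)) (c (X x)) =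
      S x (∑ k, Jac X x k j • L'.B k (X x) (c (X x))) := by
    simp
  have e5 : (pd j S x + L.B j x * S x) (c (X x)) = pd j S x (c (X x)) + L.B j x (S x (c (X x))) :=
    rfl
  unfold nab
  rw [e1, e2, add_assoc, ← e5, e3, e4, ← map_add, ← Finset.sum_add_distrib]
  simp only [smul_add]

theorem Hess_nab_smooth {L : LD n N} {D : Set (E n)} (hD : RelOpen D) (hL : L.Ok D)
    {c : E n → Fib N} (hc : ContDiffOn ℝ ∞ c D) (q : Fin n) : ContDiffOn ℝ ∞ (nab L q c) D :=
  (hD.pd_smooth hc q).add (smooth_eval (hL.B_smooth q) hc)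

theorem hess_pull {L L' : LD n N} {D D' : Set (E n)} {X Y : E n → E n} {S : E n → EndF N}
    (hD : RelOpen D) (hD' : RelOpen D') (hL : L.Ok D) (hL' : L'.Ok D')
    (h : IsPull L L' D D' X Y S) {c : E n → Fib N} (hc : ContDiffOn ℝ ∞ c D') {x : E n} (hx : x ∈ D)
    (j k : Fin n) :
    hess L j k (fun x => S x (c (X x))) x =
      S x (∑ p, ∑ q, (Jac X x p j * Jac X x q k) • hess L' p q c (X x)) := by
  have hX := h.diffeo.smX
  have hmX := h.diffeo.mapsX
  set w : Fin n → E n → Fib N := fun k => pull X (fun q => nab L' q c) k with hw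
  have hws : ∀ k, ContDiffOn ℝ ∞ (w k) D := fun k =>
    hD.pull_smooth hX hmX (fun q => Hess_nab_smooth hD' hL' hc q) k
  have hn : ∀ k, ∀ y ∈ D, nab L k (fun x => S x (c (X x))) y = S y (w k y) := fun k y hy =>
    nab_pull hD hD' h (by simp) hc hy k
  have e1 : pd j (nab L k (fun x => S x (c (X x)))) x = S x (pd j (w k) x) + pd j S x (w k x) := by
    rw [hD.pd_congr (g := fun y => S y (w k y)) (fun y hy => hn k y hy) hx j]
    exact hD.pd_eval h.smS (hws k) (by simp) (by simp) hx j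
  have e2 := hD.pd_pull hD' hX hmX (fun q => Hess_nab_smooth hD' hL' hc q) hx j k
  have e3 : (pd j S x + L.B j x * S x) (w k x) =
      (S x * ∑ k, Jac X x k j • L'.B k (X x)) (w k x) := by rw [h.B_eq x hx j]
  have e4 : (S x * ∑ k, Jac X x k j • L'.B k (X x)) (w k x) =
      S x (∑ p, ∑ q, (Jac X x p j * Jac X x q k) • L'.B p (X x) (nab L' q c (X x))) := by
    simp only [hw, pull, mul_apply_eq_comp, sum_apply, map_sum, smul_apply, Hess_smul, smul_smul]
    exact Finset.sum_comm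
  have e5 : (pd j S x + L.B j x * S x) (w k x) = pd j S x (w k x) + L.B j x (S x (w k x)) :=
    rfl
  have hchr := chr_pull hD hD' hmX hX hL'.g_smooth hL.g_pos hL'.g_pos h.g_eq hx j
  have e6 : ∀ q, ∑ l, Jac X x q l * chr L.g l j k x = pd j (pd k (fun y => X y q)) x +
      ∑ p, ∑ r, (Jac X x p j * Jac X x r k) * chr L'.g q p r (X x) := by
    intro q
    have := congrFun (congrFun hchr q) k
    rw [Matrix.mul_apply, Matrix.add_apply, Matrix.mul_apply] at this
    simp only [mchr, pdM, Matrix.of_apply, Matrix.sum_apply, Matrix.smul_apply, smul_eq_mul] at this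
    rw [this]
    congr 1
    rw [Finset.sum_comm]
    refine Finset.sum_congr rfl fun r _ => ?_
    rw [Finset.sum_mul]
    refine Finset.sum_congr rfl fun p _ => ?_
    ring
  have e7 : ∑ l, chr L.g l j k x • nab L l (fun x => S x (c (X x))) x =
      S x (∑ q, (∑ l, Jac X x q l * chr L.g l j k x) • nab L' q c (X x)) := by
    have : ∀ l, nab L l (fun x => S x (c (X x))) x = S x (w l x) := fun l => hn l x hx
    simp only [this, ← Hess_smul, ← map_sum]
    congr 1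
    simp only [hw, pull, Finset.smul_sum, Finset.sum_smul]
    rw [Finset.sum_comm]
    refine Finset.sum_congr rfl fun q _ => Finset.sum_congr rfl fun l _ => ?_
    rw [smul_smul, mul_comm]
    rfl
  have e8 : hess L j k (fun x => S x (c (X x))) x =
      S x (pd j (w k) x + ∑ p, ∑ q, (Jac X x p j * Jac X x q k) • L'.B p (X x) (nab L' q c (X x)) -
        ∑ q, (∑ l, Jac X x q l * chr L.g l j k x) • nab L' q c (X x)) := by
    unfold hess
    rw [e1, e7, hn k x hx, add_assoc, ← e5, e3, e4, ← map_add, ← map_sub]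
  rw [e8]
  congr 1
  have e9 : pd j (w k) x = ∑ q, pd j (pd k (fun y => X y q)) x • nab L' q c (X x) +
      ∑ p, ∑ q, (Jac X x p j * Jac X x q k) • pd p (nab L' q c) (X x) := by
    rw [show w k = pull X (fun q => nab L' q c) k from rfl, e2]
    congr 1
    rw [Finset.sum_comm]
    rfl
  have e10 : ∑ q, (∑ l, Jac X x q l * chr L.g l j k x) • nab L' q c (X x) =
      ∑ q, pd j (pd k (fun y => X y q)) x • nab L' q c (X x) +
      ∑ p, ∑ r, (Jac X x p j * Jac X x r k) • ∑ q, chr L'.g q p r (X x) • nab L' q c (X x) := by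
    simp only [e6, add_smul, Finset.sum_add_distrib, Finset.sum_smul, Finset.smul_sum, smul_smul]
    congr 1
    rw [Finset.sum_comm]
    refine Finset.sum_congr rfl fun p _ => ?_
    rw [Finset.sum_comm]
  rw [e9, e10]
  simp only [hess, smul_sub, smul_add, Finset.sum_add_distrib, Finset.sum_sub_distrib]
  abel

omit [NeZero n] in
theorem Hess_det {g g' : Matrix (Fin n) (Fin n) ℝ} {J : Matrix (Fin n) (Fin n) ℝ}
    (hg : g.PosDef) (h : g = J.transpose * g' * J) : J.det ≠ 0 := by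
  have h1 : g.det = J.det * g'.det * J.det := by
    rw [h, Matrix.det_mul, Matrix.det_mul, Matrix.det_transpose]
  intro h0
  have := hg.det_pos
  rw [h1, h0] at this
  simp at this

omit [NeZero n] in
theorem Hess_sqrt {g g' : Matrix (Fin n) (Fin n) ℝ} {J : Matrix (Fin n) (Fin n) ℝ}
    (h : g = J.transpose * g' * J) : Real.sqrt g.det = |J.det| * Real.sqrt g'.det := by
  have h1 : g.det = J.det ^ 2 * g'.det := by
    rw [h, Matrix.det_mul, Matrix.det_mul, Matrix.det_transpose]; ring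
  rw [h1, Real.sqrt_mul (sq_nonneg _), Real.sqrt_sq_eq_abs]

omit [NeZero n] in
theorem Hess_inv {g g' : Matrix (Fin n) (Fin n) ℝ} {J : Matrix (Fin n) (Fin n) ℝ}
    (hg : g.PosDef) (h : g = J.transpose * g' * J) : J * g⁻¹ * J.transpose = g'⁻¹ := by
  have hJ : IsUnit J.det := isUnit_iff_ne_zero.2 (Hess_det hg h)
  have hJt : IsUnit J.transpose.det := by rw [Matrix.det_transpose]; exact hJ
  rw [h, Matrix.mul_inv_rev, Matrix.mul_inv_rev, ← Matrix.mul_assoc, Matrix.mul_nonsing_inv _ hJ,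
    Matrix.one_mul, Matrix.mul_assoc, Matrix.nonsing_inv_mul _ hJt, Matrix.mul_one]

theorem Lop_pull {L L' : LD n N} {D D' : Set (E n)} {X Y : E n → E n} {S : E n → EndF N}
    (hD : RelOpen D) (hD' : RelOpen D') (hL : L.Ok D) (hL' : L'.Ok D')
    (h : IsPull L L' D D' X Y S) {c : E n → Fib N} (hc : ContDiffOn ℝ ∞ c D') {x : E n}
    (hx : x ∈ D) :
    Lop L (fun x => S x (c (X x))) x = |(Jac X x).det| • S x (Lop L' c (X x)) := by
  have hX := h.diffeo.smX
  have hmX := h.diffeo.mapsX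
  have hSc : ContDiffOn ℝ ∞ (fun x => S x (c (X x))) D := smooth_eval h.smS (hc.comp hX hmX)
  rw [Lop_eq_hess hD hL hSc hx, Lop_eq_hess hD' hL' hc (hmX hx), Hess_sqrt (h.g_eq x hx), Hess_smul,
    smul_smul]
  congr 1
  have hi := Hess_inv (hL.g_pos x hx) (h.g_eq x hx)
  have hi' : ∀ p q, (L'.g (X x))⁻¹ p q =
      ∑ j, ∑ k, (L.g x)⁻¹ j k * (Jac X x p j * Jac X x q k) := by
    intro p q
    rw [← hi, Matrix.mul_apply, Finset.sum_comm]
    refine Finset.sum_congr rfl fun k _ => ?_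
    rw [Matrix.mul_apply, Finset.sum_mul]
    refine Finset.sum_congr rfl fun j _ => ?_
    rw [Matrix.transpose_apply]
    ring
  simp only [hess_pull hD hD' hL hL' h hc hx, ← Hess_smul, ← map_sum]
  congr 1
  simp only [hi', Finset.smul_sum, Finset.sum_smul, smul_smul]
  have s1 : ∀ (f : Fin n → Fin n → Fin n → Fin n → Fib N),
      ∑ j, ∑ k, ∑ p, ∑ q, f j k p q = ∑ p, ∑ q, ∑ j, ∑ k, f j k p q := by
    intro f
    calc ∑ j, ∑ k, ∑ p, ∑ q, f j k p q = ∑ j, ∑ p, ∑ k, ∑ q, f j k p q :=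
          Finset.sum_congr rfl fun j _ => Finset.sum_comm
      _ = ∑ p, ∑ j, ∑ k, ∑ q, f j k p q := Finset.sum_comm
      _ = ∑ p, ∑ j, ∑ q, ∑ k, f j k p q :=
          Finset.sum_congr rfl fun p _ => Finset.sum_congr rfl fun j _ => Finset.sum_comm
      _ = ∑ p, ∑ q, ∑ j, ∑ k, f j k p q := Finset.sum_congr rfl fun p _ => Finset.sum_comm
  exact s1 _

theorem bSol : BSol_statement := by
  intro n N _ L L' D D' X Y S hD hD' hL hL' h c hs hc
  refine ⟨hc, fun y hy => ?_⟩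
  have hx : Y y ∈ D := h.diffeo.mapsY hy
  have hXY : X (Y y) = y := h.diffeo.inv2 y hy
  have h1 := Lop_pull hD hD' hL hL' h hc hx
  rw [hs.2 (Y y) hx, hXY] at h1
  have hJ : |(Jac X (Y y)).det| ≠ 0 :=
    abs_ne_zero.2 (Hess_det (hL.g_pos _ hx) (h.g_eq _ hx))
  have h2 : S (Y y) (Lop L' c y) = 0 := (smul_eq_zero.1 h1.symm).resolve_left hJ
  obtain ⟨u, hu⟩ := h.unit _ hx
  have h3 : ((↑u⁻¹ : EndF N) * (u : EndF N)) (Lop L' c y) = 0 := by
    rw [mul_apply_eq_comp, hu, h2, map_zero]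
  rwa [Units.inv_mul, one_apply_eq_self] at h3

end Vale.Agent.P088.EYM
end
end

section

/-!
# P088-EYM, B-T9: existence of a model in solution coordinates
-/

open MeasureTheory Set Filter Topology
open scoped ContDiff

noncomputable section

namespace Vale.Agent.P088.EYM

variable {n N : ℕ} [NeZero n]

/-! ### Restriction to smaller sets -/

theorem bmodel_ok_mono {L : LD n N} {D D' : Set (E n)} (h : L.Ok D) (hs : D' ⊆ D) : L.Ok D' :=
  ⟨fun i j => (h.g_smooth i j).mono hs, fun x hx => h.g_pos x (hs hx),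
    fun i => (h.B_smooth i).mono hs, h.h_smooth.mono hs, fun x hx => h.h_adj x (hs hx),
    fun x hx => h.h_pos x (hs hx), fun x hx => h.compat x (hs hx)⟩

theorem bmodel_eym_mono {κ α β : ℝ} {L : LD n N} {D D' : Set (E n)} (h : EYMeq κ α β L D)
    (hs : D' ⊆ D) : EYMeq κ α β L D' :=
  ⟨fun x hx => h.ein x (hs hx), fun x hx => h.ym x (hs hx)⟩

theorem bmodel_sol_mono {L : LD n N} {D D' : Set (E n)} {c : E n → Fib N} (h : Sol L D c)
    (hs : D' ⊆ D) : Sol L D' c := ⟨h.1.mono hs, fun x hx => h.2 x (hs hx)⟩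

theorem bmodel_sol_congr {L : LD n N} {D : Set (E n)} (hD : RelOpen D) {c d : E n → Fib N}
    (h : Sol L D c) (he : EqOn d c D) : Sol L D d := by
  refine ⟨h.1.congr he, fun x hx => ?_⟩
  have h1 : ∀ k, EqOn (nab L k d) (nab L k c) D := fun k y hy => by
    rw [nab, nab, hD.pd_congr he hy k, he hy]
  have h2 : ∀ j, EqOn (flux L j d) (flux L j c) D := fun j y hy => by
    rw [flux, flux]
    exact Finset.sum_congr rfl fun k _ => by rw [h1 k hy]
  rw [← h.2 x hx, Lop, Lop]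
  exact Finset.sum_congr rfl fun j _ => by rw [hD.pd_congr (h2 j) hx j, h2 j hx]

omit [NeZero n] in
theorem bmodel_diffeo_restrict {D D' D₁ D₁' : Set (E n)} {X Y : E n → E n}
    (h : IsDiffeo D D' X Y) (hs : D₁ ⊆ D) (hs' : D₁' ⊆ D') (hm : MapsTo X D₁ D₁')
    (hm' : MapsTo Y D₁' D₁) : IsDiffeo D₁ D₁' X Y :=
  ⟨hm, hm', fun x hx => h.inv1 x (hs hx), fun y hy => h.inv2 y (hs' hy), h.smX.mono hs,
    h.smY.mono hs'⟩

theorem bmodel_pull_restrict {L L' : LD n N} {D D' D₁ D₁' : Set (E n)} {X Y : E n → E n}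
    {S : E n → EndF N} (h : IsPull L L' D D' X Y S) (hs : D₁ ⊆ D) (hs' : D₁' ⊆ D')
    (hm : MapsTo X D₁ D₁') (hm' : MapsTo Y D₁' D₁) : IsPull L L' D₁ D₁' X Y S :=
  ⟨bmodel_diffeo_restrict h.diffeo hs hs' hm hm', h.smS.mono hs, fun x hx => h.unit x (hs hx),
    fun x hx => h.g_eq x (hs hx), fun x hx => h.B_eq x (hs hx), fun x hx => h.h_eq x (hs hx)⟩

theorem bmodel_relOpen_preimage {F : Type*} [TopologicalSpace F] {D : Set (E n)}
    (hD : RelOpen D) {f : E n → F} (hf : ContinuousOn f D) {t : Set F} (ht : IsOpen t) :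
    RelOpen {x | x ∈ D ∧ f x ∈ t} := by
  obtain ⟨u, hu, hut⟩ := continuousOn_iff'.1 hf t ht
  have h1 : {x | x ∈ D ∧ f x ∈ t} = u ∩ D := by
    rw [← hut]
    ext x
    simp only [mem_ofPred_eq, mem_inter_iff, mem_preimage]
    exact and_comm
  rw [h1]
  exact hD.univ_inter hu

theorem bmodel_HB_relOpen (z : E n) (r : ℝ) : RelOpen (HB z r) := ⟨_, Metric.isOpen_ball, rfl⟩

theorem bmodel_Xco_smooth {D : Set (E n)} (j0 : Fin N) {S : E n → EndF N}
    {T : Fin n → E n → Fib N} (hS : ContDiffOn ℝ ∞ S D) (hT : ∀ a, ContDiffOn ℝ ∞ (T a) D)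
    (hu : ∀ x ∈ D, IsUnit (S x)) : ContDiffOn ℝ ∞ (Xco j0 S T) D := by
  rw [contDiffOn_euclidean]
  intro a
  have h1 : ContDiffOn ℝ ∞ (fun x => (Ring.inverse (S x)) (T a x)) D :=
    smooth_eval (smooth_ringInverse hS hu) (hT a)
  have h2 := (Complex.reCLM.comp
    ((EuclideanSpace.proj (𝕜 := ℂ) j0).restrictScalars ℝ)).contDiff.comp_contDiffOn h1 (n := ∞)
  exact h2

theorem bModel : BModel_statement := by
  intro n N _ L D κ α β j0 hD hL hE S T hS hSf hT z hz hzu hdet hcase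
  -- the set where the frame is invertible
  set D0 : Set (E n) := {x | x ∈ D ∧ S x ∈ {t : EndF N | IsUnit t}} with hD0
  have hD0o : RelOpen D0 := bmodel_relOpen_preimage hD hS.continuousOn Units.isOpen
  have hD0s : D0 ⊆ D := fun x hx => hx.1
  have hu0 : ∀ x ∈ D0, IsUnit (S x) := fun x hx => hx.2
  have hX : ContDiffOn ℝ ∞ (Xco j0 S T) D0 :=
    bmodel_Xco_smooth j0 (hS.mono hD0s) (fun a => (hT a).1.mono hD0s) hu0
  obtain ⟨Y, r₀, hr₀, hY⟩ := half_ift hD0o hX (z := z) ⟨hz, hzu⟩ hdet hcase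
  obtain ⟨D1, hD1s, hD1o, hzD1, hdiff⟩ := hY r₀ hr₀ le_rfl
  have hD1D : D1 ⊆ D := hD1s.trans hD0s
  have hu1 : ∀ x ∈ D1, IsUnit (S x) := fun x hx => hu0 x (hD1s hx)
  have hS1 : ContDiffOn ℝ ∞ S D1 := hS.mono hD1D
  have hL1 : L.Ok D1 := bmodel_ok_mono hL hD1D
  have hHB := bmodel_HB_relOpen (Xco j0 S T z) r₀
  obtain ⟨L', hL', hP, hE'⟩ := bPush n N L D1 _ (Xco j0 S T) Y S hD1o hHB hL1 hdiff hS1 hu1
  have hEL' := hE' κ α β (bmodel_eym_mono hE hD1D)
  set W : Model n N := { toLD := L', c := fun a y => Ring.inverse (S (Y y)) (T a (Y y)) } with hW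
  have hSY : ContDiffOn ℝ ∞ (fun y => S (Y y)) (HB (Xco j0 S T z) r₀) :=
    hS1.comp hdiff.smY hdiff.mapsY
  have hcs : ∀ a, ContDiffOn ℝ ∞ (W.c a) (HB (Xco j0 S T z) r₀) := fun a =>
    smooth_eval (smooth_ringInverse hSY fun y hy => hu1 _ (hdiff.mapsY hy))
      (((hT a).1.mono hD1D).comp hdiff.smY hdiff.mapsY)
  have hTW : ∀ x ∈ D1, ∀ a, T a x = S x (W.c a (Xco j0 S T x)) := by
    intro x hx a
    simp only [hW]
    rw [hdiff.inv1 x hx]
    have h1 : S x * Ring.inverse (S x) = 1 := Ring.mul_inverse_cancel _ (hu1 x hx)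
    have h2 : (S x * Ring.inverse (S x)) (T a x) = T a x := by
      rw [h1]
      rfl
    exact h2.symm
  have hframe : ∀ v : Fib N, Sol L' (HB (Xco j0 S T z) r₀) (fun _ => v) := fun v =>
    bSol n N L L' D1 _ (Xco j0 S T) Y S hD1o hHB hL1 hL' hP (fun _ => v)
      (bmodel_sol_mono (hSf v) hD1D) contDiffOn_const
  have hsol : ∀ a, Sol L' (HB (Xco j0 S T z) r₀) (W.c a) := fun a =>
    bSol n N L L' D1 _ (Xco j0 S T) Y S hD1o hHB hL1 hL' hP (W.c a)
      (bmodel_sol_congr hD1o (bmodel_sol_mono (hT a) hD1D) fun x hx => (hTW x hx a).symm)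
      (hcs a)
  refine ⟨Y, W, r₀, hr₀, fun r hr hrr => ?_⟩
  have hsub : HB (Xco j0 S T z) r ⊆ HB (Xco j0 S T z) r₀ := fun y hy =>
    ⟨Metric.ball_subset_ball hrr hy.1, hy.2⟩
  set D2 : Set (E n) := {x | x ∈ D1 ∧ Xco j0 S T x ∈ Metric.ball (Xco j0 S T z) r} with hD2
  have hD2s : D2 ⊆ D1 := fun x hx => hx.1
  have hm : MapsTo (Xco j0 S T) D2 (HB (Xco j0 S T z) r) := fun x hx =>
    ⟨hx.2, (hdiff.mapsX hx.1).2⟩
  have hm' : MapsTo Y (HB (Xco j0 S T z) r) D2 := fun y hy =>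
    ⟨hdiff.mapsY (hsub hy), by rw [hdiff.inv2 y (hsub hy)]; exact hy.1⟩
  refine ⟨D2, hD2s.trans hD1D, ?_, ?_, ?_, ?_, ?_⟩
  · exact bmodel_relOpen_preimage hD1o hdiff.smX.continuousOn Metric.isOpen_ball
  · exact ⟨hzD1, Metric.mem_ball_self hr⟩
  · exact bmodel_pull_restrict hP hD2s hsub hm hm'
  · refine ⟨bmodel_ok_mono hL' hsub, fun v => bmodel_sol_mono (hframe v) hsub,
      fun a => bmodel_sol_mono (hsol a) hsub, fun a y hy => ?_, bmodel_eym_mono hEL' hsub⟩
    have h1 := hdiff.inv2 y (hsub hy)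
    have h2 := congrArg (fun w : E n => w a) h1
    exact h2
  · exact fun x hx a => hTW x (hD2s hx) a

end Vale.Agent.P088.EYM
end
end

section

/-!
# P088-EYM, block C, Runge B: local estimates and integrals in charts
-/

open Bundle Manifold MeasureTheory Set Filter Topology
open scoped ContDiff

noncomputable section

namespace Vale.Agent.P088.EYM

universe u

set_option linter.unusedSectionVars false

section local_est

variable {n N : ℕ} [NeZero n] {D C : Set (E n)} {L : LD n N}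

omit [NeZero n] in
theorem cRungeB_quad {A : Matrix (Fin n) (Fin n) ℝ} (hA : A.PosDef) {v : Fin n → ℝ}
    (hv : v ≠ 0) : 0 < ∑ j, ∑ k, A j k * v j * v k := by
  have h := hA.dotProduct_mulVec_pos hv
  have h2 : star v ⬝ᵥ (A.mulVec v) = ∑ j, ∑ k, A j k * v j * v k := by
    simp only [dotProduct, Matrix.mulVec, Finset.mul_sum, Pi.star_apply, star_trivial]
    refine Finset.sum_congr rfl fun j _ => Finset.sum_congr rfl fun k _ => ?_
    ring
  rw [← h2]
  exact h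

omit [NeZero n] in
theorem cRungeB_gg_pos {g : E n → Matrix (Fin n) (Fin n) ℝ} {x : E n} (h : (g x).PosDef)
    {v : Fin n → ℝ} (hv : v ≠ 0) : 0 < ∑ j, ∑ k, gg g j k x * v j * v k := by
  have h1 := cRungeB_quad h.inv hv
  have h2 : ∑ j, ∑ k, gg g j k x * v j * v k =
      Real.sqrt (g x).det * ∑ j, ∑ k, (g x)⁻¹ j k * v j * v k := by
    rw [Finset.mul_sum]
    refine Finset.sum_congr rfl fun j _ => ?_
    rw [Finset.mul_sum]
    refine Finset.sum_congr rfl fun k _ => ?_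
    unfold gg
    ring
  rw [h2]
  exact mul_pos (Real.sqrt_pos.2 h.det_pos) h1

theorem cRungeB_gg_cont (hD : RelOpen D) (ok : L.Ok D) (j k : Fin n) :
    ContinuousOn (gg L.g j k) D :=
  (hD.gg_smooth ok.g_smooth ok.g_pos j k).continuousOn

/-- the quadratic form -/
def cRungeB_q (L : LD n N) (p : E n × E n) : ℝ := ∑ j, ∑ k, gg L.g j k p.1 * p.2 j * p.2 k

theorem cRungeB_q_cont (hD : RelOpen D) (ok : L.Ok D) :
    ContinuousOn (cRungeB_q L) (D ×ˢ (univ : Set (E n))) := by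
  refine continuousOn_finsetSum _ fun j _ => continuousOn_finsetSum _ fun k _ => ?_
  have h1 : ContinuousOn (fun p : E n × E n => gg L.g j k p.1) (D ×ˢ (univ : Set (E n))) :=
    (cRungeB_gg_cont hD ok j k).comp continuousOn_fst fun p hp => hp.1
  exact (h1.mul ((continuous_coord j).comp continuous_snd).continuousOn).mul
    ((continuous_coord k).comp continuous_snd).continuousOn

omit [NeZero n] in
theorem cRungeB_q_pos {x : E n} (h : (L.g x).PosDef) {w : E n} (hw : w ≠ 0) :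
    0 < cRungeB_q L (x, w) := by
  refine cRungeB_gg_pos h (v := fun i => w i) fun h0 => hw ?_
  ext i
  exact congrFun h0 i

omit [NeZero n] in
theorem cRungeB_q_smul (x w : E n) (t : ℝ) :
    cRungeB_q L (x, t • w) = t ^ 2 * cRungeB_q L (x, w) := by
  unfold cRungeB_q
  rw [Finset.mul_sum]
  refine Finset.sum_congr rfl fun j _ => ?_
  rw [Finset.mul_sum]
  refine Finset.sum_congr rfl fun k _ => ?_
  simp only [PiLp.smul_apply, smul_eq_mul]
  ring

theorem cRungeB_lower1 (hD : RelOpen D) (ok : L.Ok D) (hC : IsCompact C) (hCD : C ⊆ D) :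
    ∃ a : ℝ, 0 < a ∧ ∀ x ∈ C, ∀ w ∈ Metric.sphere (0 : E n) 1, a ≤ cRungeB_q L (x, w) := by
  rcases C.eq_empty_or_nonempty with h0 | hne
  · refine ⟨1, one_pos, fun x hx => ?_⟩
    rw [h0] at hx
    exact absurd hx (notMem_empty x)
  have hSne : (C ×ˢ Metric.sphere (0 : E n) 1).Nonempty := by
    refine hne.prod ⟨ev 0, ?_⟩
    rw [mem_sphere_zero_iff_norm, PiLp.norm_single, norm_one]
  obtain ⟨p0, hp0, hmin⟩ := (hC.prod (isCompact_sphere (0 : E n) 1)).exists_isMinOn hSne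
    ((cRungeB_q_cont hD ok).mono (Set.prod_mono hCD (subset_univ _)))
  obtain ⟨hp1, hp2⟩ := Set.mem_prod.1 hp0
  have hv0 : p0.2 ≠ 0 := by
    intro h
    rw [h, mem_sphere_zero_iff_norm, norm_zero] at hp2
    exact zero_ne_one hp2
  refine ⟨cRungeB_q L p0, cRungeB_q_pos (ok.g_pos _ (hCD hp1)) hv0, fun x hx w hw => ?_⟩
  exact isMinOn_iff.1 hmin (x, w) (Set.mk_mem_prod hx hw)

theorem cRungeB_lower (hD : RelOpen D) (ok : L.Ok D) (hC : IsCompact C) (hCD : C ⊆ D) :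
    ∃ a : ℝ, 0 < a ∧ ∀ x ∈ C, ∀ v : Fin n → ℝ,
      a * ∑ j, v j ^ 2 ≤ ∑ j, ∑ k, gg L.g j k x * v j * v k := by
  obtain ⟨a, ha, hlow⟩ := cRungeB_lower1 hD ok hC hCD
  refine ⟨a, ha, fun x hx v => ?_⟩
  have hq : ∑ j, ∑ k, gg L.g j k x * v j * v k = cRungeB_q L (x, WithLp.toLp 2 v) := rfl
  have hs : ∑ j, v j ^ 2 = ‖(WithLp.toLp 2 v : E n)‖ ^ 2 := by
    rw [EuclideanSpace.norm_sq_eq]
    refine Finset.sum_congr rfl fun j _ => ?_
    rw [Real.norm_eq_abs, sq_abs]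
  rw [hq, hs]
  generalize (WithLp.toLp 2 v : E n) = w
  by_cases hw : w = 0
  · have h1 : cRungeB_q L (x, w) = 0 := by
      have := cRungeB_q_smul (L := L) x w 0
      rw [hw, smul_zero] at this
      rw [hw, this]
      ring
    rw [h1, hw, norm_zero]
    simp
  have hn : 0 < ‖w‖ := norm_pos_iff.2 hw
  have h2 := hlow x hx ((‖w‖⁻¹ : ℝ) • w) (by
    rw [mem_sphere_zero_iff_norm, norm_smul, norm_inv, norm_norm, inv_mul_cancel₀ hn.ne'])
  rw [cRungeB_q_smul] at h2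
  have h4 : 0 < ‖w‖ ^ 2 := by positivity
  calc a * ‖w‖ ^ 2 ≤ (‖w‖⁻¹ ^ 2 * cRungeB_q L (x, w)) * ‖w‖ ^ 2 :=
        mul_le_mul_of_nonneg_right h2 h4.le
    _ = cRungeB_q L (x, w) := by field_simp

omit [NeZero n] in
/-- coercivity for vectors in the fibre -/
theorem cRungeB_coer {a : ℝ} {A : Fin n → Fin n → ℝ}
    (h : ∀ v : Fin n → ℝ, a * ∑ j, v j ^ 2 ≤ ∑ j, ∑ k, A j k * v j * v k)
    (V : Fin n → Fib N) :
    a * ∑ j, ‖V j‖ ^ 2 ≤ (∑ j, ∑ k, (A j k : ℂ) * inner ℂ (V j) (V k)).re := by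
  have h1 : (∑ j, ∑ k, (A j k : ℂ) * inner ℂ (V j) (V k)).re =
      ∑ i, ((∑ j, ∑ k, A j k * (V j i).re * (V k i).re) +
        ∑ j, ∑ k, A j k * (V j i).im * (V k i).im) := by
    have e1 : ∀ j k, ((A j k : ℂ) * inner ℂ (V j) (V k)).re =
        ∑ i, (A j k * (V j i).re * (V k i).re + A j k * (V j i).im * (V k i).im) := by
      intro j k
      rw [Complex.re_ofReal_mul, PiLp.inner_apply, Complex.re_sum, Finset.mul_sum]
      refine Finset.sum_congr rfl fun i _ => ?_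
      simp only [RCLike.inner_apply, Complex.mul_re, Complex.conj_re, Complex.conj_im]
      ring
    calc (∑ j, ∑ k, (A j k : ℂ) * inner ℂ (V j) (V k)).re
        = ∑ j, ∑ k, ∑ i, (A j k * (V j i).re * (V k i).re +
            A j k * (V j i).im * (V k i).im) := by
          rw [Complex.re_sum]
          refine Finset.sum_congr rfl fun j _ => ?_
          rw [Complex.re_sum]
          exact Finset.sum_congr rfl fun k _ => e1 j k
      _ = ∑ j, ∑ i, ∑ k, (A j k * (V j i).re * (V k i).re +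
            A j k * (V j i).im * (V k i).im) :=
          Finset.sum_congr rfl fun j _ => Finset.sum_comm
      _ = ∑ i, ∑ j, ∑ k, (A j k * (V j i).re * (V k i).re +
            A j k * (V j i).im * (V k i).im) := Finset.sum_comm
      _ = _ := by simp only [Finset.sum_add_distrib]
  have h2 : ∑ j, ‖V j‖ ^ 2 = ∑ i, ((∑ j, (V j i).re ^ 2) + ∑ j, (V j i).im ^ 2) := by
    calc ∑ j, ‖V j‖ ^ 2 = ∑ j, ∑ i, ((V j i).re ^ 2 + (V j i).im ^ 2) := by
          refine Finset.sum_congr rfl fun j _ => ?_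
          rw [EuclideanSpace.norm_sq_eq]
          refine Finset.sum_congr rfl fun i _ => ?_
          rw [Complex.sq_norm, Complex.normSq_apply]
          ring
      _ = ∑ i, ∑ j, ((V j i).re ^ 2 + (V j i).im ^ 2) := Finset.sum_comm
      _ = _ := by simp only [Finset.sum_add_distrib]
  rw [h1, h2, Finset.mul_sum]
  refine Finset.sum_le_sum fun i _ => ?_
  rw [mul_add]
  exact add_le_add (h fun j => (V j i).re) (h fun j => (V j i).im)

/-- pointwise comparison of the `H1` density with the energy density -/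
theorem cRungeB_pt (hD : RelOpen D) (ok : L.Ok D) (h1 : ∀ x, L.h x = 1) (hC : IsCompact C)
    (hCD : C ⊆ D) : ∃ b : ℝ, 0 < b ∧ ∀ x ∈ C, ∀ c : E n → Fib N,
      ‖c x‖ ^ 2 + ∑ j, ‖pd j c x‖ ^ 2 ≤ b * (‖c x‖ ^ 2 + (ed L c c x).re) := by
  obtain ⟨a, ha, hlow⟩ := cRungeB_lower hD ok hC hCD
  have hB : ContinuousOn (fun x => ∑ j, ‖L.B j x‖ ^ 2) C :=
    continuousOn_finsetSum _ fun j _ => (((ok.B_smooth j).continuousOn.mono hCD).norm.pow 2)
  obtain ⟨β, hβ⟩ := hC.bddAbove_image hB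
  have hβ' : ∀ x ∈ C, ∑ j, ‖L.B j x‖ ^ 2 ≤ β := fun x hx => hβ ⟨x, hx, rfl⟩
  refine ⟨1 + 2 * |β| + 2 / a, by positivity, fun x hx c => ?_⟩
  have hed : (ed L c c x).re = (∑ j, ∑ k, (gg L.g j k x : ℂ) *
      inner ℂ (nab L j c x) (nab L k c x)).re := by
    unfold ed
    simp only [h1, one_apply_eq_self]
  have hco := cRungeB_coer (hlow x hx) (fun j => nab L j c x)
  rw [← hed] at hco
  have hp : ∀ j, ‖pd j c x‖ ^ 2 ≤ 2 * ‖nab L j c x‖ ^ 2 + 2 * (‖L.B j x‖ ^ 2 * ‖c x‖ ^ 2) := by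
    intro j
    have e1 : pd j c x = nab L j c x - L.B j x (c x) := by
      unfold nab
      abel
    have e2 : ‖pd j c x‖ ≤ ‖nab L j c x‖ + ‖L.B j x‖ * ‖c x‖ := by
      rw [e1]
      exact (norm_sub_le _ _).trans (add_le_add le_rfl ((L.B j x).le_opNorm _))
    have e3 : ‖pd j c x‖ ^ 2 ≤ (‖nab L j c x‖ + ‖L.B j x‖ * ‖c x‖) ^ 2 :=
      pow_le_pow_left₀ (norm_nonneg _) e2 2
    nlinarith [sq_nonneg (‖nab L j c x‖ - ‖L.B j x‖ * ‖c x‖)]
  have hs : ∑ j, ‖pd j c x‖ ^ 2 ≤ 2 * ∑ j, ‖nab L j c x‖ ^ 2 + 2 * (β * ‖c x‖ ^ 2) := by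
    refine (Finset.sum_le_sum fun j _ => hp j).trans ?_
    rw [Finset.sum_add_distrib, ← Finset.mul_sum, ← Finset.mul_sum, ← Finset.sum_mul]
    have := mul_le_mul_of_nonneg_right (hβ' x hx) (sq_nonneg ‖c x‖)
    linarith
  have hn : ∑ j, ‖nab L j c x‖ ^ 2 ≤ a⁻¹ * (ed L c c x).re := by
    rw [← div_eq_inv_mul, le_div_iff₀ ha]
    linarith
  have hn0 : 0 ≤ ∑ j, ‖nab L j c x‖ ^ 2 := Finset.sum_nonneg fun _ _ => by positivity
  have he0 : 0 ≤ (ed L c c x).re := le_trans (by positivity) hco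
  have hb0 : β * ‖c x‖ ^ 2 ≤ |β| * ‖c x‖ ^ 2 :=
    mul_le_mul_of_nonneg_right (le_abs_self β) (sq_nonneg _)
  have hc0 : 0 ≤ ‖c x‖ ^ 2 := by positivity
  have e1 : 2 / a = 2 * a⁻¹ := by ring
  have e2 : 0 ≤ 2 * a⁻¹ * ‖c x‖ ^ 2 := by positivity
  have e3 : 0 ≤ (1 + 2 * |β|) * (ed L c c x).re := by positivity
  calc ‖c x‖ ^ 2 + ∑ j, ‖pd j c x‖ ^ 2
      ≤ ‖c x‖ ^ 2 + (2 * (a⁻¹ * (ed L c c x).re) + 2 * (|β| * ‖c x‖ ^ 2)) := by linarith
    _ ≤ (1 + 2 * |β| + 2 / a) * (‖c x‖ ^ 2 + (ed L c c x).re) := by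
        rw [e1]
        nlinarith

theorem cRungeB_ok_mono {D' : Set (E n)} (ok : L.Ok D) (h : D' ⊆ D) : L.Ok D' where
  g_smooth := fun i j => (ok.g_smooth i j).mono h
  g_pos := fun x hx => ok.g_pos x (h hx)
  B_smooth := fun i => (ok.B_smooth i).mono h
  h_smooth := ok.h_smooth.mono h
  h_adj := fun x hx => ok.h_adj x (h hx)
  h_pos := fun x hx => ok.h_pos x (h hx)
  compat := fun x hx => ok.compat x (h hx)

end local_est


section chart_int

variable {n N : ℕ} [NeZero n] {M : Type u} [TopologicalSpace M]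
  [ChartedSpace (EuclideanHalfSpace n) M] [IsManifold (𝓡∂ n) ∞ M] [T2Space M] [CompactSpace M]
  [MeasurableSpace M] [BorelSpace M] (P : One n N M)

theorem cRungeB_lu_cont {u : M → Fib N} (hu : Continuous u) (p : M) :
    ContinuousOn (lu (𝓡∂ n) p u) (tg n p) :=
  hu.comp_continuousOn (continuousOn_extChartAt_symm p)

theorem cRungeB_sm_cont {u : M → Fib N} (hu : SmS n u) : Continuous u := ContMDiff.continuous hu

theorem cRungeB_open (hLoc : CLoc_statement.{u}) (p : M) {D : Set (E n)} (hD : RelOpen D)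
    (hDt : D ⊆ tg n p) : IsOpen ((xc n p).symm '' D) := by
  obtain ⟨O, hO, rfl⟩ := hD
  have h : (xc n p).symm '' (O ∩ Hs n) = (xc n p).source ∩ (xc n p) ⁻¹' O := by
    ext x
    constructor
    · rintro ⟨y, hy, rfl⟩
      refine ⟨(xc n p).map_target (hDt hy), ?_⟩
      rw [mem_preimage, (xc n p).right_inv (hDt hy)]
      exact hy.1
    · rintro ⟨hx, hx'⟩
      refine ⟨xc n p x, ⟨hx', ?_⟩, (xc n p).left_inv hx⟩
      exact ((hLoc n 0 M).1 p).subset ((xc n p).map_source hx)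
  rw [h]
  exact isOpen_extChartAt_preimage' p hO

theorem cRungeB_int (hInt : CInt_statement.{u}) (p : M) {D : Set (E n)} (hD : MeasurableSet D)
    (hDt : D ⊆ tg n p) {u : M → Fib N} (hu : Continuous u) :
    MeasurableSet ((xc n p).symm '' D) ∧
      ∫ x in (xc n p).symm '' D, ‖u x‖ ^ 2 ∂P.μ =
        ∫ y in D, Real.sqrt ((P.loc p).g y).det * ‖lu (𝓡∂ n) p u y‖ ^ 2 := by
  obtain ⟨hm, h⟩ := (hInt n N M P).2.2 p D hD hDt
  refine ⟨hm, ?_⟩
  have h1 := h (fun x => ((‖u x‖ ^ 2 : ℝ) : ℂ))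
    (Complex.continuous_ofReal.comp (hu.norm.pow 2)).aestronglyMeasurable
  rw [integral_complex_ofReal] at h1
  have h2 : ∫ y in D, (Real.sqrt ((P.loc p).g y).det : ℂ) *
      ((‖u ((xc n p).symm y)‖ ^ 2 : ℝ) : ℂ) =
      ((∫ y in D, Real.sqrt ((P.loc p).g y).det * ‖lu (𝓡∂ n) p u y‖ ^ 2 : ℝ) : ℂ) := by
    rw [← integral_complex_ofReal]
    refine integral_congr_ae (Eventually.of_forall fun y => ?_)
    simp only [lu]
    push_cast
    rfl
  rw [h2] at h1
  exact_mod_cast h1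

theorem cRungeB_integrable (hInt : CInt_statement.{u}) {u : M → Fib N} (hu : Continuous u) :
    Integrable (fun x => ‖u x‖ ^ 2) P.μ := by
  have : IsFiniteMeasure P.μ := (hInt n N M P).1
  exact (hu.norm.pow 2).integrable_of_hasCompactSupport (HasCompactSupport.of_compactSpace _)

theorem cRungeB_T1 (hInt : CInt_statement.{u}) (hLoc : CLoc_statement.{u}) (p : M)
    {C : Set (E n)} (hC : IsCompact C) (hCt : C ⊆ tg n p) :
    ∃ a b : ℝ, 0 < a ∧ 0 < b ∧ ∀ D : Set (E n), MeasurableSet D → D ⊆ C →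
      ∀ u : M → Fib N, Continuous u →
        a * ∫ y in D, ‖lu (𝓡∂ n) p u y‖ ^ 2 ≤ ∫ x in (xc n p).symm '' D, ‖u x‖ ^ 2 ∂P.μ ∧
        ∫ x in (xc n p).symm '' D, ‖u x‖ ^ 2 ∂P.μ ≤ b * ∫ y in D, ‖lu (𝓡∂ n) p u y‖ ^ 2 := by
  have ok := (hLoc n N M).2.1 P p
  have hdet : ContinuousOn (fun y => Real.sqrt ((P.loc p).g y).det) C :=
    ((Jacobi_det_smooth ok.g_smooth).continuousOn.mono hCt).sqrt
  have hpos : ∀ y ∈ C, 0 < Real.sqrt ((P.loc p).g y).det := fun y hy =>
    Real.sqrt_pos.2 (ok.g_pos y (hCt hy)).det_pos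
  obtain ⟨a, ha, hal⟩ : ∃ a : ℝ, 0 < a ∧ ∀ y ∈ C, a ≤ Real.sqrt ((P.loc p).g y).det := by
    rcases C.eq_empty_or_nonempty with h0 | hne
    · refine ⟨1, one_pos, fun x hx => ?_⟩
      rw [h0] at hx
      exact absurd hx (notMem_empty x)
    · obtain ⟨y0, hy0, hmin⟩ := hC.exists_isMinOn hne hdet
      exact ⟨_, hpos y0 hy0, fun y hy => isMinOn_iff.1 hmin y hy⟩
  obtain ⟨b, hb⟩ := hC.bddAbove_image hdet
  refine ⟨a, |b| + 1, ha, by positivity, fun D hD hDC u hu => ?_⟩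
  obtain ⟨-, he⟩ := cRungeB_int P hInt p hD (hDC.trans hCt) hu
  rw [he]
  have hlc : ContinuousOn (fun y => ‖lu (𝓡∂ n) p u y‖ ^ 2) C :=
    ((cRungeB_lu_cont hu p).mono hCt).norm.pow 2
  have hi1 : IntegrableOn (fun y => ‖lu (𝓡∂ n) p u y‖ ^ 2) D :=
    (hlc.integrableOn_compact hC).mono_set hDC
  have hi2 : IntegrableOn (fun y => Real.sqrt ((P.loc p).g y).det *
      ‖lu (𝓡∂ n) p u y‖ ^ 2) D :=
    ((hdet.mul hlc).integrableOn_compact hC).mono_set hDC
  constructor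
  · rw [← integral_const_mul]
    refine setIntegral_mono_on (hi1.const_mul a) hi2 hD fun y hy => ?_
    exact mul_le_mul_of_nonneg_right (hal y (hDC hy)) (sq_nonneg _)
  · rw [← integral_const_mul]
    refine setIntegral_mono_on hi2 (hi1.const_mul _) hD fun y hy => ?_
    refine mul_le_mul_of_nonneg_right ?_ (sq_nonneg _)
    have := hb ⟨y, hDC hy, rfl⟩
    exact this.trans ((le_abs_self b).trans (by linarith))

theorem cRungeB_h1_cont (hLoc : CLoc_statement.{u}) (p : M) {u : M → Fib N} (hu : SmS n u) :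
    ContinuousOn (fun y => ‖lu (𝓡∂ n) p u y‖ ^ 2 + ∑ j, ‖pd j (lu (𝓡∂ n) p u) y‖ ^ 2)
      (tg n p) := by
  have h1 := (hLoc n N M).2.2.2 u hu p
  refine (h1.continuousOn.norm.pow 2).add (continuousOn_finsetSum _ fun j _ => ?_)
  exact ((((hLoc n N M).1 p).pd_smooth h1 j).continuousOn.norm.pow 2)

theorem cRungeB_T2 (hInt : CInt_statement.{u}) (hLoc : CLoc_statement.{u})
    (hEn : CEnergy_statement.{u}) (p : M) {D C : Set (E n)} (hD : RelOpen D)
    (hDC : D ⊆ C) (hC : IsCompact C) (hCt : C ⊆ tg n p) :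
    ∃ b : ℝ, 0 < b ∧ ∀ u : M → Fib N, SmS n u →
      H1 D (lu (𝓡∂ n) p u) ≤ b * (∫ x, ‖u x‖ ^ 2 ∂P.μ + (P.E u u).re) := by
  have ok := (hLoc n N M).2.1 P p
  have hDt := hDC.trans hCt
  have hDm : MeasurableSet D := by
    obtain ⟨O, hO, rfl⟩ := hD
    exact hO.measurableSet.inter isClosed_Hs.measurableSet
  obtain ⟨b₁, hb₁, hpt⟩ := cRungeB_pt ((hLoc n N M).1 p) ok (fun _ => rfl) hC hCt
  obtain ⟨a, b₂, ha, -, hT1⟩ := cRungeB_T1 P hInt hLoc p hC hCt
  refine ⟨b₁ * (a⁻¹ + 1), by positivity, fun u hu => ?_⟩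
  have huc := cRungeB_sm_cont hu
  have hlc : ContinuousOn (fun y => ‖lu (𝓡∂ n) p u y‖ ^ 2) C :=
    ((cRungeB_lu_cont huc p).mono hCt).norm.pow 2
  have hi1 : IntegrableOn (fun y => ‖lu (𝓡∂ n) p u y‖ ^ 2) D :=
    (hlc.integrableOn_compact hC).mono_set hDC
  have hi3 : IntegrableOn (fun y => ‖lu (𝓡∂ n) p u y‖ ^ 2 +
      ∑ j, ‖pd j (lu (𝓡∂ n) p u) y‖ ^ 2) D :=
    (((cRungeB_h1_cont hLoc p hu).mono hCt).integrableOn_compact hC).mono_set hDC
  obtain ⟨hE1, hE2⟩ := (hEn n N M P p D hD hDt).2 u hu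
  have hi2 : IntegrableOn (fun y => (ed (P.loc p) (lu (𝓡∂ n) p u) (lu (𝓡∂ n) p u) y).re) D :=
    hE2.re
  have h1 : H1 D (lu (𝓡∂ n) p u) ≤ ∫ y in D, b₁ * (‖lu (𝓡∂ n) p u y‖ ^ 2 +
      (ed (P.loc p) (lu (𝓡∂ n) p u) (lu (𝓡∂ n) p u) y).re) :=
    setIntegral_mono_on hi3 ((hi1.add hi2).const_mul b₁) hDm fun y hy => hpt y (hDC hy) _
  rw [integral_const_mul, integral_add hi1 hi2] at h1
  have h2 : ∫ y in D, (ed (P.loc p) (lu (𝓡∂ n) p u) (lu (𝓡∂ n) p u) y).re =
      (En (P.loc p) D (lu (𝓡∂ n) p u) (lu (𝓡∂ n) p u)).re := integral_re hE2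
  rw [h2] at h1
  have h3 := (hT1 D hDm hDC u huc).1
  have h4 : ∫ x in (xc n p).symm '' D, ‖u x‖ ^ 2 ∂P.μ ≤ ∫ x, ‖u x‖ ^ 2 ∂P.μ :=
    setIntegral_le_integral (cRungeB_integrable P hInt huc)
      (Eventually.of_forall fun x => sq_nonneg _)
  have h5 : ∫ y in D, ‖lu (𝓡∂ n) p u y‖ ^ 2 ≤ a⁻¹ * ∫ x, ‖u x‖ ^ 2 ∂P.μ := by
    rw [← div_eq_inv_mul, le_div_iff₀ ha]
    linarith
  have h6 : 0 ≤ ∫ x, ‖u x‖ ^ 2 ∂P.μ := integral_nonneg fun _ => sq_nonneg _
  have h7 : 0 ≤ (En (P.loc p) D (lu (𝓡∂ n) p u) (lu (𝓡∂ n) p u)).re := by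
    rw [← h2]
    refine setIntegral_nonneg hDm fun y hy => ?_
    have h8 := hpt y (hDC hy) (lu (𝓡∂ n) p u)
    obtain ⟨a', ha', hlow⟩ := cRungeB_lower ((hLoc n N M).1 p) ok hC hCt
    have h9 := cRungeB_coer (hlow y (hDC hy)) (fun j => nab (P.loc p) j (lu (𝓡∂ n) p u) y)
    have h10 : 0 ≤ a' * ∑ j, ‖nab (P.loc p) j (lu (𝓡∂ n) p u) y‖ ^ 2 := by positivity
    exact h10.trans h9
  have h11 : 0 ≤ (P.E u u).re := h7.trans hE1
  have h12 : 0 ≤ a⁻¹ * (P.E u u).re := by positivity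
  calc H1 D (lu (𝓡∂ n) p u)
      ≤ b₁ * (a⁻¹ * ∫ x, ‖u x‖ ^ 2 ∂P.μ + (P.E u u).re) := by
        refine h1.trans (mul_le_mul_of_nonneg_left ?_ hb₁.le)
        linarith
    _ ≤ b₁ * ((a⁻¹ + 1) * (∫ x, ‖u x‖ ^ 2 ∂P.μ + (P.E u u).re)) := by
        refine mul_le_mul_of_nonneg_left ?_ hb₁.le
        nlinarith
    _ = b₁ * (a⁻¹ + 1) * (∫ x, ‖u x‖ ^ 2 ∂P.μ + (P.E u u).re) := by ring

end chart_int

end Vale.Agent.P088.EYM
end
end

section

/-!
# P088-EYM, block C, Runge B: the zero set of the sequence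
-/

open Bundle Manifold MeasureTheory Set Filter Topology
open scoped ContDiff

noncomputable section

namespace Vale.Agent.P088.EYM

universe u

set_option linter.unusedSectionVars false

theorem cRungeB_En_congr {n N : ℕ} [NeZero n] (L : LD n N) {D : Set (E n)} (hD : RelOpen D)
    (c : E n → Fib N) {d d' : E n → Fib N} (h : EqOn d d' D) : En L D c d = En L D c d' := by
  have hDm : MeasurableSet D := by
    obtain ⟨O, hO, rfl⟩ := hD
    exact hO.measurableSet.inter isClosed_Hs.measurableSet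
  refine setIntegral_congr_fun hDm fun x hx => ?_
  simp only [ed, nab]
  refine Finset.sum_congr rfl fun j _ => Finset.sum_congr rfl fun k _ => ?_
  rw [hD.pd_congr h hx, h hx]

section zset

variable {n N : ℕ} [NeZero n] {M : Type u} [TopologicalSpace M]
  [ChartedSpace (EuclideanHalfSpace n) M] [IsManifold (𝓡∂ n) ∞ M] [T2Space M] [CompactSpace M]
  [MeasurableSpace M] [BorelSpace M] (P : One n N M) (w : ℕ → M → Fib N)

/-- the points near which the sequence tends to zero -/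
def cRungeB_Z : Set M :=
  {m | ∃ O, IsOpen O ∧ m ∈ O ∧ Tendsto (fun k => ∫ x in O, ‖w k x‖ ^ 2 ∂P.μ) atTop (𝓝 0)}

theorem cRungeB_Z_open : IsOpen (cRungeB_Z P w) := by
  rw [isOpen_iff_forall_mem_open]
  rintro m ⟨O, hO, hm, ht⟩
  exact ⟨O, fun m' hm' => ⟨O, hO, hm', ht⟩, hO, hm⟩

variable {P w}

theorem cRungeB_mono (hw : ∀ k, Integrable (fun x => ‖w k x‖ ^ 2) P.μ) {S T : Set M}
    (hST : S ⊆ T) (ht : Tendsto (fun k => ∫ x in T, ‖w k x‖ ^ 2 ∂P.μ) atTop (𝓝 0)) :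
    Tendsto (fun k => ∫ x in S, ‖w k x‖ ^ 2 ∂P.μ) atTop (𝓝 0) := by
  refine squeeze_zero (fun k => integral_nonneg fun _ => sq_nonneg _) (fun k => ?_) ht
  exact setIntegral_mono_set (hw k).integrableOn (Eventually.of_forall fun _ => sq_nonneg _)
    (LE.le.eventuallyLE hST)

theorem cRungeB_union (hw : ∀ k, Integrable (fun x => ‖w k x‖ ^ 2) P.μ) {S T : Set M}
    (hS : IsOpen S) (hT : IsOpen T)
    (hs : Tendsto (fun k => ∫ x in S, ‖w k x‖ ^ 2 ∂P.μ) atTop (𝓝 0))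
    (ht : Tendsto (fun k => ∫ x in T, ‖w k x‖ ^ 2 ∂P.μ) atTop (𝓝 0)) :
    Tendsto (fun k => ∫ x in S ∪ T, ‖w k x‖ ^ 2 ∂P.μ) atTop (𝓝 0) := by
  have h1 : ∀ k, ∫ x in S ∪ T, ‖w k x‖ ^ 2 ∂P.μ ≤
      ∫ x in S, ‖w k x‖ ^ 2 ∂P.μ + ∫ x in T, ‖w k x‖ ^ 2 ∂P.μ := by
    intro k
    rw [← union_sdiff_self, setIntegral_union disjoint_sdiff_right
      (hT.measurableSet.diff hS.measurableSet) (hw k).integrableOn (hw k).integrableOn]
    refine add_le_add le_rfl ?_
    exact setIntegral_mono_set (hw k).integrableOn (Eventually.of_forall fun _ => sq_nonneg _)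
      (LE.le.eventuallyLE sdiff_subset)
  refine squeeze_zero (fun k => integral_nonneg fun _ => sq_nonneg _) h1 ?_
  simpa using hs.add ht

theorem cRungeB_cover (hw : ∀ k, Integrable (fun x => ‖w k x‖ ^ 2) P.μ) {K : Set M}
    (hK : IsCompact K) (h : K ⊆ cRungeB_Z P w) :
    Tendsto (fun k => ∫ x in K, ‖w k x‖ ^ 2 ∂P.μ) atTop (𝓝 0) := by
  have key : ∃ O, IsOpen O ∧ K ⊆ O ∧
      Tendsto (fun k => ∫ x in O, ‖w k x‖ ^ 2 ∂P.μ) atTop (𝓝 0) := by
    refine hK.induction_on (p := fun S => ∃ O, IsOpen O ∧ S ⊆ O ∧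
      Tendsto (fun k => ∫ x in O, ‖w k x‖ ^ 2 ∂P.μ) atTop (𝓝 0))
      ⟨∅, isOpen_empty, subset_rfl, by simp⟩ ?_ ?_ ?_
    · rintro s t hst ⟨O, hO, htO, hlim⟩
      exact ⟨O, hO, hst.trans htO, hlim⟩
    · rintro s t ⟨O, hO, hs, h1⟩ ⟨O', hO', ht, h2⟩
      exact ⟨O ∪ O', hO.union hO', union_subset_union hs ht, cRungeB_union hw hO hO' h1 h2⟩
    · intro x hx
      obtain ⟨O, hO, hm, ht⟩ := h hx
      exact ⟨O, mem_nhdsWithin_of_mem_nhds (hO.mem_nhds hm), O, hO, subset_rfl, ht⟩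
  obtain ⟨O, -, hKO, ht⟩ := key
  exact cRungeB_mono hw hKO ht

/-- transfer of the limit from `M` to the chart -/
theorem cRungeB_down (hInt : CInt_statement.{u}) (hLoc : CLoc_statement.{u})
    (hw : ∀ k, Continuous (w k)) (p : M) {C D : Set (E n)} (hC : IsCompact C)
    (hCt : C ⊆ tg n p) (hD : MeasurableSet D) (hDC : D ⊆ C)
    (h : Tendsto (fun k => ∫ x in (xc n p).symm '' D, ‖w k x‖ ^ 2 ∂P.μ) atTop (𝓝 0)) :
    Tendsto (fun k => ∫ y in D, ‖lu (𝓡∂ n) p (w k) y‖ ^ 2) atTop (𝓝 0) := by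
  obtain ⟨a, b, ha, -, hT⟩ := cRungeB_T1 P hInt hLoc p hC hCt
  refine squeeze_zero (fun k => integral_nonneg fun _ => sq_nonneg _) (fun k => ?_)
    (by simpa using h.const_mul a⁻¹)
  rw [← div_eq_inv_mul, le_div_iff₀ ha, mul_comm]
  exact (hT D hD hDC (w k) (hw k)).1

/-- transfer of the limit from the chart to `M` -/
theorem cRungeB_up (hInt : CInt_statement.{u}) (hLoc : CLoc_statement.{u})
    (hw : ∀ k, Continuous (w k)) (p : M) {C D : Set (E n)} (hC : IsCompact C)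
    (hCt : C ⊆ tg n p) (hD : MeasurableSet D) (hDC : D ⊆ C)
    (h : Tendsto (fun k => ∫ y in D, ‖lu (𝓡∂ n) p (w k) y‖ ^ 2) atTop (𝓝 0)) :
    Tendsto (fun k => ∫ x in (xc n p).symm '' D, ‖w k x‖ ^ 2 ∂P.μ) atTop (𝓝 0) := by
  obtain ⟨a, b, -, hb, hT⟩ := cRungeB_T1 P hInt hLoc p hC hCt
  refine squeeze_zero (fun k => integral_nonneg fun _ => sq_nonneg _) (fun k => ?_)
    (by simpa using h.const_mul b)
  exact (hT D hD hDC (w k) (hw k)).2

theorem cRungeB_cauchy (hInt : CInt_statement.{u}) (hLoc : CLoc_statement.{u})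
    (hEn : CEnergy_statement.{u}) (hw : ∀ k, SmS n (w k))
    (hcE : ∀ ε > 0, ∃ k₀, ∀ k ≥ k₀, ∀ l ≥ k₀, (P.E (w k - w l) (w k - w l)).re ≤ ε)
    (hcL : ∀ ε > 0, ∃ k₀, ∀ k ≥ k₀, ∀ l ≥ k₀, ∫ x, ‖w k x - w l x‖ ^ 2 ∂P.μ ≤ ε)
    (p : M) {C D D' : Set (E n)} (hD : RelOpen D) (hDC : D ⊆ C) (hC : IsCompact C)
    (hCt : C ⊆ tg n p) (hD' : D' ⊆ D) :
    ∀ ε > 0, ∃ k₀, ∀ k ≥ k₀, ∀ l ≥ k₀,
      H1 D' (fun x => lu (𝓡∂ n) p (w k) x - lu (𝓡∂ n) p (w l) x) ≤ ε := by
  intro ε hε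
  obtain ⟨b, hb, hT2⟩ := cRungeB_T2 P hInt hLoc hEn p hD hDC hC hCt
  obtain ⟨k₁, hk₁⟩ := hcE (ε / (2 * b)) (by positivity)
  obtain ⟨k₂, hk₂⟩ := hcL (ε / (2 * b)) (by positivity)
  refine ⟨max k₁ k₂, fun k hk l hl => ?_⟩
  have h1 := hk₁ k (le_of_max_le_left hk) l (le_of_max_le_left hl)
  have h2 := hk₂ k (le_of_max_le_right hk) l (le_of_max_le_right hl)
  have hs : SmS n (w k - w l) := (hw k).sub (hw l)
  have h3 := hT2 (w k - w l) hs
  have hi3 : IntegrableOn (fun y => ‖lu (𝓡∂ n) p (w k - w l) y‖ ^ 2 +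
      ∑ j, ‖pd j (lu (𝓡∂ n) p (w k - w l)) y‖ ^ 2) D :=
    (((cRungeB_h1_cont hLoc p hs).mono hCt).integrableOn_compact hC).mono_set hDC
  have h4 : H1 D' (lu (𝓡∂ n) p (w k - w l)) ≤ H1 D (lu (𝓡∂ n) p (w k - w l)) := by
    refine setIntegral_mono_set hi3 (Eventually.of_forall fun y => ?_)
      (LE.le.eventuallyLE hD')
    exact add_nonneg (sq_nonneg _) (Finset.sum_nonneg fun _ _ => sq_nonneg _)
  have h5 : H1 D' (fun x => lu (𝓡∂ n) p (w k) x - lu (𝓡∂ n) p (w l) x) =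
      H1 D' (lu (𝓡∂ n) p (w k - w l)) := rfl
  rw [h5]
  refine h4.trans (h3.trans ?_)
  have h6 : ∫ x, ‖(w k - w l) x‖ ^ 2 ∂P.μ ≤ ε / (2 * b) := h2
  calc b * (∫ x, ‖(w k - w l) x‖ ^ 2 ∂P.μ + (P.E (w k - w l) (w k - w l)).re)
      ≤ b * (ε / (2 * b) + ε / (2 * b)) :=
        mul_le_mul_of_nonneg_left (add_le_add h6 h1) hb.le
    _ = ε := by
        field_simp
        ring

theorem cRungeB_test (hEn : CEnergy_statement.{u}) (hExt : CExt_statement.{u})
    (hbd : IsClosed ((𝓡∂ n).boundary M)) (hw : ∀ k, SmS n (w k)) {Γ K : Set M}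
    (hlim : ∀ φ : M → Fib N, IsBdryData (𝓡∂ n) Γ φ → (∀ m ∈ K, φ m = 0) →
      Tendsto (fun k => P.E (w k) φ) atTop (𝓝 0))
    (p : M) {D : Set (E n)} (hD : RelOpen D) (hDt : D ⊆ tg n p)
    (hDK : ∀ y ∈ D, (xc n p).symm y ∉ K)
    (hDΓ : ∀ y ∈ D, (xc n p).symm y ∈ (𝓡∂ n).boundary M → (xc n p).symm y ∈ Γ)
    {ψ : E n → Fib N} (hψ : ContDiffOn ℝ ∞ ψ D) {K' : Set (E n)} (hK' : IsCompact K')
    (hK'D : K' ⊆ D) (h0 : ∀ y ∈ D, y ∉ K' → ψ y = 0) :
    Tendsto (fun k => En (P.loc p) D (lu (𝓡∂ n) p (w k)) ψ) atTop (𝓝 0) := by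
  obtain ⟨φ, hφ, hφD, hφ0, hφs⟩ := hExt n N M p ψ D K' hD hDt hψ hK' hK'D h0
  have hcl : IsClosed ((xc n p).symm '' K') :=
    (hK'.image_of_continuousOn ((continuousOn_extChartAt_symm p).mono
      (hK'D.trans hDt))).isClosed
  have hb : IsBdryData (𝓡∂ n) Γ φ := by
    refine ⟨hφ, ?_⟩
    have h1 : closure {x ∈ (𝓡∂ n).boundary M | φ x ≠ 0} ⊆
        (xc n p).symm '' K' ∩ (𝓡∂ n).boundary M := by
      refine closure_minimal ?_ (hcl.inter hbd)
      rintro x ⟨hx, hx'⟩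
      exact ⟨by_contra fun h => hx' (hφ0 x h), hx⟩
    refine h1.trans ?_
    rintro x ⟨⟨y, hy, rfl⟩, hx⟩
    exact hDΓ y (hK'D hy) hx
  have hK0 : ∀ m ∈ K, φ m = 0 := by
    intro m hm
    refine hφ0 m ?_
    rintro ⟨y, hy, rfl⟩
    exact hDK y (hK'D hy) hm
  have h2 := hlim φ hb hK0
  refine h2.congr fun k => ?_
  rw [(hEn n N M P p D hD hDt).1 (w k) φ (hw k) hφ (Or.inr (hφs.trans (image_mono hK'D)))]
  exact cRungeB_En_congr _ hD _ fun y hy => hφD y hy

end zset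

end Vale.Agent.P088.EYM
end
end

section

/-!
# P088-EYM, block C: the match near the boundary
-/

set_option linter.all false

open Bundle Manifold MeasureTheory Set Filter Topology
open scoped ContDiff

noncomputable section

namespace Vale.Agent.P088.EYM

universe u

section Local

variable {n N : ℕ} [NeZero n]

theorem CNear_relHB (z : E n) (r : ℝ) : RelOpen (HB z r) := ⟨Metric.ball z r, Metric.isOpen_ball, rfl⟩

theorem CNear_nab_congr {D : Set (E n)} (hD : RelOpen D) (L : LD n N) {c c' : E n → Fib N}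
    (h : EqOn c c' D) (j : Fin n) : EqOn (nab L j c) (nab L j c') D := by
  intro x hx
  unfold nab
  rw [hD.pd_congr h hx j, h hx]

theorem CNear_flux_congr {D : Set (E n)} (hD : RelOpen D) (L : LD n N) {c c' : E n → Fib N}
    (h : EqOn c c' D) (j : Fin n) : EqOn (flux L j c) (flux L j c') D := by
  intro x hx
  unfold flux
  exact Finset.sum_congr rfl fun k _ => by rw [CNear_nab_congr hD L h k hx]

theorem CNear_Lop_congr {D : Set (E n)} (hD : RelOpen D) (L : LD n N) {c c' : E n → Fib N}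
    (h : EqOn c c' D) : EqOn (Lop L c) (Lop L c') D := by
  intro x hx
  unfold Lop
  exact Finset.sum_congr rfl fun j _ => by
    rw [hD.pd_congr (CNear_flux_congr hD L h j) hx j, CNear_flux_congr hD L h j hx]

theorem CNear_flux_data {D : Set (E n)} {L L' : LD n N} (hg : ∀ x ∈ D, L.g x = L'.g x)
    (hB : ∀ x ∈ D, ∀ j, L.B j x = L'.B j x) (c : E n → Fib N) (j : Fin n) :
    EqOn (flux L j c) (flux L' j c) D := by
  intro x hx
  unfold flux nab gg
  exact Finset.sum_congr rfl fun k _ => by rw [hg x hx, hB x hx k]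

theorem CNear_Lop_data {D : Set (E n)} (hD : RelOpen D) {L L' : LD n N}
    (hg : ∀ x ∈ D, L.g x = L'.g x) (hB : ∀ x ∈ D, ∀ j, L.B j x = L'.B j x) (c : E n → Fib N) :
    EqOn (Lop L c) (Lop L' c) D := by
  intro x hx
  unfold Lop
  exact Finset.sum_congr rfl fun j _ => by
    rw [hD.pd_congr (CNear_flux_data hg hB c j) hx j, CNear_flux_data hg hB c j hx, hB x hx j]

theorem CNear_nab_smooth {D : Set (E n)} (hD : RelOpen D) {L : LD n N} (hL : L.Ok D)
    {c : E n → Fib N} (hc : ContDiffOn ℝ ∞ c D) (k : Fin n) : ContDiffOn ℝ ∞ (nab L k c) D :=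
  (hD.pd_smooth hc k).add (smooth_eval (hL.B_smooth k) hc)

theorem CNear_flux_smooth {D : Set (E n)} (hD : RelOpen D) {L : LD n N} (hL : L.Ok D)
    {c : E n → Fib N} (hc : ContDiffOn ℝ ∞ c D) (j : Fin n) : ContDiffOn ℝ ∞ (flux L j c) D := by
  unfold flux
  exact ContDiffOn.sum fun k _ => (hD.gg_smooth hL.g_smooth hL.g_pos j k).smul
    (CNear_nab_smooth hD hL hc k)

theorem CNear_nab_sub {D : Set (E n)} (hD : RelOpen D) (L : LD n N)
    {c c' : E n → Fib N} (hc : ContDiffOn ℝ ∞ c D) (hc' : ContDiffOn ℝ ∞ c' D) (j : Fin n)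
    {x : E n} (hx : x ∈ D) :
    nab L j (fun y => c y - c' y) x = nab L j c x - nab L j c' x := by
  unfold nab
  rw [hD.pd_sub hc hc' hx j, map_sub]
  abel

theorem CNear_flux_sub {D : Set (E n)} (hD : RelOpen D) (L : LD n N)
    {c c' : E n → Fib N} (hc : ContDiffOn ℝ ∞ c D) (hc' : ContDiffOn ℝ ∞ c' D) (j : Fin n)
    {x : E n} (hx : x ∈ D) :
    flux L j (fun y => c y - c' y) x = flux L j c x - flux L j c' x := by
  unfold flux
  rw [← Finset.sum_sub_distrib]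
  exact Finset.sum_congr rfl fun k _ => by rw [CNear_nab_sub hD L hc hc' k hx, smul_sub]

theorem CNear_Lop_sub {D : Set (E n)} (hD : RelOpen D) {L : LD n N} (hL : L.Ok D)
    {c c' : E n → Fib N} (hc : ContDiffOn ℝ ∞ c D) (hc' : ContDiffOn ℝ ∞ c' D)
    {x : E n} (hx : x ∈ D) :
    Lop L (fun y => c y - c' y) x = Lop L c x - Lop L c' x := by
  unfold Lop
  rw [← Finset.sum_sub_distrib]
  refine Finset.sum_congr rfl fun j _ => ?_
  have h1 : EqOn (flux L j (fun y => c y - c' y)) (fun y => flux L j c y - flux L j c' y) D :=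
    fun y hy => CNear_flux_sub hD L hc hc' j hy
  rw [hD.pd_congr h1 hx j, hD.pd_sub (CNear_flux_smooth hD hL hc j) (CNear_flux_smooth hD hL hc' j)
    hx j, h1 hx, map_sub]
  abel

theorem CNear_Sol_congr {D : Set (E n)} (hD : RelOpen D) {L : LD n N} {c c' : E n → Fib N}
    (h : EqOn c c' D) (hc : Sol L D c) : Sol L D c' :=
  ⟨hc.1.congr fun x hx => (h hx).symm, fun x hx => by
    rw [← CNear_Lop_congr hD L h hx]; exact hc.2 x hx⟩

theorem CNear_ok_mono {L : LD n N} {D D' : Set (E n)} (h : L.Ok D) (hs : D' ⊆ D) : L.Ok D' where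
  g_smooth := fun i j => (h.g_smooth i j).mono hs
  g_pos := fun x hx => h.g_pos x (hs hx)
  B_smooth := fun i => (h.B_smooth i).mono hs
  h_smooth := h.h_smooth.mono hs
  h_adj := fun x hx => h.h_adj x (hs hx)
  h_pos := fun x hx => h.h_pos x (hs hx)
  compat := fun x hx => h.compat x (hs hx)

theorem CNear_pos_point {D : Set (E n)} (hD : RelOpen D) {z : E n} (hz : z ∈ D) :
    ∃ x ∈ D, 0 < x 0 := by
  obtain ⟨O, hO, rfl⟩ := hD
  have hc : Continuous fun s : ℝ => z + s • (ev 0 : E n) := by fun_prop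
  have h1 : ∀ᶠ s : ℝ in 𝓝 0, z + s • (ev 0 : E n) ∈ O := by
    refine hc.continuousAt.eventually_mem ?_
    simpa using hO.mem_nhds hz.1
  obtain ⟨ε, hε, h2⟩ := Metric.eventually_nhds_iff.1 h1
  have hz0 : 0 ≤ z 0 := hz.2
  have h3 : (z + (ε / 2) • (ev 0 : E n)) 0 = z 0 + ε / 2 := by simp
  refine ⟨z + (ε / 2) • ev 0, ⟨h2 ?_, ?_⟩, ?_⟩
  · rw [Real.dist_eq, sub_zero, abs_of_pos (by positivity)]; linarith
  · show 0 ≤ (z + (ε / 2) • (ev 0 : E n)) 0
    rw [h3]; positivity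
  · rw [h3]; positivity

end Local

section Mfd

variable {n N : ℕ} [NeZero n] {M : Type u} [TopologicalSpace M]
  [ChartedSpace (EuclideanHalfSpace n) M] [IsManifold (𝓡∂ n) ∞ M] [MeasurableSpace M]

theorem CNear_bdry_lin {Γ : Set M} {f f' : M → Fib N} (a b : ℂ) (hf : IsBdryData (𝓡∂ n) Γ f)
    (hf' : IsBdryData (𝓡∂ n) Γ f') : IsBdryData (𝓡∂ n) Γ (a • f + b • f') where
  smooth := by
    have h1 : ∀ (a : ℂ) (f : M → Fib N), ContMDiff (𝓡∂ n) 𝓘(ℝ, Fib N) ∞ f →
        ContMDiff (𝓡∂ n) 𝓘(ℝ, Fib N) ∞ (a • f) := by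
      intro a f hf
      have h2 : ContDiff ℝ ∞ (fun v : Fib N => a • v) := contDiff_const_smul a
      exact h2.contMDiff.comp hf
    exact (h1 a f hf.smooth).add (h1 b f' hf'.smooth)
  supp := by
    have h1 : {x ∈ (𝓡∂ n).boundary M | (a • f + b • f') x ≠ 0} ⊆
        {x ∈ (𝓡∂ n).boundary M | f x ≠ 0} ∪ {x ∈ (𝓡∂ n).boundary M | f' x ≠ 0} := by
      rintro x ⟨hx, hne⟩
      by_cases h : f x = 0
      · right
        refine ⟨hx, fun h' => hne ?_⟩
        simp [h, h']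
      · left
        exact ⟨hx, h⟩
    refine (closure_mono h1).trans ?_
    rw [closure_union]
    exact union_subset hf.supp hf'.supp

end Mfd

theorem cNear : CSetup_statement.{u} → CERel_statement.{u} → DBd_statement → BRigBd_statement →
    LinBd_statement → BSol_statement → CMatch_statement.{u} → CHarm_statement.{u} →
    CUniq_statement.{u} → CLoc_statement.{u} → CNear_statement.{u} := by
  intro hSetup hCERel hDBd hRig hLin hBSol hMatch hHarm hUniq hLoc
  intro n N _ M _ _ _ _ _ _ _ _ P Q Γ κ₁ κ₂ α β hn hN hΓ hΓne hsame hE₁ hE₂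
  obtain ⟨j0, q, z, r₀, s, t, W₁, W₂, X₁, Y₁, X₂, Y₂, S₁, S₂, hr₀, hs, ht, hBd⟩ :=
    hSetup n N M P Q Γ κ₁ κ₂ α β (by omega) hN hΓ hΓne hsame hE₁ hE₂
  obtain ⟨D₁, D₂, b1, b2⟩ := hBd r₀ hr₀ le_rfl
  have hr : 0 < r₀ / 2 := by positivity
  set r : ℝ := r₀ / 2 with hrdef
  have hrr : r < r₀ := by rw [hrdef]; linarith
  obtain ⟨D₁', D₂', c1, c2⟩ := hBd r hr hrr.le
  obtain ⟨⟨C, hC⟩, hdat⟩ := hCERel n N M P Q Γ q z r₀ κ₁ κ₂ α β j0 W₁ W₂ D₁ D₂ X₁ Y₁ X₂ Y₂ S₁ S₂ s t
    b1 b2 hs ht hΓ hΓne hsame r hr hrr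
  have hHB : HB z r ⊆ HB z r₀ := inter_subset_inter_left _ (Metric.ball_subset_ball hrr.le)
  have hbdne : ((𝓡∂ n).boundary M).Nonempty := by
    obtain ⟨O, -, rfl⟩ := hΓ
    exact hΓne.mono inter_subset_right
  have hUP := hUniq n N M P hbdne
  have hUQ := hUniq n N M Q hbdne
  -- linear combinations
  have hlin : ∀ (a b : ℂ) (u v : (M → Fib N) × (M → Fib N)), u ∈ PP P Q Γ → v ∈ PP P Q Γ →
      a • u + b • v ∈ PP P Q Γ := by
    rintro a b u v ⟨f, hf, hf1, hf2⟩ ⟨f', hf', hf1', hf2'⟩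
    exact ⟨a • f + b • f', CNear_bdry_lin a b hf hf', hUP.2.1 f f' _ _ a b hf1 hf1',
      hUQ.2.1 f f' _ _ a b hf2 hf2'⟩
  have hcomb : ∀ (v : Fib N) (F : Finset (Fin N)), (∑ j ∈ F, v j • s j) ∈ PP P Q Γ := by
    intro v F
    induction F using Finset.induction_on with
    | empty =>
      have := hlin 0 0 (s ⟨0, hN⟩) (s ⟨0, hN⟩) (hs _) (hs _)
      simpa using this
    | insert j F hj ih =>
      rw [Finset.sum_insert hj]
      have := hlin (v j) 1 (s j) _ (hs j) ih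
      simpa using this
  have d1const : ∀ v : Fib N, ∀ y ∈ HB z r₀,
      Ring.inverse (S₁ (Y₁ y)) (lu (𝓡∂ n) q (∑ j, v j • s j).1 (Y₁ y)) = v := by
    intro v y hy
    have hx := b1.pull.diffeo.mapsY hy
    have h1 := b1.frame _ hx v
    have h2 : lu (𝓡∂ n) q (∑ j, v j • s j).1 (Y₁ y) = S₁ (Y₁ y) v := by
      rw [h1]
      simp [lu, Prod.fst_sum, Finset.sum_apply]
    rw [h2]
    show (Ring.inverse (S₁ (Y₁ y)) * S₁ (Y₁ y)) v = v
    rw [Ring.inverse_mul_cancel _ (b1.pull.unit _ hx)]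
    rfl
  have d2const : ∀ v : Fib N, ∀ y ∈ HB z r₀,
      Ring.inverse (S₂ (Y₂ y)) (lu (𝓡∂ n) q (∑ j, v j • s j).2 (Y₂ y)) = v := by
    intro v y hy
    have hx := b2.pull.diffeo.mapsY hy
    have h1 := b2.frame _ hx v
    have h2 : lu (𝓡∂ n) q (∑ j, v j • s j).2 (Y₂ y) = S₂ (Y₂ y) v := by
      rw [h1]
      simp [lu, Prod.snd_sum, Finset.sum_apply]
    rw [h2]
    show (Ring.inverse (S₂ (Y₂ y)) * S₂ (Y₂ y)) v = v
    rw [Ring.inverse_mul_cancel _ (b2.pull.unit _ hx)]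
    rfl
  have d1coord : ∀ a, ∀ y ∈ HB z r₀,
      Ring.inverse (S₁ (Y₁ y)) (lu (𝓡∂ n) q (t a).1 (Y₁ y)) = W₁.c a y := by
    intro a y hy
    have hx := b1.pull.diffeo.mapsY hy
    rw [b1.coord _ hx a, b1.pull.diffeo.inv2 y hy]
    show (Ring.inverse (S₁ (Y₁ y)) * S₁ (Y₁ y)) _ = _
    rw [Ring.inverse_mul_cancel _ (b1.pull.unit _ hx)]
    rfl
  have d2coord : ∀ a, ∀ y ∈ HB z r₀,
      Ring.inverse (S₂ (Y₂ y)) (lu (𝓡∂ n) q (t a).2 (Y₂ y)) = W₂.c a y := by
    intro a y hy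
    have hx := b2.pull.diffeo.mapsY hy
    rw [b2.coord _ hx a, b2.pull.diffeo.inv2 y hy]
    show (Ring.inverse (S₂ (Y₂ y)) * S₂ (Y₂ y)) _ = _
    rw [Ring.inverse_mul_cancel _ (b2.pull.unit _ hx)]
    rfl
  have hR := CNear_relHB z r
  have hfluxv : ∀ x ∈ HB z r, x 0 = 0 → ∀ v : Fib N,
      flux W₁.toLD 0 (fun _ => v) x = flux W₂.toLD 0 (fun _ => v) x := by
    intro x hx hx0 v
    have h1 := (hdat _ (hcomb v Finset.univ) x hx hx0).2
    rw [CNear_flux_congr hR W₁.toLD (fun y hy => d1const v y (hHB hy)) 0 hx,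
      CNear_flux_congr hR W₂.toLD (fun y hy => d2const v y (hHB hy)) 0 hx] at h1
    exact h1
  have hc : ∀ x ∈ HB z r, x 0 = 0 → ∀ a, W₁.c a x = W₂.c a x := by
    intro x hx hx0 a
    have h1 := (hdat _ (ht a) x hx hx0).1
    have h2 := d1coord a x (hHB hx)
    have h3 := d2coord a x (hHB hx)
    rw [← h2, ← h3]
    exact h1
  have hfluxc : ∀ x ∈ HB z r, x 0 = 0 → ∀ a,
      flux W₁.toLD 0 (W₁.c a) x = flux W₂.toLD 0 (W₂.c a) x := by
    intro x hx hx0 a
    have h1 := (hdat _ (ht a) x hx hx0).2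
    rw [CNear_flux_congr hR W₁.toLD (fun y hy => d1coord a y (hHB hy)) 0 hx,
      CNear_flux_congr hR W₂.toLD (fun y hy => d2coord a y (hHB hy)) 0 hx] at h1
    exact h1
  have hh : ∀ x ∈ HB z r, x 0 = 0 → W₁.h x = 1 ∧ W₂.h x = 1 := by
    intro x hx hx0
    obtain ⟨h1, h2, h3, h4, -⟩ := c1.bd x hx hx0
    obtain ⟨k1, k2, k3, k4, -⟩ := c2.bd x hx hx0
    have e1 := c1.pull.h_eq x h1
    have e2 := c2.pull.h_eq x k1
    rw [h2, h4] at e1
    rw [k2, k4] at e2
    constructor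
    · rw [← e1]
      show ContinuousLinearMap.adjoint (1 : EndF N) * (1 : EndF N) * 1 = 1
      rw [mul_one, mul_one]
      exact star_one (EndF N)
    · rw [← e2]
      show ContinuousLinearMap.adjoint (1 : EndF N) * (1 : EndF N) * 1 = 1
      rw [mul_one, mul_one]
      exact star_one (EndF N)
  obtain ⟨hκ, hjet⟩ := hDBd n N κ₁ κ₂ α β j0 W₁ W₂ z r C hn hr b1.z0 c1.model c2.model hh hc hfluxv
    hfluxc hC
  refine ⟨hκ, ?_⟩
  subst hκ
  have hEq := hRig n N κ₁ α β j0 W₁ W₂ z r hn hr b1.z0 c1.model c2.model hjet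
  have hlocP := hLoc n N M
  -- solutions in model coordinates
  have hR0 := CNear_relHB z r₀
  have hsol1 : ∀ u ∈ PP P Q Γ, Sol W₁.toLD (HB z r)
      (fun y => Ring.inverse (S₁ (Y₁ y)) (lu (𝓡∂ n) q u.1 (Y₁ y))) := by
    intro u hu
    obtain ⟨f, hf, hf1, hf2⟩ := hu
    have h1 := hHarm n N M P f u.1 hf1 q
    have hsm : ContDiffOn ℝ ∞ (fun y => Ring.inverse (S₁ (Y₁ y)) (lu (𝓡∂ n) q u.1 (Y₁ y)))
        (HB z r) := by
      refine smooth_eval (smooth_ringInverse (c1.pull.smS.comp c1.pull.diffeo.smY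
        c1.pull.diffeo.mapsY) fun y hy => c1.pull.unit _ (c1.pull.diffeo.mapsY hy)) ?_
      exact (h1.1.mono c1.sub).comp c1.pull.diffeo.smY c1.pull.diffeo.mapsY
    refine hBSol n N (P.loc q) W₁.toLD D₁' (HB z r) X₁ Y₁ S₁ c1.rel hR
      (CNear_ok_mono (hlocP.2.1 P q) c1.sub) c1.model.ok c1.pull _ ?_ hsm
    refine CNear_Sol_congr c1.rel (c := lu (𝓡∂ n) q u.1) ?_ ⟨h1.1.mono c1.sub, fun x hx =>
      h1.2 x (c1.sub hx)⟩
    intro x hx
    show lu (𝓡∂ n) q u.1 x =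
      (S₁ x * Ring.inverse (S₁ (Y₁ (X₁ x)))) (lu (𝓡∂ n) q u.1 (Y₁ (X₁ x)))
    rw [c1.pull.diffeo.inv1 x hx, Ring.mul_inverse_cancel _ (c1.pull.unit x hx)]
    rfl
  have hsol2 : ∀ u ∈ PP P Q Γ, Sol W₂.toLD (HB z r)
      (fun y => Ring.inverse (S₂ (Y₂ y)) (lu (𝓡∂ n) q u.2 (Y₂ y))) := by
    intro u hu
    obtain ⟨f, hf, hf1, hf2⟩ := hu
    have h1 := hHarm n N M Q f u.2 hf2 q
    have hsm : ContDiffOn ℝ ∞ (fun y => Ring.inverse (S₂ (Y₂ y)) (lu (𝓡∂ n) q u.2 (Y₂ y)))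
        (HB z r) := by
      refine smooth_eval (smooth_ringInverse (c2.pull.smS.comp c2.pull.diffeo.smY
        c2.pull.diffeo.mapsY) fun y hy => c2.pull.unit _ (c2.pull.diffeo.mapsY hy)) ?_
      exact (h1.1.mono c2.sub).comp c2.pull.diffeo.smY c2.pull.diffeo.mapsY
    refine hBSol n N (Q.loc q) W₂.toLD D₂' (HB z r) X₂ Y₂ S₂ c2.rel hR
      (CNear_ok_mono (hlocP.2.1 Q q) c2.sub) c2.model.ok c2.pull _ ?_ hsm
    refine CNear_Sol_congr c2.rel (c := lu (𝓡∂ n) q u.2) ?_ ⟨h1.1.mono c2.sub, fun x hx =>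
      h1.2 x (c2.sub hx)⟩
    intro x hx
    show lu (𝓡∂ n) q u.2 x =
      (S₂ x * Ring.inverse (S₂ (Y₂ (X₂ x)))) (lu (𝓡∂ n) q u.2 (Y₂ (X₂ x)))
    rw [c2.pull.diffeo.inv1 x hx, Ring.mul_inverse_cancel _ (c2.pull.unit x hx)]
    rfl
  have hsolEq : ∀ u ∈ PP P Q Γ, ∀ x ∈ HB z r,
      Ring.inverse (S₁ (Y₁ x)) (lu (𝓡∂ n) q u.1 (Y₁ x)) =
        Ring.inverse (S₂ (Y₂ x)) (lu (𝓡∂ n) q u.2 (Y₂ x)) := by
    intro u hu x hx
    have k1 := hsol1 u hu
    have k2 := hsol2 u hu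
    have k3 : Sol W₁.toLD (HB z r)
        (fun y => Ring.inverse (S₁ (Y₁ y)) (lu (𝓡∂ n) q u.1 (Y₁ y)) -
          Ring.inverse (S₂ (Y₂ y)) (lu (𝓡∂ n) q u.2 (Y₂ y))) := by
      refine ⟨k1.1.sub k2.1, fun y hy => ?_⟩
      rw [CNear_Lop_sub hR c1.model.ok k1.1 k2.1 hy, k1.2 y hy,
        CNear_Lop_data hR hEq.g hEq.B _ hy, k2.2 y hy, sub_zero]
    have k4 := hLin n N W₁.toLD z r hr b1.z0 c1.model.ok _ k3 (fun y hy hy0 => by
      obtain ⟨e1, e2⟩ := hdat u hu y hy hy0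
      refine ⟨sub_eq_zero.2 e1, ?_⟩
      rw [CNear_flux_sub hR W₁.toLD k1.1 k2.1 0 hy, e2, CNear_flux_data hEq.g hEq.B _ 0 hy,
        sub_self]) x hx
    exact sub_eq_zero.1 k4
  obtain ⟨O, φ, V, hO, hO'⟩ := hMatch n N M P Q Γ q q z r W₁.toLD W₂.toLD D₁' D₂' X₁ Y₁ X₂ Y₂ S₁ S₂
    c1.rel c2.rel c1.sub c2.sub c1.pull c2.pull hEq.g hEq.B hEq.h hsolEq
  refine ⟨O, φ, V, hO, ?_⟩
  have hz : z ∈ HB z r := ⟨Metric.mem_ball_self hr, by show 0 ≤ z 0; rw [b1.z0]⟩
  obtain ⟨x, hx, hx0⟩ := CNear_pos_point c2.rel (c2.bd z hz b1.z0).1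
  exact ⟨_, hO' x hx hx0⟩

end Vale.Agent.P088.EYM
end
end

section

/-!
# P088-EYM, C27: good points are closed in the interior
-/

open Bundle Manifold MeasureTheory Set Filter Topology
open scoped ContDiff

noncomputable section

set_option linter.all false

namespace Vale.Agent.P088.EYM

universe u

section Loc

variable {n N : ℕ} [NeZero n]

/-- The operator only depends on the germs of the data and the section. -/
theorem cClosed_lop_congr {D : Set (E n)} (hD : RelOpen D) {L₁ L₂ : LD n N}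
    (hg : ∀ x ∈ D, L₁.g x = L₂.g x) (hB : ∀ x ∈ D, ∀ j, L₁.B j x = L₂.B j x)
    {c d : E n → Fib N} (h : EqOn c d D) {x : E n} (hx : x ∈ D) :
    Lop L₁ c x = Lop L₂ d x := by
  have hflux : ∀ j, EqOn (flux L₁ j c) (flux L₂ j d) D := by
    intro j y hy
    unfold flux gg nab
    refine Finset.sum_congr rfl fun k _ => ?_
    rw [hg y hy, hB y hy, h hy, hD.pd_congr h hy k]
  unfold Lop
  refine Finset.sum_congr rfl fun j _ => ?_
  rw [hD.pd_congr (hflux j) hx j, hflux j hx, hB x hx]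

theorem cClosed_nab_sub {D : Set (E n)} (hD : RelOpen D) {L : LD n N} {c d : E n → Fib N}
    (hc : ContDiffOn ℝ ∞ c D) (hd : ContDiffOn ℝ ∞ d D) {x : E n} (hx : x ∈ D) (k : Fin n) :
    nab L k (fun y => c y - d y) x = nab L k c x - nab L k d x := by
  unfold nab
  rw [hD.pd_sub hc hd hx k, map_sub]
  abel

theorem cClosed_flux_sub {D : Set (E n)} (hD : RelOpen D) {L : LD n N} {c d : E n → Fib N}
    (hc : ContDiffOn ℝ ∞ c D) (hd : ContDiffOn ℝ ∞ d D) {x : E n} (hx : x ∈ D) (k : Fin n) :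
    flux L k (fun y => c y - d y) x = flux L k c x - flux L k d x := by
  unfold flux
  rw [← Finset.sum_sub_distrib]
  refine Finset.sum_congr rfl fun j _ => ?_
  rw [cClosed_nab_sub hD hc hd hx, smul_sub]

theorem cClosed_flux_smooth {D : Set (E n)} (hD : RelOpen D) {L : LD n N} (hL : L.Ok D)
    {c : E n → Fib N} (hc : ContDiffOn ℝ ∞ c D) (k : Fin n) :
    ContDiffOn ℝ ∞ (flux L k c) D := by
  unfold flux
  exact ContDiffOn.sum fun j _ => (hD.gg_smooth hL.g_smooth hL.g_pos k j).smul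
    (eqs_nab_smooth hD hL hc j)

/-- Differences of solutions are solutions. -/
theorem cClosed_sol_sub {D : Set (E n)} (hD : RelOpen D) {L : LD n N} (hL : L.Ok D)
    {c d : E n → Fib N} (hc : Sol L D c) (hd : Sol L D d) :
    Sol L D (fun y => c y - d y) := by
  refine ⟨hc.1.sub hd.1, fun x hx => ?_⟩
  have hfl : ∀ j, EqOn (flux L j (fun y => c y - d y)) (fun y => flux L j c y - flux L j d y) D :=
    fun j y hy => cClosed_flux_sub hD hc.1 hd.1 hy j
  have h1 : Lop L (fun y => c y - d y) x = Lop L c x - Lop L d x := by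
    unfold Lop
    rw [← Finset.sum_sub_distrib]
    refine Finset.sum_congr rfl fun j _ => ?_
    rw [hD.pd_congr (hfl j) hx j, hD.pd_sub (cClosed_flux_smooth hD hL hc.1 j)
      (cClosed_flux_smooth hD hL hd.1 j) hx j, hfl j hx, map_sub]
    abel
  rw [h1, hc.2 x hx, hd.2 x hx, sub_zero]

theorem cClosed_sol_congr {D : Set (E n)} (hD : RelOpen D) {L₁ L₂ : LD n N}
    (hg : ∀ x ∈ D, L₁.g x = L₂.g x) (hB : ∀ x ∈ D, ∀ j, L₁.B j x = L₂.B j x)
    {c d : E n → Fib N} (h : EqOn c d D) (hd : Sol L₂ D d) : Sol L₁ D c :=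
  ⟨hd.1.congr h, fun x hx => by rw [cClosed_lop_congr hD hg hB h hx, hd.2 x hx]⟩

theorem cClosed_relOpen_HB (z : E n) (r : ℝ) : RelOpen (HB z r) :=
  ⟨Metric.ball z r, Metric.isOpen_ball, rfl⟩

/-- Solutions in the chart are solutions of the model. -/
theorem cClosed_tr (bSol : BSol_statement) {L L' : LD n N} {D D' : Set (E n)} {X Y : E n → E n}
    {S : E n → EndF N} (hD : RelOpen D) (hD' : RelOpen D') (hL : L.Ok D) (hL' : L'.Ok D')
    (h : IsPull L L' D D' X Y S) {c : E n → Fib N} (hc : Sol L D c) :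
    Sol L' D' (fun y => Ring.inverse (S (Y y)) (c (Y y))) := by
  have hY := h.diffeo.smY
  have hmY := h.diffeo.mapsY
  have hsm : ContDiffOn ℝ ∞ (fun y => Ring.inverse (S (Y y)) (c (Y y))) D' := by
    refine smooth_eval ?_ (hc.1.comp hY hmY)
    exact smooth_ringInverse (h.smS.comp hY hmY) (fun y hy => h.unit _ (hmY hy))
  refine bSol n N L L' D D' X Y S hD hD' hL hL' h _ ?_ hsm
  refine cClosed_sol_congr hD (fun _ _ => rfl) (fun _ _ _ => rfl) ?_ hc
  intro x hx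
  show S x (Ring.inverse (S (Y (X x))) (c (Y (X x)))) = c x
  rw [h.diffeo.inv1 x hx]
  have h2 := Ring.mul_inverse_cancel _ (h.unit x hx)
  have h3 := congrArg (fun T : EndF N => T (c x)) h2
  exact h3

end Loc

section Man

variable {n N : ℕ} [NeZero n] {M : Type u} [TopologicalSpace M]
  [ChartedSpace (EuclideanHalfSpace n) M] [IsManifold (𝓡∂ n) ∞ M] [T2Space M] [CompactSpace M]
  [ConnectedSpace M] [MeasurableSpace M] [BorelSpace M]

theorem cClosed_frm_apply (q : M) (s : Fin N → M → Fib N) (y : E n) (v : Fib N) :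
    frm n q s y v = lu (𝓡∂ n) q (∑ j, v j • s j) y := by
  unfold frm lu
  rw [fr_apply]
  simp only [Finset.sum_apply, Pi.smul_apply]

theorem cClosed_harm_sum (hU : CUniq_statement.{u}) (hN : 0 < N) (P : One n N M)
    (hb : ((𝓡∂ n).boundary M).Nonempty) (s : Fin N → M → Fib N)
    (hs : ∀ j, ∃ f, P.Harm f (s j)) (v : Fib N) : ∃ f, P.Harm f (∑ j, v j • s j) := by
  have key : ∀ A : Finset (Fin N), ∃ f, P.Harm f (∑ j ∈ A, v j • s j) := by
    intro A
    classical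
    induction A using Finset.induction_on with
    | empty =>
      obtain ⟨f, hf⟩ := hs ⟨0, hN⟩
      refine ⟨(0 : ℂ) • f + (0 : ℂ) • f, ?_⟩
      have := (hU n N M P hb).2.1 f f (s ⟨0, hN⟩) (s ⟨0, hN⟩) 0 0 hf hf
      simpa using this
    | insert a A ha ih =>
      obtain ⟨f, hf⟩ := ih
      obtain ⟨f', hf'⟩ := hs a
      refine ⟨v a • f' + (1 : ℂ) • f, ?_⟩
      have := (hU n N M P hb).2.1 f' f (s a) (∑ j ∈ A, v j • s j) (v a) 1 hf' hf
      rw [Finset.sum_insert ha]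
      simpa using this
  exact key Finset.univ

theorem cClosed_frm_smooth (hLoc : CLoc_statement.{u}) (q : M) (s : Fin N → M → Fib N)
    (hs : ∀ j, SmS n (s j)) : ContDiffOn ℝ ∞ (frm n q s) (tg n q) := by
  have h1 : frm n q s = fun y => ∑ i, rk (eN N i) (lu (𝓡∂ n) q (s i) y) := rfl
  rw [h1]
  exact ContDiffOn.sum fun i _ => (rk (eN N i)).contDiff.comp_contDiffOn
    ((hLoc n N M).2.2.2 (s i) (hs i) q)

theorem cClosed_bdry {Γ : Set M} (h : RelBd n Γ) (h' : Γ.Nonempty) :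
    ((𝓡∂ n).boundary M).Nonempty := by
  obtain ⟨O, _, rfl⟩ := h
  exact h'.mono inter_subset_right

theorem cClosed_pos (hLoc : CLoc_statement.{u}) {x : M} (hx : x ∈ Mi n M) : 0 < xc n x x 0 := by
  have hs : x ∈ (xc n x).source := mem_extChartAt_source x
  have ht : xc n x x ∈ tg n x := (xc n x).map_source hs
  have hH : xc n x x ∈ Hs n := ((hLoc n 0 M).1 x).subset ht
  have hb := (hLoc n 0 M).2.2.1 x x hs
  have hne : xc n x x 0 ≠ 0 := by
    intro h0
    have h1 := hb.2 h0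
    have h2 : x ∉ (𝓡∂ n).boundary M := by
      rw [← ModelWithCorners.compl_interior]
      exact fun h => h hx
    exact h2 h1
  exact lt_of_le_of_ne hH (Ne.symm hne)

/-- The model near an interior point. -/
theorem cClosed_model (hBM : BModel_statement) (hHarm : CHarm_statement.{u})
    (hU : CUniq_statement.{u}) (hLoc : CLoc_statement.{u}) (hN : 0 < N) (P : One n N M)
    {κ α β : ℝ} (hP : EYMm κ α β P.g P.A) (hb : ((𝓡∂ n).boundary M).Nonempty) (j0 : Fin N)
    {x : M} (hx : x ∈ Mi n M) (s : Fin N → M → Fib N) (t : Fin n → M → Fib N)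
    (hs : ∀ j, ∃ f, P.Harm f (s j)) (ht : ∀ a, ∃ f, P.Harm f (t a))
    (hu : IsUnit (frm n x s (xc n x x)))
    (hd : (Jac (Xco j0 (frm n x s) (fun a => lu (𝓡∂ n) x (t a))) (xc n x x)).det ≠ 0)
    (hpos : 0 < Xco j0 (frm n x s) (fun a => lu (𝓡∂ n) x (t a)) (xc n x x) 0) :
    ∃ (Y : E n → E n) (W : Model n N) (r₀ : ℝ), 0 < r₀ ∧ ∀ r, 0 < r → r ≤ r₀ →
      ∃ D₁ ⊆ tg n x, RelOpen D₁ ∧ xc n x x ∈ D₁ ∧
        IsPull (P.loc x) W.toLD D₁
          (HB (Xco j0 (frm n x s) (fun a => lu (𝓡∂ n) x (t a)) (xc n x x)) r)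
          (Xco j0 (frm n x s) (fun a => lu (𝓡∂ n) x (t a))) Y (frm n x s) ∧
        IsModel κ α β j0 W (HB (Xco j0 (frm n x s) (fun a => lu (𝓡∂ n) x (t a)) (xc n x x)) r) ∧
        ∀ y ∈ D₁, ∀ a, lu (𝓡∂ n) x (t a) y =
          frm n x s y (W.c a (Xco j0 (frm n x s) (fun a => lu (𝓡∂ n) x (t a)) y)) := by
  have hss : ∀ j, SmS n (s j) := fun j => (hs j).choose_spec.smooth
  refine hBM n N (P.loc x) (tg n x) κ α β j0 ((hLoc n N M).1 x) ((hLoc n N M).2.1 P x) (hP x)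
    (frm n x s) (fun a => lu (𝓡∂ n) x (t a)) (cClosed_frm_smooth hLoc x s hss) ?_ ?_
    (xc n x x) ((xc n x).map_source (mem_extChartAt_source x)) hu hd
    (Or.inl ⟨cClosed_pos hLoc hx, hpos⟩)
  · intro v
    obtain ⟨f, hf⟩ := cClosed_harm_sum hU hN P hb s hs v
    have h1 := hHarm n N M P f _ hf x
    have h2 : (fun y => frm n x s y v) = lu (𝓡∂ n) x (∑ j, v j • s j) :=
      funext fun y => cClosed_frm_apply x s y v
    rw [h2]
    exact h1
  · intro a
    obtain ⟨f, hf⟩ := ht a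
    exact hHarm n N M P f _ hf x

theorem cClosed_coord_le (x y : E n) : |x 0 - y 0| ≤ dist x y := by
  have h := EuclideanSpace.norm_eq (x - y)
  rw [dist_eq_norm]
  have h1 : |x 0 - y 0| = ‖(x - y) 0‖ := by rw [Real.norm_eq_abs]; rfl
  rw [h1]
  exact PiLp.norm_apply_le (x - y) 0

theorem cClosed_HB {z : E n} {r : ℝ} (hr : r ≤ z 0) :
    HB z r = Metric.ball z r ∧ HB z r ⊆ {x | 0 < x 0} := by
  have h1 : Metric.ball z r ⊆ {x : E n | 0 < x 0} := by
    intro x hx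
    have h2 := cClosed_coord_le x z
    have h3 : dist x z < r := hx
    have h4 := abs_le.1 (h2.trans h3.le)
    have h5 := (abs_lt.1 (lt_of_le_of_lt h2 h3)).1
    show 0 < x 0
    linarith
  have h2 : HB z r = Metric.ball z r := by
    refine inter_eq_left.2 fun x hx => ?_
    exact le_of_lt (show 0 < x 0 from h1 hx)
  exact ⟨h2, by rw [h2]; exact h1⟩

end Man

theorem cClosed : CLim_statement.{u} → CCoord_statement.{u} → CModEq_statement.{u} →
    BModel_statement → BRigInt_statement → LinInt_statement → BSol_statement →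
    CMatch_statement.{u} → CHarm_statement.{u} → CUniq_statement.{u} → CLoc_statement.{u} →
    CClosed_statement.{u} := by
  intro hLim hCoord hModEq hBM hRig hLin hBSol hMatch hHarm hU hLoc
  intro n N _ M _ _ _ _ _ _ _ _ P Q Γ κ α β hn hN hΓ hΓ' hS hP hQ x₀ hx₀ hcl
  have hb := cClosed_bdry hΓ hΓ'
  obtain ⟨x₀', V₀, x, O, φ, V, hx₀', hV₀, hk, hx, hφ, hV, hlim⟩ :=
    hLim n N M P Q Γ hn hN hΓ hΓ' hS x₀ hx₀ hcl
  obtain ⟨j0, s, t, hs, ht, hu1, hu2, hd1, hd2, hpos, heq⟩ :=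
    hCoord n N M P Q Γ x₀ x₀' V₀ x O φ V hn hN hΓ hΓ' hS hx₀ hx₀' hV₀ hk hx hφ hV hlim
  have hpos' := hpos
  rw [heq] at hpos'
  have hs1 : ∀ j, ∃ f, P.Harm f (s j).1 := fun j => by
    obtain ⟨f, _, h1, _⟩ := hs j; exact ⟨f, h1⟩
  have hs2 : ∀ j, ∃ f, Q.Harm f (s j).2 := fun j => by
    obtain ⟨f, _, _, h1⟩ := hs j; exact ⟨f, h1⟩
  have ht1 : ∀ j, ∃ f, P.Harm f (t j).1 := fun j => by
    obtain ⟨f, _, h1, _⟩ := ht j; exact ⟨f, h1⟩
  have ht2 : ∀ j, ∃ f, Q.Harm f (t j).2 := fun j => by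
    obtain ⟨f, _, _, h1⟩ := ht j; exact ⟨f, h1⟩
  obtain ⟨Y₁, W₁, r₁, hr₁, h₁⟩ := cClosed_model hBM hHarm hU hLoc hN P hP hb j0 hx₀'
    (fun j => (s j).1) (fun a => (t a).1) hs1 ht1 hu1 hd1 hpos
  obtain ⟨Y₂, W₂, r₂, hr₂, h₂⟩ := cClosed_model hBM hHarm hU hLoc hN Q hQ hb j0 hx₀
    (fun j => (s j).2) (fun a => (t a).2) hs2 ht2 hu2 hd2 hpos'
  rw [← heq] at h₂
  set ζ := Xco j0 (frm n x₀' fun j => (s j).1) (fun a => lu (𝓡∂ n) x₀' (t a).1)
    (xc n x₀' x₀') with hζ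
  obtain ⟨r, hr, hra, hrb, hrc⟩ : ∃ r, 0 < r ∧ r ≤ r₁ ∧ r ≤ r₂ ∧ r ≤ ζ 0 :=
    ⟨min (min r₁ r₂) (ζ 0), lt_min (lt_min hr₁ hr₂) hpos,
      (min_le_left _ _).trans (min_le_left _ _), (min_le_left _ _).trans (min_le_right _ _),
      min_le_right _ _⟩
  obtain ⟨D₁, hD₁s, hD₁, hz₁, hpull₁, hmod₁, hc₁⟩ := h₁ r hr hra
  obtain ⟨D₂, hD₂s, hD₂, hz₂, hpull₂, hmod₂, hc₂⟩ := h₂ r hr hrb
  obtain ⟨hHB, hHBpos⟩ := cClosed_HB (n := n) hrc
  have hHBo : RelOpen (HB ζ r) := cClosed_relOpen_HB ζ r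
  have hHBopen : IsOpen (HB ζ r) := by rw [hHB]; exact Metric.isOpen_ball
  have hHBpre : IsPreconnected (HB ζ r) := by
    rw [hHB]; exact (convex_ball ζ r).isPreconnected
  -- a large index
  have ev1 : ∀ᶠ k in atTop, x k ∈ (xc n x₀).source ∧ xc n x₀ (x k) ∈ D₂ := by
    have e1 : ∀ᶠ k in atTop, x k ∈ (xc n x₀).source :=
      hx.eventually ((isOpen_extChartAt_source x₀).mem_nhds (mem_extChartAt_source x₀))
    have e2 : Tendsto (fun k => xc n x₀ (x k)) atTop (𝓝 (xc n x₀ x₀)) :=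
      (continuousAt_extChartAt x₀).tendsto.comp hx
    obtain ⟨O₂, hO₂, rfl⟩ := hD₂
    have e3 := e2.eventually (hO₂.mem_nhds hz₂.1)
    filter_upwards [e1, e3] with k h1 h3
    refine ⟨h1, h3, ?_⟩
    exact ((hLoc n N M).1 x₀).subset ((xc n x₀).map_source h1)
  have ev2 : ∀ᶠ k in atTop, φ k (x k) ∈ (xc n x₀').source ∧ xc n x₀' (φ k (x k)) ∈ D₁ := by
    have e1 : ∀ᶠ k in atTop, φ k (x k) ∈ (xc n x₀').source :=
      hφ.eventually ((isOpen_extChartAt_source x₀').mem_nhds (mem_extChartAt_source x₀'))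
    have e2 : Tendsto (fun k => xc n x₀' (φ k (x k))) atTop (𝓝 (xc n x₀' x₀')) :=
      (continuousAt_extChartAt x₀').tendsto.comp hφ
    obtain ⟨O₂, hO₂, rfl⟩ := hD₁
    have e3 := e2.eventually (hO₂.mem_nhds hz₁.1)
    filter_upwards [e1, e3] with k h1 h3
    refine ⟨h1, h3, ?_⟩
    exact ((hLoc n N M).1 x₀').subset ((xc n x₀').map_source h1)
  obtain ⟨k, ⟨hk1, hk2⟩, hk3, hk4⟩ := (ev1.and ev2).exists
  obtain ⟨U, hUo, hUs, hUn, hUeq, hUu⟩ := hModEq n N M P Q Γ j0 s t x₀' x₀ ζ r W₁ W₂ D₁ D₂ Y₁ Y₂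
    hs ht hD₁ hD₂ hD₁s hD₂s hpull₁ hpull₂ hc₁ hc₂ (O k) (φ k) (V k) (hk k).1 (x k) (hk k).2
    hk1 hk2 hk3 hk4
  have hEq : EqOnM W₁ W₂ (HB ζ r) :=
    hRig n N κ α β j0 W₁ W₂ (HB ζ r) hn hHBopen hHBpos hHBpre hmod₁ hmod₂ U hUo hUs hUn hUeq
  have hL₁ : (P.loc x₀').Ok D₁ := by
    have := (hLoc n N M).2.1 P x₀'
    exact ⟨fun i j => (this.g_smooth i j).mono hD₁s, fun y hy => this.g_pos y (hD₁s hy),
      fun i => (this.B_smooth i).mono hD₁s, this.h_smooth.mono hD₁s,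
      fun y hy => this.h_adj y (hD₁s hy), fun y hy => this.h_pos y (hD₁s hy),
      fun y hy => this.compat y (hD₁s hy)⟩
  have hL₂ : (Q.loc x₀).Ok D₂ := by
    have := (hLoc n N M).2.1 Q x₀
    exact ⟨fun i j => (this.g_smooth i j).mono hD₂s, fun y hy => this.g_pos y (hD₂s hy),
      fun i => (this.B_smooth i).mono hD₂s, this.h_smooth.mono hD₂s,
      fun y hy => this.h_adj y (hD₂s hy), fun y hy => this.h_pos y (hD₂s hy),
      fun y hy => this.compat y (hD₂s hy)⟩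
  have hsec : ∀ u ∈ PP P Q Γ, ∀ y ∈ HB ζ r,
      Ring.inverse (frm n x₀' (fun j => (s j).1) (Y₁ y)) (lu (𝓡∂ n) x₀' u.1 (Y₁ y)) =
      Ring.inverse (frm n x₀ (fun j => (s j).2) (Y₂ y)) (lu (𝓡∂ n) x₀ u.2 (Y₂ y)) := by
    intro u hu
    obtain ⟨f, _, hf1, hf2⟩ := hu
    have a1 : Sol (P.loc x₀') D₁ (lu (𝓡∂ n) x₀' u.1) := by
      have := hHarm n N M P f _ hf1 x₀'
      exact ⟨this.1.mono hD₁s, fun y hy => this.2 y (hD₁s hy)⟩
    have a2 : Sol (Q.loc x₀) D₂ (lu (𝓡∂ n) x₀ u.2) := by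
      have := hHarm n N M Q f _ hf2 x₀
      exact ⟨this.1.mono hD₂s, fun y hy => this.2 y (hD₂s hy)⟩
    have b1 := cClosed_tr hBSol hD₁ hHBo hL₁ hmod₁.ok hpull₁ a1
    have b2 := cClosed_tr hBSol hD₂ hHBo hL₂ hmod₂.ok hpull₂ a2
    have b3 : Sol W₁.toLD (HB ζ r)
        (fun y => Ring.inverse (frm n x₀ (fun j => (s j).2) (Y₂ y)) (lu (𝓡∂ n) x₀ u.2 (Y₂ y))) :=
      cClosed_sol_congr hHBo hEq.g hEq.B (fun _ _ => rfl) b2
    have b4 := cClosed_sol_sub hHBo hmod₁.ok b1 b3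
    have b5 := hLin n N W₁.toLD (HB ζ r) hHBopen inter_subset_right hmod₁.ok hHBpre _ b4 U hUo hUs
      hUn (fun y hy => sub_eq_zero.2 (hUu u ⟨f, by assumption, hf1, hf2⟩ y hy))
    intro y hy
    exact sub_eq_zero.1 (b5 y hy)
  obtain ⟨O', φ', V', hM, hO'⟩ := hMatch n N M P Q Γ x₀' x₀ ζ r W₁.toLD W₂.toLD D₁ D₂ _ Y₁ _ Y₂ _ _
    hD₁ hD₂ hD₁s hD₂s hpull₁ hpull₂ hEq.g hEq.B hEq.h hsec
  refine ⟨O', φ', V', hM, ?_⟩
  have := hO' (xc n x₀ x₀) hz₂ (cClosed_pos hLoc hx₀)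
  rwa [extChartAt_to_inv] at this

end Vale.Agent.P088.EYM
end
end

section

/-!
# P088-EYM, local solvability: `Lop` as a general second order operator
-/

set_option linter.all false

open MeasureTheory Set Filter Topology
open scoped ContDiff Real

noncomputable section

namespace Vale.Agent.P088.EYM.ES

variable {n N : ℕ} [NeZero n]

section

variable {F : Type*} [NormedAddCommGroup F] [NormedSpace ℝ F]

theorem SLop_pd {D : Set (E n)} (hD : IsOpen D) (hDH : D ⊆ Hs n) {x : E n} (hx : x ∈ D)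
    (f : E n → F) (i : Fin n) : pd i f x = fderiv ℝ f x (ev i) := by
  unfold pd
  rw [fderivWithin_of_mem_nhds (mem_of_superset (hD.mem_nhds hx) hDH)]

theorem SLop_rel {D : Set (E n)} (hD : IsOpen D) (hDH : D ⊆ Hs n) : RelOpen D :=
  ⟨D, hD, (inter_eq_self_of_subset_left hDH).symm⟩

theorem SLop_pd_smooth {D : Set (E n)} (hD : RelOpen D) {f : E n → F} {m k : WithTop ℕ∞}
    (hf : ContDiffOn ℝ k f D) (hm : m + 1 ≤ k) (i : Fin n) : ContDiffOn ℝ m (pd i f) D := by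
  have h1 : ContDiffOn ℝ m (fun x => fderivWithin ℝ f (Hs n) x) D := by
    refine (hf.fderivWithin hD.uniqueDiffOn hm).congr fun x hx => ?_
    exact (hD.fderivWithin_eq hx f).symm
  exact h1.clm_apply contDiffOn_const

theorem SLop_pd_smul {D : Set (E n)} (hD : RelOpen D) {a : E n → ℝ} {f : E n → F}
    {m m' : WithTop ℕ∞} (hm : m ≠ 0) (hm' : m' ≠ 0)
    (ha : ContDiffOn ℝ m a D) (hf : ContDiffOn ℝ m' f D) {x : E n} (hx : x ∈ D) (i : Fin n) :
    pd i (fun y => a y • f y) x = a x • pd i f x + pd i a x • f x := by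
  have h : HasFDerivWithinAt (fun y => a y • f y) _ (Hs n) x :=
    (hD.hasD hx ha hm).smul (hD.hasD hx hf hm')
  rw [pd_of_has (hD.subset hx) h i]
  simp [pd]

theorem SLop_pd_sum {D : Set (E n)} (hD : RelOpen D) {ι : Type*} (s : Finset ι)
    {f : ι → E n → F} {m : WithTop ℕ∞} (hm : m ≠ 0)
    (hf : ∀ k ∈ s, ContDiffOn ℝ m (f k) D) {x : E n} (hx : x ∈ D) (i : Fin n) :
    pd i (fun y => ∑ k ∈ s, f k y) x = ∑ k ∈ s, pd i (f k) x := by
  have h := HasFDerivWithinAt.fun_sum (u := s) (A := f)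
    (A' := fun k => fderivWithin ℝ (f k) (Hs n) x) (fun k hk => hD.hasD hx (hf k hk) hm)
  rw [pd_of_has (hD.subset hx) h i]
  simp [pd]

end

omit [NeZero n] in
theorem SLop_alg (a d : Fin n → Fin n → ℝ) (P : Fin n → Fin n → Fib N) (p : Fin n → Fib N)
    (B : Fin n → EndF N) (dB : Fin n → Fin n → EndF N) (u : Fib N) :
    ∑ j, (∑ k, (a j k • (P j k + (B k (p j) + dB j k u)) + d j k • (p k + B k u)) +
      ∑ k, a j k • (B j (p k) + B j (B k u))) =
    ∑ j, ∑ k, a j k • P j k +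
      ∑ k, (∑ j, (d j k • (1 : EndF N) + a k j • B j + a j k • B j)) (p k) +
      (∑ j, ∑ k, (a j k • dB j k + d j k • B k + a j k • (B j * B k))) u := by
  have h1 : ∀ k, (∑ j, (d j k • (1 : EndF N) + a k j • B j + a j k • B j)) (p k) =
      ∑ j, (d j k • p k + a k j • B j (p k) + a j k • B j (p k)) := by
    intro k
    rw [ContinuousLinearMap.sum_apply]
    rfl
  have h2 : (∑ j, ∑ k, (a j k • dB j k + d j k • B k + a j k • (B j * B k))) u =
      ∑ j, ∑ k, (a j k • dB j k u + d j k • B k u + a j k • B j (B k u)) := by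
    rw [ContinuousLinearMap.sum_apply]
    refine Finset.sum_congr rfl fun j _ => ?_
    rw [ContinuousLinearMap.sum_apply]
    rfl
  rw [h2, Finset.sum_congr rfl fun k _ => h1 k]
  simp only [smul_add, Finset.sum_add_distrib]
  have h3 : ∑ k, ∑ j, d j k • p k = ∑ j, ∑ k, d j k • p k := Finset.sum_comm
  have h4 : ∑ k, ∑ j, a j k • B j (p k) = ∑ j, ∑ k, a j k • B j (p k) := Finset.sum_comm
  rw [h3, h4]
  abel

/-- `Lop` is of the form `Pop` -/
theorem as_lop {L : LD n N} {D : Set (E n)} (hD : IsOpen D) (hDH : D ⊆ Hs n) (hL : L.Ok D) :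
    ∃ (M : Fin n → E n → EndF N) (M0 : E n → EndF N), (∀ j, ContDiffOn ℝ ∞ (M j) D) ∧
      ContDiffOn ℝ ∞ M0 D ∧ ∀ v : E n → Fib N, ∀ x ∈ D, ContDiffAt ℝ 2 v x →
        Lop L v x = Pop (gg L.g) M M0 v x := by
  have hR : RelOpen D := SLop_rel hD hDH
  have hgg : ∀ j k, ContDiffOn ℝ ∞ (gg L.g j k) D := fun j k =>
    hR.gg_smooth hL.g_smooth hL.g_pos j k
  have hdg : ∀ i j k, ContDiffOn ℝ ∞ (pd i (gg L.g j k)) D := fun i j k =>
    hR.pd_smooth (hgg j k) i
  have hdB : ∀ i j, ContDiffOn ℝ ∞ (pd i (L.B j)) D := fun i j => hR.pd_smooth (hL.B_smooth j) i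
  refine ⟨fun k x => ∑ j, (pd j (gg L.g j k) x • (1 : EndF N) + gg L.g k j x • L.B j x +
      gg L.g j k x • L.B j x),
    fun x => ∑ j, ∑ k, (gg L.g j k x • pd j (L.B k) x + pd j (gg L.g j k) x • L.B k x +
      gg L.g j k x • (L.B j x * L.B k x)), ?_, ?_, ?_⟩
  · intro k
    refine ContDiffOn.sum fun j _ => ?_
    exact (((hdg j j k).smul contDiffOn_const).add ((hgg k j).smul (hL.B_smooth j))).add
      ((hgg j k).smul (hL.B_smooth j))
  · refine ContDiffOn.sum fun j _ => ContDiffOn.sum fun k _ => ?_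
    exact (((hgg j k).smul (hdB j k)).add ((hdg j j k).smul (hL.B_smooth k))).add
      ((hgg j k).smul (smooth_mul (hL.B_smooth j) (hL.B_smooth k)))
  · intro v x hx hv
    obtain ⟨U, hUx, hvU⟩ := hv.contDiffOn (m := 2) le_rfl (by simp)
    obtain ⟨V, hVU, hVo, hxV⟩ := mem_nhds_iff.1 (inter_mem hUx (hD.mem_nhds hx))
    have hVD : V ⊆ D := fun y hy => (hVU hy).2
    have hVR : RelOpen V := SLop_rel hVo (hVD.trans hDH)
    have hv2 : ContDiffOn ℝ 2 v V := hvU.mono fun y hy => (hVU hy).1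
    have hv1 : ContDiffOn ℝ 1 v V := hv2.of_le (by norm_num)
    have hpv : ∀ k, ContDiffOn ℝ 1 (pd k v) V := fun k =>
      SLop_pd_smooth hVR hv2 (by norm_num) k
    have hBv : ∀ k, ContDiffOn ℝ 1 (fun y => L.B k y (v y)) V := fun k =>
      smooth_eval (((hL.B_smooth k).mono hVD).of_le (by exact_mod_cast le_top)) hv1
    have hnab : ∀ k, ContDiffOn ℝ 1 (fun y => pd k v y + L.B k y (v y)) V := fun k =>
      (hpv k).add (hBv k)
    have hgV : ∀ j k, ContDiffOn ℝ 1 (gg L.g j k) V := fun j k =>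
      ((hgg j k).mono hVD).of_le (by exact_mod_cast le_top)
    have e1 : ∀ j, pd j (flux L j v) x = ∑ k, (gg L.g j k x • (pd j (pd k v) x +
        (L.B k x (pd j v x) + pd j (L.B k) x (v x))) +
        pd j (gg L.g j k) x • (pd k v x + L.B k x (v x))) := by
      intro j
      have h3 : pd j (flux L j v) x =
        pd j (fun y => ∑ k, gg L.g j k y • (pd k v y + L.B k y (v y))) x := rfl
      rw [h3, SLop_pd_sum hVR Finset.univ one_ne_zero
        (f := fun k y => gg L.g j k y • (pd k v y + L.B k y (v y)))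
        (fun k _ => (hgV j k).smul (hnab k)) hxV j]
      refine Finset.sum_congr rfl fun k _ => ?_
      rw [SLop_pd_smul hVR one_ne_zero one_ne_zero (hgV j k) (hnab k) hxV j]
      congr 2
      have h4 : pd j (fun y => pd k v y + L.B k y (v y)) x =
          pd j (pd k v) x + pd j (fun y => L.B k y (v y)) x :=
        pd_of_has (hVR.subset hxV) ((hVR.hasD hxV (hpv k) one_ne_zero).add
          (hVR.hasD hxV (hBv k) one_ne_zero)) j
      rw [h4, hVR.pd_eval (hL.B_smooth k |>.mono hVD) hv1 (by simp) one_ne_zero hxV j]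
    have e2 : ∀ j k, fderiv ℝ (fun y => fderiv ℝ v y (ev k)) x (ev j) = pd j (pd k v) x := by
      intro j k
      rw [← SLop_pd hVo (hVD.trans hDH) hxV]
      exact hVR.pd_congr (fun y hy => (SLop_pd hVo (hVD.trans hDH) hy v k).symm) hxV j
    have e3 : ∀ j, fderiv ℝ v x (ev j) = pd j v x := fun j =>
      (SLop_pd hVo (hVD.trans hDH) hxV v j).symm
    have e4 : ∀ j, L.B j x (flux L j v x) = ∑ k, gg L.g j k x • (L.B j x (pd k v x) +
        L.B j x (L.B k x (v x))) := by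
      intro j
      unfold flux nab
      rw [map_sum]
      refine Finset.sum_congr rfl fun k _ => ?_
      rw [ContinuousLinearMap.map_smul_of_tower, map_add]
    unfold Lop Pop
    simp only [e1, e2, e3, e4]
    exact SLop_alg (fun j k => gg L.g j k x) (fun j k => pd j (gg L.g j k) x)
      (fun j k => pd j (pd k v) x) (fun k => pd k v x) (fun k => L.B k x)
      (fun j k => pd j (L.B k) x) (v x)

end Vale.Agent.P088.EYM.ES
end
end

section

/-!
# P088-EYM, block C: continuous extension of the global match to the boundary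
-/

open Bundle Manifold MeasureTheory Set Filter Topology
open scoped ContDiff

noncomputable section

namespace Vale.Agent.P088.EYM

universe u

set_option linter.unusedSectionVars false

section lin

variable {n : ℕ} [NeZero n]

theorem cCont_quad (G J : Matrix (Fin n) (Fin n) ℝ) (v : Fin n → ℝ) :
    ∑ j, ∑ k, (J.transpose * G * J) j k * v j * v k =
      ∑ j, ∑ k, G j k * (J.mulVec v) j * (J.mulVec v) k := by
  have h : ∀ (A : Matrix (Fin n) (Fin n) ℝ) (w : Fin n → ℝ),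
      ∑ j, ∑ k, A j k * w j * w k = w ⬝ᵥ (A.mulVec w) := by
    intro A w
    simp only [dotProduct, Matrix.mulVec, Finset.mul_sum]
    refine Finset.sum_congr rfl fun j _ => Finset.sum_congr rfl fun k _ => ?_
    ring
  rw [h, h, ← Matrix.mulVec_mulVec, ← Matrix.mulVec_mulVec, Matrix.dotProduct_mulVec,
    Matrix.vecMul_transpose]

theorem cCont_jac {τ : E n → E n} {y : E n} (hy : 0 < y 0) (hτ : DifferentiableAt ℝ τ y)
    (v : E n) (i : Fin n) :
    (fderiv ℝ τ y v) i = ((Jac τ y).mulVec (fun j => v j)) i := by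
  have hmem : Hs n ∈ 𝓝 y := mem_interior_iff_mem_nhds.1 (open_pos_subset hy)
  have h1 : ∀ j, pd j (fun x => τ x i) y = (fderiv ℝ τ y (ev j)) i := by
    intro j
    have h3 : HasFDerivAt (fun x => τ x i)
        ((EuclideanSpace.proj (𝕜 := ℝ) i).comp (fderiv ℝ τ y)) y :=
      (EuclideanSpace.proj (𝕜 := ℝ) i).hasFDerivAt.comp y hτ.hasFDerivAt
    unfold pd
    rw [fderivWithin_of_mem_nhds hmem, h3.fderiv]
    rfl
  have h2 : fderiv ℝ τ y v = ∑ j, v j • fderiv ℝ τ y (ev j) := by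
    conv_lhs => rw [en_expand v]
    simp [map_sum]
  rw [h2]
  simp only [Matrix.mulVec, dotProduct, Jac, Matrix.of_apply, h1]
  rw [WithLp.ofLp_sum, Finset.sum_apply]
  refine Finset.sum_congr rfl fun j _ => ?_
  simp only [PiLp.smul_apply, smul_eq_mul]
  ring

theorem cCont_bound {τ : E n → E n} {y : E n} (hy : 0 < y 0) (hτ : DifferentiableAt ℝ τ y)
    {A G : Matrix (Fin n) (Fin n) ℝ} (hA : A = (Jac τ y).transpose * G * Jac τ y) {l L : ℝ}
    (hl : 0 < l) (hL : 0 ≤ L)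
    (h1 : ∀ w : Fin n → ℝ, l * ∑ j, w j ^ 2 ≤ ∑ j, ∑ k, G j k * w j * w k)
    (h2 : ∀ w : Fin n → ℝ, ∑ j, ∑ k, A j k * w j * w k ≤ L * ∑ j, w j ^ 2) :
    ‖fderiv ℝ τ y‖ ≤ Real.sqrt (L / l) := by
  refine ContinuousLinearMap.opNorm_le_bound _ (Real.sqrt_nonneg _) fun v => ?_
  have h3 := h2 (fun j => v j)
  rw [hA, cCont_quad] at h3
  have h4 := (h1 ((Jac τ y).mulVec (fun j => v j))).trans h3
  have h5 : ‖fderiv ℝ τ y v‖ ^ 2 = ∑ i, ((Jac τ y).mulVec (fun j => v j)) i ^ 2 := by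
    rw [EuclideanSpace.real_norm_sq_eq]
    exact Finset.sum_congr rfl fun i _ => by rw [cCont_jac hy hτ]
  have h6 : ‖v‖ ^ 2 = ∑ i, v i ^ 2 := EuclideanSpace.real_norm_sq_eq v
  rw [← h5, ← h6] at h4
  have h7 : ‖fderiv ℝ τ y v‖ ^ 2 ≤ (Real.sqrt (L / l) * ‖v‖) ^ 2 := by
    rw [mul_pow, Real.sq_sqrt (div_nonneg hL hl.le), div_mul_eq_mul_div, le_div_iff₀ hl]
    linarith
  exact (pow_le_pow_iff_left₀ (norm_nonneg _) (mul_nonneg (Real.sqrt_nonneg _) (norm_nonneg _))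
    two_ne_zero).1 h7

/-- upper bound of a bounded quadratic form -/
theorem cCont_upper {A : Matrix (Fin n) (Fin n) ℝ} {C : ℝ} (hA : ∀ j k, |A j k| ≤ C)
    (w : Fin n → ℝ) : ∑ j, ∑ k, A j k * w j * w k ≤ (C * n) * ∑ j, w j ^ 2 := by
  have h1 : ∀ j k, A j k * w j * w k ≤ C * (w j ^ 2 / 2) + C * (w k ^ 2 / 2) := by
    intro j k
    have e1 : A j k * w j * w k ≤ |A j k| * (|w j| * |w k|) := by
      calc A j k * w j * w k ≤ |A j k * w j * w k| := le_abs_self _
        _ = |A j k| * (|w j| * |w k|) := by rw [abs_mul, abs_mul, mul_assoc]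
    have e2 : |w j| * |w k| ≤ w j ^ 2 / 2 + w k ^ 2 / 2 := by
      rw [← sq_abs (w j), ← sq_abs (w k)]
      nlinarith [sq_nonneg (|w j| - |w k|)]
    have hC : 0 ≤ C := (abs_nonneg _).trans (hA j k)
    calc A j k * w j * w k ≤ |A j k| * (|w j| * |w k|) := e1
      _ ≤ C * (w j ^ 2 / 2 + w k ^ 2 / 2) :=
        mul_le_mul (hA j k) e2 (mul_nonneg (abs_nonneg _) (abs_nonneg _)) hC
      _ = C * (w j ^ 2 / 2) + C * (w k ^ 2 / 2) := by ring
  calc ∑ j, ∑ k, A j k * w j * w k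
      ≤ ∑ j : Fin n, ∑ k : Fin n, (C * (w j ^ 2 / 2) + C * (w k ^ 2 / 2)) :=
        Finset.sum_le_sum fun j _ => Finset.sum_le_sum fun k _ => h1 j k
    _ = (C * n) * ∑ j, w j ^ 2 := by
        simp only [Finset.sum_add_distrib, Finset.sum_const, Finset.card_univ, Fintype.card_fin,
          nsmul_eq_mul, ← Finset.mul_sum, ← Finset.sum_div]
        ring

end lin

/-- the continuity argument along a curve -/
theorem cCont_curve {X Y : Type*} [TopologicalSpace X] [NormedAddCommGroup Y] {c : ℝ → X}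
    (hc : ContinuousOn c (Icc 0 1)) {K : Set X} (hK : IsClosed K) {η : X → Y}
    (hη : ContinuousOn η K) {z : Y} {ε B : ℝ} (hB : 0 ≤ B) (h0 : ‖η (c 0) - z‖ + B < ε)
    (hK0 : c 0 ∈ K)
    (hstep : ∀ t ∈ Ico (0 : ℝ) 1, c t ∈ K → ‖η (c t) - z‖ < ε →
      ∀ᶠ t' in 𝓝[>] t, c t' ∈ K ∧ ‖η (c t') - η (c t)‖ ≤ B * (t' - t)) :
    ∀ t ∈ Icc (0 : ℝ) 1, c t ∈ K := by
  obtain ⟨S, hS⟩ : ∃ S : Set ℝ, S = {t | c t ∈ K ∧ ‖η (c t) - η (c 0)‖ ≤ B * t} := ⟨_, rfl⟩
  have hSmem : ∀ t, t ∈ S ↔ c t ∈ K ∧ ‖η (c t) - η (c 0)‖ ≤ B * t := by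
    intro t
    rw [hS]
    exact Iff.rfl
  have hclosed : IsClosed (S ∩ Icc 0 1) := by
    have h1 : IsClosed (Icc (0 : ℝ) 1 ∩ c ⁻¹' K) := hc.preimage_isClosed_of_isClosed isClosed_Icc hK
    have h2 : ContinuousOn (fun t => ‖η (c t) - η (c 0)‖ - B * t) (Icc (0 : ℝ) 1 ∩ c ⁻¹' K) := by
      refine ((ContinuousOn.sub ?_ continuousOn_const).norm).sub
        (continuous_const.mul continuous_id).continuousOn
      exact hη.comp (hc.mono inter_subset_left) fun t ht => ht.2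
    have h3 : IsClosed ((Icc (0 : ℝ) 1 ∩ c ⁻¹' K) ∩
        (fun t => ‖η (c t) - η (c 0)‖ - B * t) ⁻¹' (Iic 0)) :=
      h2.preimage_isClosed_of_isClosed h1 isClosed_Iic
    have h4 : S ∩ Icc 0 1 = (Icc (0 : ℝ) 1 ∩ c ⁻¹' K) ∩
        (fun t => ‖η (c t) - η (c 0)‖ - B * t) ⁻¹' (Iic 0) := by
      ext t
      simp only [mem_inter_iff, hSmem, mem_preimage, mem_Iic, sub_nonpos]
      tauto
    rw [h4]
    exact h3
  have h0S : (0 : ℝ) ∈ S := by
    rw [hSmem]
    refine ⟨hK0, ?_⟩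
    simp
  have hsub : Icc (0 : ℝ) 1 ⊆ S := by
    refine hclosed.Icc_subset_of_forall_mem_nhdsWithin h0S fun t ht => ?_
    have ht1 := (hSmem t).1 ht.1
    have h5 : ‖η (c t) - z‖ < ε := by
      calc ‖η (c t) - z‖ = ‖(η (c t) - η (c 0)) + (η (c 0) - z)‖ := by
            congr 1
            abel
        _ ≤ ‖η (c t) - η (c 0)‖ + ‖η (c 0) - z‖ := norm_add_le _ _
        _ ≤ B * t + ‖η (c 0) - z‖ := by
            gcongr
            exact ht1.2
        _ ≤ B * 1 + ‖η (c 0) - z‖ := by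
            gcongr
            exact ht.2.2.le
        _ < ε := by linarith
    filter_upwards [hstep t ht.2 ht1.1 h5] with t' ht'
    rw [hSmem]
    refine ⟨ht'.1, ?_⟩
    calc ‖η (c t') - η (c 0)‖ = ‖(η (c t') - η (c t)) + (η (c t) - η (c 0))‖ := by
          congr 1
          abel
      _ ≤ ‖η (c t') - η (c t)‖ + ‖η (c t) - η (c 0)‖ := norm_add_le _ _
      _ ≤ B * (t' - t) + B * t := add_le_add ht'.2 ht1.2
      _ = B * t' := by ring
  intro t ht
  exact ((hSmem t).1 (hsub ht)).1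

/-! ### The manifold part -/

section man

variable {n N : ℕ} [NeZero n] {M : Type u} [TopologicalSpace M]
  [ChartedSpace (EuclideanHalfSpace n) M] [IsManifold (𝓡∂ n) ∞ M]

/-- the local Lipschitz bound -/
theorem cCont_step (hU : CUnm_statement.{u}) [T2Space M] [MeasurableSpace M] [BorelSpace M]
    {P Q : One n N M} {Γ : Set M} {Φ : M → M} {V : M → EndF N}
    (hΦ : ∀ x ∈ Mi n M, ∃ O, x ∈ O ∧ LMatch P Q Γ O Φ V) {x x' : M} {z' : E n} {ε : ℝ}
    {U : Set (E n)} (hUo : IsOpen U) {l L : ℝ} (hl : 0 < l) (hL : 0 ≤ L)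
    (hlow : ∀ y ∈ Metric.ball z' ε ∩ Hs n, ∀ w : Fin n → ℝ,
      l * ∑ j, w j ^ 2 ≤ ∑ j, ∑ k, (P.loc x').g y j k * w j * w k)
    (hup : ∀ y ∈ U ∩ Hs n, ∀ w : Fin n → ℝ,
      ∑ j, ∑ k, (Q.loc x).g y j k * w j * w k ≤ L * ∑ j, w j ^ 2)
    {y : E n} (hy : y ∈ tg n x) (hyU : y ∈ U) (hyM : (xc n x).symm y ∈ Mi n M)
    (hs : Φ ((xc n x).symm y) ∈ (xc n x').source)
    (hb : ‖xc n x' (Φ ((xc n x).symm y)) - z'‖ < ε) :
    ∀ᶠ y' in 𝓝 y, Φ ((xc n x).symm y') ∈ (xc n x').source ∧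
      0 < xc n x' (Φ ((xc n x).symm y')) 0 ∧
      ‖xc n x' (Φ ((xc n x).symm y')) - z'‖ < ε ∧
      ‖xc n x' (Φ ((xc n x).symm y')) - xc n x' (Φ ((xc n x).symm y))‖ ≤
        Real.sqrt (L / l) * ‖y' - y‖ := by
  obtain ⟨O, hO, hm⟩ := hΦ _ hyM
  have hsrc : (xc n x).symm y ∈ (xc n x).source := (xc n x).map_target hy
  have hxy : xc n x ((xc n x).symm y) = y := (xc n x).right_inv hy
  obtain ⟨r, hr, hball, hmap, hsm, -, hg, -⟩ := hU n N M P Q Γ O Φ V hm x' x _ hO hsrc hs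
  rw [hxy] at hball hmap hsm hg
  obtain ⟨τ, hτ⟩ : ∃ τ : E n → E n, τ = fun y => xc n x' (Φ ((xc n x).symm y)) := ⟨_, rfl⟩
  have hτy : ∀ y, xc n x' (Φ ((xc n x).symm y)) = τ y := fun y => by rw [hτ]
  have hJ : ∀ y, Jac (fun y => xc n x' (Φ ((xc n x).symm y))) y = Jac τ y := fun y => by rw [hτ]
  simp only [hτy] at hb hmap hsm hg ⊢
  have hJ' : (fun y => τ y) = τ := rfl
  rw [hJ'] at hsm
  have hyb : y ∈ Metric.ball y r := Metric.mem_ball_self hr
  have hdiff : ∀ w ∈ Metric.ball y r, DifferentiableAt ℝ τ w := fun w hw =>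
    (hsm.contDiffAt (Metric.isOpen_ball.mem_nhds hw)).differentiableAt (by simp)
  have hcont : ContinuousAt τ y := (hdiff y hyb).continuousAt
  have h1 : ∀ᶠ w in 𝓝 y, w ∈ Metric.ball y r ∧ w ∈ U ∧ ‖τ w - z'‖ < ε := by
    have e1 : ∀ᶠ w in 𝓝 y, w ∈ Metric.ball y r := Metric.isOpen_ball.mem_nhds hyb
    have e2 : ∀ᶠ w in 𝓝 y, w ∈ U := hUo.mem_nhds hyU
    have e3 : ∀ᶠ w in 𝓝 y, ‖τ w - z'‖ < ε :=
      ((hcont.sub continuousAt_const).norm).eventually_lt continuousAt_const hb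
    exact e1.and (e2.and e3)
  obtain ⟨ρ, hρ, hρs⟩ := Metric.eventually_nhds_iff_ball.1 h1
  have hbound : ∀ w ∈ Metric.ball y ρ, ‖fderiv ℝ τ w‖ ≤ Real.sqrt (L / l) := by
    intro w hw
    obtain ⟨hwr, hwU, hwε⟩ := hρs w hw
    have hw0 : 0 < w 0 := (hball hwr).2
    have hτH : τ w ∈ Metric.ball z' ε ∩ Hs n := by
      refine ⟨by rwa [Metric.mem_ball, dist_eq_norm], ?_⟩
      exact (hmap w hwr).2.2.le
    exact cCont_bound hw0 (hdiff w hwr) (hg w hwr) hl hL (hlow _ hτH) (hup w ⟨hwU, hw0.le⟩)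
  filter_upwards [Metric.ball_mem_nhds y hρ] with w hw
  obtain ⟨hwr, hwU, hwε⟩ := hρs w hw
  refine ⟨(hmap w hwr).2.1, (hmap w hwr).2.2, hwε, ?_⟩
  exact (convex_ball y ρ).norm_image_sub_le_of_norm_fderiv_le
    (fun v hv => hdiff v (hρs v hv).1) hbound (Metric.mem_ball_self hρ) hw

/-- compact half balls in the chart at `x` -/
theorem cCont_halfball {x : M} (hrel : RelOpen (tg n x)) :
    ∃ S > 0, Metric.closedBall (xc n x x) S ∩ Hs n ⊆ tg n x := by
  obtain ⟨O, hO, hOe⟩ := hrel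
  have hz : xc n x x ∈ tg n x := mem_extChartAt_target x
  rw [hOe] at hz
  obtain ⟨S, hS, hSs⟩ := Metric.nhds_basis_closedBall.mem_iff.1 (hO.mem_nhds hz.1)
  refine ⟨S, hS, ?_⟩
  rw [hOe]
  exact inter_subset_inter_left _ hSs

theorem cCont_compact (z : E n) (r : ℝ) : IsCompact (Metric.closedBall z r ∩ Hs n) :=
  (isCompact_closedBall z r).inter_right isClosed_Hs

end man

set_option maxHeartbeats 400000 in
theorem cCont : CUnm_statement.{u} → CLoc_statement.{u} → CConn_statement.{u} →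
    CCont_statement.{u} := by
  intro hUnm hLoc hConn n N _ M _ _ _ _ _ _ _ _ P Q Γ Φ V hΦ x
  obtain ⟨hrel, hok, hbdry, -⟩ := hLoc n N M
  obtain ⟨hMio, -, hdense⟩ := hConn n M
  have hne : (𝓝[Mi n M] x).NeBot := mem_closure_iff_nhdsWithin_neBot.1 (hdense x)
  -- a cluster point
  obtain ⟨x', hx'⟩ := exists_clusterPt_of_compactSpace (map Φ (𝓝[Mi n M] x))
  refine ⟨x', ?_⟩
  have hclus : ∀ U ∈ 𝓝 x', ∃ᶠ m in 𝓝[Mi n M] x, Φ m ∈ U := by
    intro U hU
    exact (mapClusterPt_iff_frequently.1 hx') U hU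
  -- the two half balls
  obtain ⟨R, hR, hRs⟩ := cCont_halfball (hrel x)
  obtain ⟨S, hS, hSs⟩ := cCont_halfball (hrel x')
  obtain ⟨z, hz⟩ : ∃ z : E n, z = xc n x x := ⟨_, rfl⟩
  obtain ⟨z', hz'⟩ : ∃ z' : E n, z' = xc n x' x' := ⟨_, rfl⟩
  rw [← hz] at hRs
  rw [← hz'] at hSs
  obtain ⟨C, hC0, hC⟩ : ∃ C, 0 ≤ C ∧ ∀ (p : Fin n × Fin n), ∀ y ∈ Metric.closedBall z R ∩ Hs n,
      |(Q.loc x).g y p.1 p.2| ≤ C :=
    AICacc_bound (cCont_compact z R) (κ := Fin n × Fin n)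
      (f := fun p y => (Q.loc x).g y p.1 p.2) fun p =>
        (((hok Q x).g_smooth p.1 p.2).continuousOn).mono hRs
  obtain ⟨l, hl, hlow⟩ := AICacc_ell (cCont_compact z' S)
    (a := fun j k y => (P.loc x').g y j k)
    (fun j k => (((hok P x').g_smooth j k).continuousOn).mono hSs)
    (fun y hy => (hok P x').g_pos y (hSs hy))
  obtain ⟨L, hLdef⟩ : ∃ L : ℝ, L = Real.sqrt ((C * n) / l) := ⟨_, rfl⟩
  have hL0 : 0 ≤ L := by
    rw [hLdef]
    exact Real.sqrt_nonneg _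
  have hup : ∀ y ∈ Metric.ball z R ∩ Hs n, ∀ w : Fin n → ℝ,
      ∑ j, ∑ k, (Q.loc x).g y j k * w j * w k ≤ (C * n) * ∑ j, w j ^ 2 := by
    intro y hy w
    exact cCont_upper (fun j k => hC (j, k) y ⟨Metric.ball_subset_closedBall hy.1, hy.2⟩) w
  -- points of the charts
  have hint : ∀ y ∈ tg n x, 0 < y 0 → (xc n x).symm y ∈ Mi n M := by
    intro y hy hy0
    have h1 : (xc n x).symm y ∉ (𝓡∂ n).boundary M := by
      rw [hbdry x _ ((xc n x).map_target hy), (xc n x).right_inv hy]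
      exact hy0.ne'
    change (xc n x).symm y ∈ (𝓡∂ n).interior M
    rw [← ModelWithCorners.compl_boundary]
    exact h1
  have hint' : ∀ m ∈ Mi n M, m ∈ (xc n x).source → 0 < xc n x m 0 := by
    intro m hm hms
    have h1 : m ∉ (𝓡∂ n).boundary M := by
      rw [← ModelWithCorners.compl_interior]
      exact fun h => h hm
    rw [hbdry x m hms] at h1
    have h2 : 0 ≤ xc n x m 0 := (hrel x).subset ((xc n x).map_source hms)
    exact lt_of_le_of_ne h2 (Ne.symm h1)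
  have hΦc : ∀ m ∈ Mi n M, ContinuousAt Φ m := by
    intro m hm
    obtain ⟨O, hO, hm'⟩ := hΦ m hm
    exact (hm'.smφ.continuousOn).continuousAt (hm'.isOpen.mem_nhds hO)
  -- the estimate
  intro W hW
  have hWn : (xc n x').symm ⁻¹' W ∈ 𝓝 z' := by
    rw [hz']
    exact (continuousAt_extChartAt_symm x').preimage_mem_nhds (by
      rw [extChartAt_to_inv]
      exact hW)
  obtain ⟨ε₁, hε₁, hWε⟩ := Metric.nhds_basis_closedBall.mem_iff.1 hWn
  obtain ⟨ε, hε, hεS, hεε₁⟩ : ∃ ε : ℝ, 0 < ε ∧ ε ≤ S ∧ ε ≤ ε₁ :=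
    ⟨min S ε₁, lt_min hS hε₁, min_le_left _ _, min_le_right _ _⟩
  obtain ⟨K, hKdef⟩ : ∃ K : Set M, K = (xc n x').symm '' (Metric.closedBall z' ε ∩ Hs n) :=
    ⟨_, rfl⟩
  have hεsub : Metric.closedBall z' ε ∩ Hs n ⊆ tg n x' :=
    (inter_subset_inter_left _ (Metric.closedBall_subset_closedBall hεS)).trans hSs
  have hKc : IsClosed K := by
    rw [hKdef]
    refine ((cCont_compact z' ε).image_of_continuousOn ?_).isClosed
    exact (continuousOn_extChartAt_symm x').mono hεsub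
  have hKW : K ⊆ W := by
    rw [hKdef]
    rintro _ ⟨w, hw, rfl⟩
    exact hWε (Metric.closedBall_subset_closedBall hεε₁ hw.1)
  have hKs : K ⊆ (xc n x').source := by
    rw [hKdef]
    rintro _ ⟨w, hw, rfl⟩
    exact (xc n x').map_target (hεsub hw)
  have hKmem : ∀ m ∈ (xc n x').source, ‖xc n x' m - z'‖ ≤ ε → m ∈ K := by
    intro m hm hmε
    rw [hKdef]
    refine ⟨xc n x' m, ⟨?_, (hrel x').subset ((xc n x').map_source hm)⟩, (xc n x').left_inv hm⟩
    rwa [Metric.mem_closedBall, dist_eq_norm]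
  obtain ⟨δ, hδ, hδR, hδL⟩ : ∃ δ : ℝ, 0 < δ ∧ δ ≤ R ∧ L * (2 * δ) < ε / 2 := by
    refine ⟨min R (ε / (8 * (L + 1))), lt_min hR (by positivity), min_le_left _ _, ?_⟩
    calc L * (2 * min R (ε / (8 * (L + 1)))) ≤ (L + 1) * (2 * (ε / (8 * (L + 1)))) := by
          gcongr
          · linarith
          · exact min_le_right _ _
      _ = ε / 4 := by
          field_simp
          norm_num
      _ < ε / 2 := by linarith
  -- the base point
  have hnear : ∀ᶠ m in 𝓝[Mi n M] x, m ∈ (xc n x).source ∧ xc n x m ∈ Metric.ball z δ ∧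
      m ∈ Mi n M := by
    have h1 : ∀ᶠ m in 𝓝[Mi n M] x, m ∈ (xc n x).source :=
      mem_nhdsWithin_of_mem_nhds (extChartAt_source_mem_nhds x)
    have h2 : ∀ᶠ m in 𝓝[Mi n M] x, xc n x m ∈ Metric.ball z δ := by
      refine mem_nhdsWithin_of_mem_nhds ?_
      refine (continuousAt_extChartAt x).preimage_mem_nhds ?_
      rw [← hz]
      exact Metric.ball_mem_nhds z hδ
    exact h1.and (h2.and self_mem_nhdsWithin)
  have hU' : (xc n x').source ∩ (xc n x') ⁻¹' Metric.ball z' (ε / 2) ∈ 𝓝 x' := by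
    refine inter_mem (extChartAt_source_mem_nhds x') ?_
    refine (continuousAt_extChartAt x').preimage_mem_nhds ?_
    rw [← hz']
    exact Metric.ball_mem_nhds z' (half_pos hε)
  obtain ⟨m₀, hm₀, hm₀s, hm₀b, hm₀M⟩ := ((hclus _ hU').and_eventually hnear).exists
  -- all points near `x`
  have hall : ∀ᶠ m in 𝓝[Mi n M] x, Φ m ∈ W := by
    filter_upwards [hnear] with m hm
    apply hKW
    obtain ⟨hms, hmb, hmM⟩ := hm
    obtain ⟨y₀, hy₀⟩ : ∃ y₀ : E n, y₀ = xc n x m₀ := ⟨_, rfl⟩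
    obtain ⟨y₁, hy₁⟩ : ∃ y₁ : E n, y₁ = xc n x m := ⟨_, rfl⟩
    have hy₀0 : 0 < y₀ 0 := by
      rw [hy₀]
      exact hint' m₀ hm₀M hm₀s
    have hy₁0 : 0 < y₁ 0 := by
      rw [hy₁]
      exact hint' m hmM hms
    rw [← hy₀] at hm₀b
    rw [← hy₁] at hmb
    obtain ⟨γ, hγ⟩ : ∃ γ : ℝ → E n, γ = fun t => y₀ + t • (y₁ - y₀) := ⟨_, rfl⟩
    have hγ0 : γ 0 = y₀ := by simp [hγ]
    have hγ1 : γ 1 = y₁ := by simp [hγ]
    have hγc : Continuous γ := by
      rw [hγ]
      fun_prop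
    have hγD : ∀ t ∈ Icc (0 : ℝ) 1, γ t ∈ Metric.ball z δ ∧ 0 < γ t 0 := by
      intro t ht
      constructor
      · have := (convex_ball z δ).add_smul_sub_mem hm₀b hmb ht
        rw [hγ]
        exact this
      · rw [hγ]
        simp only [PiLp.add_apply, PiLp.smul_apply, PiLp.sub_apply, smul_eq_mul]
        rcases eq_or_lt_of_le ht.1 with h | h
        · rw [← h]
          simpa using hy₀0
        · nlinarith [mul_pos h hy₁0, mul_nonneg (sub_nonneg.2 ht.2) hy₀0.le]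
    have hγt : ∀ t ∈ Icc (0 : ℝ) 1, γ t ∈ tg n x := by
      intro t ht
      apply hRs
      refine ⟨?_, (hγD t ht).2.le⟩
      exact Metric.ball_subset_closedBall (Metric.ball_subset_ball hδR (hγD t ht).1)
    have hγM : ∀ t ∈ Icc (0 : ℝ) 1, (xc n x).symm (γ t) ∈ Mi n M := fun t ht =>
      hint _ (hγt t ht) (hγD t ht).2
    have hcc : ContinuousOn (fun t => Φ ((xc n x).symm (γ t))) (Icc 0 1) := by
      intro t ht
      have h1 : ContinuousWithinAt (fun t => (xc n x).symm (γ t)) (Icc 0 1) t :=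
        ((continuousOn_extChartAt_symm x).comp hγc.continuousOn hγt) t ht
      exact ContinuousAt.comp_continuousWithinAt (g := Φ) (f := fun t => (xc n x).symm (γ t))
        (hΦc _ (hγM t ht)) h1
    have hdist : ‖y₁ - y₀‖ < 2 * δ := by
      rw [Metric.mem_ball, dist_eq_norm] at hm₀b hmb
      calc ‖y₁ - y₀‖ = ‖(y₁ - z) - (y₀ - z)‖ := by
            congr 1
            abel
        _ ≤ ‖y₁ - z‖ + ‖y₀ - z‖ := norm_sub_le _ _
        _ < 2 * δ := by linarith
    have hs0 : (xc n x).symm (γ 0) = m₀ := by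
      rw [hγ0, hy₀]
      exact (xc n x).left_inv hm₀s
    have hs1 : (xc n x).symm (γ 1) = m := by
      rw [hγ1, hy₁]
      exact (xc n x).left_inv hms
    have hm₀' : ‖xc n x' (Φ m₀) - z'‖ < ε / 2 := by
      have := hm₀.2
      rwa [mem_preimage, Metric.mem_ball, dist_eq_norm] at this
    have hfin := cCont_curve (c := fun t => Φ ((xc n x).symm (γ t))) hcc hKc
      (η := fun m => xc n x' m) ((continuousOn_extChartAt x').mono hKs) (z := z') (ε := ε)
      (B := L * ‖y₁ - y₀‖) (mul_nonneg hL0 (norm_nonneg _))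
      (by
        rw [hs0]
        have h2 : L * ‖y₁ - y₀‖ ≤ L * (2 * δ) := mul_le_mul_of_nonneg_left hdist.le hL0
        linarith)
      (by
        rw [hs0]
        exact hKmem _ hm₀.1 (by linarith))
      (by
        intro t ht htK htε
        have htI : t ∈ Icc (0 : ℝ) 1 := ⟨ht.1, ht.2.le⟩
        have h3 := cCont_step hUnm hΦ (x := x) (x' := x') (z' := z') (ε := ε)
          (U := Metric.ball z R) Metric.isOpen_ball hl (by positivity)
          (fun y hy => hlow y ⟨Metric.closedBall_subset_closedBall hεS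
            (Metric.ball_subset_closedBall hy.1), hy.2⟩) hup (hγt t htI)
          (Metric.ball_subset_ball hδR (hγD t htI).1) (hγM t htI) (hKs htK) htε
        have h4 := (hγc.tendsto t).eventually h3
        filter_upwards [mem_nhdsWithin_of_mem_nhds h4, self_mem_nhdsWithin] with t' ht' ht''
        refine ⟨hKmem _ ht'.1 ht'.2.2.1.le, ?_⟩
        refine ht'.2.2.2.trans (le_of_eq ?_)
        rw [← hLdef]
        have h5 : γ t' - γ t = (t' - t) • (y₁ - y₀) := by
          rw [hγ]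
          simp only
          module
        rw [h5, norm_smul, Real.norm_of_nonneg (sub_nonneg.2 (le_of_lt ht''))]
        ring)
    have h6 := hfin 1 (right_mem_Icc.2 zero_le_one)
    rwa [hs1] at h6
  exact hall

end Vale.Agent.P088.EYM
end
end

section

/-!
# P088-EYM: the elementary statement (definitions used by the hand-in)
-/

open Manifold MeasureTheory Set
open scoped ContDiff Matrix

noncomputable section

namespace Vale.Agent.P088.S

variable {n : ℕ} [NeZero n] {N : ℕ} {M : Type*} [TopologicalSpace M]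
  [ChartedSpace (EuclideanHalfSpace n) M]

/-- The matrix `g_{ij}` of the metric in the chart at `p`, as a function of the coordinates. -/
def gch (P : Pair n N M) (p : M) (y : Fin n → ℝ) : Matrix (Fin n) (Fin n) ℝ :=
  inChart n P.mat p (pt n p y)

/-- The coefficient `A_j` of the connection in the chart at `p`. -/
def ach (P : Pair n N M) (p : M) (j : Fin n) (y : Fin n → ℝ) : Matrix (Fin N) (Fin N) ℂ :=
  ∑ i, jac n p (pt n p y) i j • P.co (pt n p y) i

/-- The entrywise partial derivative `∂_i F` of a matrix valued function. -/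
def dM (F : (Fin n → ℝ) → Matrix (Fin N) (Fin N) ℂ) (y : Fin n → ℝ) (i : Fin n) :
    Matrix (Fin N) (Fin N) ℂ := Matrix.of fun a b => dj (fun z => F z a b) y i

/-- The Christoffel symbol `Γ^k_{ij} = ½ g^{kl} (∂_i g_{lj} + ∂_j g_{li} - ∂_l g_{ij})`. -/
def chris (g : (Fin n → ℝ) → Matrix (Fin n) (Fin n) ℝ) (k i j : Fin n) (y : Fin n → ℝ) : ℝ :=
  (1 / 2) * ∑ l, (g y)⁻¹ k l *
    (dj (fun z => g z l j) y i + dj (fun z => g z l i) y j - dj (fun z => g z i j) y l)

/-- The Ricci tensor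
`R_{jk} = ∂_i Γ^i_{jk} - ∂_j Γ^i_{ik} + Γ^i_{il} Γ^l_{jk} - Γ^i_{jl} Γ^l_{ik}`. -/
def ricci (g : (Fin n → ℝ) → Matrix (Fin n) (Fin n) ℝ) (j k : Fin n) (y : Fin n → ℝ) : ℝ :=
  ∑ i, (dj (chris g i j k) y i - dj (chris g i i k) y j +
    ∑ l, (chris g i i l y * chris g l j k y - chris g i j l y * chris g l i k y))

/-- The curvature `F_{ij} = ∂_i A_j - ∂_j A_i + [A_i, A_j]`. -/
def curv (A : Fin n → (Fin n → ℝ) → Matrix (Fin N) (Fin N) ℂ) (i j : Fin n) (y : Fin n → ℝ) :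
    Matrix (Fin N) (Fin N) ℂ :=
  dM (A j) y i - dM (A i) y j + (A i y * A j y - A j y * A i y)

/-- The divergence of the curvature, `(d_A^* F)_k` up to sign:
`g^{ij} (∂_i F_{jk} - Γ^l_{ij} F_{lk} - Γ^l_{ik} F_{jl} + [A_i, F_{jk}])`. -/
def divF (g : (Fin n → ℝ) → Matrix (Fin n) (Fin n) ℝ)
    (A : Fin n → (Fin n → ℝ) → Matrix (Fin N) (Fin N) ℂ) (k : Fin n) (y : Fin n → ℝ) :
    Matrix (Fin N) (Fin N) ℂ :=
  ∑ i, ∑ j, (g y)⁻¹ i j • (dM (curv A j k) y i -
    ∑ l, (chris g l i j y • curv A l k y + chris g l i k y • curv A j l y) +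
    (A i y * curv A j k y - curv A j k y * A i y))

/-- The tensor `T_{jk} = - g^{ab} tr (F_{ja} F_{kb})`. -/
def stress (g : (Fin n → ℝ) → Matrix (Fin n) (Fin n) ℝ)
    (A : Fin n → (Fin n → ℝ) → Matrix (Fin N) (Fin N) ℂ) (j k : Fin n) (y : Fin n → ℝ) : ℝ :=
  -∑ a, ∑ b, (g y)⁻¹ a b * (curv A j a y * curv A k b y).trace.re

/-- In every chart: `Ric = κ g + α T + β (tr_g T) g`, and `A` is a Yang-Mills connection,
`d_A^* F_A = 0`. For `α = β = 0`: `g` is an Einstein metric. -/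
def EYM (κ α β : ℝ) (P : Pair n N M) : Prop :=
  ∀ p, ∀ x ∈ src n p,
    (∀ j k, ricci (gch P p) j k (ch n p x) = κ * gch P p (ch n p x) j k +
      α * stress (gch P p) (ach P p) j k (ch n p x) +
      β * (∑ a, ∑ b, (gch P p (ch n p x))⁻¹ a b * stress (gch P p) (ach P p) a b (ch n p x)) *
        gch P p (ch n p x) j k) ∧
    ∀ k, divF (gch P p) (ach P p) k (ch n p x) = 0

variable (n) in
/-- The Jacobian matrix of `Φ` at `x`, in the charts at `x` and at `Φ x`. -/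
def jacOf (Φ : M → M) (x : M) : Matrix (Fin n) (Fin n) ℝ := fun i j =>
  dj (fun y => ch n (Φ x) (Φ (pt n x y)) i) (ch n x x) j

/-- The conclusion of Q1: `g₂ = Φ^* g₁` and `A₂ = U⁻¹ (Φ^* A₁) U + U⁻¹ dU` for a diffeomorphism
`Φ` of `M` and a smooth `U : M → U(N)` with `Φ = Id`, `U = I` on `Γ`. -/
def Related (Γ : Set M) (P Q : Pair n N M) : Prop :=
  ∃ (Φ : Diffeomorph (𝓡∂ n) (𝓡∂ n) M M ∞) (U : M → Matrix (Fin N) (Fin N) ℂ), Uni n U ∧
    (∀ x ∈ Γ, Φ x = x ∧ U x = 1) ∧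
    (∀ x, Q.mat x = (jacOf n Φ x)ᵀ * P.mat (Φ x) * jacOf n Φ x) ∧
    ∀ x j, Q.co x j =
      (U x)ᴴ * (∑ i, jacOf n Φ x i j • P.co (Φ x) i) * U x + lgd n U x j

end Vale.Agent.P088.S
end
end

section

open Bundle Manifold MeasureTheory Set Filter
open scoped ContDiff Matrix Topology

noncomputable section

set_option linter.unusedSectionVars false

namespace Vale.Agent.P088.S

variable {n : ℕ} [NeZero n] {N : ℕ} {M : Type*} [TopologicalSpace M]
  [ChartedSpace (EuclideanHalfSpace n) M] [IsManifold (𝓡∂ n) ∞ M]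

/-- bilinear form of a matrix -/
def bil (G : Matrix (Fin n) (Fin n) ℝ) :
    EuclideanSpace ℝ (Fin n) →L[ℝ] EuclideanSpace ℝ (Fin n) →L[ℝ] ℝ :=
  ∑ i, ∑ j, G i j • (EuclideanSpace.proj (𝕜 := ℝ) i : EuclideanSpace ℝ (Fin n) →L[ℝ] ℝ).smulRight
    (EuclideanSpace.proj (𝕜 := ℝ) j : EuclideanSpace ℝ (Fin n) →L[ℝ] ℝ)

theorem bil_apply (G : Matrix (Fin n) (Fin n) ℝ) (v w : EuclideanSpace ℝ (Fin n)) :
    bil G v w = ∑ i, ∑ j, G i j * (v i * w j) := by
  unfold bil
  simp only [_root_.sum_apply, _root_.smul_apply, ContinuousLinearMap.smulRight_apply, smul_eq_mul]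
  rfl

theorem bil_symm {G : Matrix (Fin n) (Fin n) ℝ} (hG : G.PosDef) (v w : EuclideanSpace ℝ (Fin n)) :
    bil G v w = bil G w v := by
  rw [bil_apply, bil_apply, Finset.sum_comm]
  refine Finset.sum_congr rfl fun i _ => Finset.sum_congr rfl fun j _ => ?_
  have h1 : G j i = G i j := by
    have := congrFun (congrFun hG.isHermitian i) j
    simpa using this
  rw [h1]; ring

theorem bil_pos {G : Matrix (Fin n) (Fin n) ℝ} (hG : G.PosDef) (v : EuclideanSpace ℝ (Fin n))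
    (hv : v ≠ 0) : 0 < bil G v v := by
  have h1 : (WithLp.ofLp v) ≠ 0 := fun h => hv ((WithLp.ofLp_injective 2) h)
  have h2 := hG.dotProduct_mulVec_pos h1
  rw [bil_apply]
  simp only [star_trivial, dotProduct, Matrix.mulVec, Finset.mul_sum] at h2
  refine lt_of_lt_of_eq h2 ?_
  refine Finset.sum_congr rfl fun i _ => Finset.sum_congr rfl fun j _ => ?_
  ring

theorem es_apply (i j : Fin n) : (es n i : EuclideanSpace ℝ (Fin n)) j = if j = i then 1 else 0 := by
  simp [es]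

theorem bil_cc {G : Matrix (Fin n) (Fin n) ℝ} {p x : M} (hx : x ∈ src n p) (i j : Fin n) :
    bil G (cc (𝓡∂ n) p x (es n i)) (cc (𝓡∂ n) p x (es n j)) =
      ((jac n p x)ᵀ * G * jac n p x) i j := by
  rw [bil_apply]
  simp only [Matrix.mul_apply, Matrix.transpose_apply, Finset.sum_mul, jac_eq hx]
  rw [Finset.sum_comm]
  refine Finset.sum_congr rfl fun k _ => Finset.sum_congr rfl fun l _ => ?_
  ring

/-- the metric of a pair -/
def gOf (P : Pair n N M) : Metric (𝓡∂ n) M where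
  inner := fun x => bil (P.mat x)
  symm := fun x v w => bil_symm (P.pos x) v w
  pos := fun x v hv => bil_pos (P.pos x) v hv
  smooth := fun p i j => by
    rw [← src_eq]
    have h1 := P.smooth p i j
    have h2 : ContMDiffOn (𝓡∂ n) 𝓘(ℝ, ℝ) ∞ (fun x => ((inChart n P.mat p x i j : ℝ) : ℂ).re) (src n p) :=
      Complex.reCLM.contDiff.contMDiff.comp_contMDiffOn h1
    refine h2.congr fun x hx => ?_
    rw [Complex.ofReal_re]
    exact bil_cc hx i j

theorem gram_gOf (P : Pair n N M) {p x : M} (hx : x ∈ src n p) :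
    gram (gOf P) p x = inChart n P.mat p x := by
  ext i j
  exact bil_cc hx i j

theorem gram_self_gOf (P : Pair n N M) (x : M) : gram (gOf P) x x = P.mat x := by
  ext i j
  rw [gram_self]
  show bil (P.mat x) (es n i) (es n j) = _
  rw [bil_apply]
  simp only [es_apply]
  simp

/-- matrices act on `ℂ^N` -/
def toE (A : Matrix (Fin N) (Fin N) ℂ) : EndF N := Matrix.toEuclideanCLM (n := Fin N) (𝕜 := ℂ) A

theorem toE_apply (A : Matrix (Fin N) (Fin N) ℂ) (w : Fin N → ℂ) :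
    toE A (WithLp.toLp 2 w) = WithLp.toLp 2 (A *ᵥ w) := rfl

theorem toE_mul (A B : Matrix (Fin N) (Fin N) ℂ) : toE (A * B) = toE A * toE B := map_mul _ A B

theorem toE_add (A B : Matrix (Fin N) (Fin N) ℂ) : toE (A + B) = toE A + toE B := map_add _ A B

theorem toE_neg (A : Matrix (Fin N) (Fin N) ℂ) : toE (-A) = - toE A := map_neg _ A

theorem toE_one : toE (1 : Matrix (Fin N) (Fin N) ℂ) = 1 := map_one _

theorem toE_star (A : Matrix (Fin N) (Fin N) ℂ) : toE Aᴴ = ContinuousLinearMap.adjoint (toE A) :=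
  map_star (Matrix.toEuclideanCLM (n := Fin N) (𝕜 := ℂ)) A

theorem toE_inj {A B : Matrix (Fin N) (Fin N) ℂ} (h : toE A = toE B) : A = B :=
  (Matrix.toEuclideanCLM (n := Fin N) (𝕜 := ℂ)).injective h

theorem toE_surj (T : EndF N) : ∃ A : Matrix (Fin N) (Fin N) ℂ, toE A = T :=
  (Matrix.toEuclideanCLM (n := Fin N) (𝕜 := ℂ)).surjective T

theorem toE_entry (A : Matrix (Fin N) (Fin N) ℂ) (a b : Fin N) : (toE A (eN N b)) a = A a b := by
  show (toE A (WithLp.toLp 2 (Pi.single b (1:ℂ)))) a = A a b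
  rw [toE_apply]
  simp

theorem toE_sum (A : Matrix (Fin N) (Fin N) ℂ) :
    toE A = ∑ a, ∑ b, (A a b) • toE (Matrix.single a b (1:ℂ)) := by
  conv_lhs => rw [Matrix.matrix_eq_sum_single A]
  unfold toE
  rw [map_sum]
  refine Finset.sum_congr rfl fun a _ => ?_
  rw [map_sum]
  refine Finset.sum_congr rfl fun b _ => ?_
  rw [← map_smul, Matrix.smul_single, smul_eq_mul, mul_one]

/-- `z ↦ z • c` as a real linear map -/
def csm {F : Type*} [NormedAddCommGroup F] [NormedSpace ℂ F] (c : F) : ℂ →L[ℝ] F :=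
  ((ContinuousLinearMap.smulRight (1 : ℂ →L[ℂ] ℂ) c)).restrictScalars ℝ

theorem contMDiffOn_toE {s : Set M} {m : M → Matrix (Fin N) (Fin N) ℂ}
    (hm : ∀ a b, SmOn n s (fun x => m x a b)) :
    ContMDiffOn (𝓡∂ n) 𝓘(ℝ, EndF N) ∞ (fun x => toE (m x)) s := by
  have h1 : (fun x => toE (m x)) = fun x => ∑ a, ∑ b, csm (toE (Matrix.single a b (1:ℂ))) (m x a b) := by
    funext x
    rw [toE_sum (m x)]
    rfl
  rw [h1]
  refine contMDiffOn_finsetSum fun a _ => contMDiffOn_finsetSum fun b _ => ?_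
  exact (csm _).contDiff.contMDiff.comp_contMDiffOn (hm a b)

/-- the form of a connection from its coefficients -/
def formOf (c : Fin n → Matrix (Fin N) (Fin N) ℂ) : EuclideanSpace ℝ (Fin n) →L[ℝ] EndF N :=
  ∑ i, (EuclideanSpace.proj (𝕜 := ℝ) i : EuclideanSpace ℝ (Fin n) →L[ℝ] ℝ).smulRight (toE (c i))

theorem formOf_apply (c : Fin n → Matrix (Fin N) (Fin N) ℂ) (v : EuclideanSpace ℝ (Fin n)) :
    formOf c v = ∑ i, v i • toE (c i) := by
  unfold formOf
  simp only [_root_.sum_apply, ContinuousLinearMap.smulRight_apply]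
  rfl

theorem toE_rsum (c : Fin n → Matrix (Fin N) (Fin N) ℂ) (v : Fin n → ℝ) :
    ∑ i, v i • toE (c i) = toE (∑ i, v i • c i) := by
  unfold toE
  rw [map_sum]
  refine Finset.sum_congr rfl fun i _ => ?_
  have h1 : v i • c i = (v i : ℂ) • c i := by
    ext a b; simp
  rw [h1, map_smul]
  ext1 w
  exact (Complex.coe_smul (v i) _).symm

theorem formOf_skew {c : Fin n → Matrix (Fin N) (Fin N) ℂ} (hc : ∀ i, (c i)ᴴ = -c i)
    (v : EuclideanSpace ℝ (Fin n)) : ContinuousLinearMap.adjoint (formOf c v) = - formOf c v := by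
  rw [formOf_apply, toE_rsum, ← toE_star, ← toE_neg]
  congr 1
  rw [Matrix.conjTranspose_sum, ← Finset.sum_neg_distrib]
  refine Finset.sum_congr rfl fun i _ => ?_
  have : (v i • c i)ᴴ = v i • (c i)ᴴ := by
    ext a b; simp
  rw [this, hc, smul_neg]

/-- the connection of a pair -/
def connOf (P : Pair n N M) : Connection (𝓡∂ n) N M where
  form := fun x => formOf (P.co x)
  smooth := fun p j => by
    rw [← src_eq]
    have h1 : ContMDiffOn (𝓡∂ n) 𝓘(ℝ, EndF N) ∞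
        (fun x => toE (∑ i, (jac n p x i j) • P.co x i)) (src n p) := by
      refine contMDiffOn_toE fun a b => ?_
      refine (P.smooth_co p j a b).congr fun x _ => ?_
      simp [Matrix.sum_apply]
    refine h1.congr fun x hx => ?_
    show formOf (P.co x) (cc (𝓡∂ n) p x (es n j)) = _
    rw [formOf_apply, toE_rsum]
    simp only [jac_eq hx]
  skew := fun x v => formOf_skew (P.skew x) v

theorem connOf_es (P : Pair n N M) (x : M) (i : Fin n) :
    (connOf P).form x (es n i) = toE (P.co x i) := by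
  show formOf (P.co x) (es n i) = _
  rw [formOf_apply, toE_rsum]
  congr 1
  simp

end Vale.Agent.P088.S
end
end

section

open Bundle Manifold MeasureTheory Set Filter
open scoped ContDiff Matrix Topology ENNReal

noncomputable section

set_option linter.unusedSectionVars false

namespace Vale.Agent.P088.S

variable {n : ℕ} [NeZero n] {N : ℕ} {M : Type*} [TopologicalSpace M]
  [ChartedSpace (EuclideanHalfSpace n) M] [IsManifold (𝓡∂ n) ∞ M]

/-- sections -/
def toF (u : M → Fin N → ℂ) (x : M) : Fib N := WithLp.toLp 2 (u x)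

theorem sm_iff (u : M → Fin N → ℂ) : Sm n u ↔ ContMDiff (𝓡∂ n) 𝓘(ℝ, Fib N) ∞ (toF u) := by
  constructor
  · intro h
    have h1 : toF u = fun x => ∑ a, csm (eN N a) (u x a) := by
      funext x
      rw [eN_expand (toF u x)]
      rfl
    rw [h1]
    refine contMDiff_finsetSum fun a _ => ?_
    exact (csm _).contDiff.contMDiff.comp (contMDiffOn_univ.1 (h a))
  · intro h a
    refine contMDiffOn_univ.2 ?_
    exact ((EuclideanSpace.proj (𝕜 := ℂ) a : Fib N →L[ℂ] ℂ).restrictScalars ℝ).contDiff.contMDiff.comp h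

theorem dI_clm' {F G : Type*} [NormedAddCommGroup F] [NormedSpace ℝ F] [NormedAddCommGroup G]
    [NormedSpace ℝ G] (L : F →L[ℝ] G) {u : M → F} (hu : ContMDiff (𝓡∂ n) 𝓘(ℝ, F) ∞ u) (x : M)
    (a : EuclideanSpace ℝ (Fin n)) :
    dI (𝓡∂ n) (fun x => L (u x)) x a = L (dI (𝓡∂ n) u x a) := by
  have hs : ContMDiff (𝓡∂ n) 𝓘(ℝ, G) ∞ (fun x => L (u x)) := L.contDiff.contMDiff.comp hu
  have h1 := (L.hasFDerivAt (x := lu (𝓡∂ n) x u (extChartAt (𝓡∂ n) x x))).comp_hasFDerivWithinAt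
    (extChartAt (𝓡∂ n) x x) (hasD (hu.mdifferentiableAt (x := x) (by simp)))
  have h := dI_eq_of (u := fun x => L (u x)) (hs.mdifferentiableAt (by simp)) h1
  rw [h]
  rfl

theorem dI_toF {u : M → Fin N → ℂ} (hu : Sm n u) (x : M) (i : Fin n) :
    dI (𝓡∂ n) (toF u) x (es n i) = WithLp.toLp 2 (fun a => pd n (fun z => u z a) x i) := by
  have hF := (sm_iff u).1 hu
  ext a
  have h1 := dI_clm' ((EuclideanSpace.proj (𝕜 := ℂ) a : Fib N →L[ℂ] ℂ).restrictScalars ℝ) hF x (es n i)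
  have h2 : pd n (fun z => u z a) x i = dI (𝓡∂ n) (fun z => u z a) x (es n i) :=
    pd_eq ((contMDiffOn_univ.1 (hu a)).mdifferentiableAt (by simp)) i
  show (dI (𝓡∂ n) (toF u) x (es n i)) a = pd n (fun z => u z a) x i
  rw [h2]
  exact h1.symm

theorem covI_toF (P : Pair n N M) {u : M → Fin N → ℂ} (hu : Sm n u) (x : M) (i : Fin n) :
    covI (connOf P) (toF u) x (es n i) = WithLp.toLp 2 (cov P u x i) := by
  rw [covI_eq, dI_toF hu, connOf_es]
  rfl

theorem inner_toLp (a b : Fin N → ℂ) :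
    (inner ℂ (WithLp.toLp 2 a : Fib N) (WithLp.toLp 2 b) : ℂ) = star a ⬝ᵥ b := by
  rw [EuclideanSpace.inner_eq_star_dotProduct, dotProduct_comm]

theorem pairing_toF (P : Pair n N M) {u v : M → Fin N → ℂ} (hu : Sm n u) (hv : Sm n v) (x : M) :
    pairing (gOf P) (connOf P) (toF u) (toF v) x =
      ∑ i, ∑ j, ((P.mat x)⁻¹ i j : ℂ) * (star (cov P u x i) ⬝ᵥ cov P v x j) := by
  rw [pairing_eq_rp]
  unfold rp
  rw [gram_self_gOf]
  simp only [covI_toF P hu, covI_toF P hv, inner_toLp, Complex.real_smul]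

theorem energy_toF (P : Pair n N M) {u v : M → Fin N → ℂ} (hu : Sm n u) (hv : Sm n v) :
    energy P u v = @Vale.Agent.P088.energy n N _ _ (𝓡∂ n) M _ _ _ (borel M) (gOf P) P.vol (connOf P)
      (toF u) (toF v) := by
  unfold energy Vale.Agent.P088.energy
  simp only [pairing_toF P hu hv]

theorem harm_iff (P : Pair n N M) (f u : M → Fin N → ℂ) :
    Harm P f u ↔ @IsHarmonicExt n N _ _ (𝓡∂ n) M _ _ _ (borel M) (gOf P) P.vol (connOf P)
      (toF f) (toF u) := by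
  constructor
  · rintro ⟨hs, hb, hw⟩
    refine @IsHarmonicExt.mk n N _ _ (𝓡∂ n) M _ _ _ (borel M) _ _ _ _ _ ((sm_iff u).1 hs) ?_ ?_
    · intro x hx
      show WithLp.toLp 2 (u x) = WithLp.toLp 2 (f x)
      rw [hb x hx]
    · intro φ hφ hφ0
      have hφ' : Sm n (fun x a => φ x a) := (sm_iff _).2 hφ
      have h1 := hw (fun x a => φ x a) hφ' (fun x hx => by
        funext a
        show φ x a = 0
        rw [hφ0 x hx]; rfl)
      rw [energy_toF P hs hφ'] at h1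
      exact h1
  · rintro ⟨hs, hb, hw⟩
    have hs' : Sm n u := (sm_iff u).2 hs
    refine ⟨hs', fun x hx => ?_, fun φ hφ hφ0 => ?_⟩
    · exact (WithLp.toLp_injective 2) (hb x hx)
    · rw [energy_toF P hs' hφ]
      refine hw _ ((sm_iff φ).1 hφ) fun x hx => ?_
      show WithLp.toLp 2 (φ x) = 0
      rw [hφ0 x hx]; rfl

theorem supp_eq (f : M → Fin N → ℂ) :
    {x ∈ (𝓡∂ n).boundary M | toF f x ≠ 0} = {x ∈ bd n M | f x ≠ 0} := by
  ext x
  constructor
  · rintro ⟨hx, h⟩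
    refine ⟨hx, fun h0 => h ?_⟩
    show WithLp.toLp 2 (f x) = 0
    rw [h0]; rfl
  · rintro ⟨hx, h⟩
    refine ⟨hx, fun h0 => h ?_⟩
    exact (WithLp.toLp_injective 2) h0

theorem data_iff (Γ : Set M) (P Q : Pair n N M) :
    SameData Γ P Q ↔ @Vale.Agent.P088.SameData n N _ _ (𝓡∂ n) M _ _ _ (borel M) Γ (gOf P) P.vol
      (connOf P) (gOf Q) Q.vol (connOf Q) := by
  constructor
  · intro h f k hf hk
    have hf' : Sm n (fun x a => f x a) := (sm_iff _).2 hf.smooth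
    have hk' : Sm n (fun x a => k x a) := (sm_iff _).2 hk.smooth
    obtain ⟨u, v, u', v', h1, h2, h3, h4, h5⟩ := h (fun x a => f x a) (fun x a => k x a) hf'
      (by rw [← supp_eq]; exact hf.supp) hk' (by rw [← supp_eq]; exact hk.supp)
    refine ⟨toF u, toF v, toF u', toF v', (harm_iff P _ u).1 h1, (harm_iff P _ v).1 h2,
      (harm_iff Q _ u').1 h3, (harm_iff Q _ v').1 h4, ?_⟩
    rw [energy_toF P h1.1 h2.1, energy_toF Q h3.1 h4.1] at h5
    exact h5
  · intro h f k hf hfs hk hks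
    obtain ⟨u, v, u', v', h1, h2, h3, h4, h5⟩ := h (toF f) (toF k)
      ⟨(sm_iff f).1 hf, by rw [supp_eq]; exact hfs⟩ ⟨(sm_iff k).1 hk, by rw [supp_eq]; exact hks⟩
    have e1 := (harm_iff P f (fun x a => u x a)).2 h1
    have e2 := (harm_iff P k (fun x a => v x a)).2 h2
    have e3 := (harm_iff Q f (fun x a => u' x a)).2 h3
    have e4 := (harm_iff Q k (fun x a => v' x a)).2 h4
    refine ⟨_, _, _, _, e1, e2, e3, e4, ?_⟩
    rw [energy_toF P e1.1 e2.1, energy_toF Q e3.1 e4.1]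
    exact h5

end Vale.Agent.P088.S
end
end

section

open Bundle Manifold MeasureTheory Set Filter
open scoped ContDiff Matrix Topology ENNReal

noncomputable section

set_option linter.unusedSectionVars false

namespace Vale.Agent.P088.S

variable {n : ℕ} [NeZero n] {N : ℕ} {M : Type*} [TopologicalSpace M]
  [ChartedSpace (EuclideanHalfSpace n) M] [IsManifold (𝓡∂ n) ∞ M]

open scoped Classical in
theorem measurable_image [MeasurableSpace M] [BorelSpace M] {p : M} {s : Set M}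
    (hs : MeasurableSet s) (hsub : s ⊆ (extChartAt (𝓡∂ n) p).source) :
    MeasurableSet ((extChartAt (𝓡∂ n) p) '' s) := by
  rw [image_eq_target_inter p hsub]
  set T := (extChartAt (𝓡∂ n) p).target with hT
  have hTm : MeasurableSet T := measurableSet_target p
  have h1 : Measurable (T.piecewise (extChartAt (𝓡∂ n) p).symm (fun _ => p)) :=
    (continuousOn_extChartAt_symm p).measurable_piecewise continuousOn_const hTm
  have h2 : T ∩ (extChartAt (𝓡∂ n) p).symm ⁻¹' s =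
      T ∩ (T.piecewise (extChartAt (𝓡∂ n) p).symm (fun _ => p)) ⁻¹' s := by
    ext y
    constructor
    · rintro ⟨hy, hy'⟩
      refine ⟨hy, ?_⟩
      rw [mem_preimage, piecewise_eq_of_mem _ _ _ hy]; exact hy'
    · rintro ⟨hy, hy'⟩
      refine ⟨hy, ?_⟩
      rw [mem_preimage, piecewise_eq_of_mem _ _ _ hy] at hy'; exact hy'
  rw [h2]
  exact hTm.inter (h1 hs)

theorem isVol_gOf (P : Pair n N M) :
    @IsRiemannianVolume n _ _ (𝓡∂ n) M _ _ _ (borel M) (gOf P) P.vol := by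
  let _ : MeasurableSpace M := borel M
  have _ : BorelSpace M := ⟨rfl⟩
  intro p s hs hsub
  have hsub' : s ⊆ src n p := by rw [src_eq]; exact hsub
  rw [P.isVol p s hs hsub']
  have himg : ch n p '' s = (fun y : EuclideanSpace ℝ (Fin n) => WithLp.ofLp y) ''
      ((extChartAt (𝓡∂ n) p) '' s) := by
    rw [image_image]
    rfl
  rw [himg, ← (PiLp.volume_preserving_ofLp (Fin n)).setLIntegral_comp_emb
    (MeasurableEquiv.toLp 2 (Fin n → ℝ)).symm.measurableEmbedding]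
  refine setLIntegral_congr_fun (measurable_image hs hsub) ?_
  rintro _ ⟨x, hx, rfl⟩
  have hxs := hsub hx
  simp only
  rw [pt_eq ((extChartAt (𝓡∂ n) p).map_source hxs), (extChartAt (𝓡∂ n) p).left_inv hxs,
    gram_gOf P (hsub' hx)]

/-! ### unitary maps -/

/-- the matrix of an endomorphism -/
def ofE (T : EndF N) : Matrix (Fin N) (Fin N) ℂ := fun a b => (T (eN N b)) a

theorem toE_ofE (T : EndF N) : toE (ofE T) = T := by
  obtain ⟨A, rfl⟩ := toE_surj T
  congr 1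
  ext a b
  exact toE_entry A a b

theorem ofE_toE (A : Matrix (Fin N) (Fin N) ℂ) : ofE (toE A) = A := toE_inj (toE_ofE _)

/-- entry as a linear functional -/
def ent (a b : Fin N) : EndF N →L[ℝ] ℂ :=
  (((EuclideanSpace.proj (𝕜 := ℂ) a : Fib N →L[ℂ] ℂ).comp
    (ContinuousLinearMap.apply ℂ (Fib N) (eN N b)))).restrictScalars ℝ

theorem ent_apply (a b : Fin N) (T : EndF N) : ent a b T = ofE T a b := rfl

theorem smOn_ofE {U : M → EndF N} (hU : ContMDiff (𝓡∂ n) 𝓘(ℝ, EndF N) ∞ U) (a b : Fin N) :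
    SmOn n univ (fun x => ofE (U x) a b) :=
  contMDiffOn_univ.2 ((ent a b).contDiff.contMDiff.comp hU)

theorem dI_ofE {U : M → EndF N} (hU : ContMDiff (𝓡∂ n) 𝓘(ℝ, EndF N) ∞ U) (x : M) (i : Fin n) :
    ofE (dI (𝓡∂ n) U x (es n i)) = Matrix.of fun a b => pd n (fun z => ofE (U z) a b) x i := by
  ext a b
  have h1 := dI_clm' (ent a b) hU x (es n i)
  rw [Matrix.of_apply, pd_eq ((contMDiffOn_univ.1 (smOn_ofE hU a b)).mdifferentiableAt (by simp))]
  exact h1.symm

theorem uni_ofE {U : M → EndF N} (hU : IsSmoothUnitary (𝓡∂ n) U) : Uni n (fun x => ofE (U x)) := by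
  refine ⟨fun a b => smOn_ofE hU.smooth a b, fun x => toE_inj ?_⟩
  rw [toE_mul, toE_star, toE_ofE, toE_one]
  exact (Unitary.mem_iff.1 (hU.unitary x)).1

theorem lgd_ofE {U : M → EndF N} (hU : IsSmoothUnitary (𝓡∂ n) U) (x : M) (j : Fin n) :
    toE (lgd n (fun x => ofE (U x)) x j) =
      ContinuousLinearMap.adjoint (U x) * dI (𝓡∂ n) U x (es n j) := by
  unfold lgd
  rw [toE_mul, toE_star, toE_ofE, ← dI_ofE hU.smooth, toE_ofE]

end Vale.Agent.P088.S
end
end

section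

/-!
# P088-EYM: bridge of the Einstein and Yang-Mills equations
-/

open Bundle Manifold MeasureTheory Set Filter
open scoped ContDiff Matrix Topology

noncomputable section

set_option linter.unusedSectionVars false

namespace Vale.Agent.P088.EYM

universe u

section brEqLocal

variable {n : ℕ} [NeZero n] {N : ℕ}

theorem brEq_dj {F : Type*} [NormedAddCommGroup F] [NormedSpace ℝ F] {D : Set (E n)}
    (hD : RelOpen D) {f : (Fin n → ℝ) → F} {φ : E n → F} (hφ : ContDiffOn ℝ ∞ φ D)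
    (h : ∀ z ∈ D, f (WithLp.ofLp z) = φ z) {y : E n} (hy : y ∈ D) (j : Fin n) :
    S.dj f (WithLp.ofLp y) j = pd j φ y := by
  have hr : range (𝓡∂ n) = Hs n := S.range_half
  have hy' : y ∈ range (𝓡∂ n) := by rw [hr]; exact hD.subset hy
  refine S.dj_eq (L := fderivWithin ℝ φ (Hs n) y) hy' ?_ j
  rw [hr]
  refine (hD.hasD hy hφ (by simp)).congr_of_eventuallyEq ?_ (h y hy)
  filter_upwards [hD.mem_nhds hy] with z hz
  exact h z hz

/-! ### metric part -/

theorem brEq_chr_smooth {D : Set (E n)} (hD : RelOpen D) {g : E n → Matrix (Fin n) (Fin n) ℝ}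
    (hg : ∀ i j, ContDiffOn ℝ ∞ (fun x => g x i j) D) (hp : ∀ x ∈ D, (g x).PosDef)
    (k i j : Fin n) : ContDiffOn ℝ ∞ (chr g k i j) D := by
  unfold chr
  refine contDiffOn_const.mul (ContDiffOn.sum fun l _ => ?_)
  refine (contDiffOn_inv_entry hg (fun y hy => (hp y hy).det_pos.ne') k l).mul ?_
  exact ((hD.pd_smooth (hg l j) i).add (hD.pd_smooth (hg l i) j)).sub (hD.pd_smooth (hg i j) l)

theorem brEq_chris {D : Set (E n)} (hD : RelOpen D) {g : E n → Matrix (Fin n) (Fin n) ℝ}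
    {g' : (Fin n → ℝ) → Matrix (Fin n) (Fin n) ℝ}
    (hg : ∀ i j, ContDiffOn ℝ ∞ (fun x => g x i j) D)
    (h : ∀ z ∈ D, g' (WithLp.ofLp z) = g z) (k i j : Fin n) {y : E n} (hy : y ∈ D) :
    S.chris g' k i j (WithLp.ofLp y) = chr g k i j y := by
  have h1 : ∀ a b c : Fin n, S.dj (fun z => g' z a b) (WithLp.ofLp y) c =
      pd c (fun z => g z a b) y := fun a b c =>
    brEq_dj hD (hg a b) (fun z hz => by rw [h z hz]) hy c
  unfold S.chris chr
  simp only [h1, h y hy]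

theorem brEq_ricci {D : Set (E n)} (hD : RelOpen D) {g : E n → Matrix (Fin n) (Fin n) ℝ}
    {g' : (Fin n → ℝ) → Matrix (Fin n) (Fin n) ℝ}
    (hg : ∀ i j, ContDiffOn ℝ ∞ (fun x => g x i j) D) (hp : ∀ x ∈ D, (g x).PosDef)
    (h : ∀ z ∈ D, g' (WithLp.ofLp z) = g z) (j k : Fin n) {y : E n} (hy : y ∈ D) :
    S.ricci g' j k (WithLp.ofLp y) = ric g j k y := by
  have h1 : ∀ a b c d : Fin n, S.dj (S.chris g' a b c) (WithLp.ofLp y) d =
      pd d (chr g a b c) y := fun a b c d =>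
    brEq_dj hD (brEq_chr_smooth hD hg hp a b c) (fun z hz => brEq_chris hD hg h a b c hz) hy d
  unfold S.ricci ric
  simp only [h1, brEq_chris hD hg h _ _ _ hy]

/-! ### connection part -/

theorem brEq_toE_sub (A B : Matrix (Fin N) (Fin N) ℂ) :
    S.toE (A - B) = S.toE A - S.toE B := map_sub _ A B

theorem brEq_toE_rsmul (r : ℝ) (A : Matrix (Fin N) (Fin N) ℂ) :
    S.toE (r • A) = r • S.toE A := by
  have h1 : r • A = (r : ℂ) • A := by
    ext a b; simp
  rw [h1]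
  unfold S.toE
  rw [map_smul]
  ext1 w
  exact (Complex.coe_smul r _)

theorem brEq_toE_fsum {ι : Type*} (s : Finset ι) (A : ι → Matrix (Fin N) (Fin N) ℂ) :
    S.toE (∑ i ∈ s, A i) = ∑ i ∈ s, S.toE (A i) := map_sum _ A s

theorem brEq_trE (A : Matrix (Fin N) (Fin N) ℂ) : trE (S.toE A) = A.trace := by
  unfold trE
  rw [LinearMap.trace_eq_matrix_trace ℂ (EuclideanSpace.basisFun (Fin N) ℂ).toBasis]
  congr 1
  ext a b
  rw [LinearMap.toMatrix_apply]
  simp only [OrthonormalBasis.coe_toBasis, OrthonormalBasis.coe_toBasis_repr_apply,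
    EuclideanSpace.basisFun_apply, EuclideanSpace.basisFun_repr]
  exact S.toE_entry A a b

theorem brEq_dM {D : Set (E n)} (hD : RelOpen D) {A : (Fin n → ℝ) → Matrix (Fin N) (Fin N) ℂ}
    {B : E n → EndF N} (hB : ContDiffOn ℝ ∞ B D) (h : ∀ z ∈ D, S.toE (A (WithLp.ofLp z)) = B z)
    {y : E n} (hy : y ∈ D) (i : Fin n) :
    S.toE (S.dM A (WithLp.ofLp y) i) = pd i B y := by
  have h1 : S.dM A (WithLp.ofLp y) i = S.ofE (pd i B y) := by
    ext a b
    have h2 : S.dj (fun z => A z a b) (WithLp.ofLp y) i = pd i (fun z => S.ent a b (B z)) y := by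
      refine brEq_dj hD ((S.ent a b).contDiff.comp_contDiffOn hB) (fun z hz => ?_) hy i
      show A (WithLp.ofLp z) a b = S.ent a b (B z)
      rw [S.ent_apply, ← h z hz, S.ofE_toE]
    rw [← S.ent_apply, ← hD.pd_clm (S.ent a b) hB hy i, ← h2]
    rfl
  rw [h1, S.toE_ofE]

theorem brEq_curv {D : Set (E n)} (hD : RelOpen D)
    {A : Fin n → (Fin n → ℝ) → Matrix (Fin N) (Fin N) ℂ} {B : Fin n → E n → EndF N}
    (hB : ∀ j, ContDiffOn ℝ ∞ (B j) D) (h : ∀ j, ∀ z ∈ D, S.toE (A j (WithLp.ofLp z)) = B j z)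
    (i j : Fin n) {y : E n} (hy : y ∈ D) :
    S.toE (S.curv A i j (WithLp.ofLp y)) = cur B i j y := by
  unfold S.curv cur
  rw [S.toE_add, brEq_toE_sub, brEq_toE_sub, S.toE_mul, S.toE_mul,
    brEq_dM hD (hB j) (h j) hy, brEq_dM hD (hB i) (h i) hy, h i y hy, h j y hy]

theorem brEq_cur_smooth {D : Set (E n)} (hD : RelOpen D) {B : Fin n → E n → EndF N}
    (hB : ∀ j, ContDiffOn ℝ ∞ (B j) D) (i j : Fin n) : ContDiffOn ℝ ∞ (cur B i j) D := by
  unfold cur
  exact ((hD.pd_smooth (hB j) i).sub (hD.pd_smooth (hB i) j)).add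
    ((smooth_mul (hB i) (hB j)).sub (smooth_mul (hB j) (hB i)))

theorem brEq_stress {D : Set (E n)} (hD : RelOpen D) {L : LD n N}
    {g' : (Fin n → ℝ) → Matrix (Fin n) (Fin n) ℝ}
    {A : Fin n → (Fin n → ℝ) → Matrix (Fin N) (Fin N) ℂ}
    (hB : ∀ j, ContDiffOn ℝ ∞ (L.B j) D)
    (hg' : ∀ z ∈ D, g' (WithLp.ofLp z) = L.g z)
    (h : ∀ j, ∀ z ∈ D, S.toE (A j (WithLp.ofLp z)) = L.B j z)
    (j k : Fin n) {y : E n} (hy : y ∈ D) :
    S.stress g' A j k (WithLp.ofLp y) = Tst L j k y := by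
  unfold S.stress Tst
  rw [hg' y hy]
  congr 1
  refine Finset.sum_congr rfl fun a _ => Finset.sum_congr rfl fun b _ => ?_
  rw [← brEq_trE, S.toE_mul, brEq_curv hD hB h j a hy, brEq_curv hD hB h k b hy]

theorem brEq_divF {D : Set (E n)} (hD : RelOpen D) {L : LD n N}
    {g' : (Fin n → ℝ) → Matrix (Fin n) (Fin n) ℝ}
    {A : Fin n → (Fin n → ℝ) → Matrix (Fin N) (Fin N) ℂ}
    (hg : ∀ i j, ContDiffOn ℝ ∞ (fun x => L.g x i j) D)
    (hB : ∀ j, ContDiffOn ℝ ∞ (L.B j) D)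
    (hg' : ∀ z ∈ D, g' (WithLp.ofLp z) = L.g z)
    (h : ∀ j, ∀ z ∈ D, S.toE (A j (WithLp.ofLp z)) = L.B j z)
    (k : Fin n) {y : E n} (hy : y ∈ D) :
    S.toE (S.divF g' A k (WithLp.ofLp y)) = ymE L k y := by
  unfold S.divF ymE
  rw [brEq_toE_fsum]
  refine Finset.sum_congr rfl fun i _ => ?_
  rw [brEq_toE_fsum]
  refine Finset.sum_congr rfl fun j _ => ?_
  rw [brEq_toE_rsmul, hg' y hy, S.toE_add, brEq_toE_sub, brEq_toE_sub, S.toE_mul, S.toE_mul,
    brEq_curv hD hB h j k hy, h i y hy, brEq_toE_fsum,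
    brEq_dM hD (brEq_cur_smooth hD hB j k) (fun z hz => brEq_curv hD hB h j k hz) hy]
  congr 3
  refine Finset.sum_congr rfl fun l _ => ?_
  rw [S.toE_add, brEq_toE_rsmul, brEq_toE_rsmul, brEq_curv hD hB h l k hy,
    brEq_curv hD hB h j l hy, brEq_chris hD hg hg' l i j hy, brEq_chris hD hg hg' l i k hy]

end brEqLocal

end Vale.Agent.P088.EYM

namespace Vale.Agent.P088.S

universe u

variable {n : ℕ} [NeZero n] {N : ℕ} {M : Type u} [TopologicalSpace M]
  [ChartedSpace (EuclideanHalfSpace n) M] [IsManifold (𝓡∂ n) ∞ M]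

theorem brEq_relOpen (p : M) : Vale.Agent.P088.EYM.RelOpen (Vale.Agent.P088.EYM.tg n p) := by
  refine ⟨(𝓡∂ n).symm ⁻¹' (chartAt (EuclideanHalfSpace n) p).target, ?_, ?_⟩
  · exact (chartAt (EuclideanHalfSpace n) p).open_target.preimage (𝓡∂ n).continuous_symm
  · have hr : range (𝓡∂ n) = Vale.Agent.P088.EYM.Hs n := range_half
    rw [Vale.Agent.P088.EYM.tg, Vale.Agent.P088.EYM.xc, extChartAt_target, hr]

theorem bridge_eqs {P : Pair n N M} {κ α β : ℝ} (h : EYM κ α β P) :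
    Vale.Agent.P088.EYM.EYMm κ α β (gOf P) (connOf P) := by
  intro p
  set L := Vale.Agent.P088.EYM.locM (gOf P) (connOf P) p with hL
  have hD := brEq_relOpen (n := n) p
  have hsrc : ∀ z ∈ Vale.Agent.P088.EYM.tg n p, (extChartAt (𝓡∂ n) p).symm z ∈ src n p := by
    intro z hz
    rw [src_eq]
    exact (extChartAt (𝓡∂ n) p).map_target hz
  have hgs : ∀ i j, ContDiffOn ℝ ∞ (fun x => L.g x i j) (Vale.Agent.P088.EYM.tg n p) :=
    fun i j => contDiffOn_gram (gOf P) p i j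
  have hgp : ∀ z ∈ Vale.Agent.P088.EYM.tg n p, (L.g z).PosDef :=
    fun z hz => gram_posDef (gOf P) ((extChartAt (𝓡∂ n) p).map_target hz)
  have hBs : ∀ j, ContDiffOn ℝ ∞ (L.B j) (Vale.Agent.P088.EYM.tg n p) := fun i =>
    contDiffOn_lu_of_contMDiffOn
      (u := fun x => (connOf P).form x (coordVec (𝓡∂ n) p x i)) ((connOf P).smooth p i)
  have hg' : ∀ z ∈ Vale.Agent.P088.EYM.tg n p, gch P p (WithLp.ofLp z) = L.g z := by
    intro z hz
    show inChart n P.mat p (pt n p (WithLp.ofLp z)) = gram (gOf P) p ((extChartAt (𝓡∂ n) p).symm z)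
    rw [pt_eq hz, gram_gOf P (hsrc z hz)]
  have hB' : ∀ j, ∀ z ∈ Vale.Agent.P088.EYM.tg n p, toE (ach P p j (WithLp.ofLp z)) = L.B j z := by
    intro j z hz
    show toE (∑ i, jac n p (pt n p (WithLp.ofLp z)) i j • P.co (pt n p (WithLp.ofLp z)) i) =
      formOf (P.co ((extChartAt (𝓡∂ n) p).symm z))
        (cc (𝓡∂ n) p ((extChartAt (𝓡∂ n) p).symm z) (es n j))
    rw [pt_eq hz, formOf_apply, toE_rsum]
    simp only [jac_eq (hsrc z hz)]
  refine ⟨fun y hy j k => ?_, fun y hy k => ?_⟩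
  · have h1 := (h p _ (hsrc y hy)).1 j k
    have hy2 : ch n p ((extChartAt (𝓡∂ n) p).symm y) = WithLp.ofLp y := by
      rw [ch_eq, (extChartAt (𝓡∂ n) p).right_inv hy]
    rw [hy2] at h1
    rw [Vale.Agent.P088.EYM.brEq_ricci hD hgs hgp hg' j k hy] at h1
    unfold Vale.Agent.P088.EYM.rhsE
    simp only [Vale.Agent.P088.EYM.brEq_stress hD hBs hg' hB' _ _ hy, hg' y hy] at h1
    exact h1
  · have h1 := (h p _ (hsrc y hy)).2 k
    have hy2 : ch n p ((extChartAt (𝓡∂ n) p).symm y) = WithLp.ofLp y := by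
      rw [ch_eq, (extChartAt (𝓡∂ n) p).right_inv hy]
    rw [hy2] at h1
    rw [← Vale.Agent.P088.EYM.brEq_divF hD hgs hBs hg' hB' k hy, h1]
    exact map_zero (Matrix.toEuclideanCLM (n := Fin N) (𝕜 := ℂ))

end Vale.Agent.P088.S
end
end

section

/-!
# P088-EYM, C31: bridge of the conclusion
-/

open Bundle Manifold MeasureTheory Set Filter
open scoped ContDiff Matrix Topology ENNReal

noncomputable section

set_option linter.unusedSectionVars false
set_option linter.unusedVariables false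

namespace Vale.Agent.P088.S

universe u

variable {n : ℕ} [NeZero n] {N : ℕ} {M : Type u} [TopologicalSpace M]
  [ChartedSpace (EuclideanHalfSpace n) M] [IsManifold (𝓡∂ n) ∞ M]

/-- the derivative of `Φ` on the model space -/
def brRel_D (Φ : M → M) (x : M) : EuclideanSpace ℝ (Fin n) →L[ℝ] EuclideanSpace ℝ (Fin n) :=
  mfderiv (𝓡∂ n) (𝓡∂ n) Φ x

set_option backward.isDefEq.respectTransparency false in
theorem brRel_mf {Φ : M → M} {x : M} (hΦ : MDifferentiableAt (𝓡∂ n) (𝓡∂ n) Φ x) :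
    brRel_D Φ x = fderivWithin ℝ (writtenInExtChartAt (𝓡∂ n) (𝓡∂ n) x Φ) (range (𝓡∂ n))
      (extChartAt (𝓡∂ n) x x) := by
  unfold brRel_D
  rw [mfderiv, if_pos hΦ]

theorem brRel_jac {Φ : M → M} {x : M} (hΦ : MDifferentiableAt (𝓡∂ n) (𝓡∂ n) Φ x) (i j : Fin n) :
    jacOf n Φ x i j = (brRel_D Φ x (es n j)) i := by
  have h0 := hΦ.differentiableWithinAt_writtenInExtChartAt.hasFDerivWithinAt
  rw [← brRel_mf hΦ] at h0
  have h1 := ((EuclideanSpace.proj (𝕜 := ℝ) i : EuclideanSpace ℝ (Fin n) →L[ℝ] ℝ).hasFDerivAt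
    (x := writtenInExtChartAt (𝓡∂ n) (𝓡∂ n) x Φ (extChartAt (𝓡∂ n) x x))).comp_hasFDerivWithinAt
      (extChartAt (𝓡∂ n) x x) h0
  exact germ_eq (mem_extChartAt_source x) (fun z => ch n (Φ x) (Φ z) i) h1 j

theorem brRel_met {P Q : Pair n N M} {Φ : M → M} {x : M}
    (hΦ : MDifferentiableAt (𝓡∂ n) (𝓡∂ n) Φ x)
    (h : ∀ v w : EuclideanSpace ℝ (Fin n),
      bil (Q.mat x) v w = bil (P.mat (Φ x)) (brRel_D Φ x v) (brRel_D Φ x w)) :
    Q.mat x = (jacOf n Φ x)ᵀ * P.mat (Φ x) * jacOf n Φ x := by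
  ext i j
  have h1 := h (es n i) (es n j)
  have h2 : bil (Q.mat x) (es n i) (es n j) = Q.mat x i j := by
    rw [bil_apply]
    simp only [es_apply]
    simp
  rw [h2, bil_apply] at h1
  rw [h1]
  simp only [Matrix.mul_apply, Matrix.transpose_apply, Finset.sum_mul, brRel_jac hΦ]
  rw [Finset.sum_comm]
  refine Finset.sum_congr rfl fun k _ => Finset.sum_congr rfl fun l _ => ?_
  ring

theorem brRel_con {P Q : Pair n N M} {Φ : M → M} {U : M → EndF N}
    (hU : IsSmoothUnitary (𝓡∂ n) U) {x : M} (hΦ : MDifferentiableAt (𝓡∂ n) (𝓡∂ n) Φ x)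
    (h : ∀ v : TangentSpace (𝓡∂ n) x, (connOf Q).form x v =
      gaugeForm (connOf P) Φ U x v) (j : Fin n) :
    Q.co x j = (ofE (U x))ᴴ * (∑ i, jacOf n Φ x i j • P.co (Φ x) i) * ofE (U x) +
      lgd n (fun x => ofE (U x)) x j := by
  apply toE_inj
  have h3 : toE (∑ i, jacOf n Φ x i j • P.co (Φ x) i) =
      (connOf P).form (Φ x) (brRel_D Φ x (es n j)) := by
    show _ = formOf (P.co (Φ x)) (brRel_D Φ x (es n j))
    rw [formOf_apply, toE_rsum]
    simp only [brRel_jac hΦ]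
  rw [toE_add, lgd_ofE hU, toE_mul, toE_mul, toE_star, toE_ofE, h3, ← connOf_es]
  have h1 := h (es n j)
  unfold gaugeForm at h1
  rw [mul_assoc]
  exact h1

theorem bridge_related [T2Space M] {P Q : Pair n N M} {Γ : Set M}
    (hc : Vale.Agent.P088.EYM.CChart_statement.{u})
    (h : GaugeEquivalent Γ (gOf P) (connOf P) (gOf Q) (connOf Q)) : Related Γ P Q := by
  obtain ⟨Φ, U, hU, hfix, hg, hA⟩ := h
  have hd : ∀ x, MDifferentiableAt (𝓡∂ n) (𝓡∂ n) Φ x := fun x =>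
    Φ.contMDiff.mdifferentiableAt (by simp)
  refine ⟨Φ, fun x => ofE (U x), uni_ofE hU, fun x hx => ⟨(hfix x hx).1, toE_inj ?_⟩,
    fun x => brRel_met (hd x) (fun v w => hg x v w), fun x j => brRel_con hU (hd x) (hA x) j⟩
  rw [toE_ofE, toE_one]
  exact (hfix x hx).2

end Vale.Agent.P088.S
end
end

section

/-!
# P088-EYM: the final theorem from the abstract theorem and the bridges
-/

open Manifold MeasureTheory Set
open scoped ContDiff Matrix

namespace Vale.Agent.P088.S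

universe u

theorem final_of (hmain : Vale.Agent.P088.EYM.CMain_statement.{u})
    (hc : Vale.Agent.P088.EYM.CChart_statement.{u}) {n N : ℕ} [NeZero n] (hn : 3 ≤ n)
    (hN : 1 ≤ N) {M : Type u} [TopologicalSpace M] [ChartedSpace (EuclideanHalfSpace n) M]
    [IsManifold (𝓡∂ n) ∞ M] [T2Space M] [CompactSpace M] [ConnectedSpace M] {Γ O : Set M}
    (hO : IsOpen O) (hΓ : Γ = O ∩ bd n M) (hne : Γ.Nonempty) {P Q : Pair n N M}
    {κ₁ κ₂ α β : ℝ} (hP : EYM κ₁ α β P) (hQ : EYM κ₂ α β Q) (hdata : SameData Γ P Q) :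
    Related Γ P Q := by
  let _ : MeasurableSpace M := borel M
  have _ : BorelSpace M := ⟨rfl⟩
  have hd := (data_iff Γ P Q).1 hdata
  exact bridge_related hc (hmain n N M ⟨gOf P, P.vol, connOf P, isVol_gOf P⟩
    ⟨gOf Q, Q.vol, connOf Q, isVol_gOf Q⟩ Γ κ₁ κ₂ α β hn hN ⟨O, hO, hΓ⟩ hne hd
    (bridge_eqs hP) (bridge_eqs hQ))

end Vale.Agent.P088.S
end

section

/-!
# P088-EYM: from the compact statement to the first statement, conversion of pairs
-/

open Bundle Manifold MeasureTheory Set Filter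
open scoped ContDiff Matrix Topology ENNReal

noncomputable section

namespace Vale.Agent.P088.B

universe u

variable {n : ℕ} {N : ℕ}

theorem dj_congr {K : Type*} [RCLike K] {f f' : V n → K} {y : V n} (j : Fin n)
    (hy : ∀ i : Fin n, i.1 = 0 → 0 ≤ y i)
    (h : ∀ z : V n, (∀ i : Fin n, i.1 = 0 → 0 ≤ z i) → f z = f' z) : dj f y j = dj f' y j := by
  unfold dj
  have key : ∀ t ∈ {t : ℝ | j.1 = 0 → 0 ≤ t}, f (Function.update y j t) = f' (Function.update y j t) := by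
    intro t ht
    refine h _ fun i hi => ?_
    by_cases hij : i = j
    · subst hij
      rw [Function.update_self]
      exact ht hi
    · rw [Function.update_of_ne hij]
      exact hy i hi
  refine derivWithin_congr key ?_
  exact key _ (fun hj => hy j hj)

variable [NeZero n]

theorem half_iff (y : V n) : (∀ i : Fin n, i.1 = 0 → 0 ≤ y i) ↔ 0 ≤ y 0 := by
  constructor
  · intro h
    exact h 0 (by simp)
  · intro h i hi
    have : i = 0 := Fin.ext (by simp [hi])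
    rw [this]
    exact h

/-- the two derivatives agree on the half space -/
theorem dj_old {K : Type*} [RCLike K] (f : V n → K) {y : V n} (hy : 0 ≤ y 0) (j : Fin n) :
    dj f y j = Vale.Agent.P088.S.dj f y j := by
  unfold dj Vale.Agent.P088.S.dj
  have : {t : ℝ | j.1 = 0 → 0 ≤ t} = {t | 0 ≤ Function.update y j t 0} := by
    ext t
    simp only [mem_ofPred_eq]
    by_cases hj : j = 0
    · subst hj
      rw [Function.update_self]
      simp
    · rw [Function.update_of_ne (Ne.symm hj)]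
      constructor
      · intro _
        exact hy
      · intro _ h0
        exact absurd (Fin.ext (by simp [h0])) hj
  rw [this]

variable {M : Type u} [TopologicalSpace M] [ChartedSpace (EuclideanHalfSpace n) M]

theorem at_ch (p x : M) : (at_ n M).ch p x = Vale.Agent.P088.S.ch n p x := rfl

theorem at_pt (p : M) (y : V n) : pt (at_ n M) p y = Vale.Agent.P088.S.pt n p y := rfl

theorem at_nonneg (p x : M) : 0 ≤ (at_ n M).ch p x 0 := (chartAt (EuclideanHalfSpace n) p x).2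

theorem at_jac (p x : M) : jac (at_ n M) id p x x = Vale.Agent.P088.S.jac n p x := by
  ext i j
  unfold jac Vale.Agent.P088.S.jac
  exact dj_old _ (at_nonneg p x) j

theorem at_pt_ch {p x : M} (hx : x ∈ Vale.Agent.P088.S.src n p) :
    Vale.Agent.P088.S.pt n p (Vale.Agent.P088.S.ch n p x) = x := by
  have _ : Nonempty M := ⟨p⟩
  have hex : ∃ x' ∈ Vale.Agent.P088.S.src n p,
      Vale.Agent.P088.S.ch n p x' = Vale.Agent.P088.S.ch n p x := ⟨x, hx, rfl⟩
  exact Vale.Agent.P088.S.ch_inj (Function.invFunOn_mem hex) hx (Function.invFunOn_eq hex)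

theorem at_gch (g : M → Matrix (Fin n) (Fin n) ℝ) (p : M) (y : V n) : gch (at_ n M) g p y =
    Vale.Agent.P088.S.inChart n g p (Vale.Agent.P088.S.pt n p y) := by
  unfold gch Vale.Agent.P088.S.inChart
  simp only [at_jac, at_pt]

theorem at_ach (A : M → Fin n → Matrix (Fin N) (Fin N) ℂ) (p : M) (j : Fin n) (y : V n) :
    ach (at_ n M) A p j y = ∑ i, Vale.Agent.P088.S.jac n p (Vale.Agent.P088.S.pt n p y) i j •
      A (Vale.Agent.P088.S.pt n p y) i := by
  unfold ach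
  simp only [at_jac, at_pt]

theorem at_meas [IsManifold (𝓡∂ n) ∞ M] (p : M) (s : Set M) (hs : MeasurableSet[borel M] s)
    (h : s ⊆ Vale.Agent.P088.S.src n p) : MeasurableSet (Vale.Agent.P088.S.ch n p '' s) := by
  let _ : MeasurableSpace M := borel M
  have _ : BorelSpace M := ⟨rfl⟩
  rw [Vale.Agent.P088.S.src_eq] at h
  have h1 : MeasurableSet ((extChartAt (𝓡∂ n) p) '' s) := Vale.Agent.P088.S.measurable_image hs h
  have h2 : Vale.Agent.P088.S.ch n p '' s =
      (MeasurableEquiv.toLp 2 (Fin n → ℝ)).symm '' ((extChartAt (𝓡∂ n) p) '' s) := by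
    rw [image_image]
    rfl
  rw [h2]
  exact (MeasurableEquiv.toLp 2 (Fin n → ℝ)).symm.measurableEmbedding.measurableSet_image' h1

/-- the pair of the first statement -/
def conv [IsManifold (𝓡∂ n) ∞ M] (P : Pair (at_ n M) N) : Vale.Agent.P088.S.Pair n N M where
  mat := P.g
  pos := fun x => (P.pos x).1
  smooth := fun p i j => by
    have h := (P.smo p i j).1
    change Vale.Agent.P088.S.SmOn n (Vale.Agent.P088.S.src n p) _ at h
    refine ContMDiffOn.congr h fun x hx => ?_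
    rw [at_gch, at_ch, at_pt_ch hx]
  vol := P.vol
  isVol := fun p s hs h => by
    refine (P.isVol p s hs h).trans ?_
    refine (lintegral_indicator (at_meas p s hs h) _).trans ?_
    simp only [at_gch]
  co := P.A
  skew := fun x i => (P.pos x).2 i
  smooth_co := fun p j a b => by
    have h := (P.smo p j j).2 a b
    change Vale.Agent.P088.S.SmOn n (Vale.Agent.P088.S.src n p) _ at h
    refine ContMDiffOn.congr h fun x hx => ?_
    rw [at_ach, at_ch, at_pt_ch hx, Matrix.sum_apply]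
    refine Finset.sum_congr rfl fun i _ => ?_
    rw [Matrix.smul_apply, Complex.real_smul]

end Vale.Agent.P088.B
end
end

section

/-!
# P088-EYM: from the compact statement to the first statement, the boundary and the data
-/

open Bundle Manifold MeasureTheory Set Filter
open scoped ContDiff Matrix Topology ENNReal

noncomputable section

namespace Vale.Agent.P088.B

universe u

variable {n : ℕ} {N : ℕ} [NeZero n] {M : Type u} [TopologicalSpace M]
  [ChartedSpace (EuclideanHalfSpace n) M]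

theorem bd_at : bd (at_ n M) = Vale.Agent.P088.S.bd n M := by
  ext x
  have h1 : x ∈ Vale.Agent.P088.S.bd n M ↔ (extChartAt (𝓡∂ n) x x) ∈ frontier (range (𝓡∂ n)) :=
    Iff.rfl
  rw [h1, frontier_range_modelWithCornersEuclideanHalfSpace]
  have h2 : (extChartAt (𝓡∂ n) x x) ∈ {y : EuclideanSpace ℝ (Fin n) | 0 = y 0} ↔
      0 = (at_ n M).ch x x 0 := Iff.rfl
  rw [h2]
  constructor
  · intro h
    exact (h 0 (by simp)).symm
  · intro h i hi
    have : i = 0 := Fin.ext (by simp [hi])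
    rw [this]
    exact h.symm

variable [IsManifold (𝓡∂ n) ∞ M]

theorem brst2_cov (P : Pair (at_ n M) N) (u : M → Fin N → ℂ) (x : M) (i : Fin n) (a : Fin N) :
    dj (fun y => u (pt (at_ n M) x y) a) ((at_ n M).ch x x) i + (P.A x i *ᵥ u x) a =
      Vale.Agent.P088.S.cov (conv P) u x i a := by
  rw [dj_old _ (at_nonneg x x) i]
  rfl

omit [NeZero n] in
theorem brst2_trace (X Y : Matrix (Fin n) (Fin N) ℂ) (G : Matrix (Fin n) (Fin n) ℝ) :
    (Xᴴ * G.map Complex.ofReal * Y).trace =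
      ∑ i, ∑ j, (G i j : ℂ) * (star (X i) ⬝ᵥ Y j) := by
  simp only [Matrix.trace, Matrix.diag_apply, Matrix.mul_apply, Matrix.conjTranspose_apply,
    Matrix.map_apply, Finset.sum_mul, dotProduct, Finset.mul_sum, Pi.star_apply]
  rw [Finset.sum_comm]
  refine (Finset.sum_congr rfl fun j _ => Finset.sum_comm).trans ?_
  rw [Finset.sum_comm]
  refine Finset.sum_congr rfl fun i _ => Finset.sum_congr rfl fun j _ =>
    Finset.sum_congr rfl fun a _ => ?_
  ring

theorem energy_conv (P : Pair (at_ n M) N) (u v : M → Fin N → ℂ) :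
    energy P u v = Vale.Agent.P088.S.energy (conv P) u v := by
  unfold energy Vale.Agent.P088.S.energy
  change ∫ x, _ ∂P.vol = ∫ x, _ ∂P.vol
  congr 1
  funext x
  refine (brst2_trace _ _ _).trans ?_
  refine Finset.sum_congr rfl fun i _ => Finset.sum_congr rfl fun j _ => ?_
  have e : ∀ (w : M → Fin N → ℂ) (i : Fin n), (fun a =>
      dj (fun y => w (pt (at_ n M) x y) a) ((at_ n M).ch x x) i + (P.A x i *ᵥ w x) a) =
      Vale.Agent.P088.S.cov (conv P) w x i := fun w i => funext fun a => brst2_cov P w x i a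
  show ((P.g x)⁻¹ i j : ℂ) * (star (fun a =>
      dj (fun y => u (pt (at_ n M) x y) a) ((at_ n M).ch x x) i + (P.A x i *ᵥ u x) a) ⬝ᵥ
      (fun a => dj (fun y => v (pt (at_ n M) x y) a) ((at_ n M).ch x x) j + (P.A x j *ᵥ v x) a)) = _
  rw [e u i, e v j]
  rfl

theorem harm_conv {P : Pair (at_ n M) N} {f u : M → Fin N → ℂ} (h : Harm P f u) :
    Vale.Agent.P088.S.Harm (conv P) f u := by
  obtain ⟨h1, h2, h3⟩ := h
  rw [bd_at] at h2 h3
  refine ⟨h1, h2, fun φ hφ hb => ?_⟩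
  rw [← energy_conv]
  exact h3 φ hφ fun x hx a => by rw [hb x hx]; rfl

omit [IsManifold (𝓡∂ n) ∞ M] in
theorem data_iff' {G : Set M} {f : M → Fin N → ℂ} : Data (at_ n M) G f ↔
    Vale.Agent.P088.S.Sm n f ∧ closure {x ∈ Vale.Agent.P088.S.bd n M | f x ≠ 0} ⊆ G := by
  unfold Data
  rw [bd_at]
  have : {x ∈ Vale.Agent.P088.S.bd n M | ∃ a, f x a ≠ 0} =
      {x ∈ Vale.Agent.P088.S.bd n M | f x ≠ 0} := by
    ext x
    simp only [mem_sep_iff, Function.ne_iff, Pi.zero_apply]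
  rw [this]
  exact Iff.rfl

theorem data_conv {G : Set M} {P Q : Pair (at_ n M) N} (h : SameData G P Q) :
    Vale.Agent.P088.S.SameData G (conv P) (conv Q) := by
  intro f g hf hf' hg hg'
  obtain ⟨u, v, u', v', h1, h2, h3, h4, h5⟩ := h f g (data_iff'.2 ⟨hf, hf'⟩) (data_iff'.2 ⟨hg, hg'⟩)
  rw [energy_conv, energy_conv] at h5
  exact ⟨u, v, u', v', harm_conv h1, harm_conv h2, harm_conv h3, harm_conv h4, h5⟩

end Vale.Agent.P088.B
end
end
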