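import Vale.Agent.P088.MathlibUsed
import Vale.Agent.P088.Bdl.B1
import Vale.Agent.P088.Bdl.B6
import Vale.Agent.P088.Bdl.B4
import Vale.Agent.P088.Bdl.B3

set_option linter.all false

section

/-!
# P088-EYM, block A: Green's formula on the half ball
-/

open MeasureTheory Set Filter Topology
open scoped ContDiff

noncomputable section

namespace Vale.Agent.P088.EYM

variable {n N : ℕ} [NeZero n]

theorem AGreen_pd_one {F : Type*} [NormedAddCommGroup F] [NormedSpace ℝ F] {D : Set (E n)}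
    (hD : RelOpen D) {f : E n → F} (hf : ContDiffOn ℝ 2 f D) (i : Fin n) :
    ContDiffOn ℝ 1 (pd i f) D := by
  have h : ContDiffOn ℝ 1 (fun x => fderivWithin ℝ f (Hs n) x) D :=
    (hf.fderivWithin hD.uniqueDiffOn (m := 1) (by norm_num)).congr fun x hx =>
      (hD.fderivWithin_eq hx f).symm
  exact h.clm_apply contDiffOn_const

theorem AGreen_pd_cont {F : Type*} [NormedAddCommGroup F] [NormedSpace ℝ F] {D : Set (E n)}
    (hD : RelOpen D) {f : E n → F} (hf : ContDiffOn ℝ 1 f D) (i : Fin n) :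
    ContinuousOn (pd i f) D := by
  have h : ContinuousOn (fun x => fderivWithin ℝ f (Hs n) x) D :=
    (hf.continuousOn_fderivWithin hD.uniqueDiffOn le_rfl).congr fun x hx =>
      (hD.fderivWithin_eq hx f).symm
  exact h.clm_apply continuousOn_const

theorem AGreen_flux_one {D : Set (E n)} (hD : RelOpen D) {L : LD n N} (hL : L.Ok D)
    {c : E n → Fib N} (hc : ContDiffOn ℝ 2 c D) (j : Fin n) : ContDiffOn ℝ 1 (flux L j c) D := by
  have h : ContDiffOn ℝ 1 (fun x => ∑ k, gg L.g j k x • nab L k c x) D :=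
    ContDiffOn.sum fun k _ => ((hD.gg_smooth hL.g_smooth hL.g_pos j k).of_le (by simp only [WithTop.one_le_coe, le_top])).smul
      ((AGreen_pd_one hD hc k).add
        (smooth_eval ((hL.B_smooth k).of_le (by simp only [WithTop.one_le_coe, le_top])) (hc.of_le (by norm_num))))
  exact h

theorem AGreen_pd_inner {D : Set (E n)} (hD : RelOpen D) {u v : E n → Fib N}
    (hu : ContDiffOn ℝ 1 u D) (hv : ContDiffOn ℝ 1 v D) {x : E n} (hx : x ∈ D) (i : Fin n) :
    pd i (fun y => (inner ℂ (u y) (v y) : ℂ)) x =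
      inner ℂ (u x) (pd i v x) + inner ℂ (pd i u x) (v x) := by
  have h := (hD.hasD hx hu one_ne_zero).inner ℂ (hD.hasD hx hv one_ne_zero)
  rw [pd_of_has (hD.subset hx) h i]
  simp [pd, fderivInnerCLM_apply]

/-- the pointwise identity behind Green's formula -/
theorem AGreen_pointwise {D : Set (E n)} (hD : RelOpen D) {L : LD n N} (hL : L.Ok D)
    {c d : E n → Fib N} (hc : ContDiffOn ℝ 2 c D) (hd : ContDiffOn ℝ 1 d D) {x : E n}
    (hx : x ∈ D) :
    ∑ k, pd k (fun y => (inner ℂ (flux L k c y) (L.h y (d y)) : ℂ)) x =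
      inner ℂ (Lop L c x) (L.h x (d x)) + ed L c d x := by
  have hh1 : ContDiffOn ℝ 1 L.h D := hL.h_smooth.of_le (by simp only [WithTop.one_le_coe, le_top])
  have hhd : ContDiffOn ℝ 1 (fun y => L.h y (d y)) D := smooth_eval hh1 hd
  have e1 : ∀ k, pd k (fun y => (inner ℂ (flux L k c y) (L.h y (d y)) : ℂ)) x =
      inner ℂ (pd k (flux L k c) x + L.B k x (flux L k c x)) (L.h x (d x)) +
        inner ℂ (flux L k c x) (L.h x (nab L k d x)) := by
    intro k
    rw [AGreen_pd_inner hD (AGreen_flux_one hD hL hc k) hhd hx k,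
      hD.pd_eval hh1 hd one_ne_zero one_ne_zero hx k, hL.compat x hx k]
    have m1 : ∀ (S T : EndF N) (v : Fib N), (S * T) v = S (T v) := fun _ _ _ => rfl
    have m2 : ∀ (S T : EndF N) (v : Fib N), (S + T) v = S v + T v := fun _ _ _ => rfl
    simp only [nab, map_add, inner_add_left, inner_add_right, m1, m2,
      ContinuousLinearMap.adjoint_inner_right]
    ring
  have e2 : ed L c d x = ∑ k, inner ℂ (flux L k c x) (L.h x (nab L k d x)) := by
    unfold ed flux
    rw [Finset.sum_comm]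
    refine Finset.sum_congr rfl fun k _ => ?_
    rw [sum_inner]
    refine Finset.sum_congr rfl fun j _ => ?_
    rw [show gg L.g k j x = gg L.g j k x by
      unfold gg; rw [Jacobi_inv_symm (hL.g_pos x hx) k j]]
    rw [show gg L.g j k x • nab L j c x = ((gg L.g j k x : ℝ) : ℂ) • nab L j c x from
      (Complex.coe_smul _ _).symm, inner_smul_left, Complex.conj_ofReal]
  rw [e2, Finset.sum_congr rfl fun k _ => e1 k, Finset.sum_add_distrib]
  congr 1
  unfold Lop
  rw [sum_inner]

theorem AGreen_zero {L : LD n N} {c : E n → Fib N} {D : Set (E n)} (hD : RelOpen D)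
    (h : ∀ x ∈ D, c x = 0) : (∀ j, ∀ x ∈ D, flux L j c x = 0) ∧ ∀ x ∈ D, Lop L c x = 0 := by
  have h1 : ∀ j, ∀ x ∈ D, nab L j c x = 0 := by
    intro j x hx
    unfold nab
    rw [hD.pd_congr (g := fun _ => (0 : Fib N)) h hx j, pd_const, h x hx, map_zero, add_zero]
  have h2 : ∀ j, ∀ x ∈ D, flux L j c x = 0 := by
    intro j x hx
    unfold flux
    exact Finset.sum_eq_zero fun k _ => by rw [h1 k x hx, smul_zero]
  refine ⟨h2, fun x hx => ?_⟩
  unfold Lop
  refine Finset.sum_eq_zero fun j _ => ?_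
  rw [hD.pd_congr (g := fun _ => (0 : Fib N)) (h2 j) hx j, pd_const, h2 j x hx, map_zero, add_zero]

theorem AGreen_Lop_cont {D : Set (E n)} (hD : RelOpen D) {L : LD n N} (hL : L.Ok D)
    {c : E n → Fib N} (hc : ContDiffOn ℝ 2 c D) : ContinuousOn (Lop L c) D := by
  have h : ContinuousOn (fun x => ∑ j, (pd j (flux L j c) x + L.B j x (flux L j c x))) D :=
    continuousOn_finsetSum _ fun j _ => (AGreen_pd_cont hD (AGreen_flux_one hD hL hc j) j).add
      (smooth_eval (m := 0) ((hL.B_smooth j).of_le (by simp only [zero_le]))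
        ((AGreen_flux_one hD hL hc j).of_le (by simp only [zero_le]))).continuousOn
  exact h

theorem aGreen : AGreen_statement := by
  intro n N _ L z r hr hL c d hc hd hsupp hflat
  obtain ⟨r₀, hr₀, hc0⟩ := hsupp
  have hD := AGreen_rel_HB z r
  set r' : ℝ := (r₀ + r) / 2 with hr'
  have h1 : r' < r := by linarith only [hr₀, hr']
  have h2 : r₀ < r' := by linarith only [hr', h1]
  -- the part of the half ball where `c` vanishes near every point
  have hD' : RelOpen ((Metric.closedBall z r₀)ᶜ ∩ HB z r) :=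
    hD.univ_inter Metric.isClosed_closedBall.isOpen_compl
  have hz := AGreen_zero (L := L) hD' (c := c) fun x hx =>
    hc0 x hx.2 fun hb => hx.1 (Metric.ball_subset_closedBall hb)
  have hmem : ∀ x ∈ HB z r, x ∉ Metric.ball z r' → x ∈ (Metric.closedBall z r₀)ᶜ ∩ HB z r := by
    intro x hx hxb
    refine ⟨fun hcb => hxb ?_, hx⟩
    exact Metric.mem_ball.2 (lt_of_le_of_lt (Metric.mem_closedBall.1 hcb) h2)
  have hh1 : ContDiffOn ℝ 1 L.h (HB z r) := hL.h_smooth.of_le (by simp only [WithTop.one_le_coe, le_top])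
  have hhd : ContDiffOn ℝ 1 (fun y => L.h y (d y)) (HB z r) := smooth_eval hh1 hd
  have hY : ∀ k, ContDiffOn ℝ 1 (fun y => (inner ℂ (flux L k c y) (L.h y (d y)) : ℂ)) (HB z r) :=
    fun k => (AGreen_flux_one hD hL hc k).inner ℂ hhd
  have hY0 : ∀ k, ∀ x ∈ HB z r, x ∉ Metric.ball z r' →
      (inner ℂ (flux L k c x) (L.h x (d x)) : ℂ) = 0 := by
    intro k x hx hxb
    rw [hz.1 k x (hmem x hx hxb), inner_zero_left]
  have hpdY0 : ∀ k, ∀ x ∈ HB z r, x ∉ Metric.ball z r' →
      pd k (fun y => (inner ℂ (flux L k c y) (L.h y (d y)) : ℂ)) x = 0 := by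
    intro k x hx hxb
    rw [hD'.pd_congr (g := fun _ => (0 : ℂ)) (fun y hy => ?_) (hmem x hx hxb) k, pd_const]
    show (inner ℂ (flux L k c y) (L.h y (d y)) : ℂ) = 0
    rw [hz.1 k y hy, inner_zero_left]
  have hint : ∀ k, ∫ x in HB z r,
      pd k (fun y => (inner ℂ (flux L k c y) (L.h y (d y)) : ℂ)) x = 0 := by
    intro k
    refine AGreen_int h1 (hY k) (hY0 k) k (Or.inr fun x hx hx0 => ?_)
    rw [hflat x hx hx0, map_zero, inner_zero_right]
  have hI1 : ∀ k, IntegrableOn
      (pd k (fun y => (inner ℂ (flux L k c y) (L.h y (d y)) : ℂ))) (HB z r) :=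
    fun k => AGreen_integrable h1 (AGreen_pd_cont hD (hY k) k) (hpdY0 k)
  have hI2 : IntegrableOn (fun x => (inner ℂ (Lop L c x) (L.h x (d x)) : ℂ)) (HB z r) := by
    refine AGreen_integrable h1 ?_ fun x hx hxb => ?_
    · exact (AGreen_Lop_cont hD hL hc).inner hhd.continuousOn
    · rw [hz.2 x (hmem x hx hxb), inner_zero_left]
  have hed : ∀ x ∈ HB z r, ed L c d x =
      ∑ k, pd k (fun y => (inner ℂ (flux L k c y) (L.h y (d y)) : ℂ)) x -
        inner ℂ (Lop L c x) (L.h x (d x)) := fun x hx => by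
    rw [AGreen_pointwise hD hL hc hd hx]
    ring
  unfold En
  rw [setIntegral_congr_fun (AGreen_meas_HB z r) hed,
    integral_sub (integrable_finsetSum _ fun k _ => hI1 k) hI2,
    integral_finsetSum _ fun k _ => hI1 k]
  simp only [hint, Finset.sum_const_zero, zero_sub]

end Vale.Agent.P088.EYM
end
end

section

/-!
# P088-EYM, block A: `C¹` test sections are limits of smooth ones
-/

open MeasureTheory Set Filter Topology
open scoped ContDiff Convolution Pointwise

noncomputable section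

namespace Vale.Agent.P088.EYM

/-- A sequence of bump functions shrinking to the origin. -/
def aDens_bump {n : ℕ} (δ : ℝ) (hδ : 0 < δ) (m : ℕ) : ContDiffBump (0 : E n) where
  rIn := δ / (2 * ((m : ℝ) + 1))
  rOut := δ / ((m : ℝ) + 1)
  rIn_pos := by positivity
  rIn_lt_rOut := by
    have h1 : (0 : ℝ) < (m : ℝ) + 1 := by positivity
    rw [div_lt_div_iff₀ (by positivity) h1]
    nlinarith

theorem aDens_pd_zero {n : ℕ} [NeZero n] {F : Type*} [NormedAddCommGroup F] [NormedSpace ℝ F]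
    {f : E n → F} {x : E n} (hx : x ∉ tsupport f) (j : Fin n) : pd j f x = 0 := by
  have h1 : f =ᶠ[𝓝 x] 0 := notMem_tsupport_iff_eventuallyEq.1 hx
  have h2 : f =ᶠ[𝓝[Hs n] x] (fun _ => (0 : F)) := h1.filter_mono nhdsWithin_le_nhds
  unfold pd
  rw [h2.fderivWithin_eq (h1.self_of_nhds)]
  simp

theorem aDens_pd_eq {n : ℕ} [NeZero n] {F : Type*} [NormedAddCommGroup F] [NormedSpace ℝ F]
    {O : Set (E n)} (hO : IsOpen O) (hOs : O ⊆ Hs n) (f : E n → F) {x : E n} (hx : x ∈ O)
    (j : Fin n) : pd j f x = fderiv ℝ f x (ev j) := by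
  unfold pd
  rw [fderivWithin_of_mem_nhds (mem_of_superset (hO.mem_nhds hx) hOs)]

theorem aDens : ADens_statement := by
  intro n N _ O φ hO hOs hφ hc hsupp
  obtain ⟨δ, hδ, hδO⟩ := hc.isCompact.exists_cthickening_subset_open hO hsupp
  let K : Set (E n) := Metric.cthickening δ (tsupport φ)
  have hK : IsCompact K := hc.isCompact.cthickening
  let ψ : ℕ → E n → Fib N := fun m =>
    (aDens_bump (n := n) δ hδ m).normed volume ⋆[ContinuousLinearMap.lsmul ℝ ℝ, volume] φ
  have hφc : Continuous φ := hφ.continuous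
  have hφl : LocallyIntegrable φ := hφc.locallyIntegrable
  have hsm : ∀ m, ContDiff ℝ ∞ (ψ m) := fun m =>
    (aDens_bump (n := n) δ hδ m).hasCompactSupport_normed.contDiff_convolution_left _
      (aDens_bump (n := n) δ hδ m).contDiff_normed hφl
  have hts : ∀ m, tsupport (ψ m) ⊆ K := by
    intro m
    refine closure_minimal ?_ Metric.isClosed_cthickening
    refine (support_convolution_subset _).trans ?_
    rw [ContDiffBump.support_normed_eq]
    show _ ⊆ Metric.cthickening δ (tsupport φ)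
    rw [← IsCompact.closedBall_zero_add hc hδ.le]
    refine add_subset_add ?_ (subset_tsupport φ)
    refine Metric.ball_subset_closedBall.trans (Metric.closedBall_subset_closedBall ?_)
    show δ / ((m : ℝ) + 1) ≤ δ
    exact div_le_self hδ.le (by
      have : (0 : ℝ) ≤ m := Nat.cast_nonneg m
      linarith only [])
  have hφK : tsupport φ ⊆ K := Metric.self_subset_cthickening _
  have hcψ : ∀ m, HasCompactSupport (ψ m) := fun m =>
    hK.of_isClosed_subset (isClosed_tsupport _) (hts m)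
  have hfd : ∀ m x, fderiv ℝ (ψ m) x =
      ((aDens_bump (n := n) δ hδ m).normed volume ⋆[ContinuousLinearMap.lsmul ℝ ℝ, volume]
        (fderiv ℝ φ)) x := by
    intro m x
    have h1 := hc.hasFDerivAt_convolution_right (ContinuousLinearMap.lsmul ℝ ℝ)
      (μ := volume) ((aDens_bump (n := n) δ hδ m).contDiff_normed (n := 0) (μ := volume)).continuous.locallyIntegrable hφ x
    rw [h1.fderiv]
    rw [convolution_def, convolution_def]
    congr 1
  have huc : UniformContinuous φ := hc.uniformContinuous_of_continuous hφc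
  have hfc : Continuous (fderiv ℝ φ) := hφ.continuous_fderiv (by norm_num)
  have huc' : UniformContinuous (fderiv ℝ φ) :=
    (hc.fderiv ℝ).uniformContinuous_of_continuous hfc
  refine ⟨K, ψ, hK, hδO, fun m => ⟨⟨hsm m, hcψ m, (hts m).trans hδO⟩, hts m⟩, ?_⟩
  intro ε hε
  obtain ⟨δ₁, hδ₁, h₁⟩ := Metric.uniformContinuous_iff.mp huc ε hε
  obtain ⟨δ₂, hδ₂, h₂⟩ := Metric.uniformContinuous_iff.mp huc' ε hε
  obtain ⟨m₀, hm₀⟩ := exists_nat_gt (δ / min δ₁ δ₂)
  refine ⟨m₀, fun m hm x => ?_⟩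
  have hmin : 0 < min δ₁ δ₂ := lt_min hδ₁ hδ₂
  have hr : (aDens_bump (n := n) δ hδ m).rOut < min δ₁ δ₂ := by
    show δ / ((m : ℝ) + 1) < min δ₁ δ₂
    rw [div_lt_iff₀ (by (clear * -; positivity))]
    rw [div_lt_iff₀ hmin] at hm₀
    have : (m₀ : ℝ) ≤ m := by exact_mod_cast hm
    nlinarith only [hδ, hm₀, this]
  have hd1 : dist (ψ m x) (φ x) ≤ ε := by
    refine ContDiffBump.dist_normed_convolution_le hφc.aestronglyMeasurable ?_
    intro y hy
    exact (h₁ ((Metric.mem_ball.1 hy).trans (hr.trans_le (min_le_left _ _)))).le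
  have hd2 : dist (fderiv ℝ (ψ m) x) (fderiv ℝ φ x) ≤ ε := by
    rw [hfd]
    refine ContDiffBump.dist_normed_convolution_le hfc.aestronglyMeasurable ?_
    intro y hy
    exact (h₂ ((Metric.mem_ball.1 hy).trans (hr.trans_le (min_le_right _ _)))).le
  refine ⟨by rwa [← dist_eq_norm], fun j => ?_⟩
  by_cases hx : x ∈ K
  · rw [aDens_pd_eq hO hOs _ (hδO hx), aDens_pd_eq hO hOs _ (hδO hx),
      ← sub_apply]
    refine (ContinuousLinearMap.le_opNorm _ _).trans ?_
    rw [← dist_eq_norm]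
    simpa only [PiLp.norm_single, norm_one, mul_one] using hd2
  · rw [aDens_pd_zero (fun h => hx (hts m h)), aDens_pd_zero (fun h => hx (hφK h)), sub_zero,
      norm_zero]
    exact hε.le

end Vale.Agent.P088.EYM
end
end

section

/-!
# P088-EYM, block A: higher `L²` bounds by induction
-/

open MeasureTheory Set Filter Topology
open scoped ContDiff

noncomputable section

namespace Vale.Agent.P088.EYM

theorem aihigh_mono {n : ℕ} [NeZero n] {ι : Type} [Fintype ι] {O : Set (E n)}
    {u : ι → E n → ℝ} (hu : ∀ b, ContDiffOn ℝ ∞ (u b) O) {z : E n} {s t : ℝ} (hst : s ≤ t)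
    (ht : Metric.closedBall z t ⊆ O) (b : ι) :
    ∫ x in Metric.ball z s, (u b x) ^ 2 ≤ ∑ b, ∫ x in Metric.ball z t, (u b x) ^ 2 := by
  have hcont : ContinuousOn (fun x => (u b x) ^ 2) (Metric.closedBall z t) :=
    ((hu b).continuousOn.mono ht).pow 2
  have hint : IntegrableOn (fun x => (u b x) ^ 2) (Metric.ball z t) :=
    (hcont.integrableOn_compact (isCompact_closedBall z t)).mono_set Metric.ball_subset_closedBall
  calc ∫ x in Metric.ball z s, (u b x) ^ 2 ≤ ∫ x in Metric.ball z t, (u b x) ^ 2 :=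
        setIntegral_mono_set hint (ae_of_all _ fun x => sq_nonneg _)
          (Metric.ball_subset_ball hst).eventuallyLE
    _ ≤ ∑ b, ∫ x in Metric.ball z t, (u b x) ^ 2 :=
        Finset.single_le_sum (f := fun b => ∫ x in Metric.ball z t, (u b x) ^ 2)
          (fun c _ => integral_nonneg fun x => sq_nonneg _) (Finset.mem_univ b)

theorem aIHigh : AICacc_statement → AIProl_statement → AIHigh_statement := by
  intro hC hP n _ m
  induction m with
  | zero =>
    intro ι _ S O _ _ _ z s t hst ht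
    refine ⟨1, zero_le_one, fun u hu b l hl => ?_⟩
    have hl0 : l = [] := List.length_eq_zero_iff.1 (by omega)
    subst hl0
    rw [one_mul]
    exact aihigh_mono hu.1 hst.le ht b
  | succ m ih =>
    intro ι _ S O hO hOH hS z s t hst ht
    obtain ⟨S', hS', hprol⟩ := hP n ι S O hO hOH hS
    have h1 : s < (s + t) / 2 := by linarith only [hst]
    have h2 : (s + t) / 2 < t := by linarith only [hst]
    have hb : Metric.closedBall z ((s + t) / 2) ⊆ O :=
      (Metric.closedBall_subset_closedBall h2.le).trans ht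
    obtain ⟨C₁, hC₁, H₁⟩ := ih (Option (Fin n) × ι) S' O hO hOH hS' z s ((s + t) / 2) h1 hb
    obtain ⟨C₂, hC₂, H₂⟩ := hC n ι S O hO hOH hS z ((s + t) / 2) t h2 ht
    set κ : ℝ := (Fintype.card (Option (Fin n) × ι) : ℝ) with hκ
    have hκ0 : 0 ≤ κ := Nat.cast_nonneg _
    refine ⟨1 + C₁ * (κ * (1 + C₂)), by positivity, fun u hu b l hl => ?_⟩
    set Q : ℝ := ∑ b, ∫ x in Metric.ball z t, (u b x) ^ 2 with hQ
    have hQ0 : 0 ≤ Q := Finset.sum_nonneg fun c _ => integral_nonneg fun x => sq_nonneg _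
    rcases List.eq_nil_or_concat l with rfl | ⟨l', i, rfl⟩
    · calc ∫ x in Metric.ball z s, (pdl [] (u b) x) ^ 2 ≤ Q := aihigh_mono hu.1 hst.le ht b
        _ ≤ (1 + C₁ * (κ * (1 + C₂))) * Q := by
            have : 0 ≤ C₁ * (κ * (1 + C₂)) * Q := by positivity
            linarith only [this]
    · rw [List.concat_eq_append] at hl ⊢
      have e1 : pdl (l' ++ [i]) (u b) = pdl l' (prol u (some i, b)) := by
        unfold pdl
        rw [List.foldr_append]
        rfl
      have hl' : l'.length ≤ m := by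
        rw [List.length_append, List.length_singleton] at hl
        omega
      rw [e1]
      have hp : ∀ p : Option (Fin n) × ι,
          ∫ x in Metric.ball z ((s + t) / 2), (prol u p x) ^ 2 ≤ (1 + C₂) * Q := by
        rintro ⟨o, c⟩
        rcases o with _ | j
        · calc ∫ x in Metric.ball z ((s + t) / 2), (prol u (none, c) x) ^ 2 ≤ Q :=
                aihigh_mono hu.1 h2.le ht c
            _ ≤ (1 + C₂) * Q := by
                have : 0 ≤ C₂ * Q := by (clear * - hC₂; positivity)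
                linarith only [this]
        · calc ∫ x in Metric.ball z ((s + t) / 2), (prol u (some j, c) x) ^ 2 ≤ C₂ * Q :=
                H₂ u hu c j
            _ ≤ (1 + C₂) * Q := by linarith only [hQ0]
      calc ∫ x in Metric.ball z s, (pdl l' (prol u (some i, b)) x) ^ 2
          ≤ C₁ * ∑ p, ∫ x in Metric.ball z ((s + t) / 2), (prol u p x) ^ 2 :=
            H₁ (prol u) (hprol u hu) (some i, b) l' hl'
        _ ≤ C₁ * ∑ _p : Option (Fin n) × ι, (1 + C₂) * Q := by
            gcongr with p _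
            exact hp p
        _ = C₁ * (κ * (1 + C₂)) * Q := by
            rw [Finset.sum_const, Finset.card_univ, nsmul_eq_mul, ← hκ]
            ring
        _ ≤ (1 + C₁ * (κ * (1 + C₂))) * Q := by linarith only [hQ0]

end Vale.Agent.P088.EYM
end
end

section

set_option linter.all false

/-!
# P088-EYM, A17: unique continuation for smooth solutions from the boundary
-/

open MeasureTheory Set Filter Topology
open scoped ContDiff

noncomputable section

namespace Vale.Agent.P088.EYM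

section div

variable {n : ℕ} [NeZero n]

theorem linBd_measHs : MeasurableSet (Hs n) := isClosed_Hs.measurableSet

/-- divergence theorem on the half space -/
theorem linBd_div (Y : Fin n → E n → ℂ) (hY : ∀ k, ContDiffOn ℝ 1 (Y k) (Hs n)) (R : ℝ)
    (hR : ∀ k, ∀ x ∈ Hs n, R ≤ ‖x‖ → Y k x = 0) (h0 : ∀ x ∈ Hs n, x 0 = 0 → Y 0 x = 0) :
    ∫ x in Hs n, ∑ k, pd k (Y k) x = 0 := by
  obtain ⟨m, rfl⟩ : ∃ m, n = m + 1 := Nat.exists_eq_succ_of_ne_zero (NeZero.ne n)
  set R' : ℝ := max R 0 + 1 with hR'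
  have hR1 : R < R' := by have := le_max_left R 0; linarith only [this]
  have hR0 : 0 < R' := by have := le_max_right R 0; linarith
  set TL : (Fin (m + 1) → ℝ) →L[ℝ] E (m + 1) :=
    (PiLp.continuousLinearEquiv 2 ℝ (fun _ : Fin (m + 1) => ℝ)).symm.toContinuousLinearMap with hTL
  have hTc : ∀ (p : Fin (m + 1) → ℝ) i, TL p i = p i := fun p i => rfl
  set a : Fin (m + 1) → ℝ := fun i => if i = 0 then 0 else -R' with ha
  set b : Fin (m + 1) → ℝ := fun _ => R' with hb
  have hab : a ≤ b := by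
    intro i
    simp only [ha, hb]
    split_ifs <;> linarith only [hR0]
  have hbox : ∀ p ∈ Icc a b, TL p ∈ Hs (m + 1) := by
    intro p hp
    have h := hp.1 0
    simp only [ha, if_true] at h
    exact h
  have hnorm : ∀ (p : Fin (m + 1) → ℝ) i, |p i| ≤ ‖TL p‖ := by
    intro p i
    have := EuclideanSpace.norm_eq (TL p)
    have h2 := PiLp.norm_apply_le (TL p) i
    rwa [hTc, Real.norm_eq_abs] at h2
  -- transfer
  have e1 : ∫ x in Hs (m + 1), ∑ k, pd k (Y k) x =
      ∫ p in TL ⁻¹' (Hs (m + 1)), ∑ k, pd k (Y k) (TL p) := by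
    have hmp : MeasurePreserving (fun p : Fin (m + 1) → ℝ => (WithLp.toLp 2 p : E (m + 1))) :=
      PiLp.volume_preserving_toLp (Fin (m + 1))
    have := hmp.setIntegral_preimage_emb
      (MeasurableEquiv.toLp 2 (Fin (m + 1) → ℝ)).measurableEmbedding
      (fun x => ∑ k, pd k (Y k) x) (Hs (m + 1))
    exact this.symm
  have e2 : ∫ p in TL ⁻¹' (Hs (m + 1)), ∑ k, pd k (Y k) (TL p) =
      ∫ p in Icc a b, ∑ k, pd k (Y k) (TL p) := by
    refine setIntegral_eq_of_subset_of_forall_diff_eq_zero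
      (TL.continuous.measurable linBd_measHs) (fun p hp => hbox p hp) ?_
    intro p hp
    have hbig : ∃ i, R' < |p i| := by
      by_contra hcon
      push Not at hcon
      refine hp.2 ⟨fun i => ?_, fun i => (abs_le.1 (hcon i)).2⟩
      simp only [ha]
      split_ifs with hi
      · have h3 : 0 ≤ (TL p) 0 := hp.1
        rw [hTc] at h3
        rw [hi]
        exact h3
      · exact (abs_le.1 (hcon i)).1
    obtain ⟨i, hi⟩ := hbig
    have hlt : R < ‖TL p‖ := hR1.trans (hi.trans_le (hnorm p i))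
    apply Finset.sum_eq_zero
    intro k _
    have h4 : Y k =ᶠ[𝓝[Hs (m + 1)] (TL p)] fun _ => 0 := by
      have h5 : {x : E (m + 1) | R < ‖x‖} ∈ 𝓝 (TL p) :=
        (isOpen_lt continuous_const continuous_norm).mem_nhds hlt
      filter_upwards [mem_nhdsWithin_of_mem_nhds h5, self_mem_nhdsWithin] with x hx1 hx2
      exact hR k x hx2 (le_of_lt hx1)
    unfold pd
    rw [h4.fderivWithin_eq (hR k _ hp.1 hlt.le), fderivWithin_const_apply]
    rfl
  rw [e1, e2]
  -- the divergence theorem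
  have key := integral_divergence_of_hasFDerivAt_off_countable' a b hab
    (fun i p => Y i (TL p))
    (fun i p => (fderivWithin ℝ (Y i) (Hs (m + 1)) (TL p)).comp TL) ∅ countable_empty ?_ ?_ ?_
  · have e3 : ∀ p : Fin (m + 1) → ℝ, ∑ i, ((fderivWithin ℝ (Y i) (Hs (m + 1)) (TL p)).comp TL)
        (Pi.single i 1) = ∑ k, pd k (Y k) (TL p) := fun p => rfl
    simp only [e3] at key
    rw [key]
    apply Finset.sum_eq_zero
    intro i _
    have hx : ∀ x ∈ Icc (a ∘ i.succAbove) (b ∘ i.succAbove), ∀ s, a i ≤ s → s ≤ b i →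
        i.insertNth s x ∈ Icc a b := by
      intro x hx s hs1 hs2
      rw [Fin.insertNth_mem_Icc]
      exact ⟨⟨hs1, hs2⟩, hx⟩
    have z1 : ∀ x ∈ Icc (a ∘ i.succAbove) (b ∘ i.succAbove),
        Y i (TL (i.insertNth (b i) x)) = 0 := by
      intro x hx'
      refine hR i _ (hbox _ (hx x hx' _ (hab i) le_rfl)) ?_
      have := hnorm (i.insertNth (b i) x) i
      rw [Fin.insertNth_apply_same] at this
      have h6 : |b i| = R' := abs_of_pos hR0
      linarith only [hR1, this, h6]
    have z2 : ∀ x ∈ Icc (a ∘ i.succAbove) (b ∘ i.succAbove),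
        Y i (TL (i.insertNth (a i) x)) = 0 := by
      intro x hx'
      have hin := hbox _ (hx x hx' _ le_rfl (hab i))
      by_cases hi : i = 0
      · have h7 : (TL (i.insertNth (a i) x)) 0 = 0 := by
          rw [hTc]
          have h8 : (i.insertNth (a i) x : Fin (m + 1) → ℝ) i = a i := Fin.insertNth_apply_same _ _ _
          rw [hi] at h8 ⊢
          rw [h8]
          simp [ha]
        have h9 := h0 _ hin h7
        rw [hi] at h9 ⊢
        exact h9
      · refine hR i _ hin ?_
        have := hnorm (i.insertNth (a i) x) i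
        rw [Fin.insertNth_apply_same] at this
        have h6 : |a i| = R' := by
          simp only [ha, if_neg hi, abs_neg]
          exact abs_of_pos hR0
        linarith only [hR1, this, h6]
    rw [setIntegral_congr_fun measurableSet_Icc z1, setIntegral_congr_fun measurableSet_Icc z2]
    simp only [integral_zero, sub_self]
  · intro i
    exact (hY i).continuousOn.comp TL.continuous.continuousOn hbox
  · intro p hp i
    have hp1 := hp.1
    rw [mem_univ_pi] at hp1
    have hpos : 0 < (TL p) 0 := by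
      have := (hp1 0).1
      simp only [ha, if_true] at this
      rw [hTc]
      exact this
    have hn : Hs (m + 1) ∈ 𝓝 (TL p) := mem_interior_iff_mem_nhds.1 (open_pos_subset hpos)
    have hd := (((hY i).differentiableOn one_ne_zero) (TL p) hpos.le).hasFDerivWithinAt.hasFDerivAt hn
    exact hd.comp p TL.hasFDerivAt
  · have h10 : ContinuousOn (fun p => ∑ i, ((fderivWithin ℝ (Y i) (Hs (m + 1)) (TL p)).comp TL)
        (Pi.single i 1)) (Icc a b) := by
      apply continuousOn_finsetSum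
      intro i _
      have h11 : ContinuousOn (fun p => fderivWithin ℝ (Y i) (Hs (m + 1)) (TL p)) (Icc a b) :=
        ((hY i).continuousOn_fderivWithin uniqueDiffOn_Hs le_rfl).comp TL.continuous.continuousOn
          hbox
      exact h11.clm_apply continuousOn_const
    exact h10.integrableOn_compact isCompact_Icc

end div

section green

variable {n N : ℕ} [NeZero n]

theorem linBd_smooth_inner {D : Set (E n)} {m : WithTop ℕ∞} {u v : E n → Fib N}
    (hu : ContDiffOn ℝ m u D) (hv : ContDiffOn ℝ m v D) :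
    ContDiffOn ℝ m (fun y => (inner ℂ (u y) (v y) : ℂ)) D :=
  (isBoundedBilinearMap_inner (𝕜 := ℂ) (E := Fib N)).contDiff.comp_contDiffOn (hu.prodMk hv)

theorem linBd_pd_inner {D : Set (E n)} (hD : RelOpen D) {u v : E n → Fib N}
    (hu : ContDiffOn ℝ ∞ u D) (hv : ContDiffOn ℝ ∞ v D) {x : E n} (hx : x ∈ D) (i : Fin n) :
    pd i (fun y => (inner ℂ (u y) (v y) : ℂ)) x =
      inner ℂ (u x) (pd i v x) + inner ℂ (pd i u x) (v x) := by
  have h1 := ((isBoundedBilinearMap_inner (𝕜 := ℂ) (E := Fib N)).hasFDerivAt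
    (u x, v x)).comp_hasFDerivWithinAt x
    ((hD.hasD hx hu (by simp)).prodMk (hD.hasD hx hv (by simp)))
  have h2 : HasFDerivWithinAt (fun y => (inner ℂ (u y) (v y) : ℂ)) _ (Hs n) x := h1
  rw [pd_of_has (hD.subset hx) h2 i]
  rfl

theorem linBd_rsmul (r : ℝ) (v w : Fib N) :
    (inner ℂ (r • v) w : ℂ) = (r : ℂ) * inner ℂ v w := by
  have := (isBoundedBilinearMap_inner (𝕜 := ℂ) (E := Fib N)).smul_left r v w
  rw [← Complex.real_smul]
  exact this

theorem linBd_flux_smooth {D : Set (E n)} (hD : RelOpen D) {L : LD n N} (hL : L.Ok D)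
    {c : E n → Fib N} (hc : ContDiffOn ℝ ∞ c D) (j : Fin n) : ContDiffOn ℝ ∞ (flux L j c) D := by
  have h : ContDiffOn ℝ ∞ (fun x => ∑ k, gg L.g j k x • nab L k c x) D :=
    ContDiffOn.sum fun k _ => (hD.gg_smooth hL.g_smooth hL.g_pos j k).smul
      (Jacobi_nab_smooth hD hL hc k)
  exact h

/-- divergence of the flux paired with a test section -/
theorem linBd_id {D : Set (E n)} (hD : RelOpen D) {L : LD n N} (hL : L.Ok D)
    {c ψ : E n → Fib N} (hc : ContDiffOn ℝ ∞ c D) (hψ : ContDiffOn ℝ ∞ ψ D) {x : E n}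
    (hx : x ∈ D) :
    ∑ k, pd k (fun y => (inner ℂ (flux L k c y) (L.h y (ψ y)) : ℂ)) x =
      inner ℂ (Lop L c x) (L.h x (ψ x)) + ed L c ψ x := by
  have hφ : ∀ k, ContDiffOn ℝ ∞ (flux L k c) D := linBd_flux_smooth hD hL hc
  have hhψ : ContDiffOn ℝ ∞ (fun y => L.h y (ψ y)) D := smooth_eval hL.h_smooth hψ
  have h1 : ∀ k, pd k (fun y => (inner ℂ (flux L k c y) (L.h y (ψ y)) : ℂ)) x =
      inner ℂ (pd k (flux L k c) x + L.B k x (flux L k c x)) (L.h x (ψ x)) +
      inner ℂ (flux L k c x) (L.h x (nab L k ψ x)) := by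
    intro k
    rw [linBd_pd_inner hD (hφ k) hhψ hx k,
      hD.pd_eval hL.h_smooth hψ (by simp) (by simp) hx k, hL.compat x hx k]
    have e1 : (ContinuousLinearMap.adjoint (L.B k x) * L.h x + L.h x * L.B k x) (ψ x) =
        ContinuousLinearMap.adjoint (L.B k x) (L.h x (ψ x)) + L.h x (L.B k x (ψ x)) := rfl
    rw [e1, nab, map_add, inner_add_left, inner_add_right, inner_add_right, inner_add_right,
      ContinuousLinearMap.adjoint_inner_right]
    ring
  rw [Finset.sum_congr rfl fun k _ => h1 k, Finset.sum_add_distrib, ← sum_inner]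
  congr 1
  have h2 : ∀ k, (inner ℂ (flux L k c x) (L.h x (nab L k ψ x)) : ℂ) =
      ∑ j, (gg L.g j k x : ℂ) * inner ℂ (nab L j c x) (L.h x (nab L k ψ x)) := by
    intro k
    rw [flux, sum_inner]
    refine Finset.sum_congr rfl fun j _ => ?_
    rw [linBd_rsmul, eqs_gg_symm hL hx k j]
  rw [Finset.sum_congr rfl fun k _ => h2 k, Finset.sum_comm]
  rfl

theorem linBd_relOpen (z : E n) (r : ℝ) : RelOpen (HB z r) := ⟨_, Metric.isOpen_ball, rfl⟩

theorem linBd_okMono {L : LD n N} {D D' : Set (E n)} (h : L.Ok D) (hD : D' ⊆ D) : L.Ok D' where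
  g_smooth := fun i j => (h.g_smooth i j).mono hD
  g_pos := fun x hx => h.g_pos x (hD hx)
  B_smooth := fun i => (h.B_smooth i).mono hD
  h_smooth := h.h_smooth.mono hD
  h_adj := fun x hx => h.h_adj x (hD hx)
  h_pos := fun x hx => h.h_pos x (hD hx)
  compat := fun x hx => h.compat x (hD hx)

theorem linBd_HB_mono {z : E n} {r r' : ℝ} (h : r' ≤ r) : HB z r' ⊆ HB z r :=
  inter_subset_inter_left _ (Metric.ball_subset_ball h)

/-- a solution with vanishing flux is orthogonal to all tests -/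
theorem linBd_En {L : LD n N} {z : E n} {r r₁ : ℝ} (hr : r₁ ≤ r) (hL : L.Ok (HB z r))
    {c : E n → Fib N} (hc : Sol L (HB z r) c)
    (hflux : ∀ x ∈ HB z r, x 0 = 0 → flux L 0 c x = 0) {ψ : E n → Fib N}
    (hψ : Tst0 (Metric.ball z r₁) ψ) : En L (HB z r₁) c ψ = 0 := by
  have hD := linBd_relOpen z r
  set Y : Fin n → E n → ℂ := fun k y => inner ℂ (flux L k c y) (L.h y (ψ y)) with hYdef
  have hY0 : ∀ k, ∀ x, x ∉ tsupport ψ → Y k =ᶠ[𝓝 x] fun _ => 0 := by
    intro k x hx
    filter_upwards [(isClosed_tsupport ψ).isOpen_compl.mem_nhds hx] with y hy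
    simp only [hYdef]
    rw [image_eq_zero_of_notMem_tsupport hy, map_zero, inner_zero_right]
  have hYs : ∀ k, ContDiffOn ℝ ∞ (Y k) (Hs n) := by
    intro k x hx
    by_cases hxb : x ∈ Metric.ball z r
    · have h1 : ContDiffOn ℝ ∞ (Y k) (HB z r) :=
        linBd_smooth_inner (linBd_flux_smooth hD hL hc.1 k)
          (smooth_eval hL.h_smooth hψ.1.contDiffOn)
      exact (h1 x ⟨hxb, hx⟩).mono_of_mem_nhdsWithin (hD.mem_nhds ⟨hxb, hx⟩)
    · have hxs : x ∉ tsupport ψ := fun h => hxb (Metric.ball_subset_ball hr (hψ.2.2 h))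
      exact (contDiffAt_const.congr_of_eventuallyEq (hY0 k x hxs)).contDiffWithinAt
  obtain ⟨R, hR⟩ := hψ.2.1.isBounded.exists_norm_le
  have hdiv := linBd_div Y (fun k => (hYs k).of_le (by simp only [WithTop.one_le_coe, le_top])) (R + 1)
    (fun k x hx hxR => by
      have : x ∉ tsupport ψ := fun h => by
        have := hR x h
        linarith only [hxR, this]
      exact (hY0 k x this).self_of_nhds)
    (fun x hx hx0 => by
      by_cases hxb : x ∈ Metric.ball z r
      · simp only [hYdef]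
        rw [hflux x ⟨hxb, hx⟩ hx0, inner_zero_left]
      · have hxs : x ∉ tsupport ψ := fun h => hxb (Metric.ball_subset_ball hr (hψ.2.2 h))
        exact (hY0 0 x hxs).self_of_nhds)
  have hmeas : MeasurableSet (HB z r₁) := Metric.isOpen_ball.measurableSet.inter linBd_measHs
  have e1 : En L (HB z r₁) c ψ = ∫ x in HB z r₁, ∑ k, pd k (Y k) x := by
    unfold En
    refine setIntegral_congr_fun hmeas fun x hx => ?_
    have hx' := linBd_HB_mono hr hx
    have h3 := linBd_id hD hL hc.1 hψ.1.contDiffOn hx'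
    rw [hc.2 x hx', inner_zero_left, zero_add] at h3
    exact h3.symm
  have e2 : ∫ x in Hs n, ∑ k, pd k (Y k) x = ∫ x in HB z r₁, ∑ k, pd k (Y k) x := by
    refine setIntegral_eq_of_subset_of_forall_diff_eq_zero linBd_measHs inter_subset_right ?_
    intro x hx
    have hxs : x ∉ tsupport ψ := fun h => hx.2 ⟨hψ.2.2 h, hx.1⟩
    apply Finset.sum_eq_zero
    intro k _
    unfold pd
    rw [(Filter.EventuallyEq.filter_mono (hY0 k x hxs) nhdsWithin_le_nhds).fderivWithin_eq
      (hY0 k x hxs).self_of_nhds, fderivWithin_const_apply]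
    rfl
  rw [e1, ← e2, hdiv]

end green

theorem aLinBd : AUcpBd_statement → LinInt_statement → LinBd_statement := by
  intro hU hI n N _ L z r hr hz hL c hc hfl
  have hD := linBd_relOpen z r
  have hr1 : r / 2 ≤ r := by linarith only [hr]
  have hsub : HB z (r / 2) ⊆ HB z r := linBd_HB_mono hr1
  have hcl : Metric.closedBall z (r / 2) ∩ Hs n ⊆ HB z r :=
    inter_subset_inter_left _ (Metric.closedBall_subset_ball (by linarith only [hr]))
  have hint : IntegrableOn (fun x => ‖c x‖ ^ 2 + ∑ j, ‖pd j c x‖ ^ 2) (HB z (r / 2)) := by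
    have h1 : ContinuousOn (fun x => ‖c x‖ ^ 2 + ∑ j, ‖pd j c x‖ ^ 2)
        (Metric.closedBall z (r / 2) ∩ Hs n) := by
      refine ContinuousOn.mono ?_ hcl
      refine (hc.1.continuousOn.norm.pow 2).add ?_
      exact continuousOn_finsetSum _ fun j _ => ((hD.pd_smooth hc.1 j).continuousOn.norm.pow 2)
    exact (h1.integrableOn_compact ((isCompact_closedBall _ _).inter_right isClosed_Hs)).mono_set
      (inter_subset_inter_left _ Metric.ball_subset_closedBall)
  obtain ⟨r', hr'0, hr'1, hlim⟩ := hU n N L z (r / 2) (by linarith only [hr]) hz (linBd_okMono hL hsub)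
    (fun _ => c) (fun _ => hc.1.mono hsub) (fun _ x hx hx0 => (hfl x (hsub hx) hx0).1)
    (fun ε hε => ⟨0, fun k _ l _ => by
      have e : H1 (HB z (r / 2)) (fun x => c x - c x) = 0 := by
        unfold H1
        have h0 : (fun x : E n => c x - c x) = fun _ => 0 := by
          funext x
          exact sub_self _
        rw [h0]
        have h2 : ∀ x : E n, ‖(0 : Fib N)‖ ^ 2 + ∑ j : Fin n, ‖pd j (fun _ : E n => (0 : Fib N)) x‖ ^ 2
            = 0 := by
          intro x
          simp only [norm_zero, ne_eq, OfNat.ofNat_ne_zero, not_false_eq_true, zero_pow, pd_const, Finset.sum_const_zero, add_zero]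
        simp only [h2]
        simp
      rw [e]
      exact hε.le⟩)
    (fun _ => hint)
    (fun ψ hψ => by
      rw [linBd_En hr1 hL hc (fun x hx hx0 => (hfl x hx hx0).2) hψ]
      exact tendsto_const_nhds)
  have h0 : ∫ x in HB z r', ‖c x‖ ^ 2 = 0 := tendsto_nhds_unique tendsto_const_nhds hlim
  have hr'r : r' ≤ r := hr'1.trans hr1
  -- vanishing on a small open set
  set U : Set (E n) := Metric.ball z r' ∩ {x | 0 < x 0} with hUdef
  have hUo : IsOpen U := Metric.isOpen_ball.inter (isOpen_lt continuous_const (continuous_coord 0))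
  have hUsub : U ⊆ HB z r' := fun x hx => ⟨hx.1, le_of_lt (show 0 < x 0 from hx.2)⟩
  have hUc : ContinuousOn (fun x => ‖c x‖ ^ 2) U :=
    (hc.1.continuousOn.norm.pow 2).mono (hUsub.trans (linBd_HB_mono hr'r))
  have hUz : ∀ x ∈ U, c x = 0 := by
    have hint2 : IntegrableOn (fun x => ‖c x‖ ^ 2) (HB z r') := by
      have h1 : ContinuousOn (fun x => ‖c x‖ ^ 2) (Metric.closedBall z (r / 2) ∩ Hs n) :=
        (hc.1.continuousOn.norm.pow 2).mono hcl
      exact (h1.integrableOn_compact ((isCompact_closedBall _ _).inter_right isClosed_Hs)).mono_set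
        ((linBd_HB_mono hr'1).trans (inter_subset_inter_left _ Metric.ball_subset_closedBall))
    have h1 : (fun x => ‖c x‖ ^ 2) =ᵐ[volume.restrict (HB z r')] 0 :=
      (integral_eq_zero_iff_of_nonneg (fun x => by (clear * -; positivity)) hint2).1 h0
    have h2 : (fun x => ‖c x‖ ^ 2) =ᵐ[volume.restrict U] fun _ => 0 :=
      ae_restrict_of_ae_restrict_of_subset hUsub h1
    have h3 := Measure.eqOn_open_of_ae_eq h2 hUo hUc continuousOn_const
    intro x hx
    have h4 : ‖c x‖ ^ 2 = 0 := h3 hx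
    exact norm_eq_zero.1 (pow_eq_zero_iff two_ne_zero |>.1 h4)
  -- the open part
  set D : Set (E n) := Metric.ball z r ∩ {x | 0 < x 0} with hDdef
  have hDo : IsOpen D := Metric.isOpen_ball.inter (isOpen_lt continuous_const (continuous_coord 0))
  have hDsub : D ⊆ HB z r := fun x hx => ⟨hx.1, le_of_lt (show 0 < x 0 from hx.2)⟩
  have hDconv : Convex ℝ D := by
    refine (convex_ball z r).inter ?_
    intro x hx y hy a b ha hb hab
    simp only [mem_setOf_eq, PiLp.add_apply, PiLp.smul_apply, smul_eq_mul] at *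
    rcases ha.eq_or_lt with h | h
    · have : b = 1 := by linarith only [hab, h]
      rw [← h, this]
      (clear hU hI N L z r hr hz hL c hc hfl hD hr1 hsub hcl hint r' hr'0 hr'1 hlim h0 hr'r U hUdef hUo hUsub hUc hUz D hDdef hDo hDsub a b ha hb hab hx h this; linarith)
    · have := mul_pos h hx
      have := mul_nonneg hb hy.le
      (clear hU hI N L z r hr hz hL c hc hfl hD hr1 hsub hcl hint r' hr'0 hr'1 hlim h0 hr'r U hUdef hUo hUsub hUc hUz D hDdef hDo hDsub ha hab; linarith)
  have hne : U.Nonempty := by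
    refine ⟨z + (r' / 2) • ev 0, ?_, ?_⟩
    · rw [Metric.mem_ball, dist_eq_norm, add_sub_cancel_left, norm_smul,
        EuclideanSpace.norm_single, Real.norm_eq_abs, abs_of_pos (by (clear * - hr'0; positivity))]
      norm_num
      linarith only [hr'0]
    · simp only [mem_setOf_eq, PiLp.add_apply, PiLp.smul_apply, smul_eq_mul,
        EuclideanSpace.single_apply, if_true]
      rw [hz]
      (clear hU hI N L z r hr hz hL c hc hfl hD hr1 hsub hcl hint hr'1 hlim h0 hr'r U hUdef hUo hUsub hUc hUz D hDdef hDo hDsub hDconv; linarith)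
  have hcD : Sol L D c := ⟨hc.1.mono hDsub, fun x hx => hc.2 x (hDsub hx)⟩
  have hfin := hI n N L D hDo (hDsub.trans inter_subset_right) (linBd_okMono hL hDsub)
    hDconv.isPreconnected c hcD U hUo
    (inter_subset_inter_left _ (Metric.ball_subset_ball hr'r)) hne hUz
  intro x hx
  by_cases hx0 : x 0 = 0
  · exact (hfl x hx hx0).1
  · exact hfin x ⟨hx.1, lt_of_le_of_ne hx.2 (Ne.symm hx0)⟩

end Vale.Agent.P088.EYM
end
end

section

/-!
# P088-EYM, B-T6: energy of a pull back (change of variables)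
-/

open MeasureTheory Set Filter Topology
open scoped ContDiff

noncomputable section

namespace Vale.Agent.P088.EYM

variable {n N : ℕ} [NeZero n]

section Chain

variable {F : Type*} [NormedAddCommGroup F] [NormedSpace ℝ F]

/-- the entries of the Jacobian matrix -/
theorem energy_jac_apply {D : Set (E n)} (hD : RelOpen D) {X : E n → E n}
    (hX : ContDiffOn ℝ ∞ X D) {x : E n} (hx : x ∈ D) (i j : Fin n) :
    Jac X x i j = (fderivWithin ℝ X (Hs n) x (ev j)) i :=
  hD.pd_clm (EuclideanSpace.proj (𝕜 := ℝ) i) hX hx j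

/-- chain rule for functions of finite smoothness -/
theorem energy_pd_comp {D D' : Set (E n)} (hD : RelOpen D) (hD' : RelOpen D') {Y : E n → E n}
    (hY : ContDiffOn ℝ ∞ Y D) (hm : MapsTo Y D D') {m : WithTop ℕ∞} (hm0 : m ≠ 0) {f : E n → F}
    (hf : ContDiffOn ℝ m f D') {x : E n} (hx : x ∈ D) (i : Fin n) :
    pd i (fun y => f (Y y)) x = ∑ k, Jac Y x k i • pd k f (Y x) := by
  have h1 : HasFDerivWithinAt Y (fderivWithin ℝ Y (Hs n) x) D x :=
    (hD.hasD hx hY (by simp)).mono hD.subset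
  have h2 := (hD'.hasD (hm hx) hf hm0).comp x h1 (fun y hy => hD'.subset (hm hy))
  have h3 : HasFDerivWithinAt (fun y => f (Y y)) _ (Hs n) x :=
    h2.mono_of_mem_nhdsWithin (hD.mem_nhds hx)
  rw [pd_of_has (hD.subset hx) h3 i]
  simp only [ContinuousLinearMap.comp_apply]
  rw [fderivWithin_eq_sum]
  refine Finset.sum_congr rfl fun k _ => ?_
  rw [energy_jac_apply hD hY hx]

end Chain

/-- the covariant derivative of a pull back (same as `nab_pull`) -/
theorem energy_nab_pull {L L' : LD n N} {D D' : Set (E n)} {X Y : E n → E n} {S : E n → EndF N}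
    (hD : RelOpen D) (hD' : RelOpen D') (h : IsPull L L' D D' X Y S) {m : WithTop ℕ∞} (hm : m ≠ 0)
    {c : E n → Fib N} (hc : ContDiffOn ℝ m c D') {x : E n} (hx : x ∈ D) (j : Fin n) :
    nab L j (fun x => S x (c (X x))) x = S x (∑ k, Jac X x k j • nab L' k c (X x)) := by
  have hX := h.diffeo.smX
  have hm' : MapsTo X D D' := h.diffeo.mapsX
  have hcX : ContDiffOn ℝ (min m ∞) (fun x => c (X x)) D :=
    (hc.of_le (min_le_left _ _)).comp (hX.of_le (min_le_right _ _)) hm'
  have hmin : min m (∞ : WithTop ℕ∞) ≠ 0 := by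
    rcases min_choice m (∞ : WithTop ℕ∞) with h | h <;> rw [h]
    · exact hm
    · simp
  unfold nab
  rw [hD.pd_eval h.smS hcX (by simp) hmin hx j, energy_pd_comp hD hD' hX hm' hm hc hx j, add_assoc]
  have hB := congrArg (fun T : EndF N => T (c (X x))) (h.B_eq x hx j)
  have hB' : (pd j S x) (c (X x)) + (L.B j x) (S x (c (X x))) =
      S x ((∑ k, Jac X x k j • L'.B k (X x)) (c (X x))) := hB
  rw [hB', ← map_add]
  congr 1
  simp only [smul_add, Finset.sum_add_distrib]
  congr 1
  rw [_root_.sum_apply]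
  rfl

omit [NeZero n] in
/-- `J g⁻¹ Jᵀ = g'⁻¹` when `g = Jᵀ g' J`. -/
theorem energy_inv {J g g' : Matrix (Fin n) (Fin n) ℝ} (hg : g = J.transpose * g' * J)
    (h : g.det ≠ 0) : J * g⁻¹ * J.transpose = g'⁻¹ := by
  have hd : g.det = J.det * g'.det * J.det := by
    rw [hg, Matrix.det_mul, Matrix.det_mul, Matrix.det_transpose]
  have hJ : J.det ≠ 0 := fun h0 => h (by rw [hd, h0]; ring)
  have hJu : IsUnit J.det := isUnit_iff_ne_zero.mpr hJ
  have hJt : IsUnit J.transpose.det := by rw [Matrix.det_transpose]; exact hJu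
  rw [hg, Matrix.mul_inv_rev, Matrix.mul_inv_rev, ← Matrix.mul_assoc, Matrix.mul_nonsing_inv _ hJu,
    Matrix.one_mul, Matrix.mul_assoc, Matrix.nonsing_inv_mul _ hJt, Matrix.mul_one]

/-- the densitized inverse metric of a pull back -/
theorem energy_gg {L L' : LD n N} {D D' : Set (E n)} {X Y : E n → E n} {S : E n → EndF N}
    (hL : L.Ok D) (h : IsPull L L' D D' X Y S) {x : E n} (hx : x ∈ D) (p q : Fin n) :
    ∑ j, ∑ k, Jac X x p j * gg L.g j k x * Jac X x q k =
      |(Jac X x).det| * gg L'.g p q (X x) := by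
  have hg := h.g_eq x hx
  have hpos : 0 < (L.g x).det := (hL.g_pos x hx).det_pos
  have hd : (L.g x).det = (Jac X x).det ^ 2 * (L'.g (X x)).det := by
    rw [hg, Matrix.det_mul, Matrix.det_mul, Matrix.det_transpose]; ring
  have hi := energy_inv hg hpos.ne'
  have hs : Real.sqrt (L.g x).det = |(Jac X x).det| * Real.sqrt (L'.g (X x)).det := by
    rw [hd, Real.sqrt_mul (sq_nonneg _), Real.sqrt_sq_eq_abs]
  have hi' := congrFun (congrFun hi p) q
  rw [Matrix.mul_apply] at hi'
  simp only [Matrix.mul_apply, Matrix.transpose_apply] at hi'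
  unfold gg
  rw [hs, ← mul_assoc, ← hi', Finset.mul_sum, Finset.sum_comm]
  refine Finset.sum_congr rfl fun k _ => ?_
  rw [Finset.sum_mul, Finset.mul_sum]
  refine Finset.sum_congr rfl fun j _ => ?_
  ring

theorem ed_pull {L L' : LD n N} {D D' : Set (E n)} {X Y : E n → E n} {S : E n → EndF N}
    (hD : RelOpen D) (hD' : RelOpen D') (hL : L.Ok D) (hL' : L'.Ok D')
    (h : IsPull L L' D D' X Y S) {c d : E n → Fib N} (hc : ContDiffOn ℝ 1 c D')
    (hd : ContDiffOn ℝ 1 d D') {x : E n} (hx : x ∈ D) :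
    ed L (fun x => S x (c (X x))) (fun x => S x (d (X x))) x =
      |(Jac X x).det| * ed L' c d (X x) := by
  have _ := hL'
  have hin : ∀ a b : Fib N, inner ℂ (S x a) (L.h x (S x b)) = inner ℂ a (L'.h (X x) b) := by
    intro a b
    rw [← h.h_eq x hx]
    change _ = inner ℂ a (ContinuousLinearMap.adjoint (S x) (L.h x (S x b)))
    rw [ContinuousLinearMap.adjoint_inner_right]
  have hsum : ∀ j k, inner ℂ (nab L j (fun x => S x (c (X x))) x)
      (L.h x (nab L k (fun x => S x (d (X x))) x)) =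
      ∑ p, ∑ q, ((Jac X x p j : ℂ) * (Jac X x q k : ℂ)) *
        inner ℂ (nab L' p c (X x)) (L'.h (X x) (nab L' q d (X x))) := by
    intro j k
    rw [energy_nab_pull hD hD' h one_ne_zero hc hx j, energy_nab_pull hD hD' h one_ne_zero hd hx k,
      hin, sum_inner]
    refine Finset.sum_congr rfl fun p _ => ?_
    rw [map_sum, inner_sum]
    refine Finset.sum_congr rfl fun q _ => ?_
    have e1 : Jac X x p j • nab L' p c (X x) = (Jac X x p j : ℂ) • nab L' p c (X x) :=
      (Complex.coe_smul _ _).symm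
    have e2 : Jac X x q k • nab L' q d (X x) = (Jac X x q k : ℂ) • nab L' q d (X x) :=
      (Complex.coe_smul _ _).symm
    rw [e1, e2, map_smul, inner_smul_left, inner_smul_right, Complex.conj_ofReal]
    ring
  unfold ed
  simp only [hsum]
  have key : ∀ p q, (∑ j, ∑ k, (Jac X x p j : ℂ) * (gg L.g j k x : ℂ) * (Jac X x q k : ℂ)) =
      (|(Jac X x).det| : ℝ) * (gg L'.g p q (X x) : ℂ) := by
    intro p q
    have := congrArg (fun r : ℝ => (r : ℂ)) (energy_gg hL h hx p q)
    push_cast at this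
    exact_mod_cast this
  calc ∑ j, ∑ k, (gg L.g j k x : ℂ) * ∑ p, ∑ q, ((Jac X x p j : ℂ) * (Jac X x q k : ℂ)) *
        inner ℂ (nab L' p c (X x)) (L'.h (X x) (nab L' q d (X x)))
      = ∑ j, ∑ k, ∑ p, ∑ q, ((Jac X x p j : ℂ) * (gg L.g j k x : ℂ) * (Jac X x q k : ℂ)) *
        inner ℂ (nab L' p c (X x)) (L'.h (X x) (nab L' q d (X x))) := by
        refine Finset.sum_congr rfl fun j _ => Finset.sum_congr rfl fun k _ => ?_
        rw [Finset.mul_sum]
        refine Finset.sum_congr rfl fun p _ => ?_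
        rw [Finset.mul_sum]
        refine Finset.sum_congr rfl fun q _ => ?_
        ring
    _ = ∑ p, ∑ q, ∑ j, ∑ k, ((Jac X x p j : ℂ) * (gg L.g j k x : ℂ) * (Jac X x q k : ℂ)) *
        inner ℂ (nab L' p c (X x)) (L'.h (X x) (nab L' q d (X x))) := by
        have s1 : ∀ j, ∑ k, ∑ p, ∑ q, ((Jac X x p j : ℂ) * (gg L.g j k x : ℂ) * (Jac X x q k : ℂ)) *
            inner ℂ (nab L' p c (X x)) (L'.h (X x) (nab L' q d (X x))) =
            ∑ p, ∑ q, ∑ k, ((Jac X x p j : ℂ) * (gg L.g j k x : ℂ) * (Jac X x q k : ℂ)) *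
            inner ℂ (nab L' p c (X x)) (L'.h (X x) (nab L' q d (X x))) := by
          intro j
          rw [Finset.sum_comm]
          exact Finset.sum_congr rfl fun p _ => Finset.sum_comm
        simp only [s1]
        rw [Finset.sum_comm]
        exact Finset.sum_congr rfl fun p _ => Finset.sum_comm
    _ = _ := by
        rw [Finset.mul_sum]
        refine Finset.sum_congr rfl fun p _ => ?_
        rw [Finset.mul_sum]
        refine Finset.sum_congr rfl fun q _ => ?_
        simp only [← Finset.sum_mul]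
        rw [key, mul_assoc]

/-- the determinant of the derivative is the Jacobian determinant -/
theorem energy_det {D : Set (E n)} (hD : RelOpen D) {X : E n → E n}
    (hX : ContDiffOn ℝ ∞ X D) {x : E n} (hx : x ∈ D) :
    (fderivWithin ℝ X (Hs n) x).det = (Jac X x).det := by
  rw [ContinuousLinearMap.det, ← LinearMap.det_toMatrix (EuclideanSpace.basisFun (Fin n) ℝ).toBasis]
  congr 1
  ext i j
  rw [LinearMap.toMatrix_apply, energy_jac_apply hD hX hx]
  simp

theorem RelOpen.energy_measurable {D : Set (E n)} (hD : RelOpen D) : MeasurableSet D := by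
  obtain ⟨O, hO, rfl⟩ := hD
  exact hO.measurableSet.inter isClosed_Hs.measurableSet

theorem bEnergy : BEnergy_statement := by
  intro n N _ L L' D D' X Y S hD hD' hL hL' h c d hc hd
  have himg : X '' D = D' := by
    apply Subset.antisymm
    · rintro _ ⟨x, hx, rfl⟩; exact h.diffeo.mapsX hx
    · intro y hy; exact ⟨Y y, h.diffeo.mapsY hy, h.diffeo.inv2 y hy⟩
  have hinj : InjOn X D := fun x hx y hy hxy => by
    rw [← h.diffeo.inv1 x hx, ← h.diffeo.inv1 y hy, hxy]
  have hder : ∀ x ∈ D, HasFDerivWithinAt X (fderivWithin ℝ X (Hs n) x) D x := fun x hx =>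
    (hD.hasD hx h.diffeo.smX (by simp)).mono hD.subset
  unfold En
  rw [← himg, integral_image_eq_integral_abs_det_fderiv_smul volume hD.energy_measurable hder hinj]
  refine setIntegral_congr_fun hD.energy_measurable fun x hx => ?_
  change ed L (fun x => S x (c (X x))) (fun x => S x (d (X x))) x =
    |(fderivWithin ℝ X (Hs n) x).det| • ed L' c d (X x)
  rw [ed_pull hD hD' hL hL' h hc hd hx, energy_det hD h.diffeo.smX hx, Complex.real_smul]

end Vale.Agent.P088.EYM
end
end

section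

/-!
# P088-EYM, block C: integrals in a chart
-/

open Bundle Manifold MeasureTheory Set Filter Topology
open scoped ContDiff

noncomputable section

namespace Vale.Agent.P088.EYM

universe u

section

variable {n N : ℕ} [NeZero n] {M : Type u} [TopologicalSpace M]
  [ChartedSpace (EuclideanHalfSpace n) M] [IsManifold (𝓡∂ n) ∞ M] [MeasurableSpace M]
  [BorelSpace M]

omit [IsManifold (𝓡∂ n) ∞ M] in
theorem cInt_measurableSet (p : M) {D : Set (E n)} (hD : MeasurableSet D) (hDt : D ⊆ tg n p) :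
    MeasurableSet ((xc n p).symm '' D) := by
  have h1 : (xc n p).symm '' D = Subtype.val '' (((xc n p).source.domRestrict (xc n p)) ⁻¹' D) := by
    ext x
    constructor
    · rintro ⟨y, hy, rfl⟩
      refine ⟨⟨(xc n p).symm y, (xc n p).map_target (hDt hy)⟩, ?_, rfl⟩
      change xc n p ((xc n p).symm y) ∈ D
      rw [(xc n p).right_inv (hDt hy)]
      exact hy
    · rintro ⟨⟨x, hx⟩, hx', rfl⟩
      exact ⟨xc n p x, hx', (xc n p).left_inv hx⟩
  rw [h1]
  have h2 : Measurable ((xc n p).source.domRestrict (xc n p)) :=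
    (continuousOn_iff_continuous_domRestrict.1 (continuousOn_extChartAt p)).measurable
  exact (isOpen_extChartAt_source p).measurableSet.subtype_image (h2 hD)

theorem cInt_restrict {g : Metric (𝓡∂ n) M} {μ : Measure M} (hμ : IsRiemannianVolume g μ) (p : M)
    {D : Set (E n)} (hD : MeasurableSet D) (hDt : D ⊆ tg n p) :
    μ.restrict ((xc n p).symm '' D) =
      ((volume.restrict D).withDensity
        (fun y => ENNReal.ofReal (dens g p y))).map (xc n p).symm := by
  have hsymm : AEMeasurable (xc n p).symm (volume.restrict D) :=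
    ((continuousOn_extChartAt_symm p).mono hDt).aemeasurable hD
  have hm := cInt_measurableSet p hD hDt
  have hsub : (xc n p).symm '' D ⊆ (xc n p).source := by
    rintro _ ⟨y, hy, rfl⟩
    exact (xc n p).map_target (hDt hy)
  ext t ht
  rw [Measure.map_apply_of_aemeasurable (hsymm.mono_ac (withDensity_absolutelyContinuous _ _)) ht]
  rw [Measure.restrict_apply ht]
  have h1 := hμ p (t ∩ (xc n p).symm '' D) (ht.inter hm) (inter_subset_right.trans hsub)
  rw [h1, image_eq_target_inter p (inter_subset_right.trans hsub), withDensity_apply',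
    Measure.restrict_restrict' hD]
  have h2 : (xc n p).target ∩ (xc n p).symm ⁻¹' (t ∩ (xc n p).symm '' D) =
      (xc n p).symm ⁻¹' t ∩ D := by
    ext y
    constructor
    · rintro ⟨hy, hy', z, hz, hzy⟩
      refine ⟨hy', ?_⟩
      have : z = y := (xc n p).symm.injOn (hDt hz) hy hzy
      rw [← this]
      exact hz
    · rintro ⟨hy, hy'⟩
      exact ⟨hDt hy', hy, mem_image_of_mem _ hy'⟩
  rw [h2]
  rfl

end

theorem cInt : CInt_statement.{u} := by
  intro n N _ M _ _ _ _ _ _ _ P
  refine ⟨⟨measure_univ_lt_top P.hμ⟩, fun U hU hne => measure_pos_of_isOpen P.hμ hU hne, ?_⟩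
  intro p D hD hDt
  refine ⟨cInt_measurableSet p hD hDt, ?_⟩
  intro G hG
  have hsymm : AEMeasurable (xc n p).symm (volume.restrict D) :=
    ((continuousOn_extChartAt_symm p).mono hDt).aemeasurable hD
  rw [cInt_restrict P.hμ p hD hDt] at hG ⊢
  rw [integral_map (hsymm.mono_ac (withDensity_absolutelyContinuous _ _)) hG]
  rw [integral_withDensity_eq_integral_toReal_smul₀]
  · refine setIntegral_congr_fun hD ?_
    intro y hy
    simp only
    rw [ENNReal.toReal_ofReal (dens_pos P.g (hDt hy)).le, Complex.real_smul]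
    rfl
  · exact (((contDiffOn_dens P.g p).continuousOn.mono hDt).aemeasurable hD).ennreal_ofReal
  · exact Eventually.of_forall fun y => ENNReal.ofReal_lt_top

end Vale.Agent.P088.EYM
end
end

section

/-!
# P088-EYM, block C: the energy in a chart
-/

set_option linter.all false

open Bundle Manifold MeasureTheory Set Filter Topology
open scoped ContDiff

noncomputable section

namespace Vale.Agent.P088.EYM

universe u

section

variable {n N : ℕ} [NeZero n] {M : Type u} [TopologicalSpace M]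
  [ChartedSpace (EuclideanHalfSpace n) M] [IsManifold (𝓡∂ n) ∞ M] [MeasurableSpace M]

theorem CEnergy_range : range (𝓡∂ n) = Hs n := range_modelWithCornersEuclideanHalfSpace n

theorem CEnergy_cov (P : One n N M) (p : M) {u : M → Fib N} (hu : SmS n u) {y : E n}
    (hy : y ∈ tg n p) (j : Fin n) :
    nab (P.loc p) j (lu (𝓡∂ n) p u) y =
      cov P.A u ((xc n p).symm y) (coordVec (𝓡∂ n) p ((xc n p).symm y) j) := by
  have hx : (xc n p).symm y ∈ (extChartAt (𝓡∂ n) p).source := (xc n p).map_target hy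
  unfold nab cov
  rw [dmap_coordVec (𝓡∂ n) hx (hu.mdifferentiableAt (by simp)), CEnergy_range,
    (xc n p).right_inv hy]
  rfl

theorem CEnergy_ed (P : One n N M) (p : M) {u v : M → Fib N} (hu : SmS n u) (hv : SmS n v) {y : E n}
    (hy : y ∈ tg n p) :
    ed (P.loc p) (lu (𝓡∂ n) p u) (lu (𝓡∂ n) p v) y =
      (Real.sqrt ((P.loc p).g y).det : ℂ) * pairing P.g P.A u v ((xc n p).symm y) := by
  have hx : (xc n p).symm y ∈ (extChartAt (𝓡∂ n) p).source := (xc n p).map_target hy
  rw [pairing_eq P.g P.A u v hx]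
  unfold ed
  rw [Finset.mul_sum]
  refine Finset.sum_congr rfl fun j _ => ?_
  rw [Finset.mul_sum]
  refine Finset.sum_congr rfl fun k _ => ?_
  rw [CEnergy_cov P p hu hy j, CEnergy_cov P p hv hy k]
  have h1 : gg (P.loc p).g j k y = Real.sqrt ((P.loc p).g y).det *
      (gram P.g p ((xc n p).symm y))⁻¹ j k := rfl
  have h2 : ∀ w : Fib N, (P.loc p).h y w = w := fun w => rfl
  rw [h1, h2, Complex.ofReal_mul, Complex.real_smul, mul_assoc]

theorem CEnergy_pairing_zero (P : One n N M) {u : M → Fib N} (v : M → Fib N) {x : M}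
    (hx : x ∉ tsupport u) : pairing P.g P.A u v x = 0 := by
  have h1 : u =ᶠ[𝓝 x] fun _ => (0 : Fib N) := notMem_tsupport_iff_eventuallyEq.1 hx
  have h2 : ∀ w, cov P.A u x w = 0 := by
    intro w
    have h3 : dmap (𝓡∂ n) u x = 0 := by
      unfold dmap
      rw [h1.mfderiv_eq]; exact mfderiv_const
    unfold cov
    rw [h3, h1.self_of_nhds, map_zero, add_zero]
    rfl
  unfold pairing
  simp [h2]

theorem CEnergy_pairing_zero' (P : One n N M) {u : M → Fib N} (v : M → Fib N) {x : M}
    (hx : x ∉ tsupport u) : pairing P.g P.A v u x = 0 := by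
  have h1 : u =ᶠ[𝓝 x] fun _ => (0 : Fib N) := notMem_tsupport_iff_eventuallyEq.1 hx
  have h2 : ∀ w, cov P.A u x w = 0 := by
    intro w
    have h3 : dmap (𝓡∂ n) u x = 0 := by
      unfold dmap
      rw [h1.mfderiv_eq]; exact mfderiv_const
    unfold cov
    rw [h3, h1.self_of_nhds, map_zero, add_zero]
    rfl
  unfold pairing
  simp [h2]

theorem CEnergy_pairing_nonneg (P : One n N M) (u : M → Fib N) (x : M) :
    0 ≤ (pairing P.g P.A u u x).re := by
  rw [pairing_eq_rp, rp_re]
  exact rp_nonneg P.g x (covI P.A u x)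

theorem CEnergy_integrable [T2Space M] [CompactSpace M] [BorelSpace M] (P : One n N M)
    [IsFiniteMeasure P.μ] {G : M → ℂ} (hG : Continuous G) : Integrable G P.μ :=
  hG.integrable_of_hasCompactSupport (HasCompactSupport.of_compactSpace G)

theorem CEnergy_integrableOn [T2Space M] [CompactSpace M] [BorelSpace M] (P : One n N M)
    [IsFiniteMeasure P.μ] (p : M) {G : M → ℂ} (hG : Continuous G) :
    IntegrableOn (fun y => (Real.sqrt ((P.loc p).g y).det : ℂ) * G ((xc n p).symm y)) (tg n p) := by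
  have hsymm : AEMeasurable (extChartAt (𝓡∂ n) p).symm
      (volume.restrict (extChartAt (𝓡∂ n) p).target) :=
    (continuousOn_extChartAt_symm p).aemeasurable (measurableSet_target p)
  have h1 : Integrable G (P.μ.restrict (extChartAt (𝓡∂ n) p).source) :=
    (CEnergy_integrable P hG).integrableOn
  rw [restrict_source_eq P.hμ p] at h1
  rw [integrable_map_measure hG.aestronglyMeasurable
    (hsymm.mono_ac (withDensity_absolutelyContinuous _ _))] at h1
  rw [integrable_withDensity_iff_integrable_smul₀'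
    ((contDiffOn_dens P.g p).continuousOn.aemeasurable (measurableSet_target p)).ennreal_ofReal
    (Eventually.of_forall fun y => ENNReal.ofReal_lt_top)] at h1
  refine (integrable_congr ?_).1 h1
  refine (ae_restrict_iff' (measurableSet_target p)).2 (Eventually.of_forall fun y hy => ?_)
  show (ENNReal.ofReal (dens P.g p y)).toReal • G ((extChartAt (𝓡∂ n) p).symm y) = _
  rw [ENNReal.toReal_ofReal (dens_pos P.g hy).le, Complex.real_smul]
  rfl

end

theorem cEnergy : CInt_statement.{u} → CEnergy_statement.{u} := by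
  intro hC n N _ M _ _ _ _ _ _ _ P p D hD hDt
  obtain ⟨hfin, -, hint⟩ := hC n N M P
  have hDm : MeasurableSet D := by
    obtain ⟨O, hO, rfl⟩ := hD
    exact hO.measurableSet.inter isClosed_Hs.measurableSet
  obtain ⟨hm, hI⟩ := hint p D hDm hDt
  have hcont : ∀ u v : M → Fib N, SmS n u → SmS n v → Continuous (pairing P.g P.A u v) :=
    fun u v hu hv => continuous_pairing P.g P.A hu hv
  have key : ∀ u v : M → Fib N, SmS n u → SmS n v →
      ∫ x in (xc n p).symm '' D, pairing P.g P.A u v x ∂P.μ =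
        En (P.loc p) D (lu (𝓡∂ n) p u) (lu (𝓡∂ n) p v) := by
    intro u v hu hv
    rw [hI _ (hcont u v hu hv).aestronglyMeasurable]
    unfold En
    exact setIntegral_congr_fun hDm fun y hy => (CEnergy_ed P p hu hv (hDt hy)).symm
  refine ⟨fun u v hu hv hs => ?_, fun u hu => ⟨?_, ?_⟩⟩
  · rw [← key u v hu hv]
    unfold One.E energy
    symm
    refine setIntegral_eq_integral_of_forall_compl_eq_zero fun x hx => ?_
    rcases hs with hs | hs
    · exact CEnergy_pairing_zero P v fun h => hx (hs h)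
    · exact CEnergy_pairing_zero' P u fun h => hx (hs h)
  · rw [← key u u hu hu]
    unfold One.E energy
    have hp := CEnergy_integrable P (hcont u u hu hu)
    have h1 : (∫ x in (xc n p).symm '' D, pairing P.g P.A u u x ∂P.μ).re =
        ∫ x in (xc n p).symm '' D, (pairing P.g P.A u u x).re ∂P.μ :=
      (Complex.reCLM.integral_comp_comm hp.integrableOn).symm
    have h2 : (∫ x, pairing P.g P.A u u x ∂P.μ).re =
        ∫ x, (pairing P.g P.A u u x).re ∂P.μ :=
      (Complex.reCLM.integral_comp_comm hp).symm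
    rw [h1, h2]
    exact setIntegral_le_integral (Complex.reCLM.integrable_comp hp)
      (Eventually.of_forall fun x => CEnergy_pairing_nonneg P u x)
  · refine ((CEnergy_integrableOn P p (hcont u u hu hu)).mono_set hDt).congr_fun ?_ hDm
    intro y hy
    exact (CEnergy_ed P p hu hu (hDt hy)).symm

end Vale.Agent.P088.EYM
end
end

section

/-!
# P088-EYM, block C: the energy is a positive semidefinite Hermitian form
-/

open Bundle Manifold MeasureTheory Set Filter Topology
open scoped ContDiff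

set_option linter.unusedSectionVars false

noncomputable section

namespace Vale.Agent.P088.EYM

universe u

section

variable {n N : ℕ} [NeZero n] {M : Type u} [TopologicalSpace M]
  [ChartedSpace (EuclideanHalfSpace n) M] [IsManifold (𝓡∂ n) ∞ M]

theorem cForm_smS_add {u v : M → Fib N} (hu : SmS n u) (hv : SmS n v) : SmS n (u + v) :=
  ContMDiff.add hu hv

/-- multiplication by a complex scalar as a real linear map -/
def cForm_L (N : ℕ) (c : ℂ) : Fib N →L[ℝ] Fib N :=
  (c • ContinuousLinearMap.id ℂ (Fib N)).restrictScalars ℝ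

theorem cForm_smS_smul {u : M → Fib N} (c : ℂ) (hu : SmS n u) : SmS n (c • u) := by
  have h : ContMDiff (𝓡∂ n) 𝓘(ℝ, Fib N) ∞ (fun x => cForm_L N c (u x)) :=
    (cForm_L N c).contDiff.contMDiff.comp hu
  exact h

theorem cForm_covI_add (A : Connection (𝓡∂ n) N M) {u v : M → Fib N} (hu : SmS n u)
    (hv : SmS n v) (x : M) (a : EuclideanSpace ℝ (Fin n)) :
    covI A (u + v) x a = covI A u x a + covI A v x a := by
  have h := dI_eq_of (u := u + v) ((cForm_smS_add hu hv).mdifferentiableAt (by simp))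
      ((hasD (hu.mdifferentiableAt (x := x) (by simp))).add
        (hasD (hv.mdifferentiableAt (by simp))))
  rw [covI_eq, h, covI_eq, covI_eq, Pi.add_apply, map_add]
  simp only [add_apply]
  abel

theorem cForm_covI_smul (A : Connection (𝓡∂ n) N M) {u : M → Fib N} (c : ℂ) (hu : SmS n u)
    (x : M) (a : EuclideanSpace ℝ (Fin n)) :
    covI A (c • u) x a = c • covI A u x a := by
  have h1 := ((cForm_L N c).hasFDerivAt
    (x := lu (𝓡∂ n) x u (extChartAt (𝓡∂ n) x x))).comp_hasFDerivWithinAt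
    (extChartAt (𝓡∂ n) x x) (hasD (hu.mdifferentiableAt (x := x) (by simp)))
  have h := dI_eq_of (u := c • u) ((cForm_smS_smul c hu).mdifferentiableAt (by simp)) h1
  rw [covI_eq, h, covI_eq, Pi.smul_apply, map_smul, smul_add]
  rfl

theorem cForm_pairing_add (g : Metric (𝓡∂ n) M) (A : Connection (𝓡∂ n) N M) {u v w : M → Fib N}
    (hv : SmS n v) (hw : SmS n w) (x : M) :
    pairing g A u (v + w) x = pairing g A u v x + pairing g A u w x := by
  simp only [pairing_eq_rp, cForm_covI_add A hv hw, inner_add_right, rp, smul_add,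
    Finset.sum_add_distrib]

theorem cForm_pairing_smul (g : Metric (𝓡∂ n) M) (A : Connection (𝓡∂ n) N M) {u v : M → Fib N}
    (c : ℂ) (hv : SmS n v) (x : M) :
    pairing g A u (c • v) x = c * pairing g A u v x := by
  simp only [pairing_eq_rp, cForm_covI_smul A c hv, inner_smul_right, rp, Finset.mul_sum,
    mul_smul_comm]

theorem cForm_pairing_conj (g : Metric (𝓡∂ n) M) (A : Connection (𝓡∂ n) N M) (u v : M → Fib N)
    (x : M) : pairing g A v u x = (starRingEnd ℂ) (pairing g A u v x) := by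
  rw [pairing_eq_rp, rp_symm, pairing_eq_rp]
  simp only [rp, Complex.real_smul, map_sum, map_mul, Complex.conj_ofReal, inner_conj_symm]

theorem cForm_pairing_nonneg (g : Metric (𝓡∂ n) M) (A : Connection (𝓡∂ n) N M) (u : M → Fib N)
    (x : M) : 0 ≤ (pairing g A u u x).re := by
  rw [pairing_eq_rp, rp_re]
  exact rp_nonneg g x (covI A u x)

end

/-- Cauchy-Schwarz for a positive semidefinite form on a subspace. -/
theorem cForm_cs {X : Type*} [AddCommGroup X] [Module ℂ X] (S : X → Prop) (F : X → X → ℂ)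
    (hS : ∀ u v, S u → S v → S (u + v)) (hS' : ∀ (c : ℂ) u, S u → S (c • u))
    (h1 : ∀ u v w, S u → S v → S w → F u (v + w) = F u v + F u w)
    (h2 : ∀ (a : ℂ) u v, S u → S v → F u (a • v) = a * F u v)
    (h3 : ∀ u v, S u → S v → F v u = (starRingEnd ℂ) (F u v))
    (h4 : ∀ u, S u → 0 ≤ (F u u).re) (u v : X) (hu : S u) (hv : S v) :
    ‖F u v‖ ^ 2 ≤ (F u u).re * (F v v).re := by
  have hexp : ∀ z : ℂ, 0 ≤ (F u u).re + 2 * (z * F u v).re + ‖z‖ ^ 2 * (F v v).re := by
    intro z
    have hzv := hS' z v hv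
    have huz := hS u (z • v) hu hzv
    have e0 := h4 _ huz
    have e1 : F (u + z • v) (u + z • v) =
        F (u + z • v) u + F (u + z • v) (z • v) := h1 _ _ _ huz hu hzv
    have e2 : F (u + z • v) u = F u u + (starRingEnd ℂ) (z * F u v) := by
      rw [h3 u (u + z • v) hu huz, h1 _ _ _ hu hu hzv, h2 _ _ _ hu hv, map_add, ← h3 u u hu hu]
    have e3 : F (u + z • v) v = F u v + (starRingEnd ℂ) z * F v v := by
      rw [h3 v (u + z • v) hv huz, h1 _ _ _ hv hu hzv, h2 _ _ _ hv hv, map_add, map_mul,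
        ← h3 v u hv hu, ← h3 v v hv hv]
    have e4 : F (u + z • v) (z • v) = z * F u v + (z * (starRingEnd ℂ) z) * F v v := by
      rw [h2 _ _ _ huz hv, e3]
      ring
    rw [e1, e2, e4, Complex.mul_conj, Complex.normSq_eq_norm_sq] at e0
    simp only [Complex.add_re, Complex.conj_re, Complex.re_ofReal_mul] at e0
    linarith only [e0]
  by_cases hB : F u v = 0
  · rw [hB]
    simp only [norm_zero, ne_eq, OfNat.ofNat_ne_zero, not_false_eq_true, zero_pow]
    exact mul_nonneg (h4 u hu) (h4 v hv)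
  · have hpos : 0 < ‖F u v‖ ^ 2 := by (clear * - hB; positivity)
    have hq : ∀ t : ℝ, 0 ≤ (‖F u v‖ ^ 2 * (F v v).re) * (t * t) + (-2 * ‖F u v‖ ^ 2) * t +
        (F u u).re := by
      intro t
      have h := hexp (-(t : ℂ) * (starRingEnd ℂ) (F u v))
      have e1 : (-(t : ℂ) * (starRingEnd ℂ) (F u v) * F u v).re = -t * ‖F u v‖ ^ 2 := by
        rw [mul_assoc, mul_comm ((starRingEnd ℂ) (F u v)), Complex.mul_conj,
          Complex.normSq_eq_norm_sq, ← Complex.ofReal_neg, ← Complex.ofReal_mul,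
          Complex.ofReal_re]
      have e2 : ‖-(t : ℂ) * (starRingEnd ℂ) (F u v)‖ ^ 2 = t * t * ‖F u v‖ ^ 2 := by
        rw [norm_mul, norm_neg, Complex.norm_real, RCLike.norm_conj, mul_pow, Real.norm_eq_abs,
          sq_abs]
        ring
      rw [e1, e2] at h
      linarith only [h]
    have hd := discrim_le_zero hq
    unfold discrim at hd
    have h5 : ‖F u v‖ ^ 2 * (‖F u v‖ ^ 2 - (F u u).re * (F v v).re) ≤ 0 := by linarith
    have h6 := nonpos_of_mul_nonpos_right h5 hpos
    linarith only [h6]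

theorem cForm : CInt_statement.{u} → CForm_statement.{u} := by
  intro hInt n N _ M _ _ _ _ _ _ _ P
  have hfin : IsFiniteMeasure P.μ := (hInt n N M P).1
  have hint : ∀ u v : M → Fib N, SmS n u → SmS n v → Integrable (pairing P.g P.A u v) P.μ :=
    fun u v hu hv => integrable_of_continuous (continuous_pairing P.g P.A hu hv)
  have H1 : ∀ u v w : M → Fib N, SmS n u → SmS n v → SmS n w →
      P.E u (v + w) = P.E u v + P.E u w := by
    intro u v w hu hv hw
    unfold One.E energy
    simp only [cForm_pairing_add P.g P.A hv hw]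
    exact integral_add (hint u v hu hv) (hint u w hu hw)
  have H2 : ∀ (a : ℂ) (u v : M → Fib N), SmS n u → SmS n v → P.E u (a • v) = a * P.E u v := by
    intro a u v hu hv
    unfold One.E energy
    simp only [cForm_pairing_smul P.g P.A a hv]
    exact integral_const_mul a _
  have H3 : ∀ u v : M → Fib N, SmS n u → SmS n v → P.E v u = (starRingEnd ℂ) (P.E u v) := by
    intro u v hu hv
    unfold One.E energy
    rw [← integral_conj]
    exact integral_congr_ae (Eventually.of_forall fun x => cForm_pairing_conj P.g P.A u v x)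
  have H4 : ∀ u : M → Fib N, SmS n u → 0 ≤ (P.E u u).re := by
    intro u hu
    have e : (P.E u u).re = ∫ x, (pairing P.g P.A u u x).re ∂P.μ :=
      (integral_re (𝕜 := ℂ) (hint u u hu hu)).symm
    rw [e]
    exact integral_nonneg fun x => cForm_pairing_nonneg P.g P.A u x
  refine ⟨H1, H2, H3, H4, fun u v hu hv => ?_⟩
  exact cForm_cs (SmS n) P.E (fun u v => cForm_smS_add) (fun c u => cForm_smS_smul c) H1 H2 H3 H4
    u v hu hv

end Vale.Agent.P088.EYM
end
end

section

/-!
# P088-EYM, block C: uniqueness and linearity of harmonic extensions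
-/

open Bundle Manifold MeasureTheory Set Filter Topology
open scoped ContDiff

noncomputable section

set_option linter.unusedSectionVars false

namespace Vale.Agent.P088.EYM

universe u

section

variable {n N : ℕ} [NeZero n] {M : Type u} [TopologicalSpace M]
  [ChartedSpace (EuclideanHalfSpace n) M] [IsManifold (𝓡∂ n) ∞ M]

theorem cUniq_smul (a : ℂ) {u : M → Fib N} (hu : SmS n u) : SmS n (a • u) := by
  have h : ContMDiff 𝓘(ℝ, Fib N) 𝓘(ℝ, Fib N) ∞ (fun v : Fib N => a • v) :=
    ((a • ContinuousLinearMap.id ℂ (Fib N)).restrictScalars ℝ).contMDiff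
  exact h.comp hu

theorem cUniq_add {u v : M → Fib N} (hu : SmS n u) (hv : SmS n v) : SmS n (u + v) :=
  ContMDiff.add hu hv

theorem cUniq_comb (a b : ℂ) {u v : M → Fib N} (hu : SmS n u) (hv : SmS n v) :
    SmS n (a • u + b • v) :=
  cUniq_add (cUniq_smul a hu) (cUniq_smul b hv)

end

theorem cUniq : CPoinc_statement.{u} → CForm_statement.{u} → CInt_statement.{u} →
    CUniq_statement.{u} := by
  intro hPo hFo hIn n N _ M _ _ _ _ _ _ _ _ P hbd
  obtain ⟨C, hC, hPoinc⟩ := hPo n N M P hbd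
  obtain ⟨hadd, hsmul, hsym, -, -⟩ := hFo n N M P
  obtain ⟨hfin, hpos, -⟩ := hIn n N M P
  have hlin2 : ∀ (a b : ℂ) (φ u u' : M → Fib N), SmS n φ → SmS n u → SmS n u' →
      P.E φ (a • u + b • u') = a * P.E φ u + b * P.E φ u' := by
    intro a b φ u u' hφ hu hu'
    rw [hadd φ _ _ hφ (cUniq_smul a hu) (cUniq_smul b hu'), hsmul a φ u hφ hu,
      hsmul b φ u' hφ hu']
  have hlin1 : ∀ (a b : ℂ) (φ u u' : M → Fib N), SmS n φ → SmS n u → SmS n u' →
      P.E (a • u + b • u') φ = (starRingEnd ℂ) a * P.E u φ + (starRingEnd ℂ) b * P.E u' φ := by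
    intro a b φ u u' hφ hu hu'
    rw [hsym φ _ hφ (cUniq_comb a b hu hu'), hlin2 a b φ u u' hφ hu hu', map_add, map_mul,
      map_mul, ← hsym φ u hφ hu, ← hsym φ u' hφ hu']
  have hcomb : ∀ (f f' u u' : M → Fib N) (a b : ℂ), P.Harm f u → P.Harm f' u' →
      P.Harm (a • f + b • f') (a • u + b • u') := by
    intro f f' u u' a b hu hu'
    refine ⟨cUniq_comb a b hu.smooth hu'.smooth, fun x hx => ?_, fun φ hφ h0 => ?_⟩
    · simp only [Pi.add_apply, Pi.smul_apply]
      rw [hu.boundary x hx, hu'.boundary x hx]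
    · have h1 : P.E u φ = 0 := hu.weak φ hφ h0
      have h2 : P.E u' φ = 0 := hu'.weak φ hφ h0
      have h3 := hlin1 a b φ u u' hφ hu.smooth hu'.smooth
      rw [h1, h2, mul_zero, mul_zero, add_zero] at h3
      exact h3
  refine ⟨?_, hcomb, ?_⟩
  · intro f f' u u' hu hu' hff
    set r : M → Fib N := (1 : ℂ) • u + (-1 : ℂ) • u' with hr
    have hrH : P.Harm ((1 : ℂ) • f + (-1 : ℂ) • f') r := hcomb f f' u u' 1 (-1) hu hu'
    have hr0 : ∀ x ∈ (𝓡∂ n).boundary M, r x = 0 := by
      intro x hx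
      rw [hrH.boundary x hx]
      simp only [one_smul, neg_smul, Pi.add_apply, hff x hx, Pi.neg_apply, add_neg_cancel]
    have hrs : SmS n r := hrH.smooth
    have hE : P.E r r = 0 := hrH.weak r hrs hr0
    have h1 := hPoinc r hrs hr0
    rw [hE, Complex.zero_re, mul_zero] at h1
    have hrc : Continuous r := hrs.continuous
    have hsc : Continuous (fun x => ‖r x‖ ^ 2) := (hrc.norm).pow 2
    have := hfin
    have hint : Integrable (fun x => ‖r x‖ ^ 2) P.μ :=
      hsc.integrable_of_hasCompactSupport (HasCompactSupport.of_compactSpace _)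
    have h2 : ∫ x, ‖r x‖ ^ 2 ∂P.μ = 0 :=
      le_antisymm h1 (integral_nonneg fun x => sq_nonneg _)
    have h3 := (integral_eq_zero_iff_of_nonneg (fun x => sq_nonneg _) hint).1 h2
    have : P.μ.IsOpenPosMeasure := ⟨fun U hU hne => (hpos U hU hne).ne'⟩
    have h4 : (fun x => ‖r x‖ ^ 2) = fun _ => (0 : ℝ) :=
      (Continuous.ae_eq_iff_eq P.μ hsc continuous_const).1 h3
    funext x
    have h5 : ‖r x‖ ^ 2 = 0 := congrFun h4 x
    have h6 : r x = 0 := by
      rw [sq_eq_zero_iff, norm_eq_zero] at h5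
      exact h5
    have h7 : u x - u' x = 0 := by
      rw [← h6, hr]
      simp only [sub_eq_add_neg, one_smul, neg_smul, Pi.add_apply, Pi.neg_apply]
    exact sub_eq_zero.1 h7
  · intro f u φ ψ hu hφ hψ hφψ
    have h0 : P.E u ((1 : ℂ) • φ + (-1 : ℂ) • ψ) = 0 := by
      refine hu.weak _ (cUniq_comb 1 (-1) hφ hψ) fun x hx => ?_
      simp only [one_smul, neg_smul, Pi.add_apply, hφψ x hx, Pi.neg_apply, add_neg_cancel]
    rw [hlin2 1 (-1) u φ ψ hu.smooth hφ hψ] at h0
    have h1 : P.E u φ = P.E u ψ := by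
      have h2 : P.E u φ - P.E u ψ = 0 := by
        rw [← h0]; ring
      exact sub_eq_zero.1 h2
    refine ⟨h1, ?_⟩
    rw [hsym u φ hu.smooth hφ, h1, ← hsym u ψ hu.smooth hψ]

end Vale.Agent.P088.EYM
end
end

section

/-!
# P088-EYM, block C9: the interior of a connected manifold is connected and dense
-/

open Bundle Manifold MeasureTheory Set Filter Topology
open scoped ContDiff

noncomputable section

namespace Vale.Agent.P088.EYM

universe u

/-- A dense subset of a preconnected space which is locally preconnected around every point of the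
space is preconnected. -/
theorem cConn_top {X : Type u} [TopologicalSpace X] [PreconnectedSpace X] {S : Set X}
    (hd : ∀ x, x ∈ closure S) (hl : ∀ x, ∃ O, IsOpen O ∧ x ∈ O ∧ IsPreconnected (O ∩ S)) :
    IsPreconnected S := by
  rw [isPreconnected_iff_subset_of_disjoint]
  intro U V hU hV hS hUV
  by_contra hcon
  push Not at hcon
  obtain ⟨hSU, hSV⟩ := hcon
  rw [not_subset] at hSU hSV
  obtain ⟨a, haS, haU⟩ := hSU
  obtain ⟨b, hbS, hbV⟩ := hSV
  have haV : a ∈ V := (hS haS).resolve_left haU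
  have hbU : b ∈ U := (hS hbS).resolve_right hbV
  set A : Set X := {x | ∃ O, IsOpen O ∧ x ∈ O ∧ O ∩ S ⊆ U} with hA
  set B : Set X := {x | ∃ O, IsOpen O ∧ x ∈ O ∧ O ∩ S ⊆ V} with hB
  have hAo : IsOpen A := by
    rw [isOpen_iff_forall_mem_open]
    rintro x ⟨O, hO, hx, hs⟩
    exact ⟨O, fun y hy => ⟨O, hO, hy, hs⟩, hO, hx⟩
  have hBo : IsOpen B := by
    rw [isOpen_iff_forall_mem_open]
    rintro x ⟨O, hO, hx, hs⟩
    exact ⟨O, fun y hy => ⟨O, hO, hy, hs⟩, hO, hx⟩
  have hAB : A ∩ B = ∅ := by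
    rw [eq_empty_iff_forall_notMem]
    rintro x ⟨⟨O, hO, hx, hs⟩, ⟨O', hO', hx', hs'⟩⟩
    obtain ⟨y, ⟨hy1, hy2⟩, hyS⟩ := mem_closure_iff.1 (hd x) (O ∩ O') (hO.inter hO') ⟨hx, hx'⟩
    have : y ∈ S ∩ (U ∩ V) := ⟨hyS, hs ⟨hy1, hyS⟩, hs' ⟨hy2, hyS⟩⟩
    rw [hUV] at this
    exact this
  have hcov : (univ : Set X) ⊆ A ∪ B := by
    intro x _
    obtain ⟨O, hO, hx, hp⟩ := hl x
    have h1 := isPreconnected_iff_subset_of_disjoint.1 hp U V hU hV
      (inter_subset_right.trans hS) (by
        rw [eq_empty_iff_forall_notMem]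
        rintro y ⟨⟨_, hy⟩, hy2⟩
        have : y ∈ S ∩ (U ∩ V) := ⟨hy, hy2⟩
        rw [hUV] at this
        exact this)
    rcases h1 with h1 | h1
    · exact Or.inl ⟨O, hO, hx, h1⟩
    · exact Or.inr ⟨O, hO, hx, h1⟩
  have haB : a ∈ B := ⟨V, hV, haV, inter_subset_left⟩
  have hbA : b ∈ A := ⟨U, hU, hbU, inter_subset_left⟩
  rcases isPreconnected_iff_subset_of_disjoint.1 (isPreconnected_univ (α := X)) A B hAo hBo hcov
    (by rw [hAB, inter_empty]) with h | h
  · have : a ∈ A ∩ B := ⟨h (mem_univ a), haB⟩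
    rw [hAB] at this
    exact this
  · have : b ∈ A ∩ B := ⟨hbA, h (mem_univ b)⟩
    rw [hAB] at this
    exact this

theorem cConn_coord {n : ℕ} [NeZero n] (z : E n) (t : ℝ) : (z + t • ev (0 : Fin n)) 0 = z 0 + t := by
  simp

theorem cConn : CLoc_statement.{u} → CConn_statement.{u} := by
  intro hloc n _ M _ _ _ _
  letI : MeasurableSpace M := borel M
  obtain ⟨h1, -, h3, -⟩ := hloc n 0 M
  have hmem : ∀ p x : M, x ∈ (xc n p).source → (x ∈ Mi n M ↔ 0 < xc n p x 0) := by
    intro p x hx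
    have hb := h3 p x hx
    obtain ⟨O, hO, hOt⟩ := h1 p
    have ht : xc n p x ∈ tg n p := (xc n p).map_source hx
    rw [hOt] at ht
    have h0 : 0 ≤ xc n p x 0 := ht.2
    rw [← not_iff_not, not_lt, ← mem_compl_iff, ModelWithCorners.compl_interior, hb]
    exact ⟨fun h => h.le, fun h => le_antisymm h h0⟩
  have hopen : IsOpen (Mi n M) := by
    rw [isOpen_iff_forall_mem_open]
    intro x hx
    refine ⟨(xc n x).source ∩ xc n x ⁻¹' {y | 0 < y 0}, fun m hm => (hmem x m hm.1).2 hm.2, ?_, ?_⟩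
    · have hc : Continuous fun y : E n => y 0 := by fun_prop
      exact (continuousOn_extChartAt x).isOpen_inter_preimage (isOpen_extChartAt_source x)
        (isOpen_lt continuous_const hc)
    · exact ⟨mem_extChartAt_source x, (hmem x x (mem_extChartAt_source x)).1 hx⟩
  have hdense : ∀ x : M, x ∈ closure (Mi n M) := by
    intro x
    set z := xc n x x with hz
    have hzt : z ∈ tg n x := mem_extChartAt_target x
    obtain ⟨O, hO, hOt⟩ := h1 x
    have hzO : z ∈ O := by
      rw [hOt] at hzt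
      exact hzt.1
    have hz0 : 0 ≤ z 0 := by
      rw [hOt] at hzt
      exact hzt.2
    have hc : Continuous fun t : ℝ => z + t • ev (0 : Fin n) := by (clear hloc h1 h3 hmem hopen hz hzt O hO hOt hzO hz0; fun_prop)
    have hten : Tendsto (fun t : ℝ => z + t • ev (0 : Fin n)) (𝓝[>] 0) (𝓝 z) := by
      have := hc.tendsto 0
      rw [zero_smul, add_zero] at this
      exact this.mono_left nhdsWithin_le_nhds
    have hin : ∀ᶠ t : ℝ in 𝓝[>] 0, z + t • ev (0 : Fin n) ∈ tg n x := by
      filter_upwards [hten.eventually (hO.mem_nhds hzO), self_mem_nhdsWithin] with t ht ht0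
      rw [hOt]
      refine ⟨ht, ?_⟩
      change 0 ≤ (z + t • ev (0 : Fin n)) 0
      rw [cConn_coord]
      have : (0 : ℝ) < t := ht0
      (clear hloc h1 h3 hmem hopen hz hO hzO hc hten ht; linarith)
    have hsymm : Tendsto (fun t : ℝ => (xc n x).symm (z + t • ev (0 : Fin n))) (𝓝[>] 0) (𝓝 x) := by
      have h4 : ContinuousWithinAt (xc n x).symm (tg n x) z := continuousOn_extChartAt_symm x z hzt
      have h5 := h4.tendsto
      rw [hz, extChartAt_to_inv] at h5
      exact h5.comp (tendsto_nhdsWithin_iff.2 ⟨hten, hin⟩)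
    refine mem_closure_of_tendsto hsymm ?_
    filter_upwards [hin, self_mem_nhdsWithin] with t ht ht0
    have h6 := (xc n x).map_target ht
    rw [hmem x _ h6, (xc n x).right_inv ht, cConn_coord]
    have : (0 : ℝ) < t := ht0
    (clear hloc h1 h3 hmem hopen hz hO hzO hc hten hin hsymm ht h6; linarith)
  refine ⟨hopen, ?_, hdense⟩
  refine cConn_top hdense fun x => ?_
  set z := xc n x x with hz
  have hzt : z ∈ tg n x := mem_extChartAt_target x
  obtain ⟨O, hO, hOt⟩ := h1 x
  have hzO : z ∈ O := by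
    rw [hOt] at hzt
    exact hzt.1
  obtain ⟨r, hr, hrO⟩ := Metric.isOpen_iff.1 hO z hzO
  refine ⟨(xc n x).source ∩ xc n x ⁻¹' Metric.ball z r,
    (continuousOn_extChartAt x).isOpen_inter_preimage (isOpen_extChartAt_source x)
      Metric.isOpen_ball, ⟨mem_extChartAt_source x, Metric.mem_ball_self hr⟩, ?_⟩
  have hsub : Metric.ball z r ∩ {y : E n | 0 < y 0} ⊆ tg n x := by
    rintro y ⟨hy1, hy2⟩
    rw [hOt]
    have h7 : (0 : ℝ) < y 0 := hy2
    exact ⟨hrO hy1, h7.le⟩
  have himg : (xc n x).source ∩ xc n x ⁻¹' Metric.ball z r ∩ Mi n M =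
      (xc n x).symm '' (Metric.ball z r ∩ {y : E n | 0 < y 0}) := by
    ext m
    constructor
    · rintro ⟨⟨hm1, hm2⟩, hm3⟩
      exact ⟨xc n x m, ⟨hm2, (hmem x m hm1).1 hm3⟩, (xc n x).left_inv hm1⟩
    · rintro ⟨y, hy, rfl⟩
      have h8 := (xc n x).map_target (hsub hy)
      refine ⟨⟨h8, ?_⟩, (hmem x _ h8).2 ?_⟩
      · rw [mem_preimage, (xc n x).right_inv (hsub hy)]
        exact hy.1
      · rw [(xc n x).right_inv (hsub hy)]
        exact hy.2
  rw [himg]
  refine IsPreconnected.image ?_ _ ((continuousOn_extChartAt_symm x).mono hsub)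
  apply Convex.isPreconnected
  refine (convex_ball z r).inter ?_
  intro a ha b hb s t hs ht hst
  change 0 < (s • a + t • b) 0
  have ha' : (0 : ℝ) < a 0 := ha
  have hb' : (0 : ℝ) < b 0 := hb
  simp only [PiLp.add_apply, PiLp.smul_apply, smul_eq_mul]
  rcases hs.eq_or_lt with h | h
  · have : t = 1 := by linarith only [hst, h]
    rw [← h, this]
    simpa only [zero_mul, one_mul, zero_add, gt_iff_lt] using hb'
  · have := mul_pos h ha'
    have := mul_nonneg ht hb'.le
    (clear hloc h1 h3 hmem hopen hdense x z hz hzt O hO hOt hzO r hr hrO hsub himg hs hst; linarith)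

end Vale.Agent.P088.EYM
end
end

section

/-!
# P088-EYM, block C: consequences of the equality of the data
-/

open Bundle Manifold MeasureTheory Set Filter Topology
open scoped ContDiff

noncomputable section

namespace Vale.Agent.P088.EYM

universe u

theorem cData : CUniq_statement.{u} → CForm_statement.{u} → CData_statement.{u} := by
  intro hU _ n N _ M _ _ _ _ _ _ _ _ P Q Γ hΓ hne hS
  have hbd : ((𝓡∂ n).boundary M).Nonempty := by
    obtain ⟨O, -, rfl⟩ := hΓ
    obtain ⟨x, hx⟩ := hne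
    exact ⟨x, hx.2⟩
  refine ⟨⟨?_, ?_, ?_⟩, ?_⟩
  · intro f hf
    obtain ⟨u₁, -, -, -, h1, -, -, -, -⟩ := hS f f hf hf
    exact ⟨u₁, h1⟩
  · intro f hf
    obtain ⟨-, -, u₂, -, -, -, h3, -, -⟩ := hS f f hf hf
    exact ⟨u₂, h3⟩
  · intro f h hf hh
    obtain ⟨u₁, v₁, u₂, v₂, h1, h2, h3, h4, h5⟩ := hS f h hf hh
    exact ⟨u₂, v₂, u₁, v₁, h3, h4, h1, h2, h5.symm⟩
  · rintro u ⟨f, hf, hPu, hQu⟩ w w' hw hw' hww hsupp
    have hwb : IsBdryData (𝓡∂ n) Γ w := ⟨hw, hsupp⟩
    obtain ⟨u₁, v₁, u₂, v₂, h1, h2, h3, h4, h5⟩ := hS w f hwb hf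
    obtain ⟨pU, -, pE⟩ := hU n N M P hbd
    obtain ⟨qU, -, qE⟩ := hU n N M Q hbd
    have e1 : v₁ = u.1 := pU f f v₁ u.1 h2 hPu fun _ _ => rfl
    have e2 : v₂ = u.2 := qU f f v₂ u.2 h4 hQu fun _ _ => rfl
    have e3 : P.E w u.1 = P.E u₁ u.1 :=
      (pE f u.1 w u₁ hPu hw h1.smooth fun x hx => (h1.boundary x hx).symm).2
    have e4 : Q.E w' u.2 = Q.E u₂ u.2 :=
      (qE f u.2 w' u₂ hQu hw' h3.smooth fun x hx =>
        (hww x hx).symm.trans (h3.boundary x hx).symm).2
    have h6 : P.E u₁ v₁ = Q.E u₂ v₂ := h5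
    rw [e1, e2] at h6
    rw [e3, e4, h6]

end Vale.Agent.P088.EYM
end
end

section

/-!
# P088-EYM, C40: the derivative of a map in charts
-/

open Bundle Manifold MeasureTheory Set Filter Topology
open scoped ContDiff

noncomputable section

set_option linter.unusedSectionVars false

namespace Vale.Agent.P088.EYM

universe u

variable {n : ℕ} [NeZero n] {M : Type u} [TopologicalSpace M]
  [ChartedSpace (EuclideanHalfSpace n) M] [IsManifold (𝓡∂ n) ∞ M]

theorem cChart_range : range (𝓡∂ n) = Hs n := range_modelWithCornersEuclideanHalfSpace n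

/-- the derivative on the model space -/
def cChart_D (φ : M → M) (x : M) : E n →L[ℝ] E n := mfderiv (𝓡∂ n) (𝓡∂ n) φ x

set_option backward.isDefEq.respectTransparency false in
theorem cChart_eq {φ : M → M} {x : M} (h : MDifferentiableAt (𝓡∂ n) (𝓡∂ n) φ x) :
    cChart_D φ x = fderivWithin ℝ (writtenInExtChartAt (𝓡∂ n) (𝓡∂ n) x φ) (range (𝓡∂ n))
      (extChartAt (𝓡∂ n) x x) := by
  unfold cChart_D
  rw [mfderiv, if_pos h]

theorem cChart_mf {φ : M → M} {x : M} (h : MDifferentiableAt (𝓡∂ n) (𝓡∂ n) φ x) :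
    HasFDerivWithinAt (writtenInExtChartAt (𝓡∂ n) (𝓡∂ n) x φ) (cChart_D φ x) (range (𝓡∂ n))
      (extChartAt (𝓡∂ n) x x) := by
  have h0 := h.differentiableWithinAt_writtenInExtChartAt.hasFDerivWithinAt
  rw [← cChart_eq h] at h0
  exact h0

theorem cChart_chain {φ : M → M} {x q₁ q₂ : M} (h : MDifferentiableAt (𝓡∂ n) (𝓡∂ n) φ x)
    (h2 : x ∈ (xc n q₂).source) (h1 : φ x ∈ (xc n q₁).source) :
    HasFDerivWithinAt (fun y => xc n q₁ (φ ((xc n q₂).symm y)))
      ((tangentCoordChange (𝓡∂ n) (φ x) q₁ (φ x)) ∘L ((cChart_D φ x) ∘L (cc (𝓡∂ n) q₂ x)))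
      (range (𝓡∂ n)) (xc n q₂ x) := by
  have e1 := cChart_mf h
  have e2 := hasFDerivWithinAt_tangentCoordChange (I := 𝓡∂ n) (x := q₂) (y := x) (z := x)
    ⟨h2, mem_extChartAt_source x⟩
  have e3 := hasFDerivWithinAt_tangentCoordChange (I := 𝓡∂ n) (x := φ x) (y := q₁) (z := φ x)
    ⟨mem_extChartAt_source (φ x), h1⟩
  have e1' : HasFDerivWithinAt (writtenInExtChartAt (𝓡∂ n) (𝓡∂ n) x φ) (cChart_D φ x)
      (range (𝓡∂ n)) (((extChartAt (𝓡∂ n) x) ∘ (extChartAt (𝓡∂ n) q₂).symm)
        (extChartAt (𝓡∂ n) q₂ x)) := by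
    rw [Function.comp_apply, (extChartAt (𝓡∂ n) q₂).left_inv h2]
    exact e1
  have e4 := HasFDerivWithinAt.comp (extChartAt (𝓡∂ n) q₂ x) e1' e2 (t := range (𝓡∂ n)) ?_
  · have e3' : HasFDerivWithinAt (extChartAt (𝓡∂ n) q₁ ∘ (extChartAt (𝓡∂ n) (φ x)).symm)
        (tangentCoordChange (𝓡∂ n) (φ x) q₁ (φ x)) (range (𝓡∂ n))
        ((writtenInExtChartAt (𝓡∂ n) (𝓡∂ n) x φ ∘ ((extChartAt (𝓡∂ n) x) ∘
          (extChartAt (𝓡∂ n) q₂).symm)) (extChartAt (𝓡∂ n) q₂ x)) := by
      simp only [writtenInExtChartAt, Function.comp_apply]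
      rw [(extChartAt (𝓡∂ n) q₂).left_inv h2, extChartAt_to_inv x]
      exact e3
    have e5 := HasFDerivWithinAt.comp (extChartAt (𝓡∂ n) q₂ x) e3' e4 (t := range (𝓡∂ n)) ?_
    · have key : ∀ y : E n, (extChartAt (𝓡∂ n) q₂).symm y ∈ (extChartAt (𝓡∂ n) x).source →
          φ ((extChartAt (𝓡∂ n) q₂).symm y) ∈ (extChartAt (𝓡∂ n) (φ x)).source →
          xc n q₁ (φ ((xc n q₂).symm y)) =
          ((extChartAt (𝓡∂ n) q₁ ∘ (extChartAt (𝓡∂ n) (φ x)).symm) ∘
          (writtenInExtChartAt (𝓡∂ n) (𝓡∂ n) x φ ∘ ((extChartAt (𝓡∂ n) x) ∘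
          (extChartAt (𝓡∂ n) q₂).symm))) y := by
        intro y hy1 hy2
        simp only [writtenInExtChartAt, Function.comp_apply]
        rw [(extChartAt (𝓡∂ n) x).left_inv hy1, (extChartAt (𝓡∂ n) (φ x)).left_inv hy2]
      refine e5.congr_of_eventuallyEq ?_ ?_
      · have hmem : (extChartAt (𝓡∂ n) x).source ∩ φ ⁻¹' (extChartAt (𝓡∂ n) (φ x)).source ∈ 𝓝 x :=
          inter_mem (extChartAt_source_mem_nhds x)
            (h.continuousAt.preimage_mem_nhds (extChartAt_source_mem_nhds (φ x)))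
        have := extChartAt_preimage_mem_nhds' (I := 𝓡∂ n) h2 hmem
        filter_upwards [mem_nhdsWithin_of_mem_nhds this] with y hy
        exact key y hy.1 hy.2
      · refine key _ ?_ ?_
        · rw [(extChartAt (𝓡∂ n) q₂).left_inv h2]
          exact mem_extChartAt_source x
        · rw [(extChartAt (𝓡∂ n) q₂).left_inv h2]
          exact mem_extChartAt_source (φ x)
    · intro y _
      simp only [writtenInExtChartAt, Function.comp_apply, extChartAt_coe]
      exact mem_range_self _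
  · intro y _
    simp only [Function.comp_apply, extChartAt_coe]
    exact mem_range_self _

theorem cChart_expand (v : E n) : v = ∑ i, v i • (EuclideanSpace.single i (1 : ℝ) : E n) :=
  en_expand v

theorem cChart_cc_sum (p x : M) (c : Fin n → ℝ) :
    cc (𝓡∂ n) p x (∑ k, c k • (EuclideanSpace.single k (1 : ℝ) : E n)) =
      ∑ k, c k • cc (𝓡∂ n) p x (EuclideanSpace.single k (1 : ℝ) : E n) := by
  rw [map_sum]
  exact Finset.sum_congr rfl fun k _ => map_smul _ _ _

theorem cChart : CChart_statement.{u} := by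
  intro n _ M _ _ _ O φ hO hφ q₁ q₂ x hx h2 h1
  have hd : MDifferentiableAt (𝓡∂ n) (𝓡∂ n) φ x :=
    (hφ.contMDiffAt (hO.mem_nhds hx)).mdifferentiableAt (by simp)
  have hch := cChart_chain hd h2 h1
  rw [cChart_range] at hch
  have hxH : xc n q₂ x ∈ Hs n := by
    rw [← cChart_range, extChartAt_coe]
    exact mem_range_self _
  constructor
  · intro j
    have hJ : ∀ k, Jac (fun y => xc n q₁ (φ ((xc n q₂).symm y))) (xc n q₂ x) k j =
        ((tangentCoordChange (𝓡∂ n) (φ x) q₁ (φ x)) (cChart_D φ x (cc (𝓡∂ n) q₂ x (ev j)))) k := by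
      intro k
      unfold Jac
      rw [Matrix.of_apply]
      have h3 := ((EuclideanSpace.proj (𝕜 := ℝ) k : E n →L[ℝ] ℝ).hasFDerivAt
        (x := xc n q₁ (φ ((xc n q₂).symm (xc n q₂ x))))).comp_hasFDerivWithinAt (xc n q₂ x) hch
      exact pd_of_has hxH h3 j
    have h4 : ∑ k, Jac (fun y => xc n q₁ (φ ((xc n q₂).symm y))) (xc n q₂ x) k j •
        cc (𝓡∂ n) q₁ (φ x) (EuclideanSpace.single k (1 : ℝ) : E n) =
        cChart_D φ x (cc (𝓡∂ n) q₂ x (ev j)) := by
      simp only [hJ]
      rw [← cChart_cc_sum, ← cChart_expand]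
      exact cc_inv_right (𝓡∂ n) h1 _
    exact h4.symm
  · intro v
    refine ⟨fun j => (tangentCoordChange (𝓡∂ n) x q₂ x v : E n) j, ?_⟩
    have h4 : (v : E n) = ∑ j, (tangentCoordChange (𝓡∂ n) x q₂ x v : E n) j •
        cc (𝓡∂ n) q₂ x (EuclideanSpace.single j (1 : ℝ) : E n) := by
      rw [← cChart_cc_sum, ← cChart_expand]
      exact (cc_inv_right (𝓡∂ n) h2 _).symm
    exact h4

end Vale.Agent.P088.EYM
end
end

section

set_option linter.all false

/-!
# P088-EYM, block C: the extended map is a diffeomorphism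
-/

open Bundle Manifold MeasureTheory Set Filter Topology
open scoped ContDiff

noncomputable section

namespace Vale.Agent.P088.EYM

universe u

/-- Local extensions glue to a global one. -/
theorem cDiff_glue {n : ℕ} [NeZero n] {M : Type u} [TopologicalSpace M]
    [ChartedSpace (EuclideanHalfSpace n) M] {H' : Type*} [TopologicalSpace H'] {E' : Type*}
    [NormedAddCommGroup E'] [NormedSpace ℝ E'] (J : ModelWithCorners ℝ E' H') {Z : Type*}
    [TopologicalSpace Z] [ChartedSpace H' Z] [T2Space Z] {S : Set M}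
    (hd : ∀ x : M, x ∈ closure S) (f : M → Z)
    (h : ∀ x : M, ∃ (O : Set M) (f' : M → Z), IsOpen O ∧ x ∈ O ∧
      ContMDiffOn (𝓡∂ n) J ∞ f' O ∧ ∀ m ∈ O ∩ S, f' m = f m) :
    ∃ F : M → Z, ContMDiff (𝓡∂ n) J ∞ F ∧ ∀ x ∈ S, F x = f x := by
  choose O f' hO hx hs he using h
  have key : ∀ x : M, ∀ m ∈ O x, f' m m = f' x m := by
    intro x m hm
    have hne : (𝓝[S] m).NeBot := mem_closure_iff_nhdsWithin_neBot.1 (hd m)
    have c1 : ContinuousAt (f' m) m :=
      ((hs m).continuousOn).continuousAt ((hO m).mem_nhds (hx m))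
    have c2 : ContinuousAt (f' x) m :=
      ((hs x).continuousOn).continuousAt ((hO x).mem_nhds hm)
    have c1' : Tendsto (f' m) (𝓝[S] m) (𝓝 (f' m m)) := c1.mono_left nhdsWithin_le_nhds
    have c2' : Tendsto (f' x) (𝓝[S] m) (𝓝 (f' x m)) := c2.mono_left nhdsWithin_le_nhds
    refine tendsto_nhds_unique_of_eventuallyEq c1' c2' ?_
    have e1 : O m ∩ O x ∈ 𝓝[S] m :=
      mem_nhdsWithin_of_mem_nhds (inter_mem ((hO m).mem_nhds (hx m)) ((hO x).mem_nhds hm))
    filter_upwards [e1, self_mem_nhdsWithin] with y hy hyS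
    rw [he m y ⟨hy.1, hyS⟩, he x y ⟨hy.2, hyS⟩]
  refine ⟨fun x => f' x x, fun x => ?_, fun x hxS => he x x ⟨hx x, hxS⟩⟩
  refine ((hs x).contMDiffAt ((hO x).mem_nhds (hx x))).congr_of_eventuallyEq ?_
  filter_upwards [(hO x).mem_nhds (hx x)] with m hm
  exact key x m hm

theorem cDiff_ext (hCont : CCont_statement.{u}) (hReg : CReg_statement.{u}) {n N : ℕ} [NeZero n]
    {M : Type u} [TopologicalSpace M] [ChartedSpace (EuclideanHalfSpace n) M]
    [IsManifold (𝓡∂ n) ∞ M] [T2Space M] [CompactSpace M] [ConnectedSpace M] [MeasurableSpace M]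
    [BorelSpace M] (P Q : One n N M) (Γ : Set M) (Φ : M → M) (V : M → EndF N)
    (hd : ∀ x : M, x ∈ closure (Mi n M))
    (h : ∀ x ∈ Mi n M, ∃ O, x ∈ O ∧ LMatch P Q Γ O Φ V) :
    (∃ F : M → M, ContMDiff (𝓡∂ n) (𝓡∂ n) ∞ F ∧ ∀ x ∈ Mi n M, F x = Φ x) ∧
    ∃ G : M → EndF N, ContMDiff (𝓡∂ n) 𝓘(ℝ, EndF N) ∞ G ∧ ∀ x ∈ Mi n M, G x = V x := by
  have key : ∀ x : M, ∃ (O : Set M) (Φ' : M → M) (V' : M → EndF N), IsOpen O ∧
        x ∈ O ∧ ContMDiffOn (𝓡∂ n) (𝓡∂ n) ∞ Φ' O ∧ ContMDiffOn (𝓡∂ n) 𝓘(ℝ, EndF N) ∞ V' O ∧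
        ∀ m ∈ O ∩ Mi n M, Φ' m = Φ m ∧ V' m = V m := by
    intro x
    obtain ⟨x', hx'⟩ := hCont n N M P Q Γ Φ V h x
    exact hReg n N M P Q Γ Φ V h x x' hx'
  constructor
  · refine cDiff_glue (𝓡∂ n) hd Φ fun x => ?_
    obtain ⟨O, Φ', V', h1, h2, h3, h4, h5⟩ := key x
    exact ⟨O, Φ', h1, h2, h3, fun m hm => (h5 m hm).1⟩
  · refine cDiff_glue 𝓘(ℝ, EndF N) hd V fun x => ?_
    obtain ⟨O, Φ', V', h1, h2, h3, h4, h5⟩ := key x
    exact ⟨O, V', h1, h2, h4, fun m hm => (h5 m hm).2⟩

theorem cDiff : CCont_statement.{u} → CReg_statement.{u} → CConn_statement.{u} →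
    CDiff_statement.{u} := by
  intro hCont hReg hConn n N _ M _ _ _ _ _ _ _ _ P Q Γ Φ Ψ V V' h1 h2 h3
  obtain ⟨-, -, hd⟩ := hConn n M
  obtain ⟨⟨F, hF, hFe⟩, ⟨G, hG, hGe⟩⟩ := cDiff_ext hCont hReg P Q Γ Φ V hd h1
  obtain ⟨⟨F', hF', hFe'⟩, -⟩ := cDiff_ext hCont hReg Q P Γ Ψ V' hd h2
  have hD : Dense (Mi n M) := hd
  have m1 : ∀ x ∈ Mi n M, Φ x ∈ Mi n M := by
    intro x hx
    obtain ⟨O, hxO, hL⟩ := h1 x hx
    exact hL.maps hxO
  have m2 : ∀ x ∈ Mi n M, Ψ x ∈ Mi n M := by
    intro x hx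
    obtain ⟨O, hxO, hL⟩ := h2 x hx
    exact hL.maps hxO
  have e1 : (fun x => F (F' x)) = fun x => x := by
    refine Continuous.ext_on hD (hF.continuous.comp hF'.continuous) continuous_id ?_
    intro x hx
    change F (F' x) = x
    rw [hFe' x hx, hFe _ (m2 x hx)]
    exact (h3 x hx).1
  have e2 : (fun x => F' (F x)) = fun x => x := by
    refine Continuous.ext_on hD (hF'.continuous.comp hF.continuous) continuous_id ?_
    intro x hx
    change F' (F x) = x
    rw [hFe x hx, hFe' _ (m1 x hx)]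
    exact (h3 x hx).2
  refine ⟨{ toEquiv := ⟨F, F', fun x => congrFun e2 x, fun x => congrFun e1 x⟩
            contMDiff_toFun := hF
            contMDiff_invFun := hF' }, G, hG, fun x hx => ⟨hFe x hx, hGe x hx⟩⟩

end Vale.Agent.P088.EYM
end
end

section

/-!
# P088-EYM, block C: the main theorem in abstract form
-/

open Bundle Manifold MeasureTheory Set Filter Topology
open scoped ContDiff

noncomputable section

namespace Vale.Agent.P088.EYM

universe u

set_option linter.unusedSectionVars false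

/-- congruence of local matches -/
theorem cMain_congr {n N : ℕ} [NeZero n] {M : Type u} [TopologicalSpace M]
    [ChartedSpace (EuclideanHalfSpace n) M] [IsManifold (𝓡∂ n) ∞ M] [MeasurableSpace M]
    {P Q : One n N M} {Γ O : Set M} {Φ F : M → M} {V G : M → EndF N}
    (h : LMatch P Q Γ O Φ V) (hF : EqOn F Φ O) (hG : EqOn G V O) : LMatch P Q Γ O F G := by
  have hinn : ∀ (y y' : M) (_ : y = y') (a b : E n), P.g.inner y a b = P.g.inner y' a b := by
    rintro y _ rfl a b
    rfl
  have hfor : ∀ (y y' : M) (_ : y = y') (a : E n), P.A.form y a = P.A.form y' a := by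
    rintro y _ rfl a
    rfl
  have hdF : ∀ x ∈ O, ∀ v : TangentSpace (𝓡∂ n) x,
      (mfderiv (𝓡∂ n) (𝓡∂ n) F x v : E n) = (mfderiv (𝓡∂ n) (𝓡∂ n) Φ x v : E n) := by
    intro x hx v
    have h1 : F =ᶠ[𝓝 x] Φ := Filter.eventuallyEq_of_mem (h.isOpen.mem_nhds hx) hF
    exact DFunLike.congr_fun h1.mfderiv_eq v
  have hdG : ∀ x ∈ O, ∀ v : TangentSpace (𝓡∂ n) x,
      dmap (𝓡∂ n) G x v = dmap (𝓡∂ n) V x v := by
    intro x hx v
    have h1 : G =ᶠ[𝓝 x] V := Filter.eventuallyEq_of_mem (h.isOpen.mem_nhds hx) hG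
    exact DFunLike.congr_fun h1.mfderiv_eq v
  refine ⟨h.isOpen, h.sub, ?_, ?_, ?_, ?_, ?_, ?_, ?_⟩
  · intro x hx
    rw [hF hx]
    exact h.maps hx
  · exact h.smφ.congr hF
  · exact h.smV.congr hG
  · intro x hx
    rw [hG hx]
    exact h.unit x hx
  · intro x hx v w
    rw [h.met x hx v w]
    refine (hinn (Φ x) (F x) (hF hx).symm _ _).trans ?_
    exact congrArg₂ (fun a b : E n => P.g.inner (F x) a b) (hdF x hx v).symm (hdF x hx w).symm
  · intro x hx v
    rw [hdG x hx v, hG hx, h.con x hx v]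
    refine congrArg (fun T : EndF N => V x ∘L T) ?_
    refine (hfor (Φ x) (F x) (hF hx).symm _).trans ?_
    exact congrArg (fun a : E n => P.A.form (F x) a) (hdF x hx v).symm
  · intro u hu x hx
    rw [hG hx, hF hx]
    exact h.sol u hu x hx

section main

variable {n N : ℕ} [NeZero n] {M : Type u} [TopologicalSpace M]
  [ChartedSpace (EuclideanHalfSpace n) M] [IsManifold (𝓡∂ n) ∞ M] [T2Space M] [CompactSpace M]
  [ConnectedSpace M] [MeasurableSpace M] [BorelSpace M]

/-- bump data -/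
theorem cMain_bump (hbd : IsClosed ((𝓡∂ n).boundary M)) {Γ : Set M} (hΓ : RelBd n Γ) {p : M}
    (hp : p ∈ Γ) {V : Set M} (hV : IsOpen V) (hpV : p ∈ V) (e : Fib N) :
    ∃ f : M → Fib N, IsBdryData (𝓡∂ n) Γ f ∧ f p = e ∧ ∀ x ∉ V, f x = 0 := by
  obtain ⟨O, hO, hΓO⟩ := hΓ
  have hpO : p ∈ O := by
    rw [hΓO] at hp
    exact hp.1
  obtain ⟨b, -, hb⟩ := (SmoothBumpFunction.nhds_basis_tsupport (I := 𝓡∂ n) p).mem_iff.1
    ((hO.inter hV).mem_nhds ⟨hpO, hpV⟩)
  have h0 : ∀ x, x ∉ tsupport b → b x = 0 := fun x hx => image_eq_zero_of_notMem_tsupport hx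
  refine ⟨fun x => b x • e, ⟨b.contMDiff.smul contMDiff_const, ?_⟩, ?_, ?_⟩
  · have h1 : closure {x ∈ (𝓡∂ n).boundary M | b x • e ≠ 0} ⊆
        tsupport b ∩ (𝓡∂ n).boundary M := by
      refine closure_minimal ?_ ((isClosed_tsupport _).inter hbd)
      rintro x ⟨hx, hx'⟩
      refine ⟨by_contra fun h => hx' ?_, hx⟩
      rw [h0 x h, zero_smul]
    refine h1.trans ?_
    rintro x ⟨hx, hx'⟩
    rw [hΓO]
    exact ⟨(hb hx).1, hx'⟩
  · show b p • e = e
    rw [b.eq_one, one_smul]
  · intro x hx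
    show b x • e = 0
    rw [h0 x fun h => hx (hb h).2, zero_smul]

/-- the connection -/
theorem cMain_conn (P Q : One n N M) (F : Diffeomorph (𝓡∂ n) (𝓡∂ n) M M ∞) {G : M → EndF N}
    (hG : IsSmoothUnitary (𝓡∂ n) G)
    (h : ∀ (x : M) (v : TangentSpace (𝓡∂ n) x),
      dmap (𝓡∂ n) G x v + Q.A.form x v ∘L G x =
        G x ∘L P.A.form (F x) (mfderiv (𝓡∂ n) (𝓡∂ n) F x v)) (x : M)
    (v : TangentSpace (𝓡∂ n) x) :
    Q.A.form x v = gaugeForm P.A F (fun x => ContinuousLinearMap.adjoint (G x)) x v := by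
  have h1 := h x v
  have h2 : dmap (𝓡∂ n) (fun x => ContinuousLinearMap.adjoint (G x)) x v =
      ContinuousLinearMap.adjoint (dmap (𝓡∂ n) G x v) := dI_adj hG.smooth x v
  have h3 : G x * ContinuousLinearMap.adjoint (dmap (𝓡∂ n) G x v) +
      dmap (𝓡∂ n) G x v * ContinuousLinearMap.adjoint (G x) = 0 := d_uni_right hG x v
  have h4 : G x * ContinuousLinearMap.adjoint (G x) = 1 := uni_right hG x
  unfold gaugeForm
  rw [h2, ContinuousLinearMap.adjoint_adjoint]
  have h5 : dmap (𝓡∂ n) G x v + Q.A.form x v * G x =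
      G x * P.A.form (F x) (mfderiv (𝓡∂ n) (𝓡∂ n) F x v) := h1
  have h6 : Q.A.form x v = G x * (P.A.form (F x) (mfderiv (𝓡∂ n) (𝓡∂ n) F x v) *
      ContinuousLinearMap.adjoint (G x)) +
      G x * ContinuousLinearMap.adjoint (dmap (𝓡∂ n) G x v) := by
    generalize P.A.form (F x) (mfderiv (𝓡∂ n) (𝓡∂ n) F x v) = a at h5
    generalize ContinuousLinearMap.adjoint (dmap (𝓡∂ n) G x v) = dg' at h3
    generalize dmap (𝓡∂ n) G x v = dg at h3 h5
    generalize ContinuousLinearMap.adjoint (G x) = g' at h3 h4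
    generalize Q.A.form x v = q at h5
    generalize G x = g at h3 h4 h5
    have e1 : q * g = g * a - dg := eq_sub_of_add_eq' h5
    have e2 : g * dg' = - (dg * g') := eq_neg_of_add_eq_zero_left h3
    calc q = q * (g * g') := by rw [h4, mul_one]
      _ = (q * g) * g' := (mul_assoc _ _ _).symm
      _ = g * (a * g') + - (dg * g') := by
          rw [e1, sub_mul, mul_assoc, sub_eq_add_neg]
      _ = g * (a * g') + g * dg' := by rw [e2]
  exact h6

end main

/-- The main theorem in abstract form. -/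
theorem cMain : CGlobal_statement.{u} → CDiff_statement.{u} → CTensor_statement.{u} →
    CConn_statement.{u} → CData_statement.{u} → CLoc_statement.{u} → CMain_statement.{u} := by
  intro hGl hDi hTe hCo hDa hLoc n N _ M _ _ _ _ _ _ _ _ P Q Γ κ₁ κ₂ α β hn hN hΓ hΓne hS hE₁ hE₂
  obtain ⟨Φ, Ψ, V, V', hm, hm', hinv⟩ := hGl n N M P Q Γ κ₁ κ₂ α β hn hN hΓ hΓne hS hE₁ hE₂
  obtain ⟨F, G, hG, hFG⟩ := hDi n N M P Q Γ Φ Ψ V V' hm hm' hinv
  have hLM : ∀ x ∈ Mi n M, ∃ O, x ∈ O ∧ LMatch P Q Γ O F G := by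
    intro x hx
    obtain ⟨O, hxO, h⟩ := hm x hx
    exact ⟨O, hxO, cMain_congr h (fun y hy => (hFG y (h.sub hy)).1)
      fun y hy => (hFG y (h.sub hy)).2⟩
  obtain ⟨hmet, hcon, huni, hsol⟩ := hTe n N M P Q Γ F G hG hLM
  obtain ⟨⟨hP, hQ, -⟩, -⟩ := hDa n N M P Q Γ hΓ hΓne hS
  obtain ⟨hIo, -, -⟩ := hCo n M
  have hbd : IsClosed ((𝓡∂ n).boundary M) := by
    rw [← ModelWithCorners.compl_interior]
    exact hIo.isClosed_compl
  have hGu : IsSmoothUnitary (𝓡∂ n) G := ⟨hG, huni⟩
  have hFbd : ∀ p ∈ (𝓡∂ n).boundary M, F p ∈ (𝓡∂ n).boundary M := by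
    intro p hp
    rw [← ModelWithCorners.compl_interior] at hp ⊢
    intro h
    obtain ⟨O, hO, hLO⟩ := hm' (F p) h
    have h1 : Ψ (F p) ∈ Mi n M := hLO.maps hO
    have h2 : F (Ψ (F p)) = F p := by
      rw [(hFG _ h1).1]
      exact (hinv _ h).1
    have h3 := F.injective h2
    rw [h3] at h1
    exact hp h1
  have key : ∀ p ∈ Γ, ∀ f : M → Fib N, IsBdryData (𝓡∂ n) Γ f → f p = G p (f (F p)) := by
    intro p hp f hf
    obtain ⟨u₁, hu₁⟩ := hP f hf
    obtain ⟨u₂, hu₂⟩ := hQ f hf
    have hpb : p ∈ (𝓡∂ n).boundary M := by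
      obtain ⟨O, -, hΓO⟩ := hΓ
      rw [hΓO] at hp
      exact hp.2
    have h1 := hsol (u₁, u₂) ⟨f, hf, hu₁, hu₂⟩ p
    have h2 := hu₂.boundary p hpb
    have h3 := hu₁.boundary (F p) (hFbd p hpb)
    rw [← h2, ← h3]
    exact h1
  have hfix : ∀ p ∈ Γ, F p = p := by
    intro p hp
    by_contra hne
    obtain ⟨f, hf, hfp, hf0⟩ := cMain_bump (N := N) hbd hΓ hp (V := {F p}ᶜ)
      isClosed_singleton.isOpen_compl (fun h => hne (mem_singleton_iff.1 h).symm)
      (EuclideanSpace.single (⟨0, hN⟩ : Fin N) (1 : ℂ))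
    have h1 := key p hp f hf
    rw [hfp, hf0 (F p) (fun h => h rfl), map_zero] at h1
    have h2 : (EuclideanSpace.single (⟨0, hN⟩ : Fin N) (1 : ℂ) : Fib N) ⟨0, hN⟩ = 0 := by
      rw [h1]
      rfl
    simp at h2
  have hone : ∀ p ∈ Γ, G p = 1 := by
    intro p hp
    refine ContinuousLinearMap.ext fun e => ?_
    obtain ⟨f, hf, hfp, -⟩ := cMain_bump (N := N) hbd hΓ hp isOpen_univ (mem_univ p) e
    have h1 := key p hp f hf
    rw [hfix p hp, hfp] at h1
    exact h1.symm
  refine ⟨F, fun x => ContinuousLinearMap.adjoint (G x),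
    ⟨contMDiff_adj hG, fun x => Unitary.star_mem (huni x)⟩, fun x hx => ⟨hfix x hx, ?_⟩, hmet,
    cMain_conn P Q F hGu hcon⟩
  show ContinuousLinearMap.adjoint (G x) = 1
  rw [hone x hx]
  exact star_one (EndF N)

end Vale.Agent.P088.EYM
end
end
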