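import Vale.Agent.P088.MathlibUsed
import Vale.Agent.P088.Bdl.B1
import Vale.Agent.P088.Bdl.B2

set_option linter.all false

section

/-!
# P088-EYM, block D, D11: energy of two oscillating functions
-/

open MeasureTheory Set Filter Topology
open scoped ContDiff

noncomputable section

namespace Vale.Agent.P088.EYM

set_option linter.all false

variable {n : ℕ} [NeZero n] {N : ℕ}
variable {D : Set (E n)}

theorem de_smooth_mulC {f g : E n → ℂ} (hf : ContDiffOn ℝ ∞ f D) (hg : ContDiffOn ℝ ∞ g D) :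
    ContDiffOn ℝ ∞ (fun x => f x * g x) D :=
  dc_smooth_bil dc_bil_mulC hf hg

theorem de_smooth_inner {f g : E n → Fib N} (hf : ContDiffOn ℝ ∞ f D)
    (hg : ContDiffOn ℝ ∞ g D) : ContDiffOn ℝ ∞ (fun x => (inner ℂ (f x) (g x) : ℂ)) D :=
  dc_smooth_bil dc_bil_inner hf hg

theorem de_smooth_ofReal {f : E n → ℝ} (hf : ContDiffOn ℝ ∞ f D) :
    ContDiffOn ℝ ∞ (fun x => (f x : ℂ)) D :=
  dc_smooth_clm Complex.ofRealCLM hf

theorem de_smooth_conj {f : E n → ℂ} (hf : ContDiffOn ℝ ∞ f D) :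
    ContDiffOn ℝ ∞ (fun x => (starRingEnd ℂ) (f x)) D :=
  dc_smooth_clm (Complex.conjCLE : ℂ →L[ℝ] ℂ) hf

theorem de_smooth_DcB (hD : RelOpen D) {B : Fin n → E n → EndF N}
    (hB : ∀ j, ContDiffOn ℝ ∞ (B j) D) {a : E n → Fib N} (ha : ContDiffOn ℝ ∞ a D) (j : Fin n) :
    ContDiffOn ℝ ∞ (fun x => DcB B j a x) D :=
  (hD.pd_smooth ha j).add (smooth_eval (hB j) ha)

theorem de_tstD_osc {ψ : E n → ℂ} (hψ : ContDiffOn ℝ ∞ ψ D) {a : E n → Fib N}
    (ha : ContDiffOn ℝ ∞ a D) {K : Set (E n)} (hK : IsCompact K) (hKD : K ⊆ D)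
    (ha0 : ∀ x ∈ Hs n, x ∉ K → a x = 0) (t : ℝ) : TstD D (osc ψ a t) := by
  refine ⟨?_, K, hK, hKD, fun x hx hxK => ?_⟩
  · have h1 : ContDiffOn ℝ ∞ (fun x => Complex.exp ((t : ℂ) * ψ x)) D :=
      (de_smooth_mulC contDiffOn_const hψ).cexp
    exact dc_smooth_bil dc_bil_smulC h1 ha
  · show Complex.exp (t * ψ x) • a x = 0
    rw [ha0 x hx hxK, smul_zero]

theorem de_smooth_Q (hD : RelOpen D) {G : E n → Matrix (Fin n) (Fin n) ℝ} (hG : GOk D G)
    {B : Fin n → E n → EndF N} (hB : ∀ j, ContDiffOn ℝ ∞ (B j) D) {h : E n → EndF N}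
    (hh : ContDiffOn ℝ ∞ h D) {ψ : E n → ℂ} (hψ : ContDiffOn ℝ ∞ ψ D) {a a' : E n → Fib N}
    (ha : ContDiffOn ℝ ∞ a D) (ha' : ContDiffOn ℝ ∞ a' D) :
    ContDiffOn ℝ ∞ (Q2 G h ψ a a') D ∧ ContDiffOn ℝ ∞ (Q1 G B h ψ a a') D ∧
      ContDiffOn ℝ ∞ (Q0 G B h a a') D := by
  have hGc : ∀ j k, ContDiffOn ℝ ∞ (fun x => (G x j k : ℂ)) D :=
    fun j k => de_smooth_ofReal (hG.smG j k)
  have hp : ∀ j, ContDiffOn ℝ ∞ (fun x => pd j ψ x) D := fun j => hD.pd_smooth hψ j
  have hpc : ∀ j, ContDiffOn ℝ ∞ (fun x => (starRingEnd ℂ) (pd j ψ x)) D :=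
    fun j => de_smooth_conj (hp j)
  have hDa : ∀ j, ContDiffOn ℝ ∞ (fun x => DcB B j a x) D := fun j => de_smooth_DcB hD hB ha j
  have hDa' : ∀ j, ContDiffOn ℝ ∞ (fun x => DcB B j a' x) D := fun j => de_smooth_DcB hD hB ha' j
  have hha' : ContDiffOn ℝ ∞ (fun x => h x (a' x)) D := smooth_eval hh ha'
  have hhDa' : ∀ k, ContDiffOn ℝ ∞ (fun x => h x (DcB B k a' x)) D :=
    fun k => smooth_eval hh (hDa' k)
  refine ⟨?_, ?_, ?_⟩
  · refine dc_smooth_sum _ fun j _ => dc_smooth_sum _ fun k _ => ?_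
    exact de_smooth_mulC (hGc j k) (de_smooth_mulC (de_smooth_mulC (hpc j) (hp k))
      (de_smooth_inner ha hha'))
  · refine dc_smooth_sum _ fun j _ => dc_smooth_sum _ fun k _ => ?_
    exact de_smooth_mulC (hGc j k) ((de_smooth_mulC (hpc j) (de_smooth_inner ha (hhDa' k))).add
      (de_smooth_mulC (hp k) (de_smooth_inner (hDa j) hha')))
  · refine dc_smooth_sum _ fun j _ => dc_smooth_sum _ fun k _ => ?_
    exact de_smooth_mulC (hGc j k) (de_smooth_inner (hDa j) (hhDa' k))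

/-- `K` is a closed ball intersected with the half space (so that derivatives vanish off `K`) -/
theorem de_supp_Q {G : E n → Matrix (Fin n) (Fin n) ℝ} {B : Fin n → E n → EndF N}
    {h : E n → EndF N} {ψ : E n → ℂ} {a a' : E n → Fib N} {K : Set (E n)} (hK : IsClosed K)
    (ha0 : ∀ x ∈ Hs n, x ∉ K → a x = 0) (ha0' : ∀ x ∈ Hs n, x ∉ K → a' x = 0) :
    ∀ x ∈ Hs n, x ∉ K → Q2 G h ψ a a' x = 0 ∧ Q1 G B h ψ a a' x = 0 ∧ Q0 G B h a a' x = 0 := by
  intro x hx hxK
  have h1 := ha0 x hx hxK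
  have h1' := ha0' x hx hxK
  have h2 : ∀ j, DcB B j a x = 0 := fun j => by
    unfold DcB
    rw [dc_pd_supp hK ha0 j x hx hxK, h1, map_zero, add_zero]
  have h2' : ∀ j, DcB B j a' x = 0 := fun j => by
    unfold DcB
    rw [dc_pd_supp hK ha0' j x hx hxK, h1', map_zero, add_zero]
  refine ⟨?_, ?_, ?_⟩
  · unfold Q2
    refine Finset.sum_eq_zero fun j _ => Finset.sum_eq_zero fun k _ => ?_
    rw [h1, inner_zero_left, mul_zero, mul_zero]
  · unfold Q1
    refine Finset.sum_eq_zero fun j _ => Finset.sum_eq_zero fun k _ => ?_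
    rw [h1, h2, inner_zero_left, inner_zero_left, mul_zero, mul_zero, add_zero, mul_zero]
  · unfold Q0
    refine Finset.sum_eq_zero fun j _ => Finset.sum_eq_zero fun k _ => ?_
    rw [h2, inner_zero_left, mul_zero]

theorem de_DcB_osc (hD : RelOpen D) {B : Fin n → E n → EndF N} {ψ : E n → ℂ}
    (hψ : ContDiffOn ℝ ∞ ψ D) {a : E n → Fib N} (ha : ContDiffOn ℝ ∞ a D) (t : ℝ) {x : E n}
    (hx : x ∈ D) (j : Fin n) :
    DcB B j (osc ψ a t) x = Complex.exp (t * ψ x) •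
      (((t : ℂ) * pd j ψ x) • a x + DcB B j a x) := by
  have h0 : ContDiffOn ℝ ∞ (fun y => (t : ℂ) * ψ y) D := de_smooth_mulC contDiffOn_const hψ
  have h1 : pd j (fun y => (t : ℂ) * ψ y) x = (t : ℂ) * pd j ψ x := by
    rw [dc_pd_bil hD dc_bil_mulC (f := fun _ => (t : ℂ)) contDiffOn_const hψ hx j, pd_const]
    simp
  have h2 : pd j (osc ψ a t) x = (Complex.exp (t * ψ x) * ((t : ℂ) * pd j ψ x)) • a x +
      Complex.exp (t * ψ x) • pd j a x := by
    have h3 := dc_pd_bil hD (dc_bil_smulC (N := N)) (f := fun y => Complex.exp ((t : ℂ) * ψ y))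
      h0.cexp ha hx j
    rw [dc_pd_exp hD h0 hx j, h1] at h3
    exact h3
  unfold DcB
  rw [h2]
  show _ + B j x (Complex.exp (t * ψ x) • a x) = _
  rw [map_smul, smul_add, smul_add, smul_smul, add_assoc]

theorem de_inner_exp (h : EndF N) (z : ℂ) (u v : Fib N) :
    (inner ℂ (Complex.exp z • u) (h (Complex.exp z • v)) : ℂ) =
      (Real.exp (2 * z.re) : ℂ) * inner ℂ u (h v) := by
  rw [map_smul, inner_smul_left, inner_smul_right, ← mul_assoc, ← Complex.exp_conj,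
    ← Complex.exp_add]
  congr 1
  rw [Complex.ofReal_exp]
  congr 1
  apply Complex.ext <;> simp; ring

theorem de_inner_expand (h : EndF N) (t : ℝ) (p q : ℂ) (a a' u v : Fib N) :
    (inner ℂ (((t : ℂ) * p) • a + u) (h (((t : ℂ) * q) • a' + v)) : ℂ) =
      (t : ℂ) ^ 2 * ((starRingEnd ℂ) p * q * inner ℂ a (h a')) +
      (t : ℂ) * ((starRingEnd ℂ) p * inner ℂ a (h v) + q * inner ℂ u (h a')) +
      inner ℂ u (h v) := by
  rw [map_add, map_smul, inner_add_left, inner_add_right, inner_add_right, inner_smul_left,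
    inner_smul_left, inner_smul_right, inner_smul_right, map_mul, Complex.conj_ofReal]
  ring

theorem de_integrable (hD : RelOpen D) {f : E n → ℂ} (hf : ContDiffOn ℝ ∞ f D) {K : Set (E n)}
    (hK : IsCompact K) (hKD : K ⊆ D) (hf0 : ∀ x ∈ Hs n, x ∉ K → f x = 0) :
    IntegrableOn f D := by
  have h1 : IntegrableOn f K := (hf.continuousOn.mono hKD).integrableOn_compact hK
  exact h1.of_forall_diff_eq_zero (dc_meas hD) fun x hx => hf0 x (hD.subset hx.1) hx.2

theorem de_enD_osc (hD : RelOpen D) {G : E n → Matrix (Fin n) (Fin n) ℝ} (hG : GOk D G)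
    {B : Fin n → E n → EndF N} (hB : ∀ j, ContDiffOn ℝ ∞ (B j) D) {h : E n → EndF N}
    (hh : ContDiffOn ℝ ∞ h D) {ψ : E n → ℂ} (hψ : ContDiffOn ℝ ∞ ψ D) {a a' : E n → Fib N}
    (ha : ContDiffOn ℝ ∞ a D) (ha' : ContDiffOn ℝ ∞ a' D) {K : Set (E n)}
    (hK : IsCompact K) (hKD : K ⊆ D) (ha0 : ∀ x ∈ Hs n, x ∉ K → a x = 0)
    (ha0' : ∀ x ∈ Hs n, x ∉ K → a' x = 0) (t : ℝ) :
    EnD D G B h (osc ψ a t) (osc ψ a' t) = (t : ℂ) ^ 2 * II D ψ t (Q2 G h ψ a a') +
      (t : ℂ) * II D ψ t (Q1 G B h ψ a a') + II D ψ t (Q0 G B h a a') := by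
  obtain ⟨s2, s1, s0⟩ := de_smooth_Q hD hG hB hh hψ ha ha'
  have hsupp := de_supp_Q (G := G) (B := B) (h := h) (ψ := ψ) hK.isClosed ha0 ha0'
  have he : ContDiffOn ℝ ∞ (fun x => (Real.exp (2 * t * (ψ x).re) : ℂ)) D :=
    de_smooth_ofReal ((contDiffOn_const.mul (dc_smooth_clm Complex.reCLM hψ)).exp)
  have i2 : IntegrableOn (fun x => (Real.exp (2 * t * (ψ x).re) : ℂ) * Q2 G h ψ a a' x) D :=
    de_integrable hD (de_smooth_mulC he s2) hK hKD
      (fun x hx hxK => by rw [(hsupp x hx hxK).1, mul_zero])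
  have i1 : IntegrableOn (fun x => (Real.exp (2 * t * (ψ x).re) : ℂ) * Q1 G B h ψ a a' x) D :=
    de_integrable hD (de_smooth_mulC he s1) hK hKD
      (fun x hx hxK => by rw [(hsupp x hx hxK).2.1, mul_zero])
  have i0 : IntegrableOn (fun x => (Real.exp (2 * t * (ψ x).re) : ℂ) * Q0 G B h a a' x) D :=
    de_integrable hD (de_smooth_mulC he s0) hK hKD
      (fun x hx hxK => by rw [(hsupp x hx hxK).2.2, mul_zero])
  have key : ∀ x ∈ D, (∑ j, ∑ k, (G x j k : ℂ) * (inner ℂ (DcB B j (osc ψ a t) x)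
      (h x (DcB B k (osc ψ a' t) x)) : ℂ)) =
      ((t : ℂ) ^ 2 * ((Real.exp (2 * t * (ψ x).re) : ℂ) * Q2 G h ψ a a' x) +
      (t : ℂ) * ((Real.exp (2 * t * (ψ x).re) : ℂ) * Q1 G B h ψ a a' x)) +
      (Real.exp (2 * t * (ψ x).re) : ℂ) * Q0 G B h a a' x := by
    intro x hx
    have hre : 2 * ((t : ℂ) * ψ x).re = 2 * t * (ψ x).re := by
      rw [Complex.re_ofReal_mul, mul_assoc]
    unfold Q2 Q1 Q0
    simp only [Finset.mul_sum, ← Finset.sum_add_distrib]
    refine Finset.sum_congr rfl fun j _ => Finset.sum_congr rfl fun k _ => ?_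
    rw [de_DcB_osc hD hψ ha t hx j, de_DcB_osc hD hψ ha' t hx k, de_inner_exp, de_inner_expand,
      hre]
    ring
  unfold EnD II
  rw [setIntegral_congr_fun (dc_meas hD) key, integral_add, integral_add, integral_const_mul,
    integral_const_mul]
  · exact i2.const_mul _
  · exact i1.const_mul _
  · exact (i2.const_mul _).add (i1.const_mul _)
  · exact i0

end Vale.Agent.P088.EYM
end
end

section

/-!
# P088-EYM, block A, A7: weak solutions are strong solutions (interior)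
-/

open MeasureTheory Set Filter Topology
open scoped ContDiff

noncomputable section

namespace Vale.Agent.P088.EYM

set_option linter.all false

variable {n N : ℕ} [NeZero n]

theorem aWeakStrong_ext {F : Type*} [NormedAddCommGroup F] [NormedSpace ℝ F] {D : Set (E n)}
    (hD : IsOpen D) {K : Set (E n)} (hK : IsClosed K) (hKD : K ⊆ D) {f : E n → F}
    (hf : ContDiffOn ℝ ∞ f D) (h0 : ∀ x, x ∉ K → f x = 0) : ContDiff ℝ ∞ f := by
  rw [contDiff_iff_contDiffAt]
  intro x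
  by_cases hx : x ∈ D
  · exact hf.contDiffAt (hD.mem_nhds hx)
  · have h1 : f =ᶠ[𝓝 x] fun _ => 0 := by
      filter_upwards [hK.isOpen_compl.mem_nhds (fun h => hx (hKD h))] with y hy
      exact h0 y hy
    exact contDiffAt_const.congr_of_eventuallyEq h1

theorem aWeakStrong_div {f : E n → ℂ} (hf : ContDiff ℝ ∞ f) (hc : HasCompactSupport f)
    (v : E n) : ∫ x, fderiv ℝ f x v = 0 := by
  have hf' : Continuous (fun x => fderiv ℝ f x v) :=
    (hf.continuous_fderiv (by simp)).clm_apply continuous_const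
  have hc' : HasCompactSupport (fun x => fderiv ℝ f x v) := hc.fderiv_apply ℝ _
  have h := integral_mul_fderiv_eq_neg_fderiv_mul_of_integrable (μ := (volume : Measure (E n)))
    (f := fun _ => (1 : ℂ)) (g := f) (v := v) (by simp only [fderiv_fun_const, Pi.zero_apply, zero_apply, zero_mul, integrable_fun_zero])
    (by simpa only [one_mul] using hf'.integrable_of_hasCompactSupport hc')
    (by simpa only [one_mul] using hf.continuous.integrable_of_hasCompactSupport hc)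
    (fun x _ => differentiableAt_const _)
    (fun x _ => hf.differentiable (by simp) x)
  simpa only [one_mul, fderiv_fun_const, Pi.zero_apply, zero_apply, zero_mul, integral_zero, neg_zero] using h

theorem aWeakStrong_pd {F : Type*} [NormedAddCommGroup F] [NormedSpace ℝ F] {D : Set (E n)}
    (hD : IsOpen D) (hs : D ⊆ Hs n) {f : E n → F} {x : E n} (hx : x ∈ D) (i : Fin n) :
    pd i f x = fderiv ℝ f x (ev i) := by
  unfold pd
  rw [fderivWithin_of_mem_nhds (mem_of_superset (hD.mem_nhds hx) hs)]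

/-- the divergence identity -/
theorem aWeakStrong_ident {D : Set (E n)} (hR : RelOpen D) {L : LD n N} (hL : L.Ok D)
    {c ψ : E n → Fib N} (hc : ContDiffOn ℝ ∞ c D) (hψ : ContDiffOn ℝ ∞ ψ D) {x : E n}
    (hx : x ∈ D) :
    ∑ k, pd k (fun y => (inner ℂ (flux L k c y) (L.h y (ψ y)) : ℂ)) x =
      inner ℂ (Lop L c x) (L.h x (ψ x)) + ed L c ψ x := by
  have hgg := hR.gg_smooth hL.g_smooth hL.g_pos
  have hnab := Jacobi_nab_smooth hR hL hc
  have hfl : ∀ k, ContDiffOn ℝ ∞ (flux L k c) D := fun k =>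
    dc_smooth_sum (f := fun l y => gg L.g k l y • nab L l c y) _
      fun l _ => (hgg k l).smul (hnab l)
  have hhψ : ContDiffOn ℝ ∞ (fun y => L.h y (ψ y)) D := smooth_eval hL.h_smooth hψ
  have h1 : ∀ k, pd k (fun y => (inner ℂ (flux L k c y) (L.h y (ψ y)) : ℂ)) x =
      inner ℂ (pd k (flux L k c) x + L.B k x (flux L k c x)) (L.h x (ψ x)) +
        inner ℂ (flux L k c x) (L.h x (nab L k ψ x)) := by
    intro k
    have h2 := dc_pd_bil hR dc_bil_inner (hfl k) hhψ hx k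
    have h3 : pd k (fun y => L.h y (ψ y)) x = L.h x (pd k ψ x) + pd k L.h x (ψ x) :=
      hR.pd_eval hL.h_smooth hψ (by simp) (by simp) hx k
    have h4 : pd k L.h x (ψ x) = ContinuousLinearMap.adjoint (L.B k x) (L.h x (ψ x)) +
        L.h x (L.B k x (ψ x)) := by
      rw [hL.compat x hx k]; rfl
    simp only at h2
    rw [h2, h3, h4]
    unfold nab
    simp only [inner_add_left, inner_add_right, map_add, ContinuousLinearMap.adjoint_inner_right]
    ring
  have hsym : ∀ j k, gg L.g j k x = gg L.g k j x := by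
    intro j k
    unfold gg
    rw [Jacobi_inv_symm (hL.g_pos x hx)]
  simp only [h1]
  rw [Finset.sum_add_distrib]
  congr 1
  · unfold Lop
    rw [sum_inner]
  · unfold ed
    rw [Finset.sum_comm]
    refine Finset.sum_congr rfl fun k _ => ?_
    unfold flux
    rw [sum_inner]
    refine Finset.sum_congr rfl fun l _ => ?_
    rw [hsym l k]
    rw [show (gg L.g k l x • nab L l c x : Fib N) = ((gg L.g k l x : ℝ) : ℂ) • nab L l c x from
      (Complex.coe_smul _ _).symm, inner_smul_left, Complex.conj_ofReal]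

/-- **A7**: weak implies strong. -/
theorem aWeakStrong : AWeakStrong_statement := by
  intro n N _ L D hD hs hL c hc hweak x₀ hx₀
  have hR : RelOpen D := ⟨D, hD, (inter_eq_left.2 hs).symm⟩
  have hgg := hR.gg_smooth hL.g_smooth hL.g_pos
  have hnab := Jacobi_nab_smooth hR hL hc
  have hfl : ∀ k, ContDiffOn ℝ ∞ (flux L k c) D := fun k =>
    dc_smooth_sum (f := fun l y => gg L.g k l y • nab L l c y) _
      fun l _ => (hgg k l).smul (hnab l)
  have hLop : ContDiffOn ℝ ∞ (Lop L c) D :=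
    dc_smooth_sum (f := fun j y => pd j (flux L j c) y + L.B j y (flux L j c y)) _
      fun j _ => (hR.pd_smooth (hfl j) j).add (smooth_eval (hL.B_smooth j) (hfl j))
  by_contra hne
  obtain ⟨r, hr, hrD⟩ := Metric.isOpen_iff.1 hD x₀ hx₀
  let η : ContDiffBump x₀ := ⟨r / 4, r / 2, by positivity, by linarith only [hr]⟩
  have hη : ContDiff ℝ ∞ (η : E n → ℝ) := η.contDiff
  set K : Set (E n) := Metric.closedBall x₀ (r / 2) with hKdef
  have hK : IsCompact K := isCompact_closedBall _ _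
  have hKD : K ⊆ D := (Metric.closedBall_subset_ball (by linarith only [hr])).trans hrD
  have hη0 : ∀ x, x ∉ K → η x = 0 := by
    intro x hx
    refine η.zero_of_le_dist ?_
    have : r / 2 < dist x x₀ := by
      by_contra h
      exact hx (Metric.mem_closedBall.2 (not_lt.1 h))
    exact this.le
  set ψ : E n → Fib N := fun x => η x • Lop L c x with hψdef
  have hψD : ContDiffOn ℝ ∞ ψ D := (hη.contDiffOn).smul hLop
  have hψ0 : ∀ x, x ∉ K → ψ x = 0 := fun x hx => by simp [hψdef, hη0 x hx]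
  have hψ : ContDiff ℝ ∞ ψ := aWeakStrong_ext hD hK.isClosed hKD hψD hψ0
  have hsupp : ∀ {F : Type} [NormedAddCommGroup F] (f : E n → F), (∀ x, x ∉ K → f x = 0) →
      tsupport f ⊆ K := by
    intro F _ f hf
    refine closure_minimal (fun x hx => ?_) hK.isClosed
    by_contra h
    exact hx (hf x h)
  have hψT : Tst0 D ψ := ⟨hψ, hK.of_isClosed_subset (isClosed_tsupport _) (hsupp ψ hψ0),
    (hsupp ψ hψ0).trans hKD⟩
  set u : Fin n → E n → ℂ := fun k y => (inner ℂ (flux L k c y) (L.h y (ψ y)) : ℂ) with hu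
  have huD : ∀ k, ContDiffOn ℝ ∞ (u k) D := fun k =>
    de_smooth_inner (hfl k) (smooth_eval hL.h_smooth hψD)
  have hu0 : ∀ k x, x ∉ K → u k x = 0 := fun k x hx => by
    simp [hu, hψ0 x hx]
  have huc : ∀ k, ContDiff ℝ ∞ (u k) := fun k =>
    aWeakStrong_ext hD hK.isClosed hKD (huD k) (hu0 k)
  have hucs : ∀ k, HasCompactSupport (u k) := fun k =>
    hK.of_isClosed_subset (isClosed_tsupport _) (hsupp (u k) (hu0 k))
  have hzero : ∀ k, ∫ x in D, pd k (u k) x = 0 := by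
    intro k
    have h1 : ∫ x in D, pd k (u k) x = ∫ x in D, fderiv ℝ (u k) x (ev k) :=
      setIntegral_congr_fun hD.measurableSet fun x hx => aWeakStrong_pd hD hs hx k
    rw [h1, setIntegral_eq_integral_of_forall_compl_eq_zero, aWeakStrong_div (huc k) (hucs k)]
    intro x hx
    have h2 : x ∉ tsupport (fderiv ℝ (u k)) := fun h =>
      hx (hKD (hsupp (u k) (hu0 k) (tsupport_fderiv_subset ℝ h)))
    rw [image_eq_zero_of_notMem_tsupport h2]
    rfl
  have hint1 : ∀ k, IntegrableOn (fun x => pd k (u k) x) D := fun k =>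
    de_integrable hR (hR.pd_smooth (huD k) k) hK hKD
      (dc_pd_supp hK.isClosed (fun x _ hx => hu0 k x hx) k)
  have hint2 : IntegrableOn (fun x => (inner ℂ (Lop L c x) (L.h x (ψ x)) : ℂ)) D :=
    de_integrable hR (de_smooth_inner hLop (smooth_eval hL.h_smooth hψD)) hK hKD
      (fun x _ hx => by simp only [hψ0 x hx, map_zero, inner_zero_right])
  have hsum : ∫ x in D, ∑ k, pd k (u k) x = 0 := by
    rw [integral_finsetSum _ fun k _ => hint1 k]
    exact Finset.sum_eq_zero fun k _ => hzero k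
  have hid : ∀ x ∈ D, ∑ k, pd k (u k) x - inner ℂ (Lop L c x) (L.h x (ψ x)) = ed L c ψ x := by
    intro x hx
    rw [hu, aWeakStrong_ident hR hL hc hψD hx]
    ring
  have hen : ∫ x in D, ed L c ψ x = 0 := hweak ψ hψT
  have hkey : ∫ x in D, (inner ℂ (Lop L c x) (L.h x (ψ x)) : ℂ) = 0 := by
    have h1 : ∫ x in D, ed L c ψ x =
        ∫ x in D, (∑ k, pd k (u k) x - inner ℂ (Lop L c x) (L.h x (ψ x))) :=
      (setIntegral_congr_fun hD.measurableSet fun x hx => hid x hx).symm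
    rw [hen, integral_sub (integrable_finset_sum _ fun k _ => hint1 k) hint2, hsum] at h1
    simpa only [zero_sub, neg_eq_zero] using h1.symm
  -- the real part
  have hre : ∫ x in D, η x * (inner ℂ (Lop L c x) (L.h x (Lop L c x)) : ℂ).re = 0 := by
    have h1 := congrArg Complex.re hkey
    rw [← RCLike.re_eq_complex_re, ← integral_re hint2] at h1
    simp only [RCLike.re_eq_complex_re, Complex.zero_re] at h1
    rw [← h1]
    refine setIntegral_congr_fun hD.measurableSet fun x hx => ?_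
    simp only [hψdef]
    rw [show (η x • Lop L c x : Fib N) = ((η x : ℝ) : ℂ) • Lop L c x from
      (Complex.coe_smul _ _).symm, map_smul, inner_smul_right, Complex.re_ofReal_mul]
  have hnn : ∀ x ∈ D, 0 ≤ (inner ℂ (Lop L c x) (L.h x (Lop L c x)) : ℂ).re := by
    intro x hx
    by_cases h : Lop L c x = 0
    · simp [h]
    · exact (hL.h_pos x hx _ h).le
  have hcont : ContinuousOn (fun x => η x * (inner ℂ (Lop L c x) (L.h x (Lop L c x)) : ℂ).re) D :=
    hη.continuous.continuousOn.mul (Complex.continuous_re.comp_continuousOn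
      (de_smooth_inner hLop (smooth_eval hL.h_smooth hLop)).continuousOn)
  have hint3 : IntegrableOn (fun x => η x * (inner ℂ (Lop L c x) (L.h x (Lop L c x)) : ℂ).re) D := by
    have h1 : IntegrableOn (fun x => η x * (inner ℂ (Lop L c x) (L.h x (Lop L c x)) : ℂ).re) K :=
      (hcont.mono hKD).integrableOn_compact hK
    exact h1.of_forall_diff_eq_zero hD.measurableSet fun x hx => by rw [hη0 x hx.2, zero_mul]
  have hae : (fun x => η x * (inner ℂ (Lop L c x) (L.h x (Lop L c x)) : ℂ).re) =ᵐ[volume.restrict D]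
      0 := by
    refine (setIntegral_eq_zero_iff_of_nonneg_ae ?_ hint3).1 hre
    filter_upwards [ae_restrict_mem hD.measurableSet] with x hx
    exact mul_nonneg η.nonneg (hnn x hx)
  have hz := Measure.eqOn_open_of_ae_eq hae hD hcont continuousOn_const hx₀
  simp only [Pi.zero_apply] at hz
  have h1 : η x₀ = 1 := η.one_of_mem_closedBall (Metric.mem_closedBall_self (by positivity))
  rw [h1, one_mul] at hz
  exact (hL.h_pos x₀ hx₀ _ hne).ne' hz

end Vale.Agent.P088.EYM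
end
end

section

set_option linter.all false

/-!
# P088-EYM, A6: extension of total differential systems to the flat boundary
-/

open MeasureTheory Set Filter Topology
open scoped ContDiff

noncomputable section

namespace Vale.Agent.P088.EYM

section

variable {n : ℕ} [NeZero n]

/-- interior part of a half ball -/
def aExtSys_O (z : E n) (r : ℝ) : Set (E n) := Metric.ball z r ∩ {y | 0 < y 0}

theorem aExtSys_cont : Continuous (fun y : E n => y 0) := by fun_prop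

theorem aExtSys_open (z : E n) (r : ℝ) : IsOpen (aExtSys_O z r) :=
  Metric.isOpen_ball.inter (isOpen_lt continuous_const aExtSys_cont)

theorem aExtSys_convexPos : Convex ℝ {y : E n | 0 < y 0} := by
  intro x hx y hy a b ha hb hab
  simp only [mem_setOf_eq, PiLp.add_apply, PiLp.smul_apply, smul_eq_mul] at *
  rcases ha.eq_or_lt with h | h
  · have : b = 1 := by linarith only [hab, h]
    rw [← h, this]
    linarith
  · have := mul_pos h hx
    have := mul_nonneg hb hy.le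
    linarith

theorem aExtSys_convexHs : Convex ℝ (Hs n) := by
  intro x hx y hy a b ha hb hab
  simp only [Hs, mem_setOf_eq, PiLp.add_apply, PiLp.smul_apply, smul_eq_mul] at *
  have := mul_nonneg ha hx
  have := mul_nonneg hb hy
  linarith

theorem aExtSys_convexO (z : E n) (r : ℝ) : Convex ℝ (aExtSys_O z r) :=
  (convex_ball z r).inter aExtSys_convexPos

theorem aExtSys_convexHB (z : E n) (r : ℝ) : Convex ℝ (HB z r) :=
  (convex_ball z r).inter aExtSys_convexHs

theorem aExtSys_sub (z : E n) (r : ℝ) : aExtSys_O z r ⊆ HB z r := fun y hy =>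
  ⟨hy.1, le_of_lt (show 0 < y 0 from hy.2)⟩

theorem aExtSys_closure (z : E n) (r : ℝ) : HB z r ⊆ closure (aExtSys_O z r) := by
  intro y hy
  have h1 : y ∈ closure {y : E n | 0 < y 0} := by
    rw [Metric.mem_closure_iff]
    intro ε hε
    refine ⟨y + (ε / 2) • ev 0, ?_, ?_⟩
    · have h0 : 0 ≤ y 0 := hy.2
      simp only [mem_setOf_eq, PiLp.add_apply, PiLp.smul_apply, smul_eq_mul,
        EuclideanSpace.single_apply, if_true]
      linarith
    · rw [dist_eq_norm, sub_add_cancel_left, norm_neg, norm_smul, EuclideanSpace.norm_single,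
        Real.norm_eq_abs, abs_of_pos (by positivity)]
      norm_num
      linarith
  exact Metric.isOpen_ball.inter_closure ⟨hy.1, h1⟩

theorem aExtSys_nonempty {z : E n} {r : ℝ} (hr : 0 < r) (hz : z ∈ Hs n) :
    (aExtSys_O z r).Nonempty := by
  have h : z ∈ closure (aExtSys_O z r) := aExtSys_closure z r ⟨Metric.mem_ball_self hr, hz⟩
  exact closure_nonempty_iff.1 ⟨z, h⟩

end

theorem aExtSys : AExtSys_statement := by
  intro n _ G _ _ _ z z' r r' r'' hr hr' hz Λ hΛ s hs hsm hC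
  obtain ⟨C, hC⟩ := hC
  set O := aExtSys_O z r with hO
  set D := HB z r with hD
  have hOo : IsOpen O := aExtSys_open z r
  have hOc : Convex ℝ O := aExtSys_convexO z r
  have hDc : Convex ℝ D := aExtSys_convexHB z r
  have hOD : O ⊆ D := aExtSys_sub z r
  have hDcl : D ⊆ closure O := aExtSys_closure z r
  obtain ⟨z0, hz0⟩ : O.Nonempty := aExtSys_nonempty hr hz
  have hs' : ∀ y ∈ O, HasFDerivAt s (Λ (y, s y)) y := fun y hy => hs y (hOD hy) hy.2
  have hC' : ∀ y ∈ O, ‖Λ (y, s y)‖ ≤ C := fun y hy => hC y (hOD hy) hy.2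
  have hC0 : 0 ≤ C := (norm_nonneg _).trans (hC' z0 hz0)
  have hlip : LipschitzOnWith (Real.toNNReal C) s O := by
    refine hOc.lipschitzOnWith_of_nnnorm_hasFDerivWithin_le (f' := fun y => Λ (y, s y))
      (fun y hy => (hs' y hy).hasFDerivWithinAt) ?_
    intro y hy
    rw [← NNReal.coe_le_coe, coe_nnnorm, Real.coe_toNNReal _ hC0]
    exact hC' y hy
  -- the extension
  have hlim : ∀ x ∈ closure O, ∃ y, Tendsto s (𝓝[O] x) (𝓝 y) := by
    intro x hx
    have hne : (𝓝[O] x).NeBot := mem_closure_iff_nhdsWithin_neBot.1 hx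
    have hcau : Cauchy (𝓝[O] x) := cauchy_nhds.mono nhdsWithin_le_nhds
    exact cauchy_map_iff_exists_tendsto.1
      (hcau.map_of_le hlip.uniformContinuousOn inf_le_right)
  set t := extendFrom O s with ht
  have htc : ContinuousOn t (closure O) := continuousOn_extendFrom subset_rfl hlim
  have hteq : ∀ y ∈ O, t y = s y := by
    intro y hy
    exact extendFrom_eq (subset_closure hy)
      ((hs' y hy).continuousAt.continuousWithinAt.tendsto)
  have htD : ContinuousOn t D := htc.mono hDcl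
  have hval : ∀ y ∈ D, (t y).1 ∈ Metric.closedBall z' r'' ∩ Hs n := by
    intro y hy
    have hne : (𝓝[O] y).NeBot := mem_closure_iff_nhdsWithin_neBot.1 (hDcl hy)
    have h1 : Tendsto (fun w => (t w).1) (𝓝[O] y) (𝓝 (t y).1) :=
      (continuous_fst.tendsto _).comp (((htc y (hDcl hy)).mono subset_closure).tendsto)
    have hcl : IsClosed (Metric.closedBall z' r'' ∩ Hs n) :=
      Metric.isClosed_closedBall.inter (isClosed_le continuous_const aExtSys_cont)
    refine hcl.mem_of_tendsto h1 ?_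
    filter_upwards [self_mem_nhdsWithin] with w hw
    rw [hteq w hw]
    exact hsm w (hOD hw) hw.2
  have hmaps : MapsTo (fun y => (y, t y)) D (D ×ˢ HB z' r' ×ˢ (univ : Set G)) := by
    intro y hy
    refine ⟨hy, ⟨?_, (hval y hy).2⟩, mem_univ _⟩
    exact Metric.closedBall_subset_ball hr' (hval y hy).1
  have hΛt : ContinuousOn (fun y => Λ (y, t y)) D :=
    hΛ.continuousOn.comp (continuousOn_id.prodMk htD) hmaps
  have hder : ∀ y ∈ D, HasFDerivWithinAt t (Λ (y, t y)) D y := by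
    intro y hy
    refine (hasFDerivWithinAt_closure_of_tendsto_fderiv (s := O) ?_ hOc hOo
      (fun w hw => (htc w hw).mono subset_closure) ?_).mono hDcl
    · intro w hw
      exact ((hs' w hw).differentiableAt.differentiableWithinAt (s := O)).congr hteq (hteq w hw)
    · have h1 : ∀ w ∈ O, fderiv ℝ t w = Λ (w, t w) := by
        intro w hw
        have he : t =ᶠ[𝓝 w] s := by
          filter_upwards [hOo.mem_nhds hw] with v hv using hteq v hv
        rw [he.fderiv_eq, (hs' w hw).fderiv, hteq w hw]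
      have h3 := ((hΛt y hy).mono hOD).tendsto
      refine h3.congr' ?_
      filter_upwards [self_mem_nhdsWithin] with w hw using (h1 w hw).symm
  have hU : UniqueDiffOn ℝ D := by
    refine uniqueDiffOn_convex hDc ?_
    exact ⟨z0, mem_interior_iff_mem_nhds.2 (Filter.mem_of_superset (hOo.mem_nhds hz0) hOD)⟩
  have hsmooth : ∀ k : ℕ, ContDiffOn ℝ k t D := by
    intro k
    induction k with
    | zero => exact_mod_cast contDiffOn_zero.2 htD
    | succ k ih =>
      have : ContDiffOn ℝ ((k : ℕ∞ω) + 1) t D := by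
        refine contDiffOn_succ_of_fderivWithin (fun y hy => (hder y hy).differentiableWithinAt)
          (by intro h; exact absurd h (by simp)) ?_
        have hfl : ContDiffOn ℝ k (fun y => Λ (y, t y)) D :=
          (contDiffOn_infty.1 hΛ k).comp (contDiffOn_id.prodMk ih) hmaps
        refine hfl.congr ?_
        intro y hy
        exact (hder y hy).fderivWithin (hU y hy)
      exact_mod_cast this
  exact ⟨t, contDiffOn_infty.2 hsmooth, fun y hy hy0 => hteq y ⟨hy.1, hy0⟩, hval⟩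

end Vale.Agent.P088.EYM
end
end

section

/-!
# P088-EYM: local Poincare inequalities
-/

open MeasureTheory Set Filter Topology
open scoped ContDiff ENNReal

noncomputable section

namespace Vale.Agent.P088.EYM

set_option linter.unusedSectionVars false
set_option linter.unusedVariables false

variable {n N : ℕ} [NeZero n]

/-! ### Positivity of the energy density -/

theorem APoin_pos {G : Matrix (Fin n) (Fin n) ℝ} (hG : G.PosDef) {H : EndF N}
    (hH : ContinuousLinearMap.adjoint H = H)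
    (hp : ∀ v : Fib N, v ≠ 0 → 0 < (inner ℂ v (H v) : ℂ).re) {w : Fin n → Fib N} (hw : w ≠ 0) :
    0 < ∑ j, ∑ k, G j k * (inner ℂ (w j) (H (w k)) : ℂ).re := by
  obtain ⟨m, v, hv⟩ := Matrix.posSemidef_iff_eq_sum_vecMulVec.1 hG.posSemidef
  have hGe : ∀ j k, G j k = ∑ l, v l j * v l k := by
    intro j k
    rw [hv, Matrix.sum_apply]
    refine Finset.sum_congr rfl fun l _ => ?_
    simp [Matrix.vecMulVec_apply]
  have h1 : ∑ j, ∑ k, G j k * (inner ℂ (w j) (H (w k)) : ℂ).re =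
      ∑ l, (inner ℂ (∑ j, v l j • w j) (H (∑ k, v l k • w k)) : ℂ).re := by
    have e1 : ∀ l, (inner ℂ (∑ j, v l j • w j) (H (∑ k, v l k • w k)) : ℂ).re =
        ∑ j, ∑ k, v l j * v l k * (inner ℂ (w j) (H (w k)) : ℂ).re := by
      intro l
      rw [map_sum, sum_inner, Complex.re_sum]
      refine Finset.sum_congr rfl fun j _ => ?_
      rw [inner_sum, Complex.re_sum]
      refine Finset.sum_congr rfl fun k _ => ?_
      rw [ContinuousLinearMap.map_smul_of_tower, ← Complex.coe_smul, ← Complex.coe_smul,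
        inner_smul_left, inner_smul_right, Complex.conj_ofReal, ← mul_assoc,
        ← Complex.ofReal_mul, Complex.re_ofReal_mul]
    simp only [e1]
    rw [Finset.sum_comm (γ := Fin m)]
    refine Finset.sum_congr rfl fun j _ => ?_
    rw [Finset.sum_comm (γ := Fin m)]
    refine Finset.sum_congr rfl fun k _ => ?_
    rw [hGe, Finset.sum_mul]
  rw [h1]
  by_contra hneg
  have hnn : ∀ l, 0 ≤ (inner ℂ (∑ j, v l j • w j) (H (∑ k, v l k • w k)) : ℂ).re := by
    intro l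
    by_cases h : (∑ j, v l j • w j) = 0
    · rw [h]; simp
    · exact (hp _ h).le
  have hz : ∀ l, (∑ j, v l j • w j) = 0 := by
    intro l
    by_contra h
    refine hneg (Finset.sum_pos' (fun l _ => hnn l) ⟨l, Finset.mem_univ l, hp _ h⟩)
  apply hw
  have hGw : ∀ j, ∑ k, G j k • w k = 0 := by
    intro j
    have : ∑ k, G j k • w k = ∑ l, v l j • ∑ k, v l k • w k := by
      simp only [Finset.smul_sum]
      rw [Finset.sum_comm (γ := Fin m)]
      refine Finset.sum_congr rfl fun k _ => ?_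
      rw [hGe, Finset.sum_smul]
      refine Finset.sum_congr rfl fun l _ => ?_
      rw [smul_smul]
    rw [this]
    simp only [hz, smul_zero, Finset.sum_const_zero]
  have hu : IsUnit G.det := isUnit_iff_ne_zero.2 hG.det_pos.ne'
  funext i
  have h3 : ∑ j, G⁻¹ i j • ∑ k, G j k • w k = w i := by
    simp only [Finset.smul_sum, smul_smul]
    rw [Finset.sum_comm]
    have : ∀ k, ∑ j, (G⁻¹ i j * G j k) • w k = (1 : Matrix (Fin n) (Fin n) ℝ) i k • w k := by
      intro k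
      rw [← Finset.sum_smul, ← Matrix.mul_apply, Matrix.nonsing_inv_mul G hu]
    simp only [this, Matrix.one_apply, ite_smul, one_smul, zero_smul]
    simp
  rw [← h3]
  simp [hGw]

theorem APoin_gg {L : LD n N} {D : Set (E n)} (hL : L.Ok D) {x : E n} (hx : x ∈ D) :
    (Matrix.of fun j k => gg L.g j k x).PosDef := by
  have h1 : ((L.g x)⁻¹).PosDef := (hL.g_pos x hx).inv
  have h2 : 0 < Real.sqrt (L.g x).det := Real.sqrt_pos.2 (hL.g_pos x hx).det_pos
  have h3 : (Matrix.of fun j k => gg L.g j k x) = Real.sqrt (L.g x).det • (L.g x)⁻¹ := by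
    ext j k
    simp [gg]
  rw [h3]
  exact h1.smul h2

/-- the real energy form of a family of vectors -/
def APoin_Q (L : LD n N) (x : E n) (w : Fin n → Fib N) : ℝ :=
  ∑ j, ∑ k, gg L.g j k x * (inner ℂ (w j) (L.h x (w k)) : ℂ).re

theorem APoin_ed_re (L : LD n N) (c : E n → Fib N) (x : E n) :
    (ed L c c x).re = APoin_Q L x (fun j => nab L j c x) := by
  unfold ed APoin_Q
  rw [Complex.re_sum]
  refine Finset.sum_congr rfl fun j _ => ?_
  rw [Complex.re_sum]
  refine Finset.sum_congr rfl fun k _ => ?_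
  rw [Complex.re_ofReal_mul]

theorem APoin_Q_pos {L : LD n N} {D : Set (E n)} (hL : L.Ok D) {x : E n} (hx : x ∈ D)
    {w : Fin n → Fib N} (hw : w ≠ 0) : 0 < APoin_Q L x w := by
  have := APoin_pos (APoin_gg hL hx) (hL.h_adj x hx) (hL.h_pos x hx) hw
  simpa only [APoin_Q, gt_iff_lt, Matrix.of_apply] using this

theorem APoin_Q_smul (L : LD n N) (x : E n) (t : ℝ) (w : Fin n → Fib N) :
    APoin_Q L x (t • w) = t ^ 2 * APoin_Q L x w := by
  unfold APoin_Q
  rw [Finset.mul_sum]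
  refine Finset.sum_congr rfl fun j _ => ?_
  rw [Finset.mul_sum]
  refine Finset.sum_congr rfl fun k _ => ?_
  rw [Pi.smul_apply, Pi.smul_apply, ContinuousLinearMap.map_smul_of_tower, ← Complex.coe_smul,
    ← Complex.coe_smul, inner_smul_left, inner_smul_right, Complex.conj_ofReal, ← mul_assoc,
    ← Complex.ofReal_mul, Complex.re_ofReal_mul]
  ring

theorem APoin_Q_cont {L : LD n N} {D : Set (E n)} (hD : RelOpen D) (hL : L.Ok D) :
    ContinuousOn (fun p : E n × (Fin n → Fib N) => APoin_Q L p.1 p.2) (D ×ˢ univ) := by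
  unfold APoin_Q
  refine continuousOn_finsetSum _ fun j _ => continuousOn_finsetSum _ fun k _ => ?_
  have h1 : ContinuousOn (fun p : E n × (Fin n → Fib N) => gg L.g j k p.1) (D ×ˢ univ) :=
    ((hD.gg_smooth hL.g_smooth hL.g_pos j k).continuousOn).comp continuousOn_fst
      (fun p hp => hp.1)
  have h2 : ContinuousOn (fun p : E n × (Fin n → Fib N) => L.h p.1) (D ×ˢ univ) :=
    hL.h_smooth.continuousOn.comp continuousOn_fst (fun p hp => hp.1)
  have h3 : ContinuousOn (fun p : E n × (Fin n → Fib N) => L.h p.1 (p.2 k)) (D ×ˢ univ) :=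
    h2.clm_apply (by fun_prop)
  have h4 : ContinuousOn (fun p : E n × (Fin n → Fib N) =>
      (inner ℂ (p.2 j) (L.h p.1 (p.2 k)) : ℂ)) (D ×ˢ univ) :=
    ContinuousOn.inner (𝕜 := ℂ) (by fun_prop) h3
  exact h1.mul (Complex.continuous_re.comp_continuousOn h4)

theorem APoin_Q_low {L : LD n N} {D K : Set (E n)} (hD : RelOpen D) (hL : L.Ok D)
    (hK : IsCompact K) (hKD : K ⊆ D) :
    ∃ a : ℝ, 0 < a ∧ ∀ x ∈ K, ∀ w : Fin n → Fib N, a * ‖w‖ ^ 2 ≤ APoin_Q L x w := by
  have hS : IsCompact (K ×ˢ Metric.sphere (0 : Fin n → Fib N) 1) := hK.prod (isCompact_sphere _ _)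
  have hc := (APoin_Q_cont hD hL).mono
    (show K ×ˢ Metric.sphere (0 : Fin n → Fib N) 1 ⊆ D ×ˢ univ from
      prod_mono hKD (subset_univ _))
  obtain ⟨a, ha, ha'⟩ := hS.exists_forall_le' hc (a := 0) fun p hp => by
    refine APoin_Q_pos hL (hKD hp.1) ?_
    rintro h0
    have := hp.2
    rw [h0] at this
    simp only [mem_sphere_iff_norm, sub_self, norm_zero, zero_ne_one] at this
  refine ⟨a, ha, fun x hx w => ?_⟩
  by_cases hw : w = 0
  · subst hw
    simp [APoin_Q]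
  · have hn : 0 < ‖w‖ := norm_pos_iff.2 hw
    have h1 := ha' (x, ‖w‖⁻¹ • w) ⟨hx, by
      simp only [mem_sphere_iff_norm, sub_zero, norm_smul, norm_inv, norm_norm, ne_eq, hn.ne', not_false_eq_true, inv_mul_cancel₀]⟩
    simp only [APoin_Q_smul] at h1
    have h2 : ‖w‖ ^ 2 * a ≤ ‖w‖ ^ 2 * (‖w‖⁻¹ ^ 2 * APoin_Q L x w) :=
      mul_le_mul_of_nonneg_left h1 (by positivity)
    have h3 : ‖w‖ ^ 2 * (‖w‖⁻¹ ^ 2 * APoin_Q L x w) = APoin_Q L x w := by
      field_simp
    linarith only [h2, h3]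

/-! ### The function `⟨c, h c⟩` -/

/-- `⟨c, h c⟩` -/
def APoin_N (L : LD n N) (c : E n → Fib N) (x : E n) : ℝ := (inner ℂ (c x) (L.h x (c x)) : ℂ).re

theorem APoin_N_has {L : LD n N} {D : Set (E n)} (hD : RelOpen D) (hL : L.Ok D)
    {c : E n → Fib N} (hc : ContDiffOn ℝ ∞ c D) {x : E n} (hx : x ∈ D) :
    ∃ A : E n →L[ℝ] ℝ, HasFDerivWithinAt (APoin_N L c) A (Hs n) x ∧
      ∀ v, A v = ∑ j, v j * (2 * (inner ℂ (c x) (L.h x (nab L j c x)) : ℂ).re) := by
  have h1 := hD.hasD hx hc (by simp)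
  have h2 := hD.hasD hx (smooth_eval hL.h_smooth hc) (by simp)
  have h3 := h1.inner ℂ h2
  have h4 := Complex.reCLM.hasFDerivAt.comp_hasFDerivWithinAt x h3
  refine ⟨_, h4, fun v => ?_⟩
  have key : ∀ j, (inner ℂ (c x) (pd j (fun y => L.h y (c y)) x) : ℂ).re +
      (inner ℂ (pd j c x) (L.h x (c x)) : ℂ).re =
      2 * (inner ℂ (c x) (L.h x (nab L j c x)) : ℂ).re := by
    intro j
    have e1 : pd j (fun y => L.h y (c y)) x = L.h x (pd j c x) + pd j L.h x (c x) :=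
      hD.pd_eval hL.h_smooth hc (by simp) (by simp) hx j
    have e2 := hL.compat x hx j
    have e3 : pd j L.h x (c x) = ContinuousLinearMap.adjoint (L.B j x) (L.h x (c x)) +
        L.h x (L.B j x (c x)) := by
      rw [e2]; rfl
    have sym : ∀ a b : Fib N, (inner ℂ (L.h x a) b : ℂ) = inner ℂ a (L.h x b) := by
      intro a b
      conv_lhs => rw [← hL.h_adj x hx]
      rw [ContinuousLinearMap.adjoint_inner_left]
    have e4 : (inner ℂ (c x) (ContinuousLinearMap.adjoint (L.B j x) (L.h x (c x))) : ℂ).re =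
        (inner ℂ (c x) (L.h x (L.B j x (c x))) : ℂ).re := by
      rw [ContinuousLinearMap.adjoint_inner_right, ← sym, ← Complex.conj_re, inner_conj_symm]
    have e5 : (inner ℂ (pd j c x) (L.h x (c x)) : ℂ).re =
        (inner ℂ (c x) (L.h x (pd j c x)) : ℂ).re := by
      rw [← Complex.conj_re, inner_conj_symm, sym]
    rw [e1, e3, e5]
    unfold nab
    simp only [inner_add_right, map_add, Complex.add_re, e4]
    ring
  have e6 : (Complex.reCLM ∘SL
      fderivInnerCLM ℂ (c x, (L.h x) (c x)) ∘SL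
        (fderivWithin ℝ c (Hs n) x).prod
          (fderivWithin ℝ (fun x => (L.h x) (c x)) (Hs n) x)) v =
      (inner ℂ (c x) (fderivWithin ℝ (fun x => (L.h x) (c x)) (Hs n) x v) : ℂ).re +
      (inner ℂ (fderivWithin ℝ c (Hs n) x v) (L.h x (c x)) : ℂ).re := by
    simp only [ContinuousLinearMap.comp_apply, ContinuousLinearMap.prod_apply, fderivInnerCLM_apply, Complex.reCLM_apply, Complex.add_re]
  rw [e6, fderivWithin_eq_sum, fderivWithin_eq_sum, inner_sum, sum_inner, Complex.re_sum,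
    Complex.re_sum, ← Finset.sum_add_distrib]
  refine Finset.sum_congr rfl fun j _ => ?_
  rw [← key j, ← Complex.coe_smul, ← Complex.coe_smul, inner_smul_left, inner_smul_right,
    Complex.conj_ofReal, Complex.re_ofReal_mul, Complex.re_ofReal_mul]
  ring

/-! ### `L¹` Poincare inequality on a convex set -/

theorem APoin_scale {Gi : E n → ℝ≥0∞} (hG : Measurable Gi) {t : ℝ} (ht : 1 / 2 ≤ t) (b : E n) :
    ∫⁻ x, Gi (t • x + b) ≤ ENNReal.ofReal (2 ^ n) * ∫⁻ x, Gi x := by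
  have ht0 : t ≠ 0 := by intro h; rw [h] at ht; norm_num at ht
  have htp : 0 < t := by linarith
  have h1 : ∫⁻ x, Gi (t • x + b) = ∫⁻ y, Gi (y + b) ∂(Measure.map (t • ·) (volume : Measure (E n))) := by
    have hm : Measurable fun y : E n => Gi (y + b) := hG.comp (by fun_prop)
    rw [lintegral_map hm (measurable_const_smul t)]
  rw [h1, Measure.map_addHaar_smul _ ht0, lintegral_smul_measure]
  rw [lintegral_add_right_eq_self (μ := (volume : Measure (E n))) Gi b, smul_eq_mul]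
  refine mul_le_mul_left ?_ _
  refine ENNReal.ofReal_le_ofReal ?_
  rw [finrank_euclideanSpace_fin, abs_of_nonneg (by positivity), ← inv_pow]
  refine pow_le_pow_left₀ (by positivity) ?_ n
  rw [inv_le_comm₀ htp (by norm_num)]
  linarith only [ht]

theorem APoin_J {K : Set (E n)} (hK : MeasurableSet K) {Gi : E n → ℝ≥0∞} (hG : Measurable Gi)
    (t : ℝ) : ∫⁻ y in K, ∫⁻ x in K, Gi (y + t • (x - y)) ≤
      ENNReal.ofReal (2 ^ n) * (∫⁻ x, Gi x) * volume K := by
  by_cases ht : 1 / 2 ≤ t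
  · calc ∫⁻ y in K, ∫⁻ x in K, Gi (y + t • (x - y))
        ≤ ∫⁻ y in K, ENNReal.ofReal (2 ^ n) * ∫⁻ x, Gi x := by
          refine lintegral_mono fun y => ?_
          refine (setLIntegral_le_lintegral _ _).trans ?_
          refine le_trans (le_of_eq ?_) (APoin_scale hG ht ((1 - t) • y))
          refine lintegral_congr fun x => ?_
          congr 1
          module
      _ = _ := by rw [lintegral_const, Measure.restrict_apply_univ]
  · have ht' : 1 / 2 ≤ 1 - t := by linarith only [ht]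
    rw [lintegral_lintegral_swap (f := fun y x => Gi (y + t • (x - y)))]
    · calc ∫⁻ x in K, ∫⁻ y in K, Gi (y + t • (x - y))
          ≤ ∫⁻ x in K, ENNReal.ofReal (2 ^ n) * ∫⁻ x, Gi x := by
            refine lintegral_mono fun x => ?_
            refine (setLIntegral_le_lintegral _ _).trans ?_
            refine le_trans (le_of_eq ?_) (APoin_scale hG ht' (t • x))
            refine lintegral_congr fun y => ?_
            congr 1
            module
        _ = _ := by rw [lintegral_const, Measure.restrict_apply_univ]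
    · refine Measurable.aemeasurable ?_
      exact hG.comp (by fun_prop)

theorem APoin_L1 {K K' : Set (E n)} (hK : MeasurableSet K) (hK' : MeasurableSet K') (hKK : K' ⊆ K)
    (hv : volume K ≠ ⊤) {Gi F : E n → ℝ≥0∞} (hG : Measurable Gi)
    (h : ∀ x ∈ K, ∀ y ∈ K, F x ≤ F y + ∫⁻ t in Icc (0:ℝ) 1, Gi (y + t • (x - y))) :
    volume K' * (∫⁻ x in K, F x) ≤ volume K * (∫⁻ y in K', F y) +
      ENNReal.ofReal (2 ^ n) * (∫⁻ x, Gi x) * volume K := by
  have hm3 : Measurable (fun p : (E n × E n) × ℝ => Gi (p.1.1 + p.2 • (p.1.2 - p.1.1))) :=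
    hG.comp (by fun_prop)
  have hm2 : Measurable (fun p : E n × E n => ∫⁻ t in Icc (0:ℝ) 1, Gi (p.1 + t • (p.2 - p.1))) :=
    hm3.lintegral_prod_right'
  have hm1 : Measurable (fun y : E n => ∫⁻ x in K, ∫⁻ t in Icc (0:ℝ) 1, Gi (y + t • (x - y))) :=
    hm2.lintegral_prod_right'
  have hm4 : Measurable (fun p : (E n × ℝ) × E n => Gi (p.1.1 + p.1.2 • (p.2 - p.1.1))) :=
    hG.comp (by fun_prop)
  have hm5 : Measurable (fun p : E n × ℝ => ∫⁻ x in K, Gi (p.1 + p.2 • (x - p.1))) :=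
    hm4.lintegral_prod_right'
  calc volume K' * ∫⁻ x in K, F x = ∫⁻ y in K', ∫⁻ x in K, F x := by
        rw [lintegral_const, Measure.restrict_apply_univ, mul_comm]
    _ ≤ ∫⁻ y in K', ∫⁻ x in K, (F y + ∫⁻ t in Icc (0:ℝ) 1, Gi (y + t • (x - y))) := by
        refine setLIntegral_mono' hK' fun y hy => setLIntegral_mono' hK fun x hx => ?_
        exact h x hx y (hKK hy)
    _ = ∫⁻ y in K', (F y * volume K + ∫⁻ x in K, ∫⁻ t in Icc (0:ℝ) 1, Gi (y + t • (x - y))) := by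
        refine lintegral_congr fun y => ?_
        rw [lintegral_add_left measurable_const, lintegral_const, Measure.restrict_apply_univ]
    _ = volume K * (∫⁻ y in K', F y) +
        ∫⁻ y in K', ∫⁻ x in K, ∫⁻ t in Icc (0:ℝ) 1, Gi (y + t • (x - y)) := by
        rw [lintegral_add_right _ hm1, lintegral_mul_const' _ _ hv, mul_comm (volume K)]
    _ ≤ _ := by
        refine add_le_add le_rfl ?_
        calc ∫⁻ y in K', ∫⁻ x in K, ∫⁻ t in Icc (0:ℝ) 1, Gi (y + t • (x - y))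
            ≤ ∫⁻ y in K, ∫⁻ x in K, ∫⁻ t in Icc (0:ℝ) 1, Gi (y + t • (x - y)) :=
              lintegral_mono_set hKK
          _ = ∫⁻ y in K, ∫⁻ t in Icc (0:ℝ) 1, ∫⁻ x in K, Gi (y + t • (x - y)) := by
              refine lintegral_congr fun y => ?_
              refine lintegral_lintegral_swap (f := fun x t => Gi (y + t • (x - y))) ?_
              exact (hG.comp (by fun_prop)).aemeasurable
          _ = ∫⁻ t in Icc (0:ℝ) 1, ∫⁻ y in K, ∫⁻ x in K, Gi (y + t • (x - y)) := by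
              refine lintegral_lintegral_swap
                (f := fun y t => ∫⁻ x in K, Gi (y + t • (x - y))) ?_
              exact hm5.aemeasurable
          _ ≤ ∫⁻ t in Icc (0:ℝ) 1, ENNReal.ofReal (2 ^ n) * (∫⁻ x, Gi x) * volume K :=
              lintegral_mono fun t => APoin_J hK hG t
          _ = _ := by
              rw [lintegral_const, Measure.restrict_apply_univ, Real.volume_Icc]
              simp only [Nat.ofNat_nonneg, ENNReal.ofReal_pow, ENNReal.ofReal_ofNat, sub_zero, ENNReal.ofReal_one, mul_one]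

theorem APoin_line {K : Set (E n)} (hK : Convex ℝ K) {x y : E n} (hx : x ∈ K) (hy : y ∈ K)
    {t : ℝ} (ht : t ∈ Icc (0:ℝ) 1) : y + t • (x - y) ∈ K :=
  hK.add_smul_sub_mem hy hx ht

theorem APoin_ftc {f G : E n → ℝ} {K : Set (E n)} {d : ℝ} (hK : Convex ℝ K) (hKH : K ⊆ Hs n)
    (hG : ContinuousOn G K) (hd : ∀ x ∈ K, ∀ y ∈ K, ‖x - y‖ ≤ d)
    (hf : ∀ x ∈ K, ∃ A : E n →L[ℝ] ℝ, HasFDerivWithinAt f A (Hs n) x ∧
      ∀ v, ‖v‖ ≤ d → A v ≤ G x) {x y : E n} (hx : x ∈ K) (hy : y ∈ K) :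
    f x - f y ≤ ∫ t in Icc (0:ℝ) 1, G (y + t • (x - y)) := by
  choose! A hA hA' using hf
  have hl : ∀ t ∈ Icc (0:ℝ) 1, y + t • (x - y) ∈ K := fun t ht => APoin_line hK hx hy ht
  have hlc : Continuous (fun t : ℝ => y + t • (x - y)) := by fun_prop
  have hdl : ∀ t : ℝ, HasDerivAt (fun t : ℝ => y + t • (x - y)) (x - y) t := by
    intro t
    have h := ((hasDerivAt_id t).smul_const (x - y)).const_add y
    simpa using h
  have hfc : ContinuousOn f K := fun p hp => ((hA p hp).continuousWithinAt).mono hKH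
  have hφ : ContinuousOn (fun t : ℝ => G (y + t • (x - y))) (Icc (0:ℝ) 1) :=
    hG.comp hlc.continuousOn hl
  have h := intervalIntegral.sub_le_integral_of_hasDeriv_right_of_le (a := (0:ℝ)) (b := 1)
    (g := fun t => f (y + t • (x - y))) (g' := fun t => A (y + t • (x - y)) (x - y))
    (φ := fun t => G (y + t • (x - y))) zero_le_one (hfc.comp hlc.continuousOn hl) ?_
    (hφ.integrableOn_compact isCompact_Icc) ?_
  · rw [intervalIntegral.integral_of_le zero_le_one, ← integral_Icc_eq_integral_Ioc] at h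
    simpa only [tsub_le_iff_right, ge_iff_le, one_smul, add_sub_cancel, zero_smul, add_zero] using h
  · intro t ht
    have ht' : t ∈ Icc (0:ℝ) 1 := Ioo_subset_Icc_self ht
    have h1 : HasDerivWithinAt (fun t : ℝ => f (y + t • (x - y)))
        (A (y + t • (x - y)) (x - y)) (Icc (0:ℝ) 1) t :=
      (hA _ (hl t ht')).comp_hasDerivWithinAt t (hdl t).hasDerivWithinAt
        (fun s hs => hKH (hl s hs))
    exact (h1.hasDerivAt (Icc_mem_nhds ht.1 ht.2)).hasDerivWithinAt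
  · intro t ht
    exact hA' _ (hl t (Ioo_subset_Icc_self ht)) _ (hd x hx y hy)

theorem APoin_L1real {f G : E n → ℝ} {K K' : Set (E n)} {d : ℝ} (hK : Convex ℝ K)
    (hKm : MeasurableSet K) (hK' : MeasurableSet K') (hKK : K' ⊆ K) (hv : volume K ≠ ⊤)
    (hKH : K ⊆ Hs n) (hG : ContinuousOn G K) (hG0 : ∀ x ∈ K, 0 ≤ G x) (hGi : IntegrableOn G K)
    (hf0 : ∀ x ∈ K, 0 ≤ f x) (hfi : IntegrableOn f K)
    (hd : ∀ x ∈ K, ∀ y ∈ K, ‖x - y‖ ≤ d)
    (hf : ∀ x ∈ K, ∃ A : E n →L[ℝ] ℝ, HasFDerivWithinAt f A (Hs n) x ∧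
      ∀ v, ‖v‖ ≤ d → A v ≤ G x) :
    (volume K').toReal * (∫ x in K, f x) ≤ (volume K).toReal * (∫ x in K', f x) +
      2 ^ n * (∫ x in K, G x) * (volume K).toReal := by
  have hGm : Measurable (K.indicator fun x => ENNReal.ofReal (G x)) := by
    classical
    have h0 : ContinuousOn (fun x => ENNReal.ofReal (G x)) K :=
      ENNReal.continuous_ofReal.comp_continuousOn hG
    have h1 := h0.measurable_piecewise (g := fun _ => (0 : ℝ≥0∞)) continuousOn_const hKm
    have h2 : (K.indicator fun x => ENNReal.ofReal (G x)) =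
        K.piecewise (fun x => ENNReal.ofReal (G x)) (fun _ => 0) := by
      ext x
      by_cases hx : x ∈ K <;> simp [hx]
    rw [h2]
    exact h1
  have key := APoin_L1 (F := fun x => ENNReal.ofReal (f x)) hKm hK' hKK hv hGm ?_
  · rw [lintegral_indicator hKm] at key
    have e1 : ∫⁻ x in K, ENNReal.ofReal (f x) = ENNReal.ofReal (∫ x in K, f x) := by
      rw [ofReal_integral_eq_lintegral_ofReal hfi]
      exact (ae_restrict_iff' hKm).2 (ae_of_all _ hf0)
    have e2 : ∫⁻ x in K', ENNReal.ofReal (f x) = ENNReal.ofReal (∫ x in K', f x) := by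
      rw [ofReal_integral_eq_lintegral_ofReal (hfi.mono_set hKK)]
      exact (ae_restrict_iff' hK').2 (ae_of_all _ fun x hx => hf0 x (hKK hx))
    have e3 : ∫⁻ x in K, ENNReal.ofReal (G x) = ENNReal.ofReal (∫ x in K, G x) := by
      rw [ofReal_integral_eq_lintegral_ofReal hGi]
      exact (ae_restrict_iff' hKm).2 (ae_of_all _ hG0)
    have p1 : 0 ≤ ∫ x in K, f x := setIntegral_nonneg hKm hf0
    have p2 : 0 ≤ ∫ x in K', f x := setIntegral_nonneg hK' fun x hx => hf0 x (hKK hx)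
    have p3 : 0 ≤ ∫ x in K, G x := setIntegral_nonneg hKm hG0
    rw [e1, e2, e3] at key
    have hfin1 : volume K * ENNReal.ofReal (∫ x in K', f x) ≠ ⊤ :=
      ENNReal.mul_ne_top hv ENNReal.ofReal_ne_top
    have hfin2 : ENNReal.ofReal (2 ^ n) * ENNReal.ofReal (∫ x in K, G x) * volume K ≠ ⊤ :=
      ENNReal.mul_ne_top (ENNReal.mul_ne_top ENNReal.ofReal_ne_top ENNReal.ofReal_ne_top) hv
    have h2 := ENNReal.toReal_mono (ENNReal.add_ne_top.2 ⟨hfin1, hfin2⟩) key
    rw [ENNReal.toReal_add hfin1 hfin2] at h2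
    simp only [ENNReal.toReal_mul, ENNReal.toReal_ofReal p1, ENNReal.toReal_ofReal p2,
      ENNReal.toReal_ofReal p3, ENNReal.toReal_ofReal (show (0:ℝ) ≤ 2 ^ n by positivity)] at h2
    exact h2
  · intro x hx y hy
    have h1 := APoin_ftc hK hKH hG hd hf hx hy
    have hl : ∀ t ∈ Icc (0:ℝ) 1, y + t • (x - y) ∈ K := fun t ht => APoin_line hK hx hy ht
    have hlc : Continuous (fun t : ℝ => y + t • (x - y)) := by fun_prop
    have hφ : ContinuousOn (fun t : ℝ => G (y + t • (x - y))) (Icc (0:ℝ) 1) :=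
      hG.comp hlc.continuousOn hl
    have h2 : ENNReal.ofReal (∫ t in Icc (0:ℝ) 1, G (y + t • (x - y))) =
        ∫⁻ t in Icc (0:ℝ) 1, K.indicator (fun x => ENNReal.ofReal (G x)) (y + t • (x - y)) := by
      rw [ofReal_integral_eq_lintegral_ofReal (hφ.integrableOn_compact isCompact_Icc)]
      · refine setLIntegral_congr_fun measurableSet_Icc fun t ht => ?_
        simp only [indicator_of_mem (hl t ht)]
      · exact (ae_restrict_iff' measurableSet_Icc).2 (ae_of_all _ fun t ht => hG0 _ (hl t ht))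
    rw [← h2]
    refine le_trans (ENNReal.ofReal_le_ofReal (show f x ≤ f y +
      ∫ t in Icc (0:ℝ) 1, G (y + t • (x - y)) by linarith)) ?_
    exact ENNReal.ofReal_add_le

/-! ### Assembly -/

theorem APoin_ed_cont {L : LD n N} {D : Set (E n)} (hD : RelOpen D) (hL : L.Ok D)
    {c : E n → Fib N} (hc : ContDiffOn ℝ ∞ c D) : ContinuousOn (ed L c c) D := by
  unfold ed
  refine continuousOn_finsetSum _ fun j _ => continuousOn_finsetSum _ fun k _ => ?_
  have h1 := (hD.gg_smooth hL.g_smooth hL.g_pos j k).continuousOn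
  have h2 : ContinuousOn (fun x => (inner ℂ (nab L j c x) (L.h x (nab L k c x)) : ℂ)) D :=
    ContinuousOn.inner (𝕜 := ℂ) (Jacobi_nab_smooth hD hL hc j).continuousOn
      (smooth_eval hL.h_smooth (Jacobi_nab_smooth hD hL hc k)).continuousOn
  exact (Complex.continuous_ofReal.comp_continuousOn h1).mul h2

theorem APoin_h_bd {L : LD n N} {D K : Set (E n)} (hL : L.Ok D)
    (hK : IsCompact K) (hKD : K ⊆ D) :
    ∃ m M : ℝ, 0 < m ∧ 0 < M ∧ ∀ x ∈ K, ‖L.h x‖ ≤ M ∧ ∀ v : Fib N,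
      m * ‖v‖ ^ 2 ≤ (inner ℂ v (L.h x v) : ℂ).re := by
  obtain ⟨M, hM⟩ := hK.exists_bound_of_continuousOn (hL.h_smooth.continuousOn.mono hKD)
  have hS : IsCompact (K ×ˢ Metric.sphere (0 : Fib N) 1) := hK.prod (isCompact_sphere _ _)
  have hc : ContinuousOn (fun p : E n × Fib N => (inner ℂ p.2 (L.h p.1 p.2) : ℂ).re)
      (K ×ˢ Metric.sphere (0 : Fib N) 1) := by
    have h2 : ContinuousOn (fun p : E n × Fib N => L.h p.1) (K ×ˢ Metric.sphere (0 : Fib N) 1) :=
      hL.h_smooth.continuousOn.comp continuousOn_fst (fun p hp => hKD hp.1)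
    have h3 : ContinuousOn (fun p : E n × Fib N => L.h p.1 p.2)
      (K ×ˢ Metric.sphere (0 : Fib N) 1) := h2.clm_apply (by fun_prop)
    exact Complex.continuous_re.comp_continuousOn
      (ContinuousOn.inner (𝕜 := ℂ) (by fun_prop) h3)
  obtain ⟨a, ha, ha'⟩ := hS.exists_forall_le' hc (a := 0) fun p hp => by
    refine hL.h_pos _ (hKD hp.1) _ ?_
    rintro h0
    have := hp.2
    rw [h0] at this
    simp only [mem_sphere_iff_norm, sub_self, norm_zero, zero_ne_one] at this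
  refine ⟨a, max M 1, ha, lt_max_of_lt_right one_pos,
    fun x hx => ⟨(hM x hx).trans (le_max_left _ _), fun v => ?_⟩⟩
  by_cases hw : v = 0
  · subst hw
    simp
  · have hn : 0 < ‖v‖ := norm_pos_iff.2 hw
    have h1 := ha' (x, ((‖v‖⁻¹ : ℝ) : ℂ) • v) ⟨hx, by
      simp only [Complex.ofReal_inv, mem_sphere_iff_norm, sub_zero, norm_smul, norm_inv, Complex.norm_real, norm_norm, ne_eq, hn.ne', not_false_eq_true, inv_mul_cancel₀]⟩
    simp only [map_smul, inner_smul_left, inner_smul_right, Complex.conj_ofReal] at h1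
    rw [← mul_assoc, ← Complex.ofReal_mul, Complex.re_ofReal_mul] at h1
    have h2 : ‖v‖ ^ 2 * a ≤ ‖v‖ ^ 2 * (‖v‖⁻¹ * ‖v‖⁻¹ * (inner ℂ v (L.h x v) : ℂ).re) :=
      mul_le_mul_of_nonneg_left h1 (by positivity)
    have h3 : ‖v‖ ^ 2 * (‖v‖⁻¹ * ‖v‖⁻¹ * (inner ℂ v (L.h x v) : ℂ).re) =
        (inner ℂ v (L.h x v) : ℂ).re := by
      field_simp
    linarith only [h2, h3]

theorem APoin_vol {z : E n} {r : ℝ} (hr : 0 < r) (hz : z ∈ Hs n) : 0 < volume (HB z r) := by
  have h1 : z ∈ closure (interior (Hs n)) := Hs_subset_closure hz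
  obtain ⟨y, hy, hy'⟩ := Metric.mem_closure_iff.1 h1 r hr
  have ho : IsOpen (Metric.ball z r ∩ interior (Hs n)) := Metric.isOpen_ball.inter isOpen_interior
  have hne : (Metric.ball z r ∩ interior (Hs n)).Nonempty :=
    ⟨y, by rw [Metric.mem_ball, dist_comm]; exact hy', hy⟩
  exact lt_of_lt_of_le (ho.measure_pos volume hne)
    (measure_mono (inter_subset_inter_right _ interior_subset))

theorem APoin_rel_HB (z : E n) (r : ℝ) : RelOpen (HB z r) :=
  ⟨Metric.ball z r, Metric.isOpen_ball, rfl⟩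

theorem APoin_meas (z : E n) (r : ℝ) : MeasurableSet (HB z r) :=
  Metric.isOpen_ball.measurableSet.inter isClosed_Hs.measurableSet

theorem APoin_part1 (hA : AHardy_statement) (L : LD n N) (z : E n) (r r' : ℝ) (hr' : 0 < r')
    (hrr : r' < r) (hL : L.Ok (HB z r)) (hz : z 0 = 0) :
    ∃ C : ℝ, ∀ c : E n → Fib N, ContDiffOn ℝ ∞ c (HB z r) →
      (∀ x ∈ HB z r, x 0 = 0 → c x = 0) →
      ∫ x in HB z r', ‖c x‖ ^ 2 ≤ C * (En L (HB z r') c c).re := by
  obtain ⟨C, hC⟩ := hA n N L z r hz hL r' hr' hrr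
  refine ⟨r' ^ 2 * C, fun c hc h0 => ?_⟩
  obtain ⟨h1, h2⟩ := hC c hc h0
  have hKc : IsCompact (Metric.closedBall z r' ∩ Hs n) :=
    (isCompact_closedBall z r').inter_right isClosed_Hs
  have hKD : Metric.closedBall z r' ∩ Hs n ⊆ HB z r :=
    inter_subset_inter_left _ (Metric.closedBall_subset_ball hrr)
  have hK : HB z r' ⊆ Metric.closedBall z r' ∩ Hs n :=
    inter_subset_inter_left _ Metric.ball_subset_closedBall
  have hi : IntegrableOn (fun x => ‖c x‖ ^ 2) (HB z r') :=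
    (((hc.continuousOn.mono hKD).norm.pow 2).integrableOn_compact hKc).mono_set hK
  calc ∫ x in HB z r', ‖c x‖ ^ 2 ≤ ∫ x in HB z r', r' ^ 2 * (‖c x‖ ^ 2 / (x 0) ^ 2) := by
        refine setIntegral_mono_on hi (h1.const_mul _) (APoin_meas z r') fun x hx => ?_
        by_cases hx0 : x 0 = 0
        · rw [h0 x (hKD (hK hx)) hx0]; simp
        · have h3 : |x 0| ≤ r' := by
            have h4 : ‖(x - z) 0‖ ≤ ‖x - z‖ := PiLp.norm_apply_le _ _
            have h5 : ‖x - z‖ < r' := by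
              have := hx.1
              rwa [Metric.mem_ball, dist_eq_norm] at this
            rw [PiLp.sub_apply, hz, sub_zero, Real.norm_eq_abs] at h4
            linarith
          have h6 : (x 0) ^ 2 ≤ r' ^ 2 := by
            rw [← sq_abs (x 0)]
            exact pow_le_pow_left₀ (abs_nonneg _) h3 2
          have h7 : 0 < (x 0) ^ 2 := by positivity
          rw [mul_div_assoc', le_div_iff₀ h7, mul_comm]
          exact mul_le_mul_of_nonneg_right h6 (by (clear hA L z r r' hr' hrr hL hz C hC hc h0 h1 h2 hKc hKD hK hi hx hx0 h3 h6 h7; positivity))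
    _ = r' ^ 2 * ∫ x in HB z r', ‖c x‖ ^ 2 / (x 0) ^ 2 := integral_const_mul _ _
    _ ≤ r' ^ 2 * (C * (En L (HB z r') c c).re) := mul_le_mul_of_nonneg_left h2 (by positivity)
    _ = _ := by ring

theorem APoin_convex_HB (z : E n) (r : ℝ) : Convex ℝ (HB z r) :=
  (convex_ball z r).inter convex_Hs

theorem APoin_part2 (L : LD n N) (z : E n) (r r' : ℝ) (hr' : 0 < r')
    (hrr : r' < r) (hL : L.Ok (HB z r)) (z'' : E n) (r'' : ℝ) (hr'' : 0 < r'')
    (hsub : HB z'' r'' ⊆ HB z r') (hz'' : z'' ∈ Hs n) :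
    ∃ C : ℝ, ∀ c : E n → Fib N, ContDiffOn ℝ ∞ c (HB z r) →
      ∫ x in HB z r', ‖c x‖ ^ 2 ≤
        C * (∫ x in HB z'' r'', (‖c x‖ ^ 2 + (En L (HB z r') c c).re)) := by
  have hD : RelOpen (HB z r) := APoin_rel_HB z r
  have hKc : IsCompact (Metric.closedBall z r' ∩ Hs n) :=
    (isCompact_closedBall z r').inter_right isClosed_Hs
  have hKD : Metric.closedBall z r' ∩ Hs n ⊆ HB z r :=
    inter_subset_inter_left _ (Metric.closedBall_subset_ball hrr)
  have hK : HB z r' ⊆ Metric.closedBall z r' ∩ Hs n :=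
    inter_subset_inter_left _ Metric.ball_subset_closedBall
  obtain ⟨a, ha, ha'⟩ := APoin_Q_low hD hL hKc hKD
  obtain ⟨m, M, hm, hM, hmM⟩ := APoin_h_bd hL hKc hKD
  have hvK : volume (HB z r') ≠ ⊤ := ((measure_mono hK).trans_lt hKc.measure_lt_top).ne
  have hvK'' : volume (HB z'' r'') ≠ ⊤ := ((measure_mono hsub).trans_lt hvK.lt_top).ne
  set V := (volume (HB z r')).toReal with hV
  set V' := (volume (HB z'' r'')).toReal with hV'
  have hV'0 : 0 < V' := ENNReal.toReal_pos (APoin_vol hr'' hz'').ne' hvK''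
  have hVV : V' ≤ V := ENNReal.toReal_mono hvK (measure_mono hsub)
  have hV0 : 0 < V := lt_of_lt_of_le hV'0 hVV
  set d := 2 * r' with hd
  have hdd : ∀ x ∈ HB z r', ∀ y ∈ HB z r', ‖x - y‖ ≤ d := by
    intro x hx y hy
    have h1 := hx.1
    have h2 := hy.1
    rw [Metric.mem_ball] at h1 h2
    rw [← dist_eq_norm]
    linarith only [h1, h2, dist_triangle_right x y z]
  set ε := m * V' / (2 ^ (n + 1) * V) with hε
  have hε0 : 0 < ε := by (clear * - hm hV'0 hV0; positivity)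
  set B := d * n * M with hB
  have hB0 : 0 ≤ B := by (clear * - hr' hM; positivity)
  set C3 := 2 ^ n * V * (B ^ 2 / (ε * a)) with hC3
  have hC30 : 0 ≤ C3 := by (clear * - hV0 hm hV'0 ha; positivity)
  refine ⟨2 / (m * V') * (V * M + C3 / V'), fun c hc => ?_⟩
  -- integrability
  have hcc : ContinuousOn c (HB z r) := hc.continuousOn
  have hnab : ∀ j, ContinuousOn (nab L j c) (HB z r) := fun j =>
    (Jacobi_nab_smooth hD hL hc j).continuousOn
  have hint : ∀ {F : Type} [NormedAddCommGroup F] {f : E n → F}, ContinuousOn f (HB z r) →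
      IntegrableOn f (HB z r') := fun hf =>
    ((hf.mono hKD).integrableOn_compact hKc).mono_set hK
  set f := APoin_N L c with hf
  set G : E n → ℝ := fun x => d * ∑ j, |2 * (inner ℂ (c x) (L.h x (nab L j c x)) : ℂ).re| with hG
  have hGc : ContinuousOn G (HB z r) := by
    refine continuousOn_const.mul (continuousOn_finsetSum _ fun j _ => ?_)
    refine (continuousOn_const.mul (Complex.continuous_re.comp_continuousOn ?_)).abs
    exact ContinuousOn.inner (𝕜 := ℂ) hcc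
      (smooth_eval hL.h_smooth (Jacobi_nab_smooth hD hL hc j)).continuousOn
  have hfc : ContinuousOn f (HB z r) :=
    Complex.continuous_re.comp_continuousOn
      (ContinuousOn.inner (𝕜 := ℂ) hcc (smooth_eval hL.h_smooth hc).continuousOn)
  have hG0 : ∀ x ∈ HB z r', 0 ≤ G x := fun x _ => by
    refine mul_nonneg (by positivity) (Finset.sum_nonneg fun j _ => abs_nonneg _)
  have hf0 : ∀ x ∈ HB z r', m * ‖c x‖ ^ 2 ≤ f x := fun x hx => (hmM x (hK hx)).2 _
  have hf1 : ∀ x ∈ HB z r', f x ≤ M * ‖c x‖ ^ 2 := by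
    intro x hx
    calc f x ≤ ‖(inner ℂ (c x) (L.h x (c x)) : ℂ)‖ := Complex.re_le_norm _
      _ ≤ ‖c x‖ * ‖L.h x (c x)‖ := norm_inner_le_norm _ _
      _ ≤ ‖c x‖ * (M * ‖c x‖) := by
        refine mul_le_mul_of_nonneg_left ?_ (norm_nonneg _)
        exact (ContinuousLinearMap.le_opNorm _ _).trans
          (mul_le_mul_of_nonneg_right (hmM x (hK hx)).1 (norm_nonneg _))
      _ = M * ‖c x‖ ^ 2 := by ring
  have hmain := APoin_L1real (f := f) (G := G) (d := d) (APoin_convex_HB z r') (APoin_meas z r')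
    (APoin_meas z'' r'') hsub hvK inter_subset_right (hGc.mono (hK.trans hKD)) hG0 (hint hGc)
    (fun x hx => le_trans (by (clear * - hm; positivity)) (hf0 x hx)) (hint hfc) hdd (fun x hx => by
      obtain ⟨A, hA, hA'⟩ := APoin_N_has hD hL hc (hKD (hK hx))
      refine ⟨A, hA, fun v hv => ?_⟩
      rw [hA']
      show _ ≤ d * ∑ j, |2 * (inner ℂ (c x) (L.h x (nab L j c x)) : ℂ).re|
      rw [Finset.mul_sum]
      refine Finset.sum_le_sum fun j _ => ?_
      have h1 : |v j| ≤ d := by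
        have h4 : ‖v j‖ ≤ ‖v‖ := PiLp.norm_apply_le _ _
        rw [Real.norm_eq_abs] at h4
        linarith only [hv, h4]
      exact (le_abs_self _).trans (by
        rw [abs_mul]
        exact mul_le_mul_of_nonneg_right h1 (abs_nonneg _)))
  -- the pointwise bound for `G`
  have hGb : ∀ x ∈ HB z r', G x ≤ ε / m * f x + B ^ 2 / (ε * a) * (ed L c c x).re := by
    intro x hx
    set w : Fin n → Fib N := fun j => nab L j c x with hw
    have h1 : a * ‖w‖ ^ 2 ≤ (ed L c c x).re := by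
      rw [APoin_ed_re]
      exact ha' x (hK hx) w
    have h2 : G x ≤ 2 * ‖c x‖ * (B * ‖w‖) := by
      have h3 : ∀ j, |2 * (inner ℂ (c x) (L.h x (nab L j c x)) : ℂ).re| ≤
          2 * (‖c x‖ * (M * ‖w‖)) := by
        intro j
        rw [abs_mul, abs_of_pos (show (0:ℝ) < 2 by norm_num)]
        refine mul_le_mul_of_nonneg_left ?_ (by norm_num)
        calc |(inner ℂ (c x) (L.h x (nab L j c x)) : ℂ).re|
            ≤ ‖(inner ℂ (c x) (L.h x (nab L j c x)) : ℂ)‖ := Complex.abs_re_le_norm _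
          _ ≤ ‖c x‖ * ‖L.h x (nab L j c x)‖ := norm_inner_le_norm _ _
          _ ≤ ‖c x‖ * (M * ‖w‖) := by
            refine mul_le_mul_of_nonneg_left ?_ (norm_nonneg _)
            refine (ContinuousLinearMap.le_opNorm _ _).trans ?_
            exact mul_le_mul (hmM x (hK hx)).1 (norm_le_pi_norm w j) (norm_nonneg _) hM.le
      calc G x ≤ d * ∑ j : Fin n, 2 * (‖c x‖ * (M * ‖w‖)) :=
            mul_le_mul_of_nonneg_left (Finset.sum_le_sum fun j _ => h3 j) (by positivity)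
        _ = 2 * ‖c x‖ * (B * ‖w‖) := by
            rw [Finset.sum_const, Finset.card_univ, Fintype.card_fin, nsmul_eq_mul]
            ring
    have h4 : 2 * ‖c x‖ * (B * ‖w‖) ≤ ε * ‖c x‖ ^ 2 + ε⁻¹ * (B * ‖w‖) ^ 2 := by
      have h5 : 0 ≤ ε⁻¹ * (ε * ‖c x‖ - B * ‖w‖) ^ 2 := by (clear * - hm hV'0 hV0; positivity)
      have h6 : ε⁻¹ * (ε * ‖c x‖ - B * ‖w‖) ^ 2 =
          ε * ‖c x‖ ^ 2 + ε⁻¹ * (B * ‖w‖) ^ 2 - 2 * ‖c x‖ * (B * ‖w‖) := by
        field_simp
        ring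
      linarith only [h5, h6]
    have h7 : ε * ‖c x‖ ^ 2 ≤ ε / m * f x := by
      have := mul_le_mul_of_nonneg_left (hf0 x hx) (show 0 ≤ ε / m by (clear * - hm hV'0 hV0; positivity))
      refine le_trans (le_of_eq ?_) this
      (clear * - hm hε0; field_simp)
    have h8 : ε⁻¹ * (B * ‖w‖) ^ 2 ≤ B ^ 2 / (ε * a) * (ed L c c x).re := by
      have := mul_le_mul_of_nonneg_left h1 (show 0 ≤ B ^ 2 / (ε * a) by (clear * - hm hV'0 hV0 ha; positivity))
      refine le_trans (le_of_eq ?_) this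
      (clear * - ha hε0; field_simp)
    linarith
  have hed : ContinuousOn (fun x => (ed L c c x).re) (HB z r) :=
    Complex.continuous_re.comp_continuousOn (APoin_ed_cont hD hL hc)
  have hE : (En L (HB z r') c c).re = ∫ x in HB z r', (ed L c c x).re :=
    (Complex.reCLM.integral_comp_comm (hint (APoin_ed_cont hD hL hc))).symm
  have hE0 : 0 ≤ (En L (HB z r') c c).re := by
    rw [hE]
    refine setIntegral_nonneg (APoin_meas z r') fun x hx => ?_
    rw [APoin_ed_re]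
    exact le_trans (by (clear z r r' hr' hrr hL z'' r'' hr'' hsub hz'' hD hKc hKD hK ha' m M hm hM hmM hvK hvK'' V hV V' hV' hV'0 hVV hV0 d hd hdd ε hε hε0 B hB hB0 C3 hC3 hC30 hc hcc hnab hint f hf G hG hGc hfc hG0 hf0 hf1 hmain hGb hed hE hx; positivity)) (ha' x (hK hx) _)
  set I := ∫ x in HB z r', f x with hI
  have hGint : ∫ x in HB z r', G x ≤ ε / m * I + B ^ 2 / (ε * a) * (En L (HB z r') c c).re := by
    rw [hE, hI, ← integral_const_mul, ← integral_const_mul, ← integral_add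
      ((hint hfc).const_mul _) ((hint hed).const_mul _)]
    exact setIntegral_mono_on (hint hGc) (((hint hfc).const_mul _).add ((hint hed).const_mul _))
      (APoin_meas z r') hGb
  have hcint : IntegrableOn (fun x => ‖c x‖ ^ 2) (HB z r') := hint (hcc.norm.pow 2)
  have hI'' : ∫ x in HB z'' r'', f x ≤ M * ∫ x in HB z'' r'', ‖c x‖ ^ 2 := by
    rw [← integral_const_mul]
    exact setIntegral_mono_on ((hint hfc).mono_set hsub) ((hcint.mono_set hsub).const_mul _)
      (APoin_meas z'' r'') fun x hx => hf1 x (hsub hx)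
  have hIm : m * ∫ x in HB z r', ‖c x‖ ^ 2 ≤ I := by
    rw [← integral_const_mul]
    exact setIntegral_mono_on (hcint.const_mul _) (hint hfc) (APoin_meas z r') hf0
  have hrhs : ∫ x in HB z'' r'', (‖c x‖ ^ 2 + (En L (HB z r') c c).re) =
      (∫ x in HB z'' r'', ‖c x‖ ^ 2) + V' * (En L (HB z r') c c).re := by
    rw [integral_add (hcint.mono_set hsub) (by
      rw [integrable_const_iff]
      right
      exact ⟨by rw [Measure.restrict_apply_univ]; exact hvK''.lt_top⟩)]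
    rw [setIntegral_const]
    rfl
  rw [hrhs]
  set S := ∫ x in HB z'' r'', ‖c x‖ ^ 2 with hS
  have hS0 : 0 ≤ S := setIntegral_nonneg (APoin_meas z'' r'') fun x _ => by (clear * -; positivity)
  set T := ∫ x in HB z r', ‖c x‖ ^ 2 with hT
  set E0 := (En L (HB z r') c c).re with hE00
  -- final algebra
  have k1 : V' * I ≤ V * (M * S) + 2 ^ n * (ε / m * I + B ^ 2 / (ε * a) * E0) * V := by
    refine hmain.trans (add_le_add (mul_le_mul_of_nonneg_left hI'' hV0.le) ?_)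
    exact mul_le_mul_of_nonneg_right (mul_le_mul_of_nonneg_left hGint (by positivity)) hV0.le
  have k2 : 2 ^ n * (ε / m * I) * V = V' / 2 * I := by
    rw [hε, pow_succ]
    (clear * - hm hV0 hV'0; field_simp)
  have k3 : 2 ^ n * (B ^ 2 / (ε * a) * E0) * V = C3 * E0 := by
    rw [hC3]; ring
  have k4 : V' / 2 * I ≤ V * M * S + C3 * E0 := by
    have : 2 ^ n * (ε / m * I + B ^ 2 / (ε * a) * E0) * V =
      2 ^ n * (ε / m * I) * V + 2 ^ n * (B ^ 2 / (ε * a) * E0) * V := by ring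
    rw [this, k2, k3] at k1
    linarith only [k1]
  have k5 : V' / 2 * (m * T) ≤ V * M * S + C3 * E0 :=
    (mul_le_mul_of_nonneg_left hIm (by (clear * - hV'0; positivity))).trans k4
  have k6 : T ≤ 2 / (m * V') * (V * M * S + C3 * E0) := by
    have := mul_le_mul_of_nonneg_left k5 (show (0:ℝ) ≤ 2 / (m * V') by (clear * - hm hV'0; positivity))
    refine le_trans (le_of_eq ?_) this
    (clear * - hm hV'0; field_simp)
  refine k6.trans ?_
  rw [mul_assoc (2 / (m * V'))]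
  refine mul_le_mul_of_nonneg_left ?_ (show (0:ℝ) ≤ 2 / (m * V') by (clear * - hm hV'0; positivity))
  have k7 : (V * M + C3 / V') * (S + V' * E0) =
      V * M * S + C3 * E0 + (V * M * V' * E0 + C3 / V' * S) := by
    field_simp
    ring
  rw [k7]
  have k8 : 0 ≤ V * M * V' * E0 + C3 / V' * S := by (clear r hr' hrr hL hD hKD ha' hmM hV hV' hd hdd hε hε0 hB hB0 hC3 hC30 hc hcc hnab hint f hf G hG hGc hfc hG0 hf0 hf1 hGb hed I hmain hI hcint hI'' hS hS0 T hIm hT hE hGint hrhs hE00 k1 k2 k3 k4 k5 k6 k7; positivity)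
  linarith only [k8]

/-- Local Poincare inequalities for sections. -/
theorem aPoincare : AHardy_statement → APoincare_statement := by
  intro hA n N _ L z r r' hr' hrr hz hL
  refine ⟨fun hz0 => APoin_part1 hA L z r r' hr' hrr hL hz0, fun z'' r'' hr'' hsub hz'' => ?_⟩
  exact APoin_part2 L z r r' hr' hrr hL z'' r'' hr'' hsub hz''

end Vale.Agent.P088.EYM
end
end

section

/-!
# P088-EYM, block D, module D1b: calculus of the vanishing order predicate `Van`
-/

open MeasureTheory Set Filter Topology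
open scoped ContDiff

noncomputable section

namespace Vale.Agent.P088.EYM

variable {n : ℕ} [NeZero n] {N : ℕ}
variable {F : Type*} [NormedAddCommGroup F] [NormedSpace ℝ F]
variable {F' : Type*} [NormedAddCommGroup F'] [NormedSpace ℝ F']
variable {F'' : Type*} [NormedAddCommGroup F''] [NormedSpace ℝ F'']
variable {D : Set (E n)}

theorem van_zero (f : E n → F) : Van D 0 f := fun i hi => absurd hi (Nat.not_lt_zero i)

theorem van_succ {k : ℕ} {f : E n → F} : Van D (k + 1) f ↔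
    (∀ x ∈ D, x 0 = 0 → f x = 0) ∧ Van D k (pd 0 f) := by
  constructor
  · intro h
    refine ⟨fun x hx h0 => h 0 (Nat.succ_pos k) x hx h0, fun i hi x hx h0 => ?_⟩
    have h1 := h (i + 1) (Nat.succ_lt_succ hi) x hx h0
    rwa [Function.iterate_succ_apply] at h1
  · rintro ⟨h1, h2⟩ i hi x hx h0
    cases i with
    | zero => exact h1 x hx h0
    | succ i =>
      rw [Function.iterate_succ_apply]
      exact h2 i (Nat.lt_of_succ_lt_succ hi) x hx h0

theorem van_one {f : E n → F} : Van D 1 f ↔ ∀ x ∈ D, x 0 = 0 → f x = 0 := by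
  rw [show (1 : ℕ) = 0 + 1 from rfl, van_succ]
  exact ⟨fun h => h.1, fun h => ⟨h, van_zero _⟩⟩

theorem Van.mono {k j : ℕ} {f : E n → F} (h : Van D k f) (hjk : j ≤ k) : Van D j f :=
  fun i hi => h i (lt_of_lt_of_le hi hjk)

theorem dv_iter_congr (hD : RelOpen D) {f g : E n → F} (h : EqOn f g D) (i : ℕ) :
    EqOn ((pd (0 : Fin n))^[i] f) ((pd (0 : Fin n))^[i] g) D := by
  induction i generalizing f g with
  | zero => exact h
  | succ i ih =>
    rw [Function.iterate_succ_apply, Function.iterate_succ_apply]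
    exact ih fun x hx => hD.pd_congr h hx 0

theorem Van.congr (hD : RelOpen D) {k : ℕ} {f g : E n → F} (h : Van D k f) (hfg : EqOn f g D) :
    Van D k g := fun i hi x hx h0 => by
  rw [← dv_iter_congr hD hfg i hx]
  exact h i hi x hx h0

theorem dv_smooth_iter (hD : RelOpen D) {f : E n → F} (hf : ContDiffOn ℝ ∞ f D) (i : ℕ) :
    ContDiffOn ℝ ∞ ((pd (0 : Fin n))^[i] f) D := by
  induction i generalizing f with
  | zero => exact hf
  | succ i ih =>
    rw [Function.iterate_succ_apply]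
    exact ih (hD.pd_smooth hf 0)

theorem dv_iter_add (hD : RelOpen D) {f g : E n → F} (hf : ContDiffOn ℝ ∞ f D)
    (hg : ContDiffOn ℝ ∞ g D) (i : ℕ) {x : E n} (hx : x ∈ D) :
    (pd (0 : Fin n))^[i] (fun y => f y + g y) x =
      (pd (0 : Fin n))^[i] f x + (pd (0 : Fin n))^[i] g x := by
  induction i generalizing f g with
  | zero => rfl
  | succ i ih =>
    simp only [Function.iterate_succ_apply]
    rw [dv_iter_congr hD (fun y hy => hD.pd_add hf hg hy 0) i hx]
    exact ih (hD.pd_smooth hf 0) (hD.pd_smooth hg 0)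

theorem dv_iter_sub (hD : RelOpen D) {f g : E n → F} (hf : ContDiffOn ℝ ∞ f D)
    (hg : ContDiffOn ℝ ∞ g D) (i : ℕ) {x : E n} (hx : x ∈ D) :
    (pd (0 : Fin n))^[i] (fun y => f y - g y) x =
      (pd (0 : Fin n))^[i] f x - (pd (0 : Fin n))^[i] g x := by
  induction i generalizing f g with
  | zero => rfl
  | succ i ih =>
    simp only [Function.iterate_succ_apply]
    rw [dv_iter_congr hD (fun y hy => hD.pd_sub hf hg hy 0) i hx]
    exact ih (hD.pd_smooth hf 0) (hD.pd_smooth hg 0)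

theorem dv_iter_sum (hD : RelOpen D) {ι : Type*} (s : Finset ι) {f : ι → E n → F}
    (hf : ∀ j ∈ s, ContDiffOn ℝ ∞ (f j) D) (i : ℕ) {x : E n} (hx : x ∈ D) :
    (pd (0 : Fin n))^[i] (fun y => ∑ j ∈ s, f j y) x =
      ∑ j ∈ s, (pd (0 : Fin n))^[i] (f j) x := by
  induction i generalizing f with
  | zero => rfl
  | succ i ih =>
    simp only [Function.iterate_succ_apply]
    rw [dv_iter_congr hD (fun y hy => hD.pd_sum s hf hy 0) i hx]
    exact ih (f := fun j => pd 0 (f j)) fun j hj => hD.pd_smooth (hf j hj) 0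

theorem dv_iter_clm (hD : RelOpen D) (A : F →L[ℝ] F') {f : E n → F} (hf : ContDiffOn ℝ ∞ f D)
    (i : ℕ) {x : E n} (hx : x ∈ D) :
    (pd (0 : Fin n))^[i] (fun y => A (f y)) x = A ((pd (0 : Fin n))^[i] f x) := by
  induction i generalizing f with
  | zero => rfl
  | succ i ih =>
    simp only [Function.iterate_succ_apply]
    rw [dv_iter_congr hD (fun y hy => hD.pd_clm A hf hy 0) i hx]
    exact ih (hD.pd_smooth hf 0)

theorem dv_iter_pd (hD : RelOpen D) {f : E n → F} (hf : ContDiffOn ℝ ∞ f D) (j : Fin n)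
    (i : ℕ) {x : E n} (hx : x ∈ D) :
    (pd (0 : Fin n))^[i] (pd j f) x = pd j ((pd (0 : Fin n))^[i] f) x := by
  induction i generalizing f with
  | zero => rfl
  | succ i ih =>
    simp only [Function.iterate_succ_apply]
    rw [dv_iter_congr hD (fun y hy => hD.pd_comm hf hy 0 j) i hx]
    exact ih (hD.pd_smooth hf 0)

theorem Van.add (hD : RelOpen D) {k : ℕ} {f g : E n → F} (hf : ContDiffOn ℝ ∞ f D)
    (hg : ContDiffOn ℝ ∞ g D) (h : Van D k f) (h' : Van D k g) :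
    Van D k (fun y => f y + g y) := fun i hi x hx h0 => by
  rw [dv_iter_add hD hf hg i hx, h i hi x hx h0, h' i hi x hx h0, add_zero]

theorem Van.sub (hD : RelOpen D) {k : ℕ} {f g : E n → F} (hf : ContDiffOn ℝ ∞ f D)
    (hg : ContDiffOn ℝ ∞ g D) (h : Van D k f) (h' : Van D k g) :
    Van D k (fun y => f y - g y) := fun i hi x hx h0 => by
  rw [dv_iter_sub hD hf hg i hx, h i hi x hx h0, h' i hi x hx h0, sub_zero]

theorem Van.sum (hD : RelOpen D) {ι : Type*} (s : Finset ι) {k : ℕ} {f : ι → E n → F}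
    (hf : ∀ j ∈ s, ContDiffOn ℝ ∞ (f j) D) (h : ∀ j ∈ s, Van D k (f j)) :
    Van D k (fun y => ∑ j ∈ s, f j y) := fun i hi x hx h0 => by
  rw [dv_iter_sum hD s hf i hx]
  exact Finset.sum_eq_zero fun j hj => h j hj i hi x hx h0

theorem Van.clm (hD : RelOpen D) (A : F →L[ℝ] F') {k : ℕ} {f : E n → F}
    (hf : ContDiffOn ℝ ∞ f D) (h : Van D k f) : Van D k (fun y => A (f y)) :=
    fun i hi x hx h0 => by
  rw [dv_iter_clm hD A hf i hx, h i hi x hx h0, map_zero]

theorem dv_bil_zero_left {b : F × F' → F''} (hb : IsBoundedBilinearMap ℝ b) (w : F') :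
    b (0, w) = 0 := by
  have h := hb.smul_left (0 : ℝ) (0 : F) w
  rwa [zero_smul, zero_smul] at h

theorem dv_bil_zero_right {b : F × F' → F''} (hb : IsBoundedBilinearMap ℝ b) (v : F) :
    b (v, 0) = 0 := by
  have h := hb.smul_right (0 : ℝ) v (0 : F')
  rwa [zero_smul, zero_smul] at h

theorem dv_bil_aux (hD : RelOpen D) {b : F × F' → F''} (hb : IsBoundedBilinearMap ℝ b)
    (s : ℕ) : ∀ {f : E n → F} {g : E n → F'}, ContDiffOn ℝ ∞ f D → ContDiffOn ℝ ∞ g D →
    ∀ {k l : ℕ}, s ≤ k + l → Van D k f → Van D l g → Van D s (fun y => b (f y, g y)) := by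
  induction s with
  | zero => intro f g _ _ k l _ _ _; exact van_zero _
  | succ s ih =>
    intro f g hf hg k l hs h h'
    rw [van_succ]
    refine ⟨fun x hx h0 => ?_, ?_⟩
    · by_cases hk : k = 0
      · have h1 : g x = 0 := h' 0 (by omega) x hx h0
        rw [h1]
        exact dv_bil_zero_right hb _
      · have h1 : f x = 0 := h 0 (by omega) x hx h0
        rw [h1]
        exact dv_bil_zero_left hb _
    · have e : EqOn (fun y => b (pd 0 f y, g y) + b (f y, pd 0 g y))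
          (pd 0 (fun y => b (f y, g y))) D := fun y hy => (dc_pd_bil hD hb hf hg hy 0).symm
      refine Van.congr hD (Van.add hD (dc_smooth_bil hb (hD.pd_smooth hf 0) hg)
        (dc_smooth_bil hb hf (hD.pd_smooth hg 0)) ?_ ?_) e
      · cases k with
        | zero => exact ih (hD.pd_smooth hf 0) hg (k := 0) (l := l) (by omega) (van_zero _) h'
        | succ k => exact ih (hD.pd_smooth hf 0) hg (k := k) (l := l) (by omega) (van_succ.1 h).2 h'
      · cases l with
        | zero => exact ih hf (hD.pd_smooth hg 0) (k := k) (l := 0) (by omega) h (van_zero _)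
        | succ l => exact ih hf (hD.pd_smooth hg 0) (k := k) (l := l) (by omega) h (van_succ.1 h').2

theorem Van.bil (hD : RelOpen D) {b : F × F' → F''} (hb : IsBoundedBilinearMap ℝ b)
    {f : E n → F} {g : E n → F'} (hf : ContDiffOn ℝ ∞ f D) (hg : ContDiffOn ℝ ∞ g D) {k l : ℕ}
    (h : Van D k f) (h' : Van D l g) : Van D (k + l) (fun y => b (f y, g y)) :=
  dv_bil_aux hD hb (k + l) hf hg le_rfl h h'

/-- the leading derivative of a product -/
theorem dv_top_left (hD : RelOpen D) {b : F × F' → F''} (hb : IsBoundedBilinearMap ℝ b)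
    {f : E n → F} {g : E n → F'} (hf : ContDiffOn ℝ ∞ f D) (hg : ContDiffOn ℝ ∞ g D) {k : ℕ}
    (h : Van D k f) {x : E n} (hx : x ∈ D) (hx0 : x 0 = 0) :
    (pd (0 : Fin n))^[k] (fun y => b (f y, g y)) x = b ((pd (0 : Fin n))^[k] f x, g x) := by
  induction k generalizing f g with
  | zero => rfl
  | succ k ih =>
    simp only [Function.iterate_succ_apply]
    rw [dv_iter_congr hD (fun y hy => dc_pd_bil hD hb hf hg hy 0) k hx,
      dv_iter_add hD (dc_smooth_bil hb (hD.pd_smooth hf 0) hg)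
        (dc_smooth_bil hb hf (hD.pd_smooth hg 0)) k hx,
      ih (hD.pd_smooth hf 0) hg (van_succ.1 h).2,
      dv_bil_aux hD hb (k + 1) hf (hD.pd_smooth hg 0) (k := k + 1) (l := 0) le_rfl h (van_zero _)
        k (Nat.lt_succ_self k) x hx hx0, add_zero]

theorem dv_top_right (hD : RelOpen D) {b : F × F' → F''} (hb : IsBoundedBilinearMap ℝ b)
    {f : E n → F} {g : E n → F'} (hf : ContDiffOn ℝ ∞ f D) (hg : ContDiffOn ℝ ∞ g D) {k : ℕ}
    (h : Van D k g) {x : E n} (hx : x ∈ D) (hx0 : x 0 = 0) :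
    (pd (0 : Fin n))^[k] (fun y => b (f y, g y)) x = b (f x, (pd (0 : Fin n))^[k] g x) := by
  induction k generalizing f g with
  | zero => rfl
  | succ k ih =>
    simp only [Function.iterate_succ_apply]
    rw [dv_iter_congr hD (fun y hy => dc_pd_bil hD hb hf hg hy 0) k hx,
      dv_iter_add hD (dc_smooth_bil hb (hD.pd_smooth hf 0) hg)
        (dc_smooth_bil hb hf (hD.pd_smooth hg 0)) k hx,
      ih hf (hD.pd_smooth hg 0) (van_succ.1 h).2,
      dv_bil_aux hD hb (k + 1) (hD.pd_smooth hf 0) hg (k := 0) (l := k + 1) (by omega)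
        (van_zero _) h k (Nat.lt_succ_self k) x hx hx0, zero_add]

theorem Van.pd_tan (hD : RelOpen D) {k : ℕ} {f : E n → F} (hf : ContDiffOn ℝ ∞ f D)
    (h : Van D k f) {j : Fin n} (hj : j ≠ 0) : Van D k (pd j f) := fun i hi x hx h0 => by
  rw [dv_iter_pd hD hf j i hx]
  exact dc_pd_tan hD (dv_smooth_iter hD hf i) (fun y hy hy0 => h i hi y hy hy0) hj x hx h0

theorem Van.pd_any (hD : RelOpen D) {k : ℕ} {f : E n → F} (hf : ContDiffOn ℝ ∞ f D)
    (h : Van D (k + 1) f) (j : Fin n) : Van D k (pd j f) := by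
  by_cases hj : j = 0
  · subst hj
    exact (van_succ.1 h).2
  · exact (Van.pd_tan hD hf h hj).mono (Nat.le_succ k)

end Vale.Agent.P088.EYM
end
end

section

/-!
# P088-EYM, block D: limit of the oscillating integrals
-/

open MeasureTheory Set Filter Topology
open scoped ContDiff

noncomputable section

namespace Vale.Agent.P088.EYM

variable {n : ℕ} [NeZero n] {N : ℕ} {D : Set (E n)}

theorem dl_sc_coord (s : ℝ) (x : E n) : sc s x 0 = s * x 0 := by
  simp only [sc, PiLp.add_apply, PiLp.smul_apply, ev_apply, if_true, smul_eq_mul]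
  ring

theorem dl_sc_eq (s : ℝ) (x : E n) : sc s x = sc 0 x + (s * x 0) • ev 0 := by
  unfold sc
  rw [add_assoc, ← add_smul]
  congr 2
  ring

theorem dl_sc_sc (s : ℝ) (x : E n) : sc 0 (sc s x) = sc 0 x := by
  have h1 : sc 0 (sc s x) = sc s x + ((0 - 1) * (sc s x 0)) • ev 0 := rfl
  rw [h1, dl_sc_coord, dl_sc_eq, add_assoc, ← add_smul]
  have h2 : s * x 0 + (0 - 1) * (s * x 0) = 0 := by ring
  rw [h2, zero_smul, add_zero]

theorem dl_sc_mem {s : ℝ} (hs : 0 ≤ s) {x : E n} (hx : x ∈ Hs n) : sc s x ∈ Hs n := by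
  have hx' : 0 ≤ x 0 := hx
  show 0 ≤ sc s x 0
  rw [dl_sc_coord]
  positivity

theorem dl_sc_cont (s : ℝ) : Continuous (fun x : E n => sc s x) := by
  unfold sc
  exact continuous_id.add ((continuous_const.mul (continuous_coord 0)).smul continuous_const)

theorem dl_sc_face {x : E n} (hx : x 0 = 0) (s : ℝ) : sc s x = x := by
  unfold sc
  rw [hx, mul_zero, zero_smul, add_zero]

theorem dl_iter_supp {f : E n → ℂ} {K : Set (E n)} (hK : IsClosed K)
    (h : ∀ x ∈ Hs n, x ∉ K → f x = 0) (k : ℕ) :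
    ∀ x ∈ Hs n, x ∉ K → (pd (0 : Fin n))^[k] f x = 0 := by
  induction k with
  | zero => exact h
  | succ k ih =>
    rw [Function.iterate_succ', Function.comp_apply]
    exact dc_pd_supp hK ih 0

theorem dl_zz_re (A : Matrix (Fin n) (Fin n) ℝ) (ξ : Fin n → ℝ) :
    (zz A ξ 0).re = -rho A ξ := by
  simp [zz]

theorem dl_II_eq (hD : RelOpen D) {ψ q : E n → ℂ} {K : Set (E n)} (hKD : K ⊆ D)
    (hq0 : ∀ x ∈ Hs n, x ∉ K → q x = 0) (t : ℝ) :
    II D ψ t q = ∫ x in Hs n, (Real.exp (2 * t * (ψ x).re) : ℂ) * q x := by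
  unfold II
  refine (setIntegral_eq_of_subset_of_forall_sdiff_eq_zero isClosed_Hs.measurableSet
    hD.subset ?_).symm
  rintro x ⟨hx, hxD⟩
  rw [hq0 x hx (fun h => hxD (hKD h)), mul_zero]

/-- the rescaled integrand -/
def dlPhi (ψ q : E n → ℂ) (k : ℕ) (t : ℝ) (x : E n) : ℂ :=
  (t : ℂ) ^ k * ((Real.exp (2 * t * (ψ (sc (1 / t) x)).re) : ℂ) * q (sc (1 / t) x))

theorem dl_scaled (hD : RelOpen D) {ψ q : E n → ℂ} {K : Set (E n)} (hKD : K ⊆ D)
    (hq0 : ∀ x ∈ Hs n, x ∉ K → q x = 0) (k : ℕ) {t : ℝ} (ht : 0 < t) :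
    (t : ℂ) ^ (k + 1) * II D ψ t q = ∫ x in Hs n, dlPhi ψ q k t x := by
  rw [dl_II_eq hD hKD hq0, ds_integral_scale _ (one_div_pos.mpr ht)]
  unfold dlPhi
  rw [integral_const_mul, Complex.real_smul, ← mul_assoc]
  congr 1
  have ht' : (t : ℂ) ≠ 0 := by exact_mod_cast ht.ne'
  push_cast
  rw [pow_succ]
  field_simp

theorem dl_meas {ψ q : E n → ℂ} (hψ : ContDiffOn ℝ ∞ ψ D)
    (hq : ContDiffOn ℝ ∞ q D) {K : Set (E n)} (hK : IsCompact K) (hKD : K ⊆ D)
    (hq0 : ∀ x ∈ Hs n, x ∉ K → q x = 0) (k : ℕ) {t : ℝ} (ht : 0 < t) :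
    AEStronglyMeasurable (dlPhi ψ q k t) (volume.restrict (Hs n)) := by
  classical
  set f : E n → ℂ := fun y => (t : ℂ) ^ k * ((Real.exp (2 * t * (ψ y).re) : ℂ) * q y) with hf
  have hfK : ContinuousOn f K := by
    have h1 : ContinuousOn ψ K := hψ.continuousOn.mono hKD
    have h2 : ContinuousOn q K := hq.continuousOn.mono hKD
    have h3 : ContinuousOn (fun y => (ψ y).re) K := Complex.continuous_re.comp_continuousOn h1
    have h4 : ContinuousOn (fun y => ((Real.exp (2 * t * (ψ y).re) : ℝ) : ℂ)) K :=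
      Complex.continuous_ofReal.comp_continuousOn
        (Real.continuous_exp.comp_continuousOn (continuousOn_const.mul h3))
    exact continuousOn_const.mul (h4.mul h2)
  have hm : Measurable (K.piecewise f (fun _ => (0 : ℂ))) :=
    ContinuousOn.measurable_piecewise hfK continuousOn_const hK.isClosed.measurableSet
  have hm2 : Measurable (fun x => K.piecewise f (fun _ => (0 : ℂ)) (sc (1 / t) x)) :=
    hm.comp (dl_sc_cont (1 / t)).measurable
  refine (hm2.aestronglyMeasurable (μ := volume.restrict (Hs n))).congr ?_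
  refine ae_restrict_of_forall_mem isClosed_Hs.measurableSet fun x hx => ?_
  have hy : sc (1 / t) x ∈ Hs n := dl_sc_mem (one_div_pos.mpr ht).le hx
  by_cases hyK : sc (1 / t) x ∈ K
  · simp only [piecewise_eq_of_mem _ _ _ hyK]
    rfl
  · simp only [piecewise_eq_of_notMem _ _ _ hyK]
    unfold dlPhi
    rw [hq0 _ hy hyK]
    simp

theorem dl_bound {ψ q : E n → ℂ} {K : Set (E n)}
    (hq0 : ∀ x ∈ Hs n, x ∉ K → q x = 0) {δ : ℝ}
    (hre : ∀ x ∈ K, (ψ x).re ≤ -(δ * x 0)) {k : ℕ} {C R : ℝ} (hC : 0 ≤ C)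
    (hCq : ∀ x ∈ K, ‖q x‖ ≤ C * (x 0) ^ k) (hR : ∀ x ∈ K, ‖sc 0 x‖ ≤ R) {t : ℝ} (ht : 0 < t)
    {x : E n} (hx : x ∈ Hs n) :
    ‖dlPhi ψ q k t x‖ ≤ C * ({x : E n | x ∈ Hs n ∧ ‖sc 0 x‖ ≤ R}.indicator
      (fun x : E n => (x 0) ^ k * Real.exp (-((2 * δ) * x 0))) x) := by
  have hx' : 0 ≤ x 0 := hx
  have hy : sc (1 / t) x ∈ Hs n := dl_sc_mem (one_div_pos.mpr ht).le hx
  by_cases hyK : sc (1 / t) x ∈ K
  · have hxS : x ∈ {x : E n | x ∈ Hs n ∧ ‖sc 0 x‖ ≤ R} := by
      refine ⟨hx, ?_⟩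
      have := hR _ hyK
      rwa [dl_sc_sc] at this
    rw [indicator_of_mem hxS]
    unfold dlPhi
    rw [norm_mul, norm_mul, norm_pow, Complex.norm_real, Complex.norm_real, Real.norm_eq_abs,
      Real.norm_eq_abs, abs_of_pos ht, abs_of_pos (Real.exp_pos _)]
    have h1 := hCq _ hyK
    have h2 := hre _ hyK
    rw [dl_sc_coord] at h1 h2
    have h3 : Real.exp (2 * t * (ψ (sc (1 / t) x)).re) ≤ Real.exp (-((2 * δ) * x 0)) := by
      apply Real.exp_le_exp.mpr
      have h4 : 2 * t * (ψ (sc (1 / t) x)).re ≤ 2 * t * (-(δ * (1 / t * x 0))) :=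
        mul_le_mul_of_nonneg_left h2 (by positivity)
      refine h4.trans (le_of_eq ?_)
      (clear ψ q K hq0 hre k C R hC hCq hR hx hx' hy hyK hxS h1 h2 h4; field_simp)
    calc t ^ k * (Real.exp (2 * t * (ψ (sc (1 / t) x)).re) * ‖q (sc (1 / t) x)‖)
        ≤ t ^ k * (Real.exp (-((2 * δ) * x 0)) * (C * (1 / t * x 0) ^ k)) := by
          (clear K hq0 hre R hC hCq hR hx hx' hy hyK hxS; gcongr)
      _ = C * ((x 0) ^ k * Real.exp (-((2 * δ) * x 0))) := by
          rw [mul_pow, one_div, inv_pow]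
          have : t ^ k ≠ 0 := (pow_pos ht k).ne'
          (clear ψ q K hq0 hre R hC hCq hR hx hx' hy hyK hxS h1 h2 h3; field_simp)
  · have h0 : dlPhi ψ q k t x = 0 := by
      unfold dlPhi
      rw [hq0 _ hy hyK]
      simp
    rw [h0, norm_zero]
    refine mul_nonneg hC (indicator_nonneg (fun z hz => ?_) x)
    have hz' : 0 ≤ z 0 := hz.1
    (clear ψ q K hq0 hre C hC hCq hR t ht x hx hx' hy hyK h0; positivity)

theorem dl_pointwise (hD : RelOpen D) {G : E n → Matrix (Fin n) (Fin n) ℝ} {ξ : Fin n → ℝ}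
    {ψ : E n → ℂ} (hψ : IsPhase D G ξ ψ) {q : E n → ℂ} (hq : ContDiffOn ℝ ∞ q D)
    {K : Set (E n)} (hK : IsCompact K) (hKD : K ⊆ D) (hq0 : ∀ x ∈ Hs n, x ∉ K → q x = 0)
    {k : ℕ} (hv : Van D k q) {x : E n} (hx : x ∈ Hs n) :
    Tendsto (fun t : ℝ => dlPhi ψ q k t x) atTop
      (𝓝 ((k.factorial : ℂ)⁻¹ * ((((x 0) ^ k * wt G ξ x : ℝ) : ℂ) *
        (pd (0 : Fin n))^[k] q (sc 0 x)))) := by
  have hx' : 0 ≤ x 0 := hx
  rcases hx'.eq_or_lt with h0 | hpos
  · -- on the face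
    have h0' : x 0 = 0 := h0.symm
    have hsc : ∀ s : ℝ, sc s x = x := fun s => dl_sc_face h0' s
    have hwt : wt G ξ x = 1 := by
      unfold wt
      rw [h0', mul_zero, neg_zero, Real.exp_zero]
    by_cases hxD : x ∈ D
    · rcases Nat.eq_zero_or_pos k with hk | hk
      · subst hk
        refine tendsto_const_nhds.congr fun t => ?_
        unfold dlPhi
        rw [hsc, hsc, hwt, hψ.re0 x hxD h0']
        simp
      · have hqx : q x = 0 := hv 0 hk x hxD h0'
        have hk0 : (0 : ℝ) ^ k = 0 := zero_pow hk.ne'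
        refine tendsto_const_nhds.congr fun t => ?_
        unfold dlPhi
        rw [hsc, hsc, hqx, h0', hk0]
        simp
    · have hxK : x ∉ K := fun h => hxD (hKD h)
      have hqx : q x = 0 := hq0 x hx hxK
      have hpq : (pd (0 : Fin n))^[k] q x = 0 := dl_iter_supp hK.isClosed hq0 k x hx hxK
      refine tendsto_const_nhds.congr fun t => ?_
      unfold dlPhi
      rw [hsc, hsc, hqx, hpq]
      simp
  · have hyH : sc 0 x ∈ Hs n := dl_sc_mem le_rfl hx
    have hy0 : (sc 0 x) 0 = 0 := by rw [dl_sc_coord, zero_mul]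
    have hs : Tendsto (fun t : ℝ => 1 / t * x 0) atTop (𝓝[>] 0) := by
      refine tendsto_nhdsWithin_iff.mpr ⟨?_, ?_⟩
      · have hinv : Tendsto (fun t : ℝ => 1 / t) atTop (𝓝 (0 : ℝ)) := by
          simp only [one_div]
          exact tendsto_inv_atTop_zero
        have : Tendsto (fun t : ℝ => 1 / t * x 0) atTop (𝓝 (0 * x 0)) := hinv.mul_const (x 0)
        simpa only [one_div, zero_mul] using this
      · filter_upwards [eventually_gt_atTop (0 : ℝ)] with t ht
        exact mul_pos (one_div_pos.mpr ht) hpos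
    by_cases hyD : sc 0 x ∈ D
    · -- the main case
      have hq1 := (dy_van_lim hD hq hv hyD hy0).comp hs
      set f : E n → ℝ := fun z => Complex.reCLM (ψ z) with hf
      have hfs : ContDiffOn ℝ ∞ f D := dc_smooth_clm Complex.reCLM hψ.sm
      have hfv : Van D 1 f := van_one.mpr fun z hz hz0 => hψ.re0 z hz hz0
      have hf1 := (dy_van_lim hD hfs hfv hyD hy0).comp hs
      have hpdf : (pd (0 : Fin n))^[1] f (sc 0 x) = -rho (G (sc 0 x)) ξ := by
        rw [Function.iterate_one, hf, hD.pd_clm Complex.reCLM hψ.sm hyD 0,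
          hψ.grad _ hyD hy0 0, Complex.reCLM_apply, dl_zz_re]
      rw [hpdf] at hf1
      have hE : Tendsto (fun t : ℝ => Real.exp (2 * t * (ψ (sc (1 / t) x)).re)) atTop
          (𝓝 (wt G ξ x)) := by
        have h2 : Tendsto (fun t : ℝ => 2 * t * (ψ (sc (1 / t) x)).re) atTop
            (𝓝 (-(2 * rho (G (sc 0 x)) ξ * x 0))) := by
          have h3 := hf1.const_mul (2 * x 0)
          have h4 : 2 * x 0 * (((Nat.factorial 1 : ℕ) : ℝ)⁻¹ • -rho (G (sc 0 x)) ξ) =
              -(2 * rho (G (sc 0 x)) ξ * x 0) := by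
            simp only [Nat.factorial_one, Nat.cast_one, inv_one, smul_eq_mul, mul_neg, one_mul, neg_inj]
            ring
          rw [h4] at h3
          refine h3.congr' ?_
          filter_upwards [eventually_gt_atTop (0 : ℝ)] with t ht
          simp only [Function.comp_apply, hf, Complex.reCLM_apply, smul_eq_mul, pow_one]
          rw [← dl_sc_eq]
          field_simp
        exact (Real.continuous_exp.tendsto _).comp h2
      have hQ : Tendsto (fun t : ℝ => (t : ℂ) ^ k * q (sc (1 / t) x)) atTop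
          (𝓝 (((x 0 : ℝ) : ℂ) ^ k * ((k.factorial : ℝ)⁻¹ • (pd (0 : Fin n))^[k] q (sc 0 x)))) := by
        refine (hq1.const_mul (((x 0 : ℝ) : ℂ) ^ k)).congr' ?_
        filter_upwards [eventually_gt_atTop (0 : ℝ)] with t ht
        simp only [Function.comp_apply]
        rw [← dl_sc_eq, Complex.real_smul, ← mul_assoc]
        congr 1
        have h5 : ((x 0 : ℝ) : ℂ) ≠ 0 := by exact_mod_cast hpos.ne'
        have h6 : (t : ℂ) ≠ 0 := by exact_mod_cast ht.ne'
        push_cast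
        rw [mul_pow, mul_inv, ← mul_assoc, mul_comm (((x 0 : ℝ) : ℂ) ^ k), mul_assoc,
          mul_inv_cancel₀ (pow_ne_zero k h5), mul_one, one_div, inv_pow, inv_inv]
      have hEc : Tendsto (fun t : ℝ => ((Real.exp (2 * t * (ψ (sc (1 / t) x)).re) : ℝ) : ℂ)) atTop
          (𝓝 ((wt G ξ x : ℝ) : ℂ)) := (Complex.continuous_ofReal.tendsto _).comp hE
      have hfin := hEc.mul hQ
      refine (hfin.congr fun t => ?_).trans (le_of_eq ?_)
      · unfold dlPhi
        ring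
      · congr 1
        rw [Complex.real_smul]
        push_cast
        ring
    · -- off the domain
      have hyK : sc 0 x ∉ K := fun h => hyD (hKD h)
      have hpq : (pd (0 : Fin n))^[k] q (sc 0 x) = 0 :=
        dl_iter_supp hK.isClosed hq0 k _ hyH hyK
      rw [hpq, mul_zero, mul_zero]
      refine tendsto_const_nhds.congr' ?_
      have hcv : Tendsto (fun t : ℝ => sc (1 / t) x) atTop (𝓝 (sc 0 x)) := by
        have h1 : Tendsto (fun t : ℝ => sc 0 x + (1 / t * x 0) • (ev 0 : E n)) atTop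
            (𝓝 (sc 0 x + (0 : ℝ) • (ev 0 : E n))) :=
          tendsto_const_nhds.add ((tendsto_nhdsWithin_iff.mp hs).1.smul_const _)
        rw [zero_smul, add_zero] at h1
        refine h1.congr fun t => ?_
        rw [← dl_sc_eq]
      have hev : ∀ᶠ t : ℝ in atTop, sc (1 / t) x ∈ Kᶜ :=
        hcv.eventually (hK.isClosed.isOpen_compl.mem_nhds hyK)
      filter_upwards [hev, eventually_gt_atTop (0 : ℝ)] with t ht htpos
      unfold dlPhi
      rw [hq0 _ (dl_sc_mem (one_div_pos.mpr htpos).le hx) ht]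
      simp

/-- limit of oscillating integrals -/
theorem dl_lim_int (hD : RelOpen D) {G : E n → Matrix (Fin n) (Fin n) ℝ} {ξ : Fin n → ℝ}
    {ψ : E n → ℂ} (hψ : IsPhase D G ξ ψ) {q : E n → ℂ} (hq : ContDiffOn ℝ ∞ q D)
    {K : Set (E n)} (hK : IsCompact K) (hKD : K ⊆ D) (hq0 : ∀ x ∈ Hs n, x ∉ K → q x = 0)
    {δ : ℝ} (hδ : 0 < δ) (hre : ∀ x ∈ K, (ψ x).re ≤ -(δ * x 0)) {k : ℕ} (hv : Van D k q) :
    Tendsto (fun t : ℝ => (t : ℂ) ^ (k + 1) * II D ψ t q) atTop
      (𝓝 ((k.factorial : ℂ)⁻¹ * JJ G ξ k ((pd (0 : Fin n))^[k] q))) := by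
  obtain ⟨C, hC, hCq⟩ := dy_van_bound hD hq hv hK hKD
  obtain ⟨R, hR⟩ := hK.exists_bound_of_continuousOn (dl_sc_cont (n := n) 0).continuousOn
  have hJ : (k.factorial : ℂ)⁻¹ * JJ G ξ k ((pd (0 : Fin n))^[k] q) =
      ∫ x in Hs n, (k.factorial : ℂ)⁻¹ * ((((x 0) ^ k * wt G ξ x : ℝ) : ℂ) *
        (pd (0 : Fin n))^[k] q (sc 0 x)) := by
    unfold JJ
    rw [integral_const_mul]
  rw [hJ]
  have hmain : Tendsto (fun t : ℝ => ∫ x in Hs n, dlPhi ψ q k t x) atTop
      (𝓝 (∫ x in Hs n, (k.factorial : ℂ)⁻¹ * ((((x 0) ^ k * wt G ξ x : ℝ) : ℂ) *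
        (pd (0 : Fin n))^[k] q (sc 0 x)))) := by
    set S : Set (E n) := {x : E n | x ∈ Hs n ∧ ‖sc 0 x‖ ≤ R} with hS
    have hSm : MeasurableSet S :=
      (isClosed_Hs.inter (isClosed_le (dl_sc_cont 0).norm continuous_const)).measurableSet
    refine tendsto_integral_filter_of_dominated_convergence
      (fun x => C * (S.indicator (fun x : E n => (x 0) ^ k * Real.exp (-((2 * δ) * x 0))) x))
      ?_ ?_ ?_ ?_
    · filter_upwards [eventually_gt_atTop (0 : ℝ)] with t ht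
      exact dl_meas hψ.sm hq hK hKD hq0 k ht
    · filter_upwards [eventually_gt_atTop (0 : ℝ)] with t ht
      exact ae_restrict_of_forall_mem isClosed_Hs.measurableSet fun x hx =>
        dl_bound hq0 hre hC hCq hR ht hx
    · refine Integrable.const_mul ?_ C
      have h1 : IntegrableOn (fun x : E n => (x 0) ^ k * Real.exp (-((2 * δ) * x 0))) S :=
        ds_integrable_dom R (by positivity) k
      exact ((integrable_indicator_iff hSm).mpr h1).restrict
    · exact ae_restrict_of_forall_mem isClosed_Hs.measurableSet fun x hx =>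
        dl_pointwise hD hψ hq hK hKD hq0 hv hx
  refine hmain.congr' ?_
  filter_upwards [eventually_gt_atTop (0 : ℝ)] with t ht
  exact (dl_scaled hD hKD hq0 k ht).symm

end Vale.Agent.P088.EYM
end
end

section

/-!
# P088-EYM, block D: limits of differences of energy forms of oscillating test functions
-/

open MeasureTheory Set Filter Topology
open scoped ContDiff

noncomputable section

namespace Vale.Agent.P088.EYM

variable {n : ℕ} [NeZero n] {N : ℕ} {D : Set (E n)}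

theorem dle_integrable (hD : RelOpen D) {ψ : E n → ℂ} (hψ : ContDiffOn ℝ ∞ ψ D) {q : E n → ℂ}
    (hq : ContDiffOn ℝ ∞ q D) {K : Set (E n)} (hK : IsCompact K) (hKD : K ⊆ D)
    (hq0 : ∀ x ∈ Hs n, x ∉ K → q x = 0) (t : ℝ) :
    IntegrableOn (fun x => (Real.exp (2 * t * (ψ x).re) : ℂ) * q x) D := by
  have h1 : ContinuousOn (fun x => (Real.exp (2 * t * (ψ x).re) : ℂ) * q x) K := by
    have hψc : ContinuousOn ψ K := hψ.continuousOn.mono hKD
    have hqc : ContinuousOn q K := hq.continuousOn.mono hKD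
    exact (Complex.continuous_ofReal.comp_continuousOn (Real.continuous_exp.comp_continuousOn
      ((continuousOn_const).mul (Complex.continuous_re.comp_continuousOn hψc)))).mul hqc
  refine (h1.integrableOn_compact hK).of_forall_sdiff_eq_zero (dc_meas hD) fun x hx => ?_
  rw [hq0 x (hD.subset hx.1) hx.2, mul_zero]

theorem dle_II_sub (hD : RelOpen D) {ψ : E n → ℂ} (hψ : ContDiffOn ℝ ∞ ψ D) {q q' : E n → ℂ}
    (hq : ContDiffOn ℝ ∞ q D) (hq' : ContDiffOn ℝ ∞ q' D) {K : Set (E n)} (hK : IsCompact K)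
    (hKD : K ⊆ D) (hq0 : ∀ x ∈ Hs n, x ∉ K → q x = 0) (hq0' : ∀ x ∈ Hs n, x ∉ K → q' x = 0)
    (t : ℝ) : II D ψ t q - II D ψ t q' = II D ψ t (fun x => q x - q' x) := by
  unfold II
  rw [← integral_sub (dle_integrable hD hψ hq hK hKD hq0 t)
    (dle_integrable hD hψ hq' hK hKD hq0' t)]
  refine integral_congr_ae (Eventually.of_forall fun x => ?_)
  simp only [mul_sub]

section Coef

variable {G₁ G₂ : E n → Matrix (Fin n) (Fin n) ℝ} {B₁ B₂ : Fin n → E n → EndF N}
  {h₁ h₂ : E n → EndF N}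

/-- the difference of the energy forms -/
theorem dle_diff (hD : RelOpen D) (c₁ : CoefD D G₁ B₁ h₁) (c₂ : CoefD D G₂ B₂ h₂) {ψ : E n → ℂ}
    (hψ : ContDiffOn ℝ ∞ ψ D) {a a' : E n → Fib N} (ha : ContDiffOn ℝ ∞ a D)
    (ha' : ContDiffOn ℝ ∞ a' D) {K : Set (E n)} (hK : IsCompact K) (hKD : K ⊆ D)
    (ha0 : ∀ x ∈ Hs n, x ∉ K → a x = 0) (ha0' : ∀ x ∈ Hs n, x ∉ K → a' x = 0) (t : ℝ) :
    EnD D G₁ B₁ h₁ (osc ψ a t) (osc ψ a' t) - EnD D G₂ B₂ h₂ (osc ψ a t) (osc ψ a' t) =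
      (t : ℂ) ^ 2 * II D ψ t (fun x => Q2 G₁ h₁ ψ a a' x - Q2 G₂ h₂ ψ a a' x) +
      (t : ℂ) * II D ψ t (fun x => Q1 G₁ B₁ h₁ ψ a a' x - Q1 G₂ B₂ h₂ ψ a a' x) +
      II D ψ t (fun x => Q0 G₁ B₁ h₁ a a' x - Q0 G₂ B₂ h₂ a a' x) := by
  obtain ⟨s21, s11, s01⟩ := de_smooth_Q hD c₁.toGOk c₁.smB c₁.smh hψ ha ha'
  obtain ⟨s22, s12, s02⟩ := de_smooth_Q hD c₂.toGOk c₂.smB c₂.smh hψ ha ha'
  have z1 := de_supp_Q (G := G₁) (B := B₁) (h := h₁) (ψ := ψ) hK.isClosed ha0 ha0'
  have z2 := de_supp_Q (G := G₂) (B := B₂) (h := h₂) (ψ := ψ) hK.isClosed ha0 ha0'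
  rw [de_enD_osc hD c₁.toGOk c₁.smB c₁.smh hψ ha ha' hK hKD ha0 ha0' t,
    de_enD_osc hD c₂.toGOk c₂.smB c₂.smh hψ ha ha' hK hKD ha0 ha0' t,
    ← dle_II_sub hD hψ s21 s22 hK hKD (fun x hx hxK => (z1 x hx hxK).1)
      (fun x hx hxK => (z2 x hx hxK).1) t,
    ← dle_II_sub hD hψ s11 s12 hK hKD (fun x hx hxK => (z1 x hx hxK).2.1)
      (fun x hx hxK => (z2 x hx hxK).2.1) t,
    ← dle_II_sub hD hψ s01 s02 hK hKD (fun x hx hxK => (z1 x hx hxK).2.2)
      (fun x hx hxK => (z2 x hx hxK).2.2) t]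
  ring

theorem dle_ofReal_atTop : Tendsto (fun t : ℝ => ((t : ℂ))⁻¹) atTop (𝓝 0) := by
  have h : Tendsto (fun t : ℝ => ((t⁻¹ : ℝ) : ℂ)) atTop (𝓝 ((0 : ℝ) : ℂ)) :=
    (Complex.continuous_ofReal.tendsto 0).comp tendsto_inv_atTop_zero
  simpa using h

/-- limit of `t^m` times the difference of the energy forms -/
theorem dle_lim (hD : RelOpen D) (c₁ : CoefD D G₁ B₁ h₁) (c₂ : CoefD D G₂ B₂ h₂)
    {G : E n → Matrix (Fin n) (Fin n) ℝ} {ξ : Fin n → ℝ} {ψ : E n → ℂ} (hψ : IsPhase D G ξ ψ)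
    {a a' : E n → Fib N} (ha : ContDiffOn ℝ ∞ a D)
    (ha' : ContDiffOn ℝ ∞ a' D) {K : Set (E n)} (hK : IsCompact K) (hKD : K ⊆ D)
    (ha0 : ∀ x ∈ Hs n, x ∉ K → a x = 0) (ha0' : ∀ x ∈ Hs n, x ∉ K → a' x = 0)
    {δ : ℝ} (hδ : 0 < δ) (hre : ∀ x ∈ K, (ψ x).re ≤ -(δ * x 0)) {m : ℕ}
    (v2 : Van D (m + 1) (fun x => Q2 G₁ h₁ ψ a a' x - Q2 G₂ h₂ ψ a a' x))
    (v1 : Van D m (fun x => Q1 G₁ B₁ h₁ ψ a a' x - Q1 G₂ B₂ h₂ ψ a a' x))
    (v0 : Van D m (fun x => Q0 G₁ B₁ h₁ a a' x - Q0 G₂ B₂ h₂ a a' x)) :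
    Tendsto (fun t : ℝ => (t : ℂ) ^ m * (EnD D G₁ B₁ h₁ (osc ψ a t) (osc ψ a' t) -
      EnD D G₂ B₂ h₂ (osc ψ a t) (osc ψ a' t))) atTop
      (𝓝 ((((m + 1).factorial : ℕ) : ℂ)⁻¹ * JJ G ξ (m + 1) ((pd (0 : Fin n))^[m + 1]
        (fun x => Q2 G₁ h₁ ψ a a' x - Q2 G₂ h₂ ψ a a' x)) +
        ((m.factorial : ℕ) : ℂ)⁻¹ * JJ G ξ m ((pd (0 : Fin n))^[m]
          (fun x => Q1 G₁ B₁ h₁ ψ a a' x - Q1 G₂ B₂ h₂ ψ a a' x)))) := by
  obtain ⟨s21, s11, s01⟩ := de_smooth_Q hD c₁.toGOk c₁.smB c₁.smh hψ.sm ha ha'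
  obtain ⟨s22, s12, s02⟩ := de_smooth_Q hD c₂.toGOk c₂.smB c₂.smh hψ.sm ha ha'
  have z1 := de_supp_Q (G := G₁) (B := B₁) (h := h₁) (ψ := ψ) hK.isClosed ha0 ha0'
  have z2 := de_supp_Q (G := G₂) (B := B₂) (h := h₂) (ψ := ψ) hK.isClosed ha0 ha0'
  have l2 := dl_lim_int hD hψ (s21.sub s22) hK hKD
    (fun x hx hxK => by rw [(z1 x hx hxK).1, (z2 x hx hxK).1, sub_zero]) hδ hre v2
  have l1 := dl_lim_int hD hψ (s11.sub s12) hK hKD
    (fun x hx hxK => by rw [(z1 x hx hxK).2.1, (z2 x hx hxK).2.1, sub_zero]) hδ hre v1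
  have l0 := dle_ofReal_atTop.mul (dl_lim_int hD hψ (s01.sub s02) hK hKD
    (fun x hx hxK => by rw [(z1 x hx hxK).2.2, (z2 x hx hxK).2.2, sub_zero]) hδ hre v0)
  have l := (l2.add l1).add l0
  rw [zero_mul, add_zero] at l
  refine l.congr' ?_
  filter_upwards [eventually_gt_atTop (0 : ℝ)] with t ht
  have ht' : (t : ℂ) ≠ 0 := by exact_mod_cast ht.ne'
  rw [dle_diff hD c₁ c₂ hψ.sm ha ha' hK hKD ha0 ha0' t]
  field_simp
  ring

/-- limit of `t⁻¹` times the difference of the energy forms -/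
theorem dle_lim0 (hD : RelOpen D) (c₁ : CoefD D G₁ B₁ h₁) (c₂ : CoefD D G₂ B₂ h₂)
    {G : E n → Matrix (Fin n) (Fin n) ℝ} {ξ : Fin n → ℝ} {ψ : E n → ℂ} (hψ : IsPhase D G ξ ψ)
    {a a' : E n → Fib N} (ha : ContDiffOn ℝ ∞ a D)
    (ha' : ContDiffOn ℝ ∞ a' D) {K : Set (E n)} (hK : IsCompact K) (hKD : K ⊆ D)
    (ha0 : ∀ x ∈ Hs n, x ∉ K → a x = 0) (ha0' : ∀ x ∈ Hs n, x ∉ K → a' x = 0)
    {δ : ℝ} (hδ : 0 < δ) (hre : ∀ x ∈ K, (ψ x).re ≤ -(δ * x 0)) :
    Tendsto (fun t : ℝ => ((t : ℂ))⁻¹ * (EnD D G₁ B₁ h₁ (osc ψ a t) (osc ψ a' t) -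
      EnD D G₂ B₂ h₂ (osc ψ a t) (osc ψ a' t))) atTop
      (𝓝 (JJ G ξ 0 (fun x => Q2 G₁ h₁ ψ a a' x - Q2 G₂ h₂ ψ a a' x))) := by
  obtain ⟨s21, s11, s01⟩ := de_smooth_Q hD c₁.toGOk c₁.smB c₁.smh hψ.sm ha ha'
  obtain ⟨s22, s12, s02⟩ := de_smooth_Q hD c₂.toGOk c₂.smB c₂.smh hψ.sm ha ha'
  have z1 := de_supp_Q (G := G₁) (B := B₁) (h := h₁) (ψ := ψ) hK.isClosed ha0 ha0'
  have z2 := de_supp_Q (G := G₂) (B := B₂) (h := h₂) (ψ := ψ) hK.isClosed ha0 ha0'
  have l2 := dl_lim_int hD hψ (s21.sub s22) hK hKD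
    (fun x hx hxK => by rw [(z1 x hx hxK).1, (z2 x hx hxK).1, sub_zero]) hδ hre (van_zero _)
  have l1 := dle_ofReal_atTop.mul (dl_lim_int hD hψ (s11.sub s12) hK hKD
    (fun x hx hxK => by rw [(z1 x hx hxK).2.1, (z2 x hx hxK).2.1, sub_zero]) hδ hre (van_zero _))
  have l0 := (dle_ofReal_atTop.mul dle_ofReal_atTop).mul (dl_lim_int hD hψ (s01.sub s02) hK hKD
    (fun x hx hxK => by rw [(z1 x hx hxK).2.2, (z2 x hx hxK).2.2, sub_zero]) hδ hre (van_zero _))
  have l := (l2.add l1).add l0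
  rw [zero_mul, zero_mul, zero_mul, add_zero, add_zero] at l
  simp only [Nat.factorial_zero, Nat.cast_one, inv_one, one_mul, Function.iterate_zero, id_eq,
    zero_add, pow_one] at l
  refine l.congr' ?_
  filter_upwards [eventually_gt_atTop (0 : ℝ)] with t ht
  have ht' : (t : ℂ) ≠ 0 := by exact_mod_cast ht.ne'
  rw [dle_diff hD c₁ c₂ hψ.sm ha ha' hK hKD ha0 ha0' t]
  field_simp

end Coef

/-- two functions under `JJ` which agree at the points of the face in `D`, and vanish off `K` -/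
theorem dle_JJ_congr {G : E n → Matrix (Fin n) (Fin n) ℝ} {ξ : Fin n → ℝ} {k : ℕ}
    {f g : E n → ℂ} {p : E n} {r : ℝ} (hrD : Metric.closedBall p r ∩ Hs n ⊆ D)
    (hfg : ∀ x ∈ D, x 0 = 0 → f x = g x) (hf : ∀ x ∈ Hs n, x ∉ Metric.closedBall p r → f x = 0)
    (hg : ∀ x ∈ Hs n, x ∉ Metric.closedBall p r → g x = 0) : JJ G ξ k f = JJ G ξ k g := by
  have hHs : MeasurableSet (Hs n) := isClosed_Hs.measurableSet
  unfold JJ
  refine setIntegral_congr_fun hHs fun x _ => ?_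
  have hy0 : (sc 0 x) 0 = 0 := by simp [sc]
  have hyH : sc 0 x ∈ Hs n := by simp only [Hs, mem_ofPred_eq, hy0, Std.le_refl]
  show _ * f (sc 0 x) = _ * g (sc 0 x)
  congr 1
  by_cases hy : sc 0 x ∈ Metric.closedBall p r
  · exact hfg _ (hrD ⟨hy, hyH⟩) hy0
  · rw [hf _ hyH hy, hg _ hyH hy]

theorem dle_iter_supp {f : E n → ℂ} {K : Set (E n)} (hK : IsClosed K)
    (h : ∀ x ∈ Hs n, x ∉ K → f x = 0) (k : ℕ) :
    ∀ x ∈ Hs n, x ∉ K → (pd (0 : Fin n))^[k] f x = 0 := by
  induction k with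
  | zero => simpa only [Function.iterate_zero, id_eq] using h
  | succ k ih =>
    rw [Function.iterate_succ']
    exact dc_pd_supp hK ih 0

end Vale.Agent.P088.EYM
end
end

section

/-!
# P088-EYM, block D: existence of the phase function
-/

open MeasureTheory Set Filter Topology
open scoped ContDiff

noncomputable section

namespace Vale.Agent.P088.EYM

set_option linter.unusedSectionVars false

variable {n : ℕ} [NeZero n]
variable {D : Set (E n)}

/-- `μ = ρ + iβ` -/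
def dph_mu (G : E n → Matrix (Fin n) (Fin n) ℝ) (ξ : Fin n → ℝ) (x : E n) : ℂ :=
  (rho (G x) ξ : ℂ) + Complex.I * bet (G x) ξ

/-- `a_k = μ G_{0k} - i ∑_j G_{jk} ξ_j` -/
def dph_a (G : E n → Matrix (Fin n) (Fin n) ℝ) (ξ : Fin n → ℝ) (k : Fin n) (x : E n) : ℂ :=
  dph_mu G ξ x * (G x 0 k : ℂ) - Complex.I * ∑ j, (G x j k : ℂ) * (ξ j : ℂ)

/-- the second coefficient -/
def dph_phi (G : E n → Matrix (Fin n) (Fin n) ℝ) (ξ : Fin n → ℝ) (x : E n) : ℂ :=
  (1 / 2 : ℂ) * (pd 0 (dph_mu G ξ) x +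
    (∑ k ∈ Finset.univ.erase (0 : Fin n), dph_a G ξ k x * pd k (dph_mu G ξ) x) *
      (((rho (G x) ξ * G x 0 0)⁻¹ : ℝ) : ℂ))

/-- the phase -/
def dph_psi (G : E n → Matrix (Fin n) (Fin n) ℝ) (ξ : Fin n → ℝ) (x : E n) : ℂ :=
  Complex.I * (∑ a, (ξ a : ℂ) * (x a : ℂ)) - dph_mu G ξ x * (x 0 : ℂ) +
    dph_phi G ξ x * ((x 0 : ℂ) * (x 0 : ℂ))

theorem dph_smooth_of {f : E n → ℝ} (hf : ContDiffOn ℝ ∞ f D) :
    ContDiffOn ℝ ∞ (fun x => (f x : ℂ)) D :=
  Complex.ofRealCLM.contDiff.comp_contDiffOn hf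

theorem dph_smooth_coord (a : Fin n) : ContDiffOn ℝ ∞ (fun x : E n => (x a : ℂ)) D :=
  dph_smooth_of (dc_smooth_coord a)

theorem dph_pd_coord (hD : RelOpen D) {x : E n} (hx : x ∈ D) (i j : Fin n) :
    pd i (fun y : E n => (y j : ℂ)) x = if i = j then 1 else 0 := by
  have h := hD.pd_clm Complex.ofRealCLM (dc_smooth_coord (D := D) j) hx i
  rw [dc_pd_coord (hD.subset hx)] at h
  refine Eq.trans h ?_
  split_ifs <;> simp

theorem dph_G00 {G : E n → Matrix (Fin n) (Fin n) ℝ} (hG : GOk D G) {x : E n} (hx : x ∈ D) :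
    0 < G x 0 0 := (hG.pos x hx).diag_pos

theorem dph_smooth_mu (hD : RelOpen D) {G : E n → Matrix (Fin n) (Fin n) ℝ} (hG : GOk D G)
    {ξ : Fin n → ℝ} (hξ0 : ξ 0 = 0) (hξ : ξ ≠ 0) : ContDiffOn ℝ ∞ (dph_mu G ξ) D := by
  unfold dph_mu
  refine (dph_smooth_of (dp_smooth_rho hD hG hξ0 hξ)).add (contDiffOn_const.mul
    (dph_smooth_of ?_))
  unfold bet
  refine ContDiffOn.div (ContDiffOn.sum fun k _ => (hG.smG 0 k).mul contDiffOn_const)
    (hG.smG 0 0) fun x hx => (dph_G00 hG hx).ne'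

theorem dph_smooth_a (hD : RelOpen D) {G : E n → Matrix (Fin n) (Fin n) ℝ} (hG : GOk D G)
    {ξ : Fin n → ℝ} (hξ0 : ξ 0 = 0) (hξ : ξ ≠ 0) (k : Fin n) :
    ContDiffOn ℝ ∞ (dph_a G ξ k) D := by
  unfold dph_a
  exact ((dph_smooth_mu hD hG hξ0 hξ).mul (dph_smooth_of (hG.smG 0 k))).sub
    (contDiffOn_const.mul (ContDiffOn.sum fun j _ => (dph_smooth_of (hG.smG j k)).mul
      contDiffOn_const))

theorem dph_smooth_phi (hD : RelOpen D) {G : E n → Matrix (Fin n) (Fin n) ℝ} (hG : GOk D G)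
    {ξ : Fin n → ℝ} (hξ0 : ξ 0 = 0) (hξ : ξ ≠ 0) : ContDiffOn ℝ ∞ (dph_phi G ξ) D := by
  have hmu := dph_smooth_mu hD hG hξ0 hξ
  unfold dph_phi
  refine contDiffOn_const.mul ((hD.pd_smooth hmu 0).add (ContDiffOn.mul
    (ContDiffOn.sum fun k _ => (dph_smooth_a hD hG hξ0 hξ k).mul (hD.pd_smooth hmu k))
    (dph_smooth_of (ContDiffOn.inv ((dp_smooth_rho hD hG hξ0 hξ).mul (hG.smG 0 0))
      fun x hx => ?_))))
  exact (mul_pos (dp_rho_pos (hG.pos x hx) hξ0 hξ) (dph_G00 hG hx)).ne'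

theorem dph_smooth_psi (hD : RelOpen D) {G : E n → Matrix (Fin n) (Fin n) ℝ} (hG : GOk D G)
    {ξ : Fin n → ℝ} (hξ0 : ξ 0 = 0) (hξ : ξ ≠ 0) : ContDiffOn ℝ ∞ (dph_psi G ξ) D := by
  unfold dph_psi
  exact ((contDiffOn_const.mul (ContDiffOn.sum fun a _ => contDiffOn_const.mul
    (dph_smooth_coord a))).sub ((dph_smooth_mu hD hG hξ0 hξ).mul (dph_smooth_coord 0))).add
    ((dph_smooth_phi hD hG hξ0 hξ).mul ((dph_smooth_coord 0).mul (dph_smooth_coord 0)))

/-- the coefficients `w` -/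
def dph_w (G : E n → Matrix (Fin n) (Fin n) ℝ) (ξ : Fin n → ℝ) (j : Fin n) (x : E n) : ℂ :=
  -pd j (dph_mu G ξ) x + if j = 0 then 2 * dph_phi G ξ x else 0

theorem dph_zz (G : E n → Matrix (Fin n) (Fin n) ℝ) (ξ : Fin n → ℝ) (j : Fin n) (x : E n) :
    zz (G x) ξ j = Complex.I * ξ j - if j = 0 then dph_mu G ξ x else 0 := rfl

theorem dph_pd_psi (hD : RelOpen D) {G : E n → Matrix (Fin n) (Fin n) ℝ} (hG : GOk D G)
    {ξ : Fin n → ℝ} (hξ0 : ξ 0 = 0) (hξ : ξ ≠ 0) {x : E n} (hx : x ∈ D) (j : Fin n) :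
    pd j (dph_psi G ξ) x = zz (G x) ξ j + (x 0 : ℂ) * dph_w G ξ j x +
      (x 0 : ℂ) * (x 0 : ℂ) * pd j (dph_phi G ξ) x := by
  have hmu := dph_smooth_mu hD hG hξ0 hξ
  have hphi := dph_smooth_phi hD hG hξ0 hξ
  have s1 : ∀ a : Fin n, ContDiffOn ℝ ∞ (fun y : E n => (ξ a : ℂ) * (y a : ℂ)) D :=
    fun a => contDiffOn_const.mul (dph_smooth_coord a)
  have s2 : ContDiffOn ℝ ∞ (fun y : E n => ∑ a, (ξ a : ℂ) * (y a : ℂ)) D :=
    ContDiffOn.sum fun a _ => s1 a
  have s3 : ContDiffOn ℝ ∞ (fun y : E n => Complex.I * ∑ a, (ξ a : ℂ) * (y a : ℂ)) D :=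
    contDiffOn_const.mul s2
  have s4 : ContDiffOn ℝ ∞ (fun y : E n => dph_mu G ξ y * (y 0 : ℂ)) D :=
    hmu.mul (dph_smooth_coord 0)
  have s5 : ContDiffOn ℝ ∞ (fun y : E n => (y 0 : ℂ) * (y 0 : ℂ)) D :=
    (dph_smooth_coord 0).mul (dph_smooth_coord 0)
  have s6 : ContDiffOn ℝ ∞ (fun y : E n => dph_phi G ξ y * ((y 0 : ℂ) * (y 0 : ℂ))) D :=
    hphi.mul s5
  unfold dph_psi
  rw [hD.pd_add (s3.sub s4) s6 hx, hD.pd_sub s3 s4 hx, hD.pd_mul contDiffOn_const s2 hx,
    pd_const, hD.pd_sum _ (fun a _ => s1 a) hx, hD.pd_mul hmu (dph_smooth_coord 0) hx,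
    hD.pd_mul hphi s5 hx, hD.pd_mul (dph_smooth_coord 0) (dph_smooth_coord 0) hx,
    dph_pd_coord hD hx]
  have e1 : ∀ a : Fin n, pd j (fun y : E n => (ξ a : ℂ) * (y a : ℂ)) x =
      if j = a then (ξ a : ℂ) else 0 := by
    intro a
    rw [hD.pd_mul contDiffOn_const (dph_smooth_coord a) hx, pd_const, dph_pd_coord hD hx]
    split_ifs <;> simp
  rw [Finset.sum_congr rfl fun a _ => e1 a, Finset.sum_ite_eq, if_pos (Finset.mem_univ _),
    dph_zz, dph_w]
  split_ifs <;> ring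

theorem dph_Azw (hD : RelOpen D) {G : E n → Matrix (Fin n) (Fin n) ℝ} (hG : GOk D G)
    {ξ : Fin n → ℝ} (hξ0 : ξ 0 = 0) (hξ : ξ ≠ 0) {x : E n} (hx : x ∈ D) :
    ∑ j, ∑ k, (G x j k : ℂ) * zz (G x) ξ j * dph_w G ξ k x = 0 := by
  have hr : (0 : ℝ) < rho (G x) ξ * G x 0 0 :=
    mul_pos (dp_rho_pos (hG.pos x hx) hξ0 hξ) (dph_G00 hG hx)
  have hrc : (rho (G x) ξ : ℂ) * (G x 0 0 : ℂ) ≠ 0 := by
    rw [← Complex.ofReal_mul]
    exact Complex.ofReal_ne_zero.2 hr.ne'
  rw [Finset.sum_comm]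
  have h1 : ∀ k, ∑ j, (G x j k : ℂ) * zz (G x) ξ j * dph_w G ξ k x =
      (∑ j, (G x j k : ℂ) * zz (G x) ξ j) * dph_w G ξ k x := fun k => by
    rw [Finset.sum_mul]
  rw [Finset.sum_congr rfl fun k _ => h1 k, ← Finset.add_sum_erase _ _ (Finset.mem_univ (0 : Fin n))]
  have h2 : ∑ j, (G x j 0 : ℂ) * zz (G x) ξ j = -((rho (G x) ξ : ℂ) * (G x 0 0 : ℂ)) := by
    have h3 := dp_zz_row (hG.pos x hx) hξ0
    rw [Complex.ofReal_mul, mul_comm (G x 0 0 : ℂ)] at h3
    rw [← h3]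
    refine Finset.sum_congr rfl fun j _ => ?_
    rw [hG.symm x hx j 0]
  have h4 : ∀ k ∈ Finset.univ.erase (0 : Fin n),
      (∑ j, (G x j k : ℂ) * zz (G x) ξ j) * dph_w G ξ k x =
      dph_a G ξ k x * pd k (dph_mu G ξ) x := by
    intro k hk
    have hk0 : k ≠ 0 := (Finset.mem_erase.1 hk).1
    have h5 : ∑ j, (G x j k : ℂ) * zz (G x) ξ j = -dph_a G ξ k x := by
      rw [dph_a, neg_sub, Finset.mul_sum]
      simp only [dph_zz, mul_sub]
      rw [Finset.sum_sub_distrib]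
      congr 1
      · refine Finset.sum_congr rfl fun j _ => ?_
        ring
      · simp only [mul_ite, mul_zero]
        rw [Finset.sum_ite_eq', if_pos (Finset.mem_univ _), mul_comm]
    rw [h5, dph_w, if_neg hk0]
    ring
  rw [h2, Finset.sum_congr rfl h4, dph_w, if_pos rfl]
  have h6 : 2 * dph_phi G ξ x = pd 0 (dph_mu G ξ) x +
    (∑ k ∈ Finset.univ.erase (0 : Fin n), dph_a G ξ k x * pd k (dph_mu G ξ) x) *
      ((rho (G x) ξ : ℂ) * (G x 0 0 : ℂ))⁻¹ := by
    rw [dph_phi, Complex.ofReal_inv, Complex.ofReal_mul]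
    ring
  rw [h6]
  linear_combination (-(∑ k ∈ Finset.univ.erase (0 : Fin n),
    dph_a G ξ k x * pd k (dph_mu G ξ) x)) * (mul_inv_cancel₀ hrc)

theorem dph_eik (hD : RelOpen D) {G : E n → Matrix (Fin n) (Fin n) ℝ} (hG : GOk D G)
    {ξ : Fin n → ℝ} (hξ0 : ξ 0 = 0) (hξ : ξ ≠ 0) {x : E n} (hx : x ∈ D) :
    eik G (dph_psi G ξ) x = (x 0 : ℂ) * ((x 0 : ℂ) * ∑ j, ∑ k, (G x j k : ℂ) *
      (zz (G x) ξ j * pd k (dph_phi G ξ) x + dph_w G ξ j x * dph_w G ξ k x +
        pd j (dph_phi G ξ) x * zz (G x) ξ k +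
        (x 0 : ℂ) * (dph_w G ξ j x * pd k (dph_phi G ξ) x + pd j (dph_phi G ξ) x * dph_w G ξ k x) +
        (x 0 : ℂ) * (x 0 : ℂ) * (pd j (dph_phi G ξ) x * pd k (dph_phi G ξ) x))) := by
  have h1 := dp_zz_quad (hG.pos x hx) (hG.symm x hx) hξ0
  have h2 := dph_Azw hD hG hξ0 hξ hx
  have h3 : ∑ j, ∑ k, (G x j k : ℂ) * zz (G x) ξ k * dph_w G ξ j x = 0 := by
    rw [Finset.sum_comm, ← h2]
    refine Finset.sum_congr rfl fun j _ => Finset.sum_congr rfl fun k _ => ?_
    rw [hG.symm x hx j k]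
  have h4 : eik G (dph_psi G ξ) x - (x 0 : ℂ) * ((x 0 : ℂ) * ∑ j, ∑ k, (G x j k : ℂ) *
      (zz (G x) ξ j * pd k (dph_phi G ξ) x + dph_w G ξ j x * dph_w G ξ k x +
        pd j (dph_phi G ξ) x * zz (G x) ξ k +
        (x 0 : ℂ) * (dph_w G ξ j x * pd k (dph_phi G ξ) x + pd j (dph_phi G ξ) x * dph_w G ξ k x) +
        (x 0 : ℂ) * (x 0 : ℂ) * (pd j (dph_phi G ξ) x * pd k (dph_phi G ξ) x))) =
      ∑ j, ∑ k, (G x j k : ℂ) * zz (G x) ξ j * zz (G x) ξ k +
      (x 0 : ℂ) * ((∑ j, ∑ k, (G x j k : ℂ) * zz (G x) ξ j * dph_w G ξ k x) +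
        ∑ j, ∑ k, (G x j k : ℂ) * zz (G x) ξ k * dph_w G ξ j x) := by
    rw [eik]
    simp only [dph_pd_psi hD hG hξ0 hξ hx, Finset.mul_sum, ← Finset.sum_add_distrib,
      ← Finset.sum_sub_distrib]
    refine Finset.sum_congr rfl fun j _ => Finset.sum_congr rfl fun k _ => ?_
    ring
  rw [h1, h2, h3, add_zero, mul_zero, add_zero] at h4
  exact sub_eq_zero.1 h4

theorem dp_exists_phase (hD : RelOpen D) {G : E n → Matrix (Fin n) (Fin n) ℝ} (hG : GOk D G)
    {ξ : Fin n → ℝ} (hξ0 : ξ 0 = 0) (hξ : ξ ≠ 0) : ∃ ψ, IsPhase D G ξ ψ := by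
  have hmu := dph_smooth_mu hD hG hξ0 hξ
  have hphi := dph_smooth_phi hD hG hξ0 hξ
  have hzz : ∀ j, ContDiffOn ℝ ∞ (fun x => zz (G x) ξ j) D := by
    intro j
    simp only [dph_zz]
    by_cases hj : j = 0
    · simp only [hj, if_true]
      exact contDiffOn_const.sub hmu
    · simp only [hj, if_false]
      exact contDiffOn_const.sub contDiffOn_const
  have hw : ∀ j, ContDiffOn ℝ ∞ (dph_w G ξ j) D := by
    intro j
    unfold dph_w
    by_cases hj : j = 0
    · simp only [hj, if_true]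
      exact (hD.pd_smooth hmu 0).neg.add (contDiffOn_const.mul hphi)
    · simp only [hj, if_false]
      exact (hD.pd_smooth hmu j).neg.add contDiffOn_const
  have hv : ∀ j, ContDiffOn ℝ ∞ (pd j (dph_phi G ξ)) D := fun j => hD.pd_smooth hphi j
  have hx0 : ContDiffOn ℝ ∞ (fun x : E n => (x 0 : ℂ)) D := dph_smooth_coord 0
  refine ⟨dph_psi G ξ, dph_smooth_psi hD hG hξ0 hξ, ?_, ?_, ?_⟩
  · intro x hx h0
    rw [dph_psi, h0]
    simp only [Complex.ofReal_zero, mul_zero, sub_zero, add_zero, Complex.mul_re, Complex.I_re, Complex.re_sum, Complex.ofReal_re, Complex.ofReal_im, zero_mul, Complex.I_im, Complex.im_sum, Complex.mul_im, Finset.sum_const_zero, sub_self]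
  · intro x hx h0 j
    rw [dph_pd_psi hD hG hξ0 hξ hx, h0]
    simp
  · set r : E n → ℂ := fun x => ∑ j, ∑ k, (G x j k : ℂ) *
      (zz (G x) ξ j * pd k (dph_phi G ξ) x + dph_w G ξ j x * dph_w G ξ k x +
        pd j (dph_phi G ξ) x * zz (G x) ξ k +
        (x 0 : ℂ) * (dph_w G ξ j x * pd k (dph_phi G ξ) x + pd j (dph_phi G ξ) x * dph_w G ξ k x) +
        (x 0 : ℂ) * (x 0 : ℂ) * (pd j (dph_phi G ξ) x * pd k (dph_phi G ξ) x)) with hr
    have hrs : ContDiffOn ℝ ∞ r D := by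
      refine ContDiffOn.sum fun j _ => ContDiffOn.sum fun k _ => ?_
      refine (dph_smooth_of (hG.smG j k)).mul ?_
      exact (((((hzz j).mul (hv k)).add ((hw j).mul (hw k))).add ((hv j).mul (hzz k))).add
        (hx0.mul (((hw j).mul (hv k)).add ((hv j).mul (hw k))))).add
        ((hx0.mul hx0).mul ((hv j).mul (hv k)))
    have h1 : Van D 1 (fun x : E n => (x 0 : ℂ)) := by
      rw [van_one]
      intro x _ h0
      rw [h0, Complex.ofReal_zero]
    have h2 : Van D 1 (fun x : E n => (x 0 : ℂ) * r x) := by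
      rw [van_one]
      intro x _ h0
      rw [h0, Complex.ofReal_zero, zero_mul]
    have h3 := Van.bil hD dc_bil_mulC hx0 (hx0.mul hrs) h1 h2
    exact Van.congr hD h3 fun x hx => (dph_eik hD hG hξ0 hξ hx).symm

end Vale.Agent.P088.EYM
end
end

section

/-!
# P088-EYM, block D, module D8: existence of the amplitude

`a = χ e + x_0 b`, where `2 G_00 ρ b = M (χ e)`; then `M a = 0` on the face.
-/

open MeasureTheory Set Filter Topology
open scoped ContDiff

noncomputable section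

namespace Vale.Agent.P088.EYM

variable {n : ℕ} [NeZero n] {N : ℕ}
variable {D : Set (E n)}

theorem da_smooth_coef (hD : RelOpen D) {G : E n → Matrix (Fin n) (Fin n) ℝ} (hG : GOk D G)
    {ψ : E n → ℂ} (hψ : ContDiffOn ℝ ∞ ψ D) (j k : Fin n) :
    ContDiffOn ℝ ∞ (fun x => (G x j k : ℂ) * pd k ψ x) D :=
  dc_smooth_bil dc_bil_mulC (dc_smooth_clm Complex.ofRealCLM (hG.smG j k)) (hD.pd_smooth hψ k)

/-- smoothness of `M a` -/
theorem da_smooth_Mop (hD : RelOpen D) {G : E n → Matrix (Fin n) (Fin n) ℝ} (hG : GOk D G)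
    {B : Fin n → E n → EndF N} (hB : ∀ j, ContDiffOn ℝ ∞ (B j) D) {ψ : E n → ℂ}
    (hψ : ContDiffOn ℝ ∞ ψ D) {a : E n → Fib N} (ha : ContDiffOn ℝ ∞ a D) :
    ContDiffOn ℝ ∞ (Mop G B ψ a) D := by
  have s1 : ContDiffOn ℝ ∞ (fun x => ∑ j, pd j (fun y => ∑ k, (G y j k : ℂ) * pd k ψ y) x) D :=
    dc_smooth_sum Finset.univ fun j _ =>
      hD.pd_smooth (dc_smooth_sum Finset.univ fun k _ => da_smooth_coef hD hG hψ j k) j
  have t2 : ∀ j k, ContDiffOn ℝ ∞ (fun x => ((G x j k : ℂ) * pd k ψ x) • pd j a x) D :=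
    fun j k => dc_smooth_bil dc_bil_smulC (da_smooth_coef hD hG hψ j k) (hD.pd_smooth ha j)
  have t3 : ∀ j k, ContDiffOn ℝ ∞ (fun x => ((G x j k : ℂ) * pd k ψ x) • B j x (a x)) D :=
    fun j k => dc_smooth_bil dc_bil_smulC (da_smooth_coef hD hG hψ j k)
      (dc_smooth_bil dc_bil_app (hB j) ha)
  have s2 : ContDiffOn ℝ ∞ (fun x => ∑ j, ∑ k, ((G x j k : ℂ) * pd k ψ x) • pd j a x) D :=
    dc_smooth_sum Finset.univ fun j _ => dc_smooth_sum Finset.univ fun k _ => t2 j k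
  have s3 : ContDiffOn ℝ ∞ (fun x => ∑ j, ∑ k, ((G x j k : ℂ) * pd k ψ x) • B j x (a x)) D :=
    dc_smooth_sum Finset.univ fun j _ => dc_smooth_sum Finset.univ fun k _ => t3 j k
  have h1 : ContDiffOn ℝ ∞
      (fun x => (∑ j, pd j (fun y => ∑ k, (G y j k : ℂ) * pd k ψ y) x) • a x) D :=
    dc_smooth_bil dc_bil_smulC s1 ha
  have h2 : ContDiffOn ℝ ∞
      (fun x => (2 : ℂ) • (∑ j, ∑ k, ((G x j k : ℂ) * pd k ψ x) • pd j a x)) D :=
    dc_smooth_bil dc_bil_smulC contDiffOn_const s2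
  have h3 : ContDiffOn ℝ ∞
      (fun x => (2 : ℂ) • (∑ j, ∑ k, ((G x j k : ℂ) * pd k ψ x) • B j x (a x))) D :=
    dc_smooth_bil dc_bil_smulC contDiffOn_const s3
  exact (h1.add h2).add h3

/-- `M a` vanishes off the closed set `K` if `a` does -/
theorem da_supp_Mop {G : E n → Matrix (Fin n) (Fin n) ℝ} {B : Fin n → E n → EndF N} {ψ : E n → ℂ}
    {a : E n → Fib N} {K : Set (E n)} (hK : IsClosed K) (ha : ∀ x ∈ Hs n, x ∉ K → a x = 0) :
    ∀ x ∈ Hs n, x ∉ K → Mop G B ψ a x = 0 := by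
  intro x hx hxK
  have h1 : ∀ j, pd j a x = 0 := fun j => dc_pd_supp hK ha j x hx hxK
  simp only [Mop, ha x hx hxK, h1, map_zero, smul_zero, Finset.sum_const_zero, add_zero]

/-- the correction term -/
theorem da_Mop_corr (hD : RelOpen D) {G : E n → Matrix (Fin n) (Fin n) ℝ} (hG : GOk D G)
    {B : Fin n → E n → EndF N} {ξ : Fin n → ℝ} (hξ0 : ξ 0 = 0) {ψ : E n → ℂ}
    (hψ : IsPhase D G ξ ψ) {a b : E n → Fib N} (ha : ContDiffOn ℝ ∞ a D)
    (hb : ContDiffOn ℝ ∞ b D) {x : E n} (hx : x ∈ D) (hx0 : x 0 = 0) :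
    Mop G B ψ (fun y => a y + y 0 • b y) x =
      Mop G B ψ a x - ((2 * (G x 0 0 * rho (G x) ξ) : ℝ) : ℂ) • b x := by
  have hc : ContDiffOn ℝ ∞ (fun y : E n => y 0) D := dc_smooth_coord 0
  have h1 : ∀ j, pd j (fun y => a y + y 0 • b y) x = pd j a x + (if j = 0 then b x else 0) := by
    intro j
    rw [hD.pd_add ha (dc_smooth_bil dc_bil_smul hc hb) hx j, hD.pd_smul hc hb hx j,
      dc_pd_coord (hD.subset hx) j 0, hx0]
    split_ifs <;> simp
  have h2 : ∑ j, ∑ k, ((G x j k : ℂ) * pd k ψ x) • (pd j a x + (if j = 0 then b x else 0)) =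
      (∑ j, ∑ k, ((G x j k : ℂ) * pd k ψ x) • pd j a x) +
        ((-(G x 0 0 * rho (G x) ξ) : ℝ) : ℂ) • b x := by
    have h3 : ∑ k, (G x 0 k : ℂ) * pd k ψ x = ((-(G x 0 0 * rho (G x) ξ) : ℝ) : ℂ) := by
      rw [Complex.ofReal_neg, ← dp_zz_row (hG.pos x hx) hξ0]
      exact Finset.sum_congr rfl fun k _ => by rw [hψ.grad x hx hx0 k]
    rw [← h3, Finset.sum_smul]
    simp only [smul_add, Finset.sum_add_distrib]
    congr 1
    rw [Finset.sum_eq_single (0 : Fin n)]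
    · simp only [↓reduceIte]
    · intro j _ hj
      simp [hj]
    · simp only [Finset.mem_univ, not_true_eq_false, ↓reduceIte, IsEmpty.forall_iff]
  simp only [Mop, h1, hx0, zero_smul, add_zero]
  rw [h2, smul_add, ← smul_assoc (2 : ℂ) (((-(G x 0 0 * rho (G x) ξ) : ℝ) : ℂ))]
  have h5 : ((2 : ℂ) • (((-(G x 0 0 * rho (G x) ξ) : ℝ) : ℂ))) =
      -((2 * (G x 0 0 * rho (G x) ξ) : ℝ) : ℂ) := by
    push_cast
    rw [smul_eq_mul]
    ring
  rw [h5, neg_smul]
  abel

set_option linter.unusedVariables false in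
theorem da_exists_ampl (hD : RelOpen D) {G : E n → Matrix (Fin n) (Fin n) ℝ} (hG : GOk D G)
    {B : Fin n → E n → EndF N} (hB : ∀ j, ContDiffOn ℝ ∞ (B j) D)
    {ξ : Fin n → ℝ} (hξ0 : ξ 0 = 0) (hξ : ξ ≠ 0) {ψ : E n → ℂ} (hψ : IsPhase D G ξ ψ) {p : E n}
    {r : ℝ} (hrD : Metric.closedBall p r ∩ Hs n ⊆ D) {χ : E n → ℝ} (hχ : Bump p r χ)
    (e : Fib N) : ∃ a : E n → Fib N, ContDiffOn ℝ ∞ a D ∧
      (∀ x ∈ Hs n, x ∉ Metric.closedBall p r → a x = 0) ∧
      (∀ x ∈ D, x 0 = 0 → a x = χ x • e) ∧ Van D 1 (Mop G B ψ a) := by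
  have hG0 : ∀ x ∈ D, 0 < G x 0 0 := fun x hx => (hG.pos x hx).diag_pos
  have hρ : ∀ x ∈ D, 0 < rho (G x) ξ := fun x hx => dp_rho_pos (hG.pos x hx) hξ0 hξ
  have hpos : ∀ x ∈ D, 2 * (G x 0 0 * rho (G x) ξ) ≠ 0 := fun x hx =>
    (mul_pos two_pos (mul_pos (hG0 x hx) (hρ x hx))).ne'
  have ha0 : ContDiffOn ℝ ∞ (fun y : E n => χ y • e) D :=
    dc_smooth_bil dc_bil_smul hχ.1.contDiffOn contDiffOn_const
  have hs0 : ∀ x ∈ Hs n, x ∉ Metric.closedBall p r → χ x • e = 0 := fun x _ hxK => by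
    rw [hχ.2 x hxK, zero_smul]
  have hden : ContDiffOn ℝ ∞ (fun x => 2 * (G x 0 0 * rho (G x) ξ)) D :=
    contDiffOn_const.mul ((hG.smG 0 0).mul (dp_smooth_rho hD hG hξ0 hξ))
  have hcf : ContDiffOn ℝ ∞ (fun x => (2 * (G x 0 0 * rho (G x) ξ))⁻¹) D := hden.inv hpos
  have hM0 := da_smooth_Mop hD hG hB hψ.sm ha0
  have hb : ContDiffOn ℝ ∞ (fun x => (2 * (G x 0 0 * rho (G x) ξ))⁻¹ •
      Mop G B ψ (fun y : E n => χ y • e) x) D := dc_smooth_bil dc_bil_smul hcf hM0
  refine ⟨fun x => χ x • e + x 0 • ((2 * (G x 0 0 * rho (G x) ξ))⁻¹ •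
      Mop G B ψ (fun y : E n => χ y • e) x), ?_, ?_, ?_, ?_⟩
  · exact ha0.add (dc_smooth_bil dc_bil_smul (dc_smooth_coord 0) hb)
  · intro x hx hxK
    show χ x • e + x 0 • ((2 * (G x 0 0 * rho (G x) ξ))⁻¹ •
      Mop G B ψ (fun y : E n => χ y • e) x) = 0
    rw [hs0 x hx hxK, da_supp_Mop Metric.isClosed_closedBall hs0 x hx hxK, smul_zero, smul_zero,
      add_zero]
  · intro x hx hx0
    show χ x • e + x 0 • ((2 * (G x 0 0 * rho (G x) ξ))⁻¹ •
      Mop G B ψ (fun y : E n => χ y • e) x) = χ x • e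
    rw [hx0, zero_smul, add_zero]
  · rw [van_one]
    intro x hx hx0
    rw [da_Mop_corr hD hG hξ0 hψ ha0 hb hx hx0]
    have h1 : ((2 * (G x 0 0 * rho (G x) ξ) : ℝ) : ℂ) • ((2 * (G x 0 0 * rho (G x) ξ))⁻¹ •
        Mop G B ψ (fun y : E n => χ y • e) x) = Mop G B ψ (fun y : E n => χ y • e) x := by
      rw [Complex.coe_smul, smul_smul, mul_inv_cancel₀ (hpos x hx), one_smul]
    rw [h1, sub_self]

end Vale.Agent.P088.EYM
end
end

section

/-!
# P088-EYM, block D: leading coefficients of the differences of the energy densities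
-/

open MeasureTheory Set Filter Topology
open scoped ContDiff

noncomputable section

namespace Vale.Agent.P088.EYM

variable {n : ℕ} [NeZero n] {N : ℕ}
variable {F : Type*} [NormedAddCommGroup F] [NormedSpace ℝ F]
variable {F' : Type*} [NormedAddCommGroup F'] [NormedSpace ℝ F']
variable {F'' : Type*} [NormedAddCommGroup F''] [NormedSpace ℝ F'']
variable {D : Set (E n)}

set_option linter.all false

/-- `f` is smooth, vanishes to order `k` on the face, with leading derivative `v` -/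
structure DtTop (D : Set (E n)) (k : ℕ) (f v : E n → F) : Prop where
  sm : ContDiffOn ℝ ∞ f D
  van : Van D k f
  top : ∀ x ∈ D, x 0 = 0 → (pd (0 : Fin n))^[k] f x = v x

theorem DtTop.of_van {k : ℕ} {f : E n → F} (hf : ContDiffOn ℝ ∞ f D) (h : Van D k f) :
    DtTop D k f ((pd (0 : Fin n))^[k] f) := ⟨hf, h, fun _ _ _ => rfl⟩

theorem DtTop.of_succ {k : ℕ} {f : E n → F} (hf : ContDiffOn ℝ ∞ f D) (h : Van D (k + 1) f) :
    DtTop D k f (fun _ => 0) :=
  ⟨hf, h.mono (Nat.le_succ k), fun x hx hx0 => h k (Nat.lt_succ_self k) x hx hx0⟩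

theorem DtTop.left (hD : RelOpen D) {b : F × F' → F''} (hb : IsBoundedBilinearMap ℝ b) {k : ℕ}
    {f v : E n → F} {g : E n → F'} (hf : DtTop D k f v) (hg : ContDiffOn ℝ ∞ g D) :
    DtTop D k (fun y => b (f y, g y)) (fun y => b (v y, g y)) := by
  refine ⟨dc_smooth_bil hb hf.sm hg, ?_, fun x hx hx0 => ?_⟩
  · exact Van.bil hD hb hf.sm hg hf.van (van_zero g)
  · rw [dv_top_left hD hb hf.sm hg hf.van hx hx0, hf.top x hx hx0]

theorem DtTop.right (hD : RelOpen D) {b : F × F' → F''} (hb : IsBoundedBilinearMap ℝ b) {k : ℕ}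
    {f : E n → F} {g v : E n → F'} (hf : ContDiffOn ℝ ∞ f D) (hg : DtTop D k g v) :
    DtTop D k (fun y => b (f y, g y)) (fun y => b (f y, v y)) := by
  refine ⟨dc_smooth_bil hb hf hg.sm, ?_, fun x hx hx0 => ?_⟩
  · have := Van.bil hD hb hf hg.sm (van_zero f) hg.van
    rwa [Nat.zero_add] at this
  · rw [dv_top_right hD hb hf hg.sm hg.van hx hx0, hg.top x hx hx0]

theorem DtTop.add (hD : RelOpen D) {k : ℕ} {f g v w : E n → F} (hf : DtTop D k f v)
    (hg : DtTop D k g w) : DtTop D k (fun y => f y + g y) (fun y => v y + w y) := by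
  refine ⟨hf.sm.add hg.sm, hf.van.add hD hf.sm hg.sm hg.van, fun x hx hx0 => ?_⟩
  rw [dv_iter_add hD hf.sm hg.sm k hx, hf.top x hx hx0, hg.top x hx hx0]

theorem DtTop.sum (hD : RelOpen D) {ι : Type*} (s : Finset ι) {k : ℕ} {f v : ι → E n → F}
    (hf : ∀ j ∈ s, DtTop D k (f j) (v j)) :
    DtTop D k (fun y => ∑ j ∈ s, f j y) (fun y => ∑ j ∈ s, v j y) := by
  refine ⟨dc_smooth_sum s fun j hj => (hf j hj).sm,
    Van.sum hD s (fun j hj => (hf j hj).sm) fun j hj => (hf j hj).van, fun x hx hx0 => ?_⟩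
  rw [dv_iter_sum hD s (fun j hj => (hf j hj).sm) k hx]
  exact Finset.sum_congr rfl fun j hj => (hf j hj).top x hx hx0

theorem DtTop.congr (hD : RelOpen D) {k : ℕ} {f g v w : E n → F} (hf : DtTop D k f v)
    (hfg : EqOn f g D) (hvw : ∀ x ∈ D, x 0 = 0 → v x = w x) : DtTop D k g w := by
  refine ⟨hf.sm.congr fun x hx => (hfg hx).symm, hf.van.congr hD hfg, fun x hx hx0 => ?_⟩
  rw [← hvw x hx hx0, ← hf.top x hx hx0]
  exact (dv_iter_congr hD hfg k hx).symm

section Top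

variable {G₁ G₂ : E n → Matrix (Fin n) (Fin n) ℝ} {B₁ B₂ : Fin n → E n → EndF N}
  {h₁ h₂ : E n → EndF N}

theorem dt_smooth_conj {f : E n → ℂ} (hf : ContDiffOn ℝ ∞ f D) :
    ContDiffOn ℝ ∞ (fun y => (starRingEnd ℂ) (f y)) D :=
  (Complex.conjCLE.contDiff).comp_contDiffOn hf

theorem dt_smooth_DcB (hD : RelOpen D) {B : Fin n → E n → EndF N}
    (hB : ∀ j, ContDiffOn ℝ ∞ (B j) D) {a : E n → Fib N} (ha : ContDiffOn ℝ ∞ a D) (j : Fin n) :
    ContDiffOn ℝ ∞ (fun x => DcB B j a x) D :=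
  (hD.pd_smooth ha j).add (smooth_eval (hB j) ha)

theorem dt_smooth_inner {a a' : E n → Fib N} (ha : ContDiffOn ℝ ∞ a D)
    (ha' : ContDiffOn ℝ ∞ a' D) : ContDiffOn ℝ ∞ (fun x => (inner ℂ (a x) (a' x) : ℂ)) D :=
  dc_smooth_bil dc_bil_inner ha ha'

theorem dt_smooth_mulC {f g : E n → ℂ} (hf : ContDiffOn ℝ ∞ f D) (hg : ContDiffOn ℝ ∞ g D) :
    ContDiffOn ℝ ∞ (fun x => f x * g x) D := dc_smooth_bil dc_bil_mulC hf hg

theorem dt_top_Q2 (hD : RelOpen D) (c₁ : CoefD D G₁ B₁ h₁) (c₂ : CoefD D G₂ B₂ h₂) {ψ : E n → ℂ}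
    (hψ : ContDiffOn ℝ ∞ ψ D) {a a' : E n → Fib N} (ha : ContDiffOn ℝ ∞ a D)
    (ha' : ContDiffOn ℝ ∞ a' D) {k : ℕ} (hG : ∀ j l, Van D k (fun x => G₁ x j l - G₂ x j l))
    (hh : Van D (k + 1) (fun x => h₁ x - h₂ x)) :
    Van D k (fun x => Q2 G₁ h₁ ψ a a' x - Q2 G₂ h₂ ψ a a' x) ∧
      ∀ x ∈ D, x 0 = 0 → (pd (0 : Fin n))^[k]
        (fun x => Q2 G₁ h₁ ψ a a' x - Q2 G₂ h₂ ψ a a' x) x =
        ∑ j, ∑ l, (((pd (0 : Fin n))^[k] (fun y => G₁ y j l - G₂ y j l) x : ℝ) : ℂ) *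
          ((starRingEnd ℂ) (pd j ψ x) * pd l ψ x * inner ℂ (a x) (a' x)) := by
  have hp : ∀ j, ContDiffOn ℝ ∞ (pd j ψ) D := fun j => hD.pd_smooth hψ j
  have key : DtTop D k (fun x => Q2 G₁ h₁ ψ a a' x - Q2 G₂ h₂ ψ a a' x)
      (fun x => ∑ j, ∑ l, (((pd (0 : Fin n))^[k] (fun y => G₁ y j l - G₂ y j l) x : ℝ) : ℂ) *
          ((starRingEnd ℂ) (pd j ψ x) * pd l ψ x * inner ℂ (a x) (a' x))) := by
    have hterm : ∀ j l, DtTop D k
        (fun x => (G₁ x j l - G₂ x j l) • ((starRingEnd ℂ) (pd j ψ x) * pd l ψ x *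
            inner ℂ (a x) (h₁ x (a' x))) +
          G₂ x j l • ((starRingEnd ℂ) (pd j ψ x) * pd l ψ x *
            inner ℂ (a x) ((h₁ x - h₂ x) (a' x))))
        (fun x => (pd (0 : Fin n))^[k] (fun y => G₁ y j l - G₂ y j l) x •
            ((starRingEnd ℂ) (pd j ψ x) * pd l ψ x * inner ℂ (a x) (h₁ x (a' x))) +
          G₂ x j l • ((starRingEnd ℂ) (pd j ψ x) * pd l ψ x *
            inner ℂ (a x) ((0 : EndF N) (a' x)))) := by
      intro j l
      have hpp : ContDiffOn ℝ ∞ (fun x => (starRingEnd ℂ) (pd j ψ x) * pd l ψ x) D :=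
        dt_smooth_mulC (dt_smooth_conj (hp j)) (hp l)
      refine DtTop.add hD ?_ ?_
      · exact DtTop.left hD dc_bil_smul (DtTop.of_van ((c₁.smG j l).sub (c₂.smG j l)) (hG j l))
          (dt_smooth_mulC hpp (dt_smooth_inner ha (smooth_eval c₁.smh ha')))
      · refine DtTop.right hD dc_bil_smul (c₂.smG j l) ?_
        refine DtTop.right hD dc_bil_mulC hpp ?_
        refine DtTop.right hD dc_bil_inner ha ?_
        exact DtTop.left hD dc_bil_app (DtTop.of_succ (c₁.smh.sub c₂.smh) hh) ha'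
    refine (DtTop.sum hD Finset.univ fun j _ => DtTop.sum hD Finset.univ fun l _ =>
      hterm j l).congr hD ?_ ?_
    · intro x _
      simp only [Q2, ← Finset.sum_sub_distrib]
      refine Finset.sum_congr rfl fun j _ => Finset.sum_congr rfl fun l _ => ?_
      simp only [sub_apply, inner_sub_right, Complex.real_smul]
      push_cast
      ring
    · intro x hx hx0
      refine Finset.sum_congr rfl fun j _ => Finset.sum_congr rfl fun l _ => ?_
      rw [c₁.h1 x hx hx0]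
      simp only [zero_apply, inner_zero_right, mul_zero, smul_zero, add_zero,
        Complex.real_smul, one_apply_eq_self]
  exact ⟨key.van, key.top⟩

theorem dt_top_Q1 (hD : RelOpen D) (c₁ : CoefD D G₁ B₁ h₁) (c₂ : CoefD D G₂ B₂ h₂) {ψ : E n → ℂ}
    (hψ : ContDiffOn ℝ ∞ ψ D) {a a' : E n → Fib N} (ha : ContDiffOn ℝ ∞ a D)
    (ha' : ContDiffOn ℝ ∞ a' D) {m : ℕ}
    (hG : ∀ j l, Van D (m + 1) (fun x => G₁ x j l - G₂ x j l))
    (hB : ∀ j, Van D m (fun x => B₁ j x - B₂ j x))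
    (hh : Van D (m + 1) (fun x => h₁ x - h₂ x)) :
    Van D m (fun x => Q1 G₁ B₁ h₁ ψ a a' x - Q1 G₂ B₂ h₂ ψ a a' x) ∧
      ∀ x ∈ D, x 0 = 0 → (pd (0 : Fin n))^[m]
        (fun x => Q1 G₁ B₁ h₁ ψ a a' x - Q1 G₂ B₂ h₂ ψ a a' x) x =
        ∑ j, ∑ l, (G₂ x j l : ℂ) * ((starRingEnd ℂ) (pd j ψ x) *
          inner ℂ (a x) ((pd (0 : Fin n))^[m] (fun y => B₁ l y - B₂ l y) x (a' x)) +
          pd l ψ x * inner ℂ ((pd (0 : Fin n))^[m] (fun y => B₁ j y - B₂ j y) x (a x)) (a' x)) := by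
  have hp : ∀ j, ContDiffOn ℝ ∞ (pd j ψ) D := fun j => hD.pd_smooth hψ j
  have key : DtTop D m (fun x => Q1 G₁ B₁ h₁ ψ a a' x - Q1 G₂ B₂ h₂ ψ a a' x)
      (fun x => ∑ j, ∑ l, (G₂ x j l : ℂ) * ((starRingEnd ℂ) (pd j ψ x) *
          inner ℂ (a x) ((pd (0 : Fin n))^[m] (fun y => B₁ l y - B₂ l y) x (a' x)) +
          pd l ψ x * inner ℂ ((pd (0 : Fin n))^[m] (fun y => B₁ j y - B₂ j y) x (a x)) (a' x)))
      := by
    have hterm : ∀ j l, DtTop D m
        (fun x => (G₁ x j l - G₂ x j l) • ((starRingEnd ℂ) (pd j ψ x) *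
              inner ℂ (a x) (h₁ x (DcB B₁ l a' x)) +
            pd l ψ x * inner ℂ (DcB B₁ j a x) (h₁ x (a' x))) +
          G₂ x j l • (((starRingEnd ℂ) (pd j ψ x) *
              inner ℂ (a x) ((h₁ x - h₂ x) (DcB B₁ l a' x)) +
            (starRingEnd ℂ) (pd j ψ x) *
              inner ℂ (a x) (h₂ x ((B₁ l x - B₂ l x) (a' x)))) +
            (pd l ψ x * inner ℂ ((B₁ j x - B₂ j x) (a x)) (h₁ x (a' x)) +
            pd l ψ x * inner ℂ (DcB B₂ j a x) ((h₁ x - h₂ x) (a' x)))))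
        (fun x => (0 : ℝ) • ((starRingEnd ℂ) (pd j ψ x) *
              inner ℂ (a x) (h₁ x (DcB B₁ l a' x)) +
            pd l ψ x * inner ℂ (DcB B₁ j a x) (h₁ x (a' x))) +
          G₂ x j l • (((starRingEnd ℂ) (pd j ψ x) *
              inner ℂ (a x) ((0 : EndF N) (DcB B₁ l a' x)) +
            (starRingEnd ℂ) (pd j ψ x) *
              inner ℂ (a x) (h₂ x ((pd (0 : Fin n))^[m] (fun y => B₁ l y - B₂ l y) x (a' x)))) +
            (pd l ψ x * inner ℂ ((pd (0 : Fin n))^[m] (fun y => B₁ j y - B₂ j y) x (a x))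
              (h₁ x (a' x)) +
            pd l ψ x * inner ℂ (DcB B₂ j a x) ((0 : EndF N) (a' x))))) := by
      intro j l
      have hcj := dt_smooth_conj (hp j)
      refine DtTop.add hD ?_ ?_
      · exact DtTop.left hD dc_bil_smul (DtTop.of_succ ((c₁.smG j l).sub (c₂.smG j l)) (hG j l))
          ((dt_smooth_mulC hcj (dt_smooth_inner ha (smooth_eval c₁.smh
            (dt_smooth_DcB hD c₁.smB ha' l)))).add
            (dt_smooth_mulC (hp l) (dt_smooth_inner (dt_smooth_DcB hD c₁.smB ha j)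
              (smooth_eval c₁.smh ha'))))
      · refine DtTop.right hD dc_bil_smul (c₂.smG j l) ?_
        refine DtTop.add hD (DtTop.add hD ?_ ?_) (DtTop.add hD ?_ ?_)
        · refine DtTop.right hD dc_bil_mulC hcj ?_
          refine DtTop.right hD dc_bil_inner ha ?_
          exact DtTop.left hD dc_bil_app (DtTop.of_succ (c₁.smh.sub c₂.smh) hh)
            (dt_smooth_DcB hD c₁.smB ha' l)
        · refine DtTop.right hD dc_bil_mulC hcj ?_
          refine DtTop.right hD dc_bil_inner ha ?_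
          refine DtTop.right hD dc_bil_app c₂.smh ?_
          exact DtTop.left hD dc_bil_app (DtTop.of_van ((c₁.smB l).sub (c₂.smB l)) (hB l)) ha'
        · refine DtTop.right hD dc_bil_mulC (hp l) ?_
          refine DtTop.left hD dc_bil_inner ?_ (smooth_eval c₁.smh ha')
          exact DtTop.left hD dc_bil_app (DtTop.of_van ((c₁.smB j).sub (c₂.smB j)) (hB j)) ha
        · refine DtTop.right hD dc_bil_mulC (hp l) ?_
          refine DtTop.right hD dc_bil_inner (dt_smooth_DcB hD c₂.smB ha j) ?_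
          exact DtTop.left hD dc_bil_app (DtTop.of_succ (c₁.smh.sub c₂.smh) hh) ha'
    refine (DtTop.sum hD Finset.univ fun j _ => DtTop.sum hD Finset.univ fun l _ =>
      hterm j l).congr hD ?_ ?_
    · intro x _
      simp only [Q1, ← Finset.sum_sub_distrib]
      refine Finset.sum_congr rfl fun j _ => Finset.sum_congr rfl fun l _ => ?_
      simp only [DcB, sub_apply, inner_sub_right, inner_sub_left, map_add,
        map_sub, inner_add_left, inner_add_right, Complex.real_smul]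
      push_cast
      ring
    · intro x hx hx0
      refine Finset.sum_congr rfl fun j _ => Finset.sum_congr rfl fun l _ => ?_
      rw [c₁.h1 x hx hx0, c₂.h1 x hx hx0]
      simp only [zero_apply, inner_zero_right, mul_zero, zero_smul, zero_add,
        add_zero, Complex.real_smul, one_apply_eq_self]
  exact ⟨key.van, key.top⟩

theorem dt_top_Q0 (hD : RelOpen D) (c₁ : CoefD D G₁ B₁ h₁) (c₂ : CoefD D G₂ B₂ h₂)
    {a a' : E n → Fib N} (ha : ContDiffOn ℝ ∞ a D) (ha' : ContDiffOn ℝ ∞ a' D) {m : ℕ}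
    (hG : ∀ j l, Van D m (fun x => G₁ x j l - G₂ x j l))
    (hB : ∀ j, Van D m (fun x => B₁ j x - B₂ j x)) (hh : Van D m (fun x => h₁ x - h₂ x)) :
    Van D m (fun x => Q0 G₁ B₁ h₁ a a' x - Q0 G₂ B₂ h₂ a a' x) := by
  have hterm : ∀ j l, ∃ v, DtTop D m
      (fun x => (G₁ x j l - G₂ x j l) • (inner ℂ (DcB B₁ j a x) (h₁ x (DcB B₁ l a' x)) : ℂ) +
        G₂ x j l • ((inner ℂ ((B₁ j x - B₂ j x) (a x)) (h₁ x (DcB B₁ l a' x)) +
          inner ℂ (DcB B₂ j a x) ((h₁ x - h₂ x) (DcB B₁ l a' x))) +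
          inner ℂ (DcB B₂ j a x) (h₂ x ((B₁ l x - B₂ l x) (a' x))))) v := by
    intro j l
    have e1 := DtTop.left hD dc_bil_smul
      (DtTop.of_van ((c₁.smG j l).sub (c₂.smG j l)) (hG j l))
      (dt_smooth_inner (dt_smooth_DcB hD c₁.smB ha j) (smooth_eval c₁.smh
        (dt_smooth_DcB hD c₁.smB ha' l)))
    have e2 := DtTop.left hD dc_bil_inner (DtTop.left hD dc_bil_app
      (DtTop.of_van ((c₁.smB j).sub (c₂.smB j)) (hB j)) ha)
      (smooth_eval c₁.smh (dt_smooth_DcB hD c₁.smB ha' l))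
    have e3 := DtTop.right hD dc_bil_inner (dt_smooth_DcB hD c₂.smB ha j)
      (DtTop.left hD dc_bil_app (DtTop.of_van (c₁.smh.sub c₂.smh) hh)
        (dt_smooth_DcB hD c₁.smB ha' l))
    have e4 := DtTop.right hD dc_bil_inner (dt_smooth_DcB hD c₂.smB ha j)
      (DtTop.right hD dc_bil_app c₂.smh (DtTop.left hD dc_bil_app
        (DtTop.of_van ((c₁.smB l).sub (c₂.smB l)) (hB l)) ha'))
    exact ⟨_, DtTop.add hD e1 (DtTop.right hD dc_bil_smul (c₂.smG j l)
      (DtTop.add hD (DtTop.add hD e2 e3) e4))⟩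
  choose v hv using hterm
  refine ((DtTop.sum hD Finset.univ fun j _ => DtTop.sum hD Finset.univ fun l _ =>
    hv j l).congr hD (w := fun x => ∑ j, ∑ l, v j l x) ?_ fun _ _ _ => rfl).van
  intro x _
  simp only [Q0, ← Finset.sum_sub_distrib]
  refine Finset.sum_congr rfl fun j _ => Finset.sum_congr rfl fun l _ => ?_
  simp only [DcB, sub_apply, inner_sub_right, inner_sub_left, map_add,
    map_sub, inner_add_left, inner_add_right, Complex.real_smul]
  push_cast
  ring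

end Top

end Vale.Agent.P088.EYM
end
end

section

/-!
# P088-EYM, block D, section D13: the eikonal and transport expressions of the other pair
-/

open MeasureTheory Set Filter Topology
open scoped ContDiff

noncomputable section

namespace Vale.Agent.P088.EYM

variable {n : ℕ} [NeZero n] {N : ℕ}
variable {D : Set (E n)}

omit [NeZero n] in
theorem dk_smooth_C {f : E n → ℝ} (hf : ContDiffOn ℝ ∞ f D) :
    ContDiffOn ℝ ∞ (fun x => (f x : ℂ)) D :=
  Complex.ofRealCLM.contDiff.comp_contDiffOn hf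

theorem dk_van_C (hD : RelOpen D) {k : ℕ} {f : E n → ℝ} (hf : ContDiffOn ℝ ∞ f D)
    (h : Van D k f) : Van D k (fun x => (f x : ℂ)) :=
  Van.clm hD Complex.ofRealCLM hf h

theorem dk_eik_other (hD : RelOpen D) {G₁ G₂ : E n → Matrix (Fin n) (Fin n) ℝ}
    (g₁ : GOk D G₁) (g₂ : GOk D G₂) {ξ : Fin n → ℝ} {ψ : E n → ℂ}
    (hψ : IsPhase D G₂ ξ ψ) {m : ℕ} (hm : m ≤ 1)
    (hG : ∀ j l, Van D (m + 1) (fun x => G₁ x j l - G₂ x j l)) :
    Van D (m + 1) (eik G₁ ψ) := by
  have hp : ∀ j, ContDiffOn ℝ ∞ (pd j ψ) D := fun j => hD.pd_smooth hψ.sm j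
  have hd : ∀ j l, ContDiffOn ℝ ∞ (fun x => G₁ x j l - G₂ x j l) D :=
    fun j l => (g₁.smG j l).sub (g₂.smG j l)
  have hdC : ∀ j l, ContDiffOn ℝ ∞ (fun x => ((G₁ x j l - G₂ x j l : ℝ) : ℂ)) D :=
    fun j l => dk_smooth_C (hd j l)
  have hvC : ∀ j l, Van D (m + 1) (fun x => ((G₁ x j l - G₂ x j l : ℝ) : ℂ)) :=
    fun j l => dk_van_C hD (hd j l) (hG j l)
  have s1 : ∀ j l, ContDiffOn ℝ ∞ (fun x => ((G₁ x j l - G₂ x j l : ℝ) : ℂ) * pd j ψ x) D :=
    fun j l => dc_smooth_bil dc_bil_mulC (hdC j l) (hp j)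
  have v1 : ∀ j l, Van D (m + 1) (fun x => ((G₁ x j l - G₂ x j l : ℝ) : ℂ) * pd j ψ x) :=
    fun j l => Van.bil (k := m + 1) (l := 0) hD dc_bil_mulC (hdC j l) (hp j) (hvC j l) (van_zero _)
  have s2 : ∀ j l, ContDiffOn ℝ ∞
      (fun x => ((G₁ x j l - G₂ x j l : ℝ) : ℂ) * pd j ψ x * pd l ψ x) D :=
    fun j l => dc_smooth_bil dc_bil_mulC (s1 j l) (hp l)
  have v2 : ∀ j l, Van D (m + 1)
      (fun x => ((G₁ x j l - G₂ x j l : ℝ) : ℂ) * pd j ψ x * pd l ψ x) :=
    fun j l => Van.bil (k := m + 1) (l := 0) hD dc_bil_mulC (s1 j l) (hp l) (v1 j l) (van_zero _)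
  have s3 : ContDiffOn ℝ ∞
      (fun x => ∑ j, ∑ l, ((G₁ x j l - G₂ x j l : ℝ) : ℂ) * pd j ψ x * pd l ψ x) D :=
    dc_smooth_sum _ fun j _ => dc_smooth_sum _ fun l _ => s2 j l
  have v3 : Van D (m + 1)
      (fun x => ∑ j, ∑ l, ((G₁ x j l - G₂ x j l : ℝ) : ℂ) * pd j ψ x * pd l ψ x) :=
    Van.sum hD _ (fun j _ => dc_smooth_sum _ fun l _ => s2 j l)
      fun j _ => Van.sum hD _ (fun l _ => s2 j l) fun l _ => v2 j l
  have s4 : ContDiffOn ℝ ∞ (eik G₂ ψ) D := by
    refine dc_smooth_sum _ fun j _ => dc_smooth_sum _ fun l _ => ?_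
    exact dc_smooth_bil dc_bil_mulC
      (dc_smooth_bil dc_bil_mulC (dk_smooth_C (g₂.smG j l)) (hp j)) (hp l)
  refine (Van.add hD s4 s3 (hψ.eik2.mono (by omega)) v3).congr hD fun x _ => ?_
  simp only [eik, ← Finset.sum_add_distrib]
  refine Finset.sum_congr rfl fun j _ => Finset.sum_congr rfl fun l _ => ?_
  push_cast
  ring

theorem dk_Mop_other (hD : RelOpen D) {G₁ G₂ : E n → Matrix (Fin n) (Fin n) ℝ}
    {B₁ B₂ : Fin n → E n → EndF N} (g₁ : GOk D G₁) (g₂ : GOk D G₂)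
    (hB₁ : ∀ j, ContDiffOn ℝ ∞ (B₁ j) D) (hB₂ : ∀ j, ContDiffOn ℝ ∞ (B₂ j) D) {ψ : E n → ℂ}
    (hψ : ContDiffOn ℝ ∞ ψ D) {a : E n → Fib N} (ha : ContDiffOn ℝ ∞ a D) {m : ℕ} (hm : m ≤ 1)
    (hG : ∀ j l, Van D (m + 1) (fun x => G₁ x j l - G₂ x j l))
    (hB : ∀ j, Van D m (fun x => B₁ j x - B₂ j x)) (hM : Van D 1 (Mop G₂ B₂ ψ a)) :
    Van D m (Mop G₁ B₁ ψ a) := by
  have hp : ∀ j, ContDiffOn ℝ ∞ (pd j ψ) D := fun j => hD.pd_smooth hψ j
  have hpa : ∀ j, ContDiffOn ℝ ∞ (pd j a) D := fun j => hD.pd_smooth ha j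
  have hd : ∀ j l, ContDiffOn ℝ ∞ (fun x => G₁ x j l - G₂ x j l) D :=
    fun j l => (g₁.smG j l).sub (g₂.smG j l)
  have hdC : ∀ j l, ContDiffOn ℝ ∞ (fun x => ((G₁ x j l - G₂ x j l : ℝ) : ℂ)) D :=
    fun j l => dk_smooth_C (hd j l)
  have hvC : ∀ j l, Van D (m + 1) (fun x => ((G₁ x j l - G₂ x j l : ℝ) : ℂ)) :=
    fun j l => dk_van_C hD (hd j l) (hG j l)
  -- products `G p`
  have sGp : ∀ {G : E n → Matrix (Fin n) (Fin n) ℝ}, GOk D G → ∀ j k,
      ContDiffOn ℝ ∞ (fun x => (G x j k : ℂ) * pd k ψ x) D := fun g j k =>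
    dc_smooth_bil dc_bil_mulC (dk_smooth_C (g.smG j k)) (hp k)
  have sdp : ∀ j k, ContDiffOn ℝ ∞ (fun x => ((G₁ x j k - G₂ x j k : ℝ) : ℂ) * pd k ψ x) D :=
    fun j k => dc_smooth_bil dc_bil_mulC (hdC j k) (hp k)
  have vdp : ∀ j k, Van D (m + 1) (fun x => ((G₁ x j k - G₂ x j k : ℝ) : ℂ) * pd k ψ x) :=
    fun j k => Van.bil (k := m + 1) (l := 0) hD dc_bil_mulC (hdC j k) (hp k) (hvC j k) (van_zero _)
  have sds : ∀ j, ContDiffOn ℝ ∞
      (fun x => ∑ k, ((G₁ x j k - G₂ x j k : ℝ) : ℂ) * pd k ψ x) D :=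
    fun j => dc_smooth_sum _ fun k _ => sdp j k
  have vds : ∀ j, Van D (m + 1)
      (fun x => ∑ k, ((G₁ x j k - G₂ x j k : ℝ) : ℂ) * pd k ψ x) :=
    fun j => Van.sum hD _ (fun k _ => sdp j k) fun k _ => vdp j k
  -- the three difference terms
  have sT1' : ContDiffOn ℝ ∞ (fun x => ∑ j, pd j
      (fun y => ∑ k, ((G₁ y j k - G₂ y j k : ℝ) : ℂ) * pd k ψ y) x) D :=
    dc_smooth_sum _ fun j _ => hD.pd_smooth (sds j) j
  have sT1 : ContDiffOn ℝ ∞ (fun x => (∑ j, pd j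
      (fun y => ∑ k, ((G₁ y j k - G₂ y j k : ℝ) : ℂ) * pd k ψ y) x) • a x) D :=
    dc_smooth_bil dc_bil_smulC sT1' ha
  have vT1 : Van D m (fun x => (∑ j, pd j
      (fun y => ∑ k, ((G₁ y j k - G₂ y j k : ℝ) : ℂ) * pd k ψ y) x) • a x) :=
    Van.bil hD dc_bil_smulC sT1' ha
      (Van.sum hD _ (fun j _ => hD.pd_smooth (sds j) j)
        fun j _ => Van.pd_any hD (sds j) (vds j) j) (van_zero _)
  have sT2' : ∀ j k, ContDiffOn ℝ ∞
      (fun x => (((G₁ x j k - G₂ x j k : ℝ) : ℂ) * pd k ψ x) • pd j a x) D :=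
    fun j k => dc_smooth_bil dc_bil_smulC (sdp j k) (hpa j)
  have vT2' : ∀ j k, Van D m
      (fun x => (((G₁ x j k - G₂ x j k : ℝ) : ℂ) * pd k ψ x) • pd j a x) :=
    fun j k => Van.bil hD dc_bil_smulC (sdp j k) (hpa j) ((vdp j k).mono (by omega)) (van_zero _)
  have sB1 : ∀ j, ContDiffOn ℝ ∞ (fun x => B₁ j x (a x)) D := fun j => smooth_eval (hB₁ j) ha
  have sdB : ∀ j, ContDiffOn ℝ ∞ (fun x => B₁ j x - B₂ j x) D :=
    fun j => (hB₁ j).sub (hB₂ j)
  have sdBa : ∀ j, ContDiffOn ℝ ∞ (fun x => (B₁ j x - B₂ j x) (a x)) D :=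
    fun j => smooth_eval (sdB j) ha
  have vdBa : ∀ j, Van D m (fun x => (B₁ j x - B₂ j x) (a x)) :=
    fun j => Van.bil hD dc_bil_app (sdB j) ha (hB j) (van_zero _)
  have sT3' : ∀ j k, ContDiffOn ℝ ∞
      (fun x => (((G₁ x j k - G₂ x j k : ℝ) : ℂ) * pd k ψ x) • B₁ j x (a x)) D :=
    fun j k => dc_smooth_bil dc_bil_smulC (sdp j k) (sB1 j)
  have vT3' : ∀ j k, Van D m
      (fun x => (((G₁ x j k - G₂ x j k : ℝ) : ℂ) * pd k ψ x) • B₁ j x (a x)) :=
    fun j k => Van.bil hD dc_bil_smulC (sdp j k) (sB1 j) ((vdp j k).mono (by omega)) (van_zero _)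
  have sT4' : ∀ j k, ContDiffOn ℝ ∞
      (fun x => ((G₂ x j k : ℂ) * pd k ψ x) • (B₁ j x - B₂ j x) (a x)) D :=
    fun j k => dc_smooth_bil dc_bil_smulC (sGp g₂ j k) (sdBa j)
  have vT4' : ∀ j k, Van D m
      (fun x => ((G₂ x j k : ℂ) * pd k ψ x) • (B₁ j x - B₂ j x) (a x)) := fun j k => by
    have h := Van.bil hD dc_bil_smulC (sGp g₂ j k) (sdBa j) (van_zero _) (vdBa j)
    rw [zero_add] at h
    exact h
  -- the sum of the terms 2, 3, 4
  have sS : ∀ j k, ContDiffOn ℝ ∞ (fun x =>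
      (((G₁ x j k - G₂ x j k : ℝ) : ℂ) * pd k ψ x) • pd j a x +
      ((((G₁ x j k - G₂ x j k : ℝ) : ℂ) * pd k ψ x) • B₁ j x (a x) +
        ((G₂ x j k : ℂ) * pd k ψ x) • (B₁ j x - B₂ j x) (a x))) D :=
    fun j k => (sT2' j k).add ((sT3' j k).add (sT4' j k))
  have vS : ∀ j k, Van D m (fun x =>
      (((G₁ x j k - G₂ x j k : ℝ) : ℂ) * pd k ψ x) • pd j a x +
      ((((G₁ x j k - G₂ x j k : ℝ) : ℂ) * pd k ψ x) • B₁ j x (a x) +
        ((G₂ x j k : ℂ) * pd k ψ x) • (B₁ j x - B₂ j x) (a x))) :=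
    fun j k => Van.add hD (sT2' j k) ((sT3' j k).add (sT4' j k)) (vT2' j k)
      (Van.add hD (sT3' j k) (sT4' j k) (vT3' j k) (vT4' j k))
  have sSS : ContDiffOn ℝ ∞ (fun x => ∑ j, ∑ k,
      ((((G₁ x j k - G₂ x j k : ℝ) : ℂ) * pd k ψ x) • pd j a x +
      ((((G₁ x j k - G₂ x j k : ℝ) : ℂ) * pd k ψ x) • B₁ j x (a x) +
        ((G₂ x j k : ℂ) * pd k ψ x) • (B₁ j x - B₂ j x) (a x)))) D :=
    dc_smooth_sum _ fun j _ => dc_smooth_sum _ fun k _ => sS j k
  have vSS : Van D m (fun x => ∑ j, ∑ k,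
      ((((G₁ x j k - G₂ x j k : ℝ) : ℂ) * pd k ψ x) • pd j a x +
      ((((G₁ x j k - G₂ x j k : ℝ) : ℂ) * pd k ψ x) • B₁ j x (a x) +
        ((G₂ x j k : ℂ) * pd k ψ x) • (B₁ j x - B₂ j x) (a x)))) :=
    Van.sum hD _ (fun j _ => dc_smooth_sum _ fun k _ => sS j k)
      fun j _ => Van.sum hD _ (fun k _ => sS j k) fun k _ => vS j k
  have sC : ContDiffOn ℝ ∞ (fun x => (2 : ℝ) • ∑ j, ∑ k,
      ((((G₁ x j k - G₂ x j k : ℝ) : ℂ) * pd k ψ x) • pd j a x +
      ((((G₁ x j k - G₂ x j k : ℝ) : ℂ) * pd k ψ x) • B₁ j x (a x) +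
        ((G₂ x j k : ℂ) * pd k ψ x) • (B₁ j x - B₂ j x) (a x)))) D := sSS.const_smul (2 : ℝ)
  have vC : Van D m (fun x => (2 : ℝ) • ∑ j, ∑ k,
      ((((G₁ x j k - G₂ x j k : ℝ) : ℂ) * pd k ψ x) • pd j a x +
      ((((G₁ x j k - G₂ x j k : ℝ) : ℂ) * pd k ψ x) • B₁ j x (a x) +
        ((G₂ x j k : ℂ) * pd k ψ x) • (B₁ j x - B₂ j x) (a x)))) :=
    Van.clm hD ((2 : ℝ) • ContinuousLinearMap.id ℝ (Fib N)) sSS vSS
  have sM : ContDiffOn ℝ ∞ (Mop G₂ B₂ ψ a) D := by
    have t0 : ContDiffOn ℝ ∞ (fun x => ∑ j, pd j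
        (fun y => ∑ k, (G₂ y j k : ℂ) * pd k ψ y) x) D :=
      dc_smooth_sum _ fun j _ => hD.pd_smooth (dc_smooth_sum _ fun k _ => sGp g₂ j k) j
    have t1 : ContDiffOn ℝ ∞ (fun x => (∑ j, pd j
        (fun y => ∑ k, (G₂ y j k : ℂ) * pd k ψ y) x) • a x) D :=
      dc_smooth_bil dc_bil_smulC t0 ha
    have t2 : ContDiffOn ℝ ∞ (fun x => ∑ j, ∑ k, ((G₂ x j k : ℂ) * pd k ψ x) • pd j a x) D :=
      dc_smooth_sum _ fun j _ => dc_smooth_sum _ fun k _ =>
        dc_smooth_bil dc_bil_smulC (sGp g₂ j k) (hpa j)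
    have t3 : ContDiffOn ℝ ∞ (fun x => ∑ j, ∑ k, ((G₂ x j k : ℂ) * pd k ψ x) • B₂ j x (a x)) D :=
      dc_smooth_sum _ fun j _ => dc_smooth_sum _ fun k _ =>
        dc_smooth_bil dc_bil_smulC (sGp g₂ j k) (smooth_eval (hB₂ j) ha)
    exact (t1.add (t2.const_smul (2 : ℂ))).add (t3.const_smul (2 : ℂ))
  refine (Van.add hD sM (sT1.add sC) (hM.mono hm) (Van.add hD sT1 sC vT1 vC)).congr hD
    fun x hx => ?_
  have hpdj : ∀ j, pd j (fun y => ∑ k, (G₁ y j k : ℂ) * pd k ψ y) x =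
      pd j (fun y => ∑ k, (G₂ y j k : ℂ) * pd k ψ y) x +
      pd j (fun y => ∑ k, ((G₁ y j k - G₂ y j k : ℝ) : ℂ) * pd k ψ y) x := by
    intro j
    rw [← hD.pd_add (dc_smooth_sum _ fun k _ => sGp g₂ j k) (sds j) hx j]
    refine hD.pd_congr (fun y _ => ?_) hx j
    simp only [← Finset.sum_add_distrib]
    refine Finset.sum_congr rfl fun k _ => ?_
    push_cast
    ring
  have h2 : ∀ v : Fib N, (2 : ℝ) • v = (2 : ℂ) • v := fun v => by
    rw [← Complex.coe_smul]; norm_num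
  simp only [Mop, hpdj, Finset.sum_add_distrib, add_smul, h2, smul_add]
  have e1 : ∀ j k, ((G₁ x j k : ℂ) * pd k ψ x) • pd j a x =
      ((G₂ x j k : ℂ) * pd k ψ x) • pd j a x +
      (((G₁ x j k - G₂ x j k : ℝ) : ℂ) * pd k ψ x) • pd j a x := by
    intro j k
    rw [← add_smul]
    push_cast
    congr 1
    ring
  have e2 : ∀ j k, ((G₁ x j k : ℂ) * pd k ψ x) • B₁ j x (a x) =
      ((G₂ x j k : ℂ) * pd k ψ x) • B₂ j x (a x) +
      ((((G₁ x j k - G₂ x j k : ℝ) : ℂ) * pd k ψ x) • B₁ j x (a x) +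
        ((G₂ x j k : ℂ) * pd k ψ x) • (B₁ j x - B₂ j x) (a x)) := by
    intro j k
    rw [sub_apply, smul_sub]
    push_cast
    module
  simp only [e1, e2, Finset.sum_add_distrib, smul_add]
  abel

end Vale.Agent.P088.EYM
end
end

section

/-!
# P088-EYM, block D: skewness of the differences of the connection matrices, flux relation and
vanishing order of the difference of the Hermitian forms
-/

open MeasureTheory Set Filter Topology
open scoped ContDiff

noncomputable section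

namespace Vale.Agent.P088.EYM

variable {n : ℕ} [NeZero n] {N : ℕ}
variable {D : Set (E n)}
variable {G₁ G₂ : E n → Matrix (Fin n) (Fin n) ℝ} {B₁ B₂ : Fin n → E n → EndF N}
  {h₁ h₂ : E n → EndF N}

theorem dst_smul_add (a : ℝ) (S T : EndF N) : a • S + a • T = a • (S + T) :=
  (smul_add a S T).symm

theorem dst_sub_smul (a b : ℝ) (S T : EndF N) :
    a • S - b • T = (a - b) • S + b • (S - T) := by
  have h1 : (a - b) • S = a • S - b • S := sub_smul a b S
  have h2 : b • (S - T) = b • S - b • T := smul_sub b S T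
  rw [h1, h2]
  abel

theorem dst_smul_zero (a : ℝ) : a • (0 : EndF N) = 0 := by
  ext1 w
  show a • (0 : Fib N) = 0
  exact smul_zero a

theorem dst_zero_smul (S : EndF N) : (0 : ℝ) • S = 0 := zero_smul ℝ S

theorem dst_smul_cancel {a : ℝ} (ha : a ≠ 0) {S : EndF N} (h : a • S = 0) : S = 0 := by
  ext1 w
  have h1 : a • S w = 0 := congrArg (fun T : EndF N => T w) h
  exact (smul_eq_zero.1 h1).resolve_left ha

/-- the derivative of the difference of the Hermitian forms -/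
theorem dst_dh (hD : RelOpen D) (c₁ : CoefD D G₁ B₁ h₁) (c₂ : CoefD D G₂ B₂ h₂) (j : Fin n)
    {x : E n} (hx : x ∈ D) : pd j (fun y => h₁ y - h₂ y) x =
      (ContinuousLinearMap.adjoint (B₁ j x - B₂ j x) * h₁ x +
        ContinuousLinearMap.adjoint (B₂ j x) * (h₁ x - h₂ x)) +
        ((h₁ x - h₂ x) * B₁ j x + h₂ x * (B₁ j x - B₂ j x)) := by
  rw [hD.pd_sub c₁.smh c₂.smh hx, c₁.dh x hx j, c₂.dh x hx j, map_sub, sub_mul, mul_sub, sub_mul,
    mul_sub]
  abel

/-- the leading derivative of `∂_j (h₁ - h₂)` on the face -/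
theorem dst_top_dh (hD : RelOpen D) (c₁ : CoefD D G₁ B₁ h₁) (c₂ : CoefD D G₂ B₂ h₂) (j : Fin n)
    {m : ℕ} (hB : ∀ j, Van D m (fun x => B₁ j x - B₂ j x))
    (hh : Van D (m + 1) (fun x => h₁ x - h₂ x)) {x : E n} (hx : x ∈ D) (hx0 : x 0 = 0) :
    (pd (0 : Fin n))^[m] (pd j (fun y => h₁ y - h₂ y)) x =
      ContinuousLinearMap.adjoint ((pd (0 : Fin n))^[m] (fun y => B₁ j y - B₂ j y) x) +
        (pd (0 : Fin n))^[m] (fun y => B₁ j y - B₂ j y) x := by
  have sdB : ContDiffOn ℝ ∞ (fun y => B₁ j y - B₂ j y) D := (c₁.smB j).sub (c₂.smB j)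
  have sdh : ContDiffOn ℝ ∞ (fun y => h₁ y - h₂ y) D := c₁.smh.sub c₂.smh
  have sadB : ContDiffOn ℝ ∞ (fun y => ContinuousLinearMap.adjoint (B₁ j y - B₂ j y)) D :=
    smooth_adj sdB
  have saB : ContDiffOn ℝ ∞ (fun y => ContinuousLinearMap.adjoint (B₂ j y)) D :=
    smooth_adj (c₂.smB j)
  have hh' : Van D m (fun x => h₁ x - h₂ x) := hh.mono (Nat.le_succ m)
  have t1 := dv_top_left hD (dc_bil_mul (N := N)) sadB c₁.smh (k := m)
    (Van.clm hD adjRE sdB (hB j)) hx hx0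
  have t2 := dv_top_right hD (dc_bil_mul (N := N)) saB sdh hh' hx hx0
  have t3 := dv_top_left hD (dc_bil_mul (N := N)) sdh (c₁.smB j) hh' hx hx0
  have t4 := dv_top_right hD (dc_bil_mul (N := N)) c₂.smh sdB (hB j) hx hx0
  have hz : (pd (0 : Fin n))^[m] (fun y => h₁ y - h₂ y) x = 0 := hh m (Nat.lt_succ_self m) x hx hx0
  have e1 : (pd (0 : Fin n))^[m] (fun y => ContinuousLinearMap.adjoint (B₁ j y - B₂ j y)) x =
      ContinuousLinearMap.adjoint ((pd (0 : Fin n))^[m] (fun y => B₁ j y - B₂ j y) x) :=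
    dv_iter_clm hD adjRE sdB m hx
  have s1 : ContDiffOn ℝ ∞ (fun y => ContinuousLinearMap.adjoint (B₁ j y - B₂ j y) * h₁ y) D :=
    smooth_mul sadB c₁.smh
  have s2 : ContDiffOn ℝ ∞ (fun y => ContinuousLinearMap.adjoint (B₂ j y) * (h₁ y - h₂ y)) D :=
    smooth_mul saB sdh
  have s3 : ContDiffOn ℝ ∞ (fun y => (h₁ y - h₂ y) * B₁ j y) D := smooth_mul sdh (c₁.smB j)
  have s4 : ContDiffOn ℝ ∞ (fun y => h₂ y * (B₁ j y - B₂ j y)) D := smooth_mul c₂.smh sdB
  rw [dv_iter_congr hD (fun y hy => dst_dh hD c₁ c₂ j hy) m hx,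
    dv_iter_add hD (s1.add s2) (s3.add s4) m hx, dv_iter_add hD s1 s2 m hx,
    dv_iter_add hD s3 s4 m hx]
  rw [t1, t2, t3, t4, e1, hz, c₁.h1 x hx hx0, c₂.h1 x hx hx0]
  simp

/-- skewness of the leading derivatives and one more order for `h₁ - h₂` -/
theorem dst_core (hD : RelOpen D) (c₁ : CoefD D G₁ B₁ h₁) (c₂ : CoefD D G₂ B₂ h₂)
    {m : ℕ} (hB : ∀ j, Van D m (fun x => B₁ j x - B₂ j x))
    (hh : Van D (m + 1) (fun x => h₁ x - h₂ x))
    (hrow : ∀ x ∈ D, x 0 = 0 → ∑ l, G₂ x 0 l •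
      (pd (0 : Fin n))^[m] (fun y => B₁ l y - B₂ l y) x = 0) :
    Van D (m + 2) (fun x => h₁ x - h₂ x) ∧
    (∀ x ∈ D, x 0 = 0 → ∀ j, ContinuousLinearMap.adjoint
      ((pd (0 : Fin n))^[m] (fun y => B₁ j y - B₂ j y) x) =
        -((pd (0 : Fin n))^[m] (fun y => B₁ j y - B₂ j y) x)) := by
  have sdh : ContDiffOn ℝ ∞ (fun y => h₁ y - h₂ y) D := c₁.smh.sub c₂.smh
  have key : ∀ x ∈ D, x 0 = 0 → ∀ j, ContinuousLinearMap.adjoint
      ((pd (0 : Fin n))^[m] (fun y => B₁ j y - B₂ j y) x) +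
        ((pd (0 : Fin n))^[m] (fun y => B₁ j y - B₂ j y) x) = 0 := by
    intro x hx hx0
    have hne : ∀ j : Fin n, j ≠ 0 → ContinuousLinearMap.adjoint
        ((pd (0 : Fin n))^[m] (fun y => B₁ j y - B₂ j y) x) +
        ((pd (0 : Fin n))^[m] (fun y => B₁ j y - B₂ j y) x) = 0 := by
      intro j hj
      rw [← dst_top_dh hD c₁ c₂ j hB hh hx hx0]
      exact Van.pd_tan hD sdh hh hj m (Nat.lt_succ_self m) x hx hx0
    intro j
    by_cases hj : j = 0
    · subst hj
      have h1 := hrow x hx hx0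
      have h2 := congrArg (fun T => adjRE T + T) h1
      simp only [map_zero, add_zero, map_sum, map_smul] at h2
      rw [← Finset.sum_add_distrib] at h2
      rw [Finset.sum_eq_single_of_mem (0 : Fin n) (Finset.mem_univ _)] at h2
      · rw [dst_smul_add] at h2
        exact dst_smul_cancel (ne_of_gt (c₂.pos x hx).diag_pos) h2
      · intro l _ hl
        rw [dst_smul_add]
        have := hne l hl
        rw [adjRE_apply, this, dst_smul_zero]
    · exact hne j hj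
  refine ⟨?_, fun x hx hx0 j => eq_neg_of_add_eq_zero_left (key x hx hx0 j)⟩
  intro i hi x hx hx0
  rcases Nat.lt_succ_iff_lt_or_eq.1 hi with hi' | rfl
  · exact hh i hi' x hx hx0
  · rw [Function.iterate_succ_apply, dst_top_dh hD c₁ c₂ 0 hB hh hx hx0]
    exact key x hx hx0 0

theorem dst_struct_step (hD : RelOpen D) (c₁ : CoefD D G₁ B₁ h₁) (c₂ : CoefD D G₂ B₂ h₂)
    (hfluxB : ∀ x ∈ D, x 0 = 0 → ∑ k, G₁ x 0 k • B₁ k x = ∑ k, G₂ x 0 k • B₂ k x)
    {m : ℕ} (hm : m ≤ 1) (hG : ∀ j l, Van D (m + 1) (fun x => G₁ x j l - G₂ x j l))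
    (hB : ∀ j, Van D m (fun x => B₁ j x - B₂ j x)) :
    Van D (m + 2) (fun x => h₁ x - h₂ x) ∧
    (∀ x ∈ D, x 0 = 0 → ∀ j, ContinuousLinearMap.adjoint
      ((pd (0 : Fin n))^[m] (fun y => B₁ j y - B₂ j y) x) =
        -((pd (0 : Fin n))^[m] (fun y => B₁ j y - B₂ j y) x)) ∧
    (∀ x ∈ D, x 0 = 0 → ∑ l, G₂ x 0 l •
      (pd (0 : Fin n))^[m] (fun y => B₁ l y - B₂ l y) x = 0) := by
  have hG0 : ∀ x ∈ D, x 0 = 0 → ∀ j l, G₁ x j l = G₂ x j l := fun x hx hx0 j l =>
    sub_eq_zero.1 (hG j l 0 (Nat.succ_pos m) x hx hx0)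
  have hh1 : Van D 1 (fun x => h₁ x - h₂ x) := van_one.2 fun x hx hx0 => by
    rw [c₁.h1 x hx hx0, c₂.h1 x hx hx0, sub_self]
  have sdB : ∀ j, ContDiffOn ℝ ∞ (fun y => B₁ j y - B₂ j y) D :=
    fun j => (c₁.smB j).sub (c₂.smB j)
  obtain rfl | rfl : m = 0 ∨ m = 1 := by omega
  · have hrow : ∀ x ∈ D, x 0 = 0 → ∑ l, G₂ x 0 l •
        (pd (0 : Fin n))^[0] (fun y => B₁ l y - B₂ l y) x = 0 := by
      intro x hx hx0
      simp only [Function.iterate_zero, id, smul_sub, Finset.sum_sub_distrib]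
      rw [← hfluxB x hx hx0, sub_eq_zero]
      exact Finset.sum_congr rfl fun k _ => by rw [hG0 x hx hx0]
    obtain ⟨h1, h2⟩ := dst_core hD c₁ c₂ hB hh1 hrow
    exact ⟨h1, h2, hrow⟩
  · have hB0 : ∀ x ∈ D, x 0 = 0 → ∀ j, B₁ j x = B₂ j x := fun x hx hx0 j =>
      sub_eq_zero.1 (hB j 0 Nat.one_pos x hx hx0)
    have hh2 : Van D 2 (fun x => h₁ x - h₂ x) := by
      refine van_succ.2 ⟨van_one.1 hh1, van_one.2 fun x hx hx0 => ?_⟩
      rw [dst_dh hD c₁ c₂ 0 hx, hB0 x hx hx0, c₁.h1 x hx hx0, c₂.h1 x hx hx0]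
      simp
    -- the flux relation from the frame equations
    have hrow : ∀ x ∈ D, x 0 = 0 → ∑ l, G₂ x 0 l •
        (pd (0 : Fin n))^[1] (fun y => B₁ l y - B₂ l y) x = 0 := by
      intro x hx hx0
      have sG : ∀ j k, ContDiffOn ℝ ∞ (fun y => G₁ y j k - G₂ y j k) D :=
        fun j k => (c₁.smG j k).sub (c₂.smG j k)
      have sf1 : ∀ j k, ContDiffOn ℝ ∞ (fun y => G₁ y j k • B₁ k y) D :=
        fun j k => (c₁.smG j k).smul (c₁.smB k)
      have sf2 : ∀ j k, ContDiffOn ℝ ∞ (fun y => G₂ y j k • B₂ k y) D :=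
        fun j k => (c₂.smG j k).smul (c₂.smB k)
      have sF1 : ∀ j, ContDiffOn ℝ ∞ (fun y => ∑ k, G₁ y j k • B₁ k y) D :=
        fun j => dc_smooth_sum _ fun k _ => sf1 j k
      have sF2 : ∀ j, ContDiffOn ℝ ∞ (fun y => ∑ k, G₂ y j k • B₂ k y) D :=
        fun j => dc_smooth_sum _ fun k _ => sf2 j k
      have q : ∑ j, ∑ k, G₁ x j k • (B₁ j x * B₁ k x) = ∑ j, ∑ k, G₂ x j k • (B₂ j x * B₂ k x) :=
        Finset.sum_congr rfl fun j _ => Finset.sum_congr rfl fun k _ => by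
          rw [hG0 x hx hx0, hB0 x hx hx0, hB0 x hx hx0]
      have f1 := c₁.frame x hx
      have f2 := c₂.frame x hx
      rw [q] at f1
      have f3 : ∑ j, pd j (fun y => (∑ k, G₁ y j k • B₁ k y) - ∑ k, G₂ y j k • B₂ k y) x = 0 := by
        have : ∑ j, pd j (fun y => (∑ k, G₁ y j k • B₁ k y) - ∑ k, G₂ y j k • B₂ k y) x =
            (∑ j, pd j (fun y => ∑ k, G₁ y j k • B₁ k y) x) -
              ∑ j, pd j (fun y => ∑ k, G₂ y j k • B₂ k y) x := by
          rw [← Finset.sum_sub_distrib]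
          exact Finset.sum_congr rfl fun j _ => hD.pd_sub (sF1 j) (sF2 j) hx j
        rw [this, sub_eq_zero]
        exact add_right_cancel (f1.trans f2.symm)
      have f4 : pd 0 (fun y => (∑ k, G₁ y 0 k • B₁ k y) - ∑ k, G₂ y 0 k • B₂ k y) x = 0 := by
        rw [Finset.sum_eq_single_of_mem (0 : Fin n) (Finset.mem_univ _)] at f3
        · exact f3
        · intro j _ hj
          refine dc_pd_tan hD ((sF1 j).sub (sF2 j)) (fun y hy hy0 => ?_) hj x hx hx0
          rw [sub_eq_zero]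
          exact Finset.sum_congr rfl fun k _ => by rw [hG0 y hy hy0, hB0 y hy hy0]
      have e : EqOn (fun y => (∑ k, G₁ y 0 k • B₁ k y) - ∑ k, G₂ y 0 k • B₂ k y)
          (fun y => ∑ k, ((G₁ y 0 k - G₂ y 0 k) • B₁ k y + G₂ y 0 k • (B₁ k y - B₂ k y))) D := by
        intro y _
        simp only
        rw [← Finset.sum_sub_distrib]
        exact Finset.sum_congr rfl fun k _ => dst_sub_smul _ _ _ _
      have p1 : ∀ k, ContDiffOn ℝ ∞ (fun y => (G₁ y 0 k - G₂ y 0 k) • B₁ k y) D :=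
        fun k => (sG 0 k).smul (c₁.smB k)
      have p2 : ∀ k, ContDiffOn ℝ ∞ (fun y => G₂ y 0 k • (B₁ k y - B₂ k y)) D :=
        fun k => (c₂.smG 0 k).smul (sdB k)
      have p3 : ∀ k, ContDiffOn ℝ ∞ (fun y => (G₁ y 0 k - G₂ y 0 k) • B₁ k y +
        G₂ y 0 k • (B₁ k y - B₂ k y)) D := fun k => (p1 k).add (p2 k)
      rw [hD.pd_congr e hx, hD.pd_sum _ (fun k _ => p3 k) hx] at f4
      rw [← f4]
      refine Finset.sum_congr rfl fun k _ => ?_
      rw [hD.pd_add (p1 k) (p2 k) hx, hD.pd_smul (sG 0 k) (c₁.smB k) hx,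
        hD.pd_smul (c₂.smG 0 k) (sdB k) hx]
      have g1 : pd 0 (fun y => G₁ y 0 k - G₂ y 0 k) x = 0 := hG 0 k 1 (by norm_num) x hx hx0
      rw [g1, hG0 x hx hx0, hB0 x hx hx0, sub_self, sub_self, dst_zero_smul, dst_zero_smul,
        dst_smul_zero, add_zero, zero_add, add_zero]
      rfl
    obtain ⟨h1, h2⟩ := dst_core hD c₁ c₂ hB hh2 hrow
    exact ⟨h1, h2, hrow⟩

end Vale.Agent.P088.EYM
end
end

section

/-!
# P088-EYM, D20: consequences of the coordinate equations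
-/

open MeasureTheory Set Filter Topology
open scoped ContDiff

noncomputable section

namespace Vale.Agent.P088.EYM

variable {n : ℕ} [NeZero n] {N : ℕ}
variable {F : Type*} [NormedAddCommGroup F] [NormedSpace ℝ F]
variable {F' : Type*} [NormedAddCommGroup F'] [NormedSpace ℝ F']
variable {F'' : Type*} [NormedAddCommGroup F''] [NormedSpace ℝ F'']
variable {D : Set (E n)}

/-- the real part of the component `j0` -/
def dcoRe (j0 : Fin N) : Fib N →L[ℝ] ℝ :=
  Complex.reCLM.comp ((EuclideanSpace.proj (𝕜 := ℂ) j0).restrictScalars ℝ)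

/-- difference of two products -/
theorem dco_van_diff (hD : RelOpen D) {b : F × F' → F''} (hb : IsBoundedBilinearMap ℝ b)
    {f₁ f₂ : E n → F} {g₁ g₂ : E n → F'} (hf₁ : ContDiffOn ℝ ∞ f₁ D) (hf₂ : ContDiffOn ℝ ∞ f₂ D)
    (hg₁ : ContDiffOn ℝ ∞ g₁ D) (hg₂ : ContDiffOn ℝ ∞ g₂ D) {k : ℕ}
    (hf : Van D k (fun x => f₁ x - f₂ x)) (hg : Van D k (fun x => g₁ x - g₂ x)) :
    Van D k (fun x => b (f₁ x, g₁ x) - b (f₂ x, g₂ x)) := by
  have h1 := Van.bil hD hb (hf₁.sub hf₂) hg₁ hf (van_zero g₁)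
  have h2 := Van.bil hD hb hf₂ (hg₁.sub hg₂) (van_zero f₂) hg
  rw [add_zero] at h1
  rw [zero_add] at h2
  refine Van.congr hD (Van.add hD (dc_smooth_bil hb (hf₁.sub hf₂) hg₁)
    (dc_smooth_bil hb hf₂ (hg₁.sub hg₂)) h1 h2) fun x _ => ?_
  simp only [hb.map_sub_left, hb.map_sub_right]
  abel

section Terms

variable {G : E n → Matrix (Fin n) (Fin n) ℝ} {B : Fin n → E n → EndF N} {c : E n → Fib N}

/-- the first order term -/
def dcoT (G : E n → Matrix (Fin n) (Fin n) ℝ) (B : Fin n → E n → EndF N) (c : E n → Fib N)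
    (x : E n) : Fib N := ∑ j, ∑ k, G x j k • B j x (pd k c x)

/-- the flux term -/
def dcoU (G : E n → Matrix (Fin n) (Fin n) ℝ) (c : E n → Fib N) (j : Fin n)
    (x : E n) : Fib N := ∑ k, G x j k • pd k c x

theorem dco_smooth_T (hD : RelOpen D) (g : GOk D G) (hB : ∀ j, ContDiffOn ℝ ∞ (B j) D)
    (hc : ContDiffOn ℝ ∞ c D) : ContDiffOn ℝ ∞ (dcoT G B c) D :=
  dc_smooth_sum _ fun j _ => dc_smooth_sum _ fun k _ =>
    dc_smooth_bil dc_bil_smul (g.smG j k) (dc_smooth_bil dc_bil_app (hB j) (hD.pd_smooth hc k))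

theorem dco_smooth_U (hD : RelOpen D) (g : GOk D G) (hc : ContDiffOn ℝ ∞ c D) (j : Fin n) :
    ContDiffOn ℝ ∞ (dcoU G c j) D :=
  dc_smooth_sum _ fun k _ => dc_smooth_bil dc_bil_smul (g.smG j k) (hD.pd_smooth hc k)

theorem dco_lop_eq (x : E n) : LopR G B c x = ∑ j, pd j (dcoU G c j) x + (2 : ℝ) • dcoT G B c x :=
  rfl

end Terms

variable {G₁ G₂ : E n → Matrix (Fin n) (Fin n) ℝ} {B₁ B₂ : Fin n → E n → EndF N}

theorem dco_pd_van (hD : RelOpen D) {c c' : E n → Fib N} (hc : ContDiffOn ℝ ∞ c D)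
    (hc' : ContDiffOn ℝ ∞ c' D) {m : ℕ} (h : Van D (m + 1) (fun x => c x - c' x)) (k : Fin n) :
    Van D m (fun x => pd k c x - pd k c' x) :=
  Van.congr hD (Van.pd_any hD (hc.sub hc') h k) fun x hx => hD.pd_sub hc hc' hx k

theorem dco_T_van (hD : RelOpen D) (g₁ : GOk D G₁) (g₂ : GOk D G₂)
    (hB₁ : ∀ j, ContDiffOn ℝ ∞ (B₁ j) D) (hB₂ : ∀ j, ContDiffOn ℝ ∞ (B₂ j) D)
    {c c' : E n → Fib N} (hc : ContDiffOn ℝ ∞ c D) (hc' : ContDiffOn ℝ ∞ c' D) {m : ℕ}
    (hG : ∀ j l, Van D m (fun x => G₁ x j l - G₂ x j l))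
    (hB : ∀ j, Van D m (fun x => B₁ j x - B₂ j x))
    (h : Van D (m + 1) (fun x => c x - c' x)) :
    Van D m (fun x => dcoT G₁ B₁ c x - dcoT G₂ B₂ c' x) := by
  have key : ∀ j k, Van D m (fun x => G₁ x j k • B₁ j x (pd k c x) -
      G₂ x j k • B₂ j x (pd k c' x)) := fun j k =>
    dco_van_diff hD dc_bil_smul (g₁.smG j k) (g₂.smG j k)
      (dc_smooth_bil dc_bil_app (hB₁ j) (hD.pd_smooth hc k))
      (dc_smooth_bil dc_bil_app (hB₂ j) (hD.pd_smooth hc' k)) (hG j k)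
      (dco_van_diff hD dc_bil_app (hB₁ j) (hB₂ j) (hD.pd_smooth hc k) (hD.pd_smooth hc' k)
        (hB j) (dco_pd_van hD hc hc' h k))
  have sm : ∀ j k, ContDiffOn ℝ ∞ (fun x => G₁ x j k • B₁ j x (pd k c x) -
      G₂ x j k • B₂ j x (pd k c' x)) D := fun j k =>
    (dc_smooth_bil dc_bil_smul (g₁.smG j k)
      (dc_smooth_bil dc_bil_app (hB₁ j) (hD.pd_smooth hc k))).sub
    (dc_smooth_bil dc_bil_smul (g₂.smG j k)
      (dc_smooth_bil dc_bil_app (hB₂ j) (hD.pd_smooth hc' k)))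
  refine Van.congr hD (Van.sum hD Finset.univ (fun j _ => dc_smooth_sum Finset.univ fun k _ => sm j k)
    (fun j _ => Van.sum hD Finset.univ (fun k _ => sm j k) fun k _ => key j k)) fun x _ => ?_
  simp only [dcoT, Finset.sum_sub_distrib]

theorem dco_U_van (hD : RelOpen D) (g₁ : GOk D G₁) (g₂ : GOk D G₂)
    {c c' : E n → Fib N} (hc : ContDiffOn ℝ ∞ c D) (hc' : ContDiffOn ℝ ∞ c' D) {m : ℕ}
    (hG : ∀ j l, Van D m (fun x => G₁ x j l - G₂ x j l))
    (h : Van D (m + 1) (fun x => c x - c' x)) (j : Fin n) :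
    Van D m (fun x => dcoU G₁ c j x - dcoU G₂ c' j x) := by
  have key : ∀ k, Van D m (fun x => G₁ x j k • pd k c x - G₂ x j k • pd k c' x) := fun k =>
    dco_van_diff hD dc_bil_smul (g₁.smG j k) (g₂.smG j k) (hD.pd_smooth hc k)
      (hD.pd_smooth hc' k) (hG j k) (dco_pd_van hD hc hc' h k)
  have sm : ∀ k, ContDiffOn ℝ ∞ (fun x => G₁ x j k • pd k c x - G₂ x j k • pd k c' x) D := fun k =>
    (dc_smooth_bil dc_bil_smul (g₁.smG j k) (hD.pd_smooth hc k)).sub
    (dc_smooth_bil dc_bil_smul (g₂.smG j k) (hD.pd_smooth hc' k))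
  refine Van.congr hD (Van.sum hD Finset.univ (fun k _ => sm k) fun k _ => key k) fun x _ => ?_
  simp only [dcoU, Finset.sum_sub_distrib]

/-- the real part of the component `j0` of the coordinate equation -/
theorem dco_row_eq (hD : RelOpen D) {G : E n → Matrix (Fin n) (Fin n) ℝ}
    {B : Fin n → E n → EndF N} {c : Fin n → E n → Fib N} {j0 : Fin N} (g : GOk D G)
    (s : SolD D G B c j0) (a : Fin n) {x : E n} (hx : x ∈ D) :
    ∑ j, pd j (fun y => G y j a) x = -(2 * dcoRe j0 (dcoT G B (c a) x)) := by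
  have hpd : ∀ y ∈ D, ∀ k, dcoRe j0 (pd k (c a) y) = if k = a then 1 else 0 := by
    intro y hy k
    rw [← hD.pd_clm (dcoRe j0) (s.sm a) hy k, ← dc_pd_coord (hD.subset hy) k a]
    exact hD.pd_congr (fun z hz => s.coord a z hz) hy k
  have hU : ∀ j, EqOn (fun y => dcoRe j0 (dcoU G (c a) j y)) (fun y => G y j a) D := by
    intro j y hy
    simp only [dcoU, map_sum, map_smul, hpd y hy, smul_eq_mul, mul_ite, mul_one, mul_zero]
    rw [Finset.sum_ite_eq' Finset.univ a]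
    simp
  have h0 := congrArg (dcoRe j0) (s.eq a x hx)
  rw [dco_lop_eq, map_add, map_sum, map_smul, map_zero, smul_eq_mul] at h0
  have h1 : ∀ j, dcoRe j0 (pd j (dcoU G (c a) j) x) = pd j (fun y => G y j a) x := fun j => by
    rw [← hD.pd_clm (dcoRe j0) (dco_smooth_U hD g (s.sm a) j) hx j]
    exact hD.pd_congr (hU j) hx j
  simp only [h1] at h0
  linarith

variable {c₁ c₂ : Fin n → E n → Fib N} {j0 : Fin N}

theorem dco_coord_row (hD : RelOpen D) (g₁ : GOk D G₁) (g₂ : GOk D G₂)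
    (hB₁ : ∀ j, ContDiffOn ℝ ∞ (B₁ j) D) (hB₂ : ∀ j, ContDiffOn ℝ ∞ (B₂ j) D)
    (s₁ : SolD D G₁ B₁ c₁ j0) (s₂ : SolD D G₂ B₂ c₂ j0) {m : ℕ}
    (hG : ∀ j l, Van D (m + 1) (fun x => G₁ x j l - G₂ x j l))
    (hB : ∀ j, Van D (m + 1) (fun x => B₁ j x - B₂ j x))
    (hc : ∀ a, Van D (m + 2) (fun x => c₁ a x - c₂ a x)) (a : Fin n) :
    Van D (m + 2) (fun x => G₁ x 0 a - G₂ x 0 a) := by
  classical
  have smd : ∀ j l, ContDiffOn ℝ ∞ (fun x => G₁ x j l - G₂ x j l) D := fun j l =>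
    (g₁.smG j l).sub (g₂.smG j l)
  have hT := dco_T_van hD g₁ g₂ hB₁ hB₂ (s₁.sm a) (s₂.sm a) hG hB (hc a)
  have sT := (dco_smooth_T hD g₁ hB₁ (s₁.sm a)).sub (dco_smooth_T hD g₂ hB₂ (s₂.sm a))
  have hR := Van.clm hD ((-2 : ℝ) • dcoRe j0) sT hT
  have sR := dc_smooth_clm ((-2 : ℝ) • dcoRe (N := N) j0) sT
  have hS : Van D (m + 1) (fun x => ∑ j ∈ Finset.univ.erase (0 : Fin n),
      pd j (fun y => G₁ y j a - G₂ y j a) x) :=
    Van.sum hD _ (fun j _ => hD.pd_smooth (smd j a) j) fun j hj =>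
      Van.pd_tan hD (smd j a) (hG j a) (Finset.ne_of_mem_erase hj)
  have sS : ContDiffOn ℝ ∞ (fun x => ∑ j ∈ Finset.univ.erase (0 : Fin n),
      pd j (fun y => G₁ y j a - G₂ y j a) x) D :=
    dc_smooth_sum _ fun j _ => hD.pd_smooth (smd j a) j
  rw [van_succ]
  refine ⟨van_one.mp ((hG 0 a).mono (by omega)), ?_⟩
  refine Van.congr hD (Van.sub hD sR sS hR hS) fun x hx => ?_
  have e1 := dco_row_eq hD g₁ s₁ a hx
  have e2 := dco_row_eq hD g₂ s₂ a hx
  have e3 : ∑ j, pd j (fun y => G₁ y j a - G₂ y j a) x =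
      ∑ j, pd j (fun y => G₁ y j a) x - ∑ j, pd j (fun y => G₂ y j a) x := by
    rw [← Finset.sum_sub_distrib]
    exact Finset.sum_congr rfl fun j _ => hD.pd_sub (g₁.smG j a) (g₂.smG j a) hx j
  rw [← Finset.add_sum_erase _ _ (Finset.mem_univ (0 : Fin n)), e1, e2] at e3
  have e4 : ((-2 : ℝ) • dcoRe j0) (dcoT G₁ B₁ (c₁ a) x - dcoT G₂ B₂ (c₂ a) x) =
      -2 * (dcoRe j0 (dcoT G₁ B₁ (c₁ a) x) - dcoRe j0 (dcoT G₂ B₂ (c₂ a) x)) := by
    rw [_root_.smul_apply, map_sub, smul_eq_mul]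
  simp only [e4]
  linarith

theorem dco_coord_third (hD : RelOpen D) (g₁ : GOk D G₁) (g₂ : GOk D G₂)
    (hB₁ : ∀ j, ContDiffOn ℝ ∞ (B₁ j) D) (hB₂ : ∀ j, ContDiffOn ℝ ∞ (B₂ j) D)
    (s₁ : SolD D G₁ B₁ c₁ j0) (s₂ : SolD D G₂ B₂ c₂ j0)
    (hG : ∀ j l, Van D 2 (fun x => G₁ x j l - G₂ x j l))
    (hB : ∀ j, Van D 1 (fun x => B₁ j x - B₂ j x))
    (hc : ∀ a, Van D 2 (fun x => c₁ a x - c₂ a x)) (a : Fin n) :
    Van D 3 (fun x => c₁ a x - c₂ a x) := by
  classical
  have sdc : ContDiffOn ℝ ∞ (fun x => c₁ a x - c₂ a x) D := (s₁.sm a).sub (s₂.sm a)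
  have smd : ∀ j l, ContDiffOn ℝ ∞ (fun x => G₁ x j l - G₂ x j l) D := fun j l =>
    (g₁.smG j l).sub (g₂.smG j l)
  have hG1 : ∀ j l, Van D 1 (fun x => G₁ x j l - G₂ x j l) := fun j l => (hG j l).mono (by omega)
  have hT := dco_T_van hD g₁ g₂ hB₁ hB₂ (s₁.sm a) (s₂.sm a) hG1 hB (hc a)
  have hU := fun j => dco_U_van hD g₁ g₂ (s₁.sm a) (s₂.sm a) hG1 (hc a) j
  have sU := fun j => (dco_smooth_U hD g₁ (s₁.sm a) j).sub (dco_smooth_U hD g₂ (s₂.sm a) j)
  -- the normal derivative of the flux difference vanishes on the face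
  have key : ∀ x ∈ D, x 0 = 0 →
      pd 0 (fun y => dcoU G₁ (c₁ a) 0 y - dcoU G₂ (c₂ a) 0 y) x = 0 := by
    intro x hx hx0
    have e1 := s₁.eq a x hx
    have e2 := s₂.eq a x hx
    rw [dco_lop_eq] at e1 e2
    have e3 : ∑ j, pd j (fun y => dcoU G₁ (c₁ a) j y - dcoU G₂ (c₂ a) j y) x =
        ∑ j, pd j (dcoU G₁ (c₁ a) j) x - ∑ j, pd j (dcoU G₂ (c₂ a) j) x := by
      rw [← Finset.sum_sub_distrib]
      exact Finset.sum_congr rfl fun j _ =>
        hD.pd_sub (dco_smooth_U hD g₁ (s₁.sm a) j) (dco_smooth_U hD g₂ (s₂.sm a) j) hx j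
    have e4 : dcoT G₁ B₁ (c₁ a) x - dcoT G₂ B₂ (c₂ a) x = 0 := van_one.mp hT x hx hx0
    have e5 : ∑ j ∈ Finset.univ.erase (0 : Fin n),
        pd j (fun y => dcoU G₁ (c₁ a) j y - dcoU G₂ (c₂ a) j y) x = 0 :=
      Finset.sum_eq_zero fun j hj =>
        dc_pd_tan hD (sU j) (van_one.mp (hU j)) (Finset.ne_of_mem_erase hj) x hx hx0
    rw [← Finset.add_sum_erase _ _ (Finset.mem_univ (0 : Fin n)), e5, add_zero] at e3
    rw [e3, eq_neg_of_add_eq_zero_left e1, eq_neg_of_add_eq_zero_left e2, sub_eq_zero.mp e4,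
      sub_self]
  have vk : ∀ k, Van D 1 (pd k (fun x => c₁ a x - c₂ a x)) := fun k =>
    Van.pd_any hD sdc (hc a) k
  have term : ∀ x ∈ D, x 0 = 0 → ∀ k,
      pd 0 (fun y => G₁ y 0 k • pd k (c₁ a) y - G₂ y 0 k • pd k (c₂ a) y) x =
        G₂ x 0 k • pd 0 (pd k (fun x => c₁ a x - c₂ a x)) x := by
    intro x hx hx0 k
    have sA : ContDiffOn ℝ ∞ (fun y => (G₁ y 0 k - G₂ y 0 k) • pd k (c₁ a) y) D :=
      dc_smooth_bil dc_bil_smul (smd 0 k) (hD.pd_smooth (s₁.sm a) k)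
    have sB : ContDiffOn ℝ ∞ (fun y => G₂ y 0 k • pd k (fun x => c₁ a x - c₂ a x) y) D :=
      dc_smooth_bil dc_bil_smul (g₂.smG 0 k) (hD.pd_smooth sdc k)
    have hcong : EqOn (fun y => G₁ y 0 k • pd k (c₁ a) y - G₂ y 0 k • pd k (c₂ a) y)
        (fun y => (G₁ y 0 k - G₂ y 0 k) • pd k (c₁ a) y +
          G₂ y 0 k • pd k (fun x => c₁ a x - c₂ a x) y) D := by
      intro y hy
      simp only [hD.pd_sub (s₁.sm a) (s₂.sm a) hy k, sub_smul, smul_sub]
      abel
    have hA : Van D 2 (fun y => (G₁ y 0 k - G₂ y 0 k) • pd k (c₁ a) y) := by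
      have := Van.bil hD (dc_bil_smul (F := Fib N)) (smd 0 k) (hD.pd_smooth (s₁.sm a) k) (hG 0 k)
        (van_zero _)
      exact this
    have hA' := (van_one.mp (van_succ.mp hA).2) x hx hx0
    rw [hD.pd_congr hcong hx 0, hD.pd_add sA sB hx 0, hA', zero_add,
      hD.pd_smul (g₂.smG 0 k) (hD.pd_smooth sdc k) hx 0, van_one.mp (vk k) x hx hx0, smul_zero,
      add_zero]
  have hfin : ∀ x ∈ D, x 0 = 0 → pd 0 (pd 0 (fun x => c₁ a x - c₂ a x)) x = 0 := by
    intro x hx hx0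
    have e1 := key x hx hx0
    have hcong : EqOn (fun y => dcoU G₁ (c₁ a) 0 y - dcoU G₂ (c₂ a) 0 y)
        (fun y => ∑ k, (G₁ y 0 k • pd k (c₁ a) y - G₂ y 0 k • pd k (c₂ a) y)) D := by
      intro y _
      simp only [dcoU, Finset.sum_sub_distrib]
    rw [hD.pd_congr hcong hx 0, hD.pd_sum Finset.univ (fun k _ =>
      (dc_smooth_bil dc_bil_smul (g₁.smG 0 k) (hD.pd_smooth (s₁.sm a) k)).sub
      (dc_smooth_bil dc_bil_smul (g₂.smG 0 k) (hD.pd_smooth (s₂.sm a) k))) hx 0] at e1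
    rw [Finset.sum_congr rfl fun k _ => term x hx hx0 k,
      ← Finset.add_sum_erase _ _ (Finset.mem_univ (0 : Fin n))] at e1
    have e2 : ∑ k ∈ Finset.univ.erase (0 : Fin n),
        G₂ x 0 k • pd 0 (pd k (fun x => c₁ a x - c₂ a x)) x = 0 :=
      Finset.sum_eq_zero fun k hk => by
        have h2 : Van D 2 (pd k (fun x => c₁ a x - c₂ a x)) :=
          Van.pd_tan hD sdc (hc a) (Finset.ne_of_mem_erase hk)
        rw [van_one.mp (van_succ.mp h2).2 x hx hx0, smul_zero]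
    rw [e2, add_zero] at e1
    exact (smul_eq_zero.mp e1).resolve_left (g₂.pos x hx).diag_pos.ne'
  rw [van_succ, van_succ]
  exact ⟨van_one.mp ((hc a).mono (by omega)), (van_one.mp ((van_succ.mp (hc a)).2)),
    van_one.mpr hfin⟩

end Vale.Agent.P088.EYM
end
end

section

/-!
# P088-EYM, block D: inverse matrices and `g` from `√(det g) g⁻¹`
-/

open MeasureTheory Set Filter Topology
open scoped ContDiff

noncomputable section

namespace Vale.Agent.P088.EYM

set_option linter.unusedSectionVars false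

variable {n : ℕ} [NeZero n] {D : Set (E n)}

/-! ### Auxiliary facts on `Van` for real functions -/

theorem dme_mul_left (hD : RelOpen D) {k : ℕ} {f g : E n → ℝ} (hf : ContDiffOn ℝ ∞ f D)
    (hg : ContDiffOn ℝ ∞ g D) (h : Van D k f) : Van D k (fun y => f y * g y) :=
  Van.bil (k := k) (l := 0) hD dc_bil_mulR hf hg h (van_zero g)

theorem dme_mul_right (hD : RelOpen D) {k : ℕ} {f g : E n → ℝ} (hf : ContDiffOn ℝ ∞ f D)
    (hg : ContDiffOn ℝ ∞ g D) (h : Van D k g) : Van D k (fun y => f y * g y) :=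
  (Van.bil (k := 0) (l := k) hD dc_bil_mulR hf hg (van_zero f) h).mono (by omega)

theorem dme_smooth_prod {ι : Type*} (s : Finset ι) {f : ι → E n → ℝ}
    (hf : ∀ i, ContDiffOn ℝ ∞ (f i) D) : ContDiffOn ℝ ∞ (fun y => ∏ i ∈ s, f i y) D :=
  contDiffOn_prod fun i _ => hf i

theorem dme_van_prod (hD : RelOpen D) {ι : Type*} (s : Finset ι) {k : ℕ} {f g : ι → E n → ℝ}
    (hf : ∀ i, ContDiffOn ℝ ∞ (f i) D) (hg : ∀ i, ContDiffOn ℝ ∞ (g i) D)
    (h : ∀ i, Van D k (fun y => f i y - g i y)) :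
    Van D k (fun y => ∏ i ∈ s, f i y - ∏ i ∈ s, g i y) := by
  classical
  induction s using Finset.induction_on with
  | empty =>
    have h0 : Van D k (fun _ : E n => (0 : ℝ)) := by
      intro i _ x _ _
      have h1 : ∀ i : ℕ, (pd (0 : Fin n))^[i] (fun _ : E n => (0 : ℝ)) = fun _ => (0 : ℝ) := by
        intro i
        induction i with
        | zero => rfl
        | succ i ih =>
          rw [Function.iterate_succ_apply', ih]
          funext y
          exact pd_const _ _ _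
      rw [h1]
    exact h0.congr hD (fun x _ => by simp)
  | insert a s ha ih =>
    have h1 : Van D k (fun y => (f a y - g a y) * ∏ i ∈ s, f i y) :=
      dme_mul_left hD ((hf a).sub (hg a)) (dme_smooth_prod s hf) (h a)
    have h2 : Van D k (fun y => g a y * (∏ i ∈ s, f i y - ∏ i ∈ s, g i y)) :=
      dme_mul_right hD (hg a) ((dme_smooth_prod s hf).sub (dme_smooth_prod s hg)) ih
    refine (Van.add hD (((hf a).sub (hg a)).mul (dme_smooth_prod s hf))
      ((hg a).mul ((dme_smooth_prod s hf).sub (dme_smooth_prod s hg))) h1 h2).congr hD ?_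
    intro x _
    simp only [Finset.prod_insert ha]
    ring

/-! ### Determinants -/

theorem dme_smooth_det {m : ℕ} {g : E n → Matrix (Fin m) (Fin m) ℝ}
    (h : ∀ j l, ContDiffOn ℝ ∞ (fun x => g x j l) D) : ContDiffOn ℝ ∞ (fun x => (g x).det) D := by
  simp only [Matrix.det_apply']
  exact ContDiffOn.sum fun σ _ => contDiffOn_const.mul (contDiffOn_prod fun i _ => h _ _)

theorem dme_van_det (hD : RelOpen D) {m k : ℕ} {g₁ g₂ : E n → Matrix (Fin m) (Fin m) ℝ}
    (h₁ : ∀ j l, ContDiffOn ℝ ∞ (fun x => g₁ x j l) D)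
    (h₂ : ∀ j l, ContDiffOn ℝ ∞ (fun x => g₂ x j l) D)
    (h : ∀ j l, Van D k (fun x => g₁ x j l - g₂ x j l)) :
    Van D k (fun x => (g₁ x).det - (g₂ x).det) := by
  have h3 : Van D k (fun x => ∑ σ : Equiv.Perm (Fin m), (((Equiv.Perm.sign σ : ℤ) : ℝ) *
      (∏ i, g₁ x (σ i) i - ∏ i, g₂ x (σ i) i))) := by
    refine Van.sum hD _ (fun σ _ => contDiffOn_const.mul
      ((dme_smooth_prod _ fun i => h₁ _ _).sub (dme_smooth_prod _ fun i => h₂ _ _))) fun σ _ => ?_
    exact dme_mul_right hD contDiffOn_const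
      ((dme_smooth_prod _ fun i => h₁ _ _).sub (dme_smooth_prod _ fun i => h₂ _ _))
      (dme_van_prod hD Finset.univ (f := fun i x => g₁ x (σ i) i) (g := fun i x => g₂ x (σ i) i)
        (fun i => h₁ _ _) (fun i => h₂ _ _) (fun i => h _ _))
  refine h3.congr hD fun x _ => ?_
  simp only [Matrix.det_apply', mul_sub, Finset.sum_sub_distrib]

/-! ### Inverse matrices -/

theorem dme_smooth_adj {g : E n → Matrix (Fin n) (Fin n) ℝ}
    (h : ∀ j l, ContDiffOn ℝ ∞ (fun x => g x j l) D) (j l : Fin n) :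
    ContDiffOn ℝ ∞ (fun x => (g x).adjugate j l) D := by
  simp only [Matrix.adjugate_apply]
  refine dme_smooth_det fun a b => ?_
  by_cases hal : a = l
  · subst hal
    simp only [Matrix.updateRow_self]
    exact contDiffOn_const
  · simp only [Matrix.updateRow_ne hal]
    exact h a b

theorem dme_smooth_inv {g : E n → Matrix (Fin n) (Fin n) ℝ} (h : GOk D g) (j l : Fin n) :
    ContDiffOn ℝ ∞ (fun x => (g x)⁻¹ j l) D := by
  have h1 : ContDiffOn ℝ ∞ (fun x => (g x).det⁻¹ * (g x).adjugate j l) D :=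
    ((dme_smooth_det h.smG).inv fun x hx => (h.pos x hx).det_pos.ne').mul
      (dme_smooth_adj h.smG j l)
  refine h1.congr fun x _ => ?_
  rw [Matrix.inv_def, Ring.inverse_eq_inv', Matrix.smul_apply, smul_eq_mul]

theorem dme_inv_van (hD : RelOpen D) {g₁ g₂ : E n → Matrix (Fin n) (Fin n) ℝ}
    (h₁ : GOk D g₁) (h₂ : GOk D g₂) {k : ℕ} (hg : ∀ j l, Van D k (fun x => g₁ x j l - g₂ x j l))
    (j l : Fin n) : Van D k (fun x => (g₁ x)⁻¹ j l - (g₂ x)⁻¹ j l) := by
  have s1 := dme_smooth_inv h₁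
  have s2 := dme_smooth_inv h₂
  have sm : ∀ a b, ContDiffOn ℝ ∞
      (fun x => (-((g₁ x)⁻¹ j b) * (g₁ x b a - g₂ x b a)) * (g₂ x)⁻¹ a l) D := fun a b =>
    ((s1 _ _).neg.mul ((h₁.smG _ _).sub (h₂.smG _ _))).mul (s2 _ _)
  have h3 : Van D k (fun x => ∑ a, ∑ b,
      (-((g₁ x)⁻¹ j b) * (g₁ x b a - g₂ x b a)) * (g₂ x)⁻¹ a l) := by
    refine Van.sum hD _ (fun a _ => ContDiffOn.sum fun b _ => sm a b) fun a _ => ?_
    refine Van.sum hD _ (fun b _ => sm a b) fun b _ => ?_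
    refine dme_mul_left hD ((s1 _ _).neg.mul ((h₁.smG _ _).sub (h₂.smG _ _))) (s2 _ _) ?_
    exact dme_mul_right hD (s1 _ _).neg ((h₁.smG _ _).sub (h₂.smG _ _)) (hg b a)
  refine h3.congr hD fun x hx => ?_
  have u1 : IsUnit (g₁ x).det := (h₁.pos x hx).det_pos.ne'.isUnit
  have u2 : IsUnit (g₂ x).det := (h₂.pos x hx).det_pos.ne'.isUnit
  have e : (g₁ x)⁻¹ - (g₂ x)⁻¹ = (-(g₁ x)⁻¹ * (g₁ x - g₂ x)) * (g₂ x)⁻¹ := by
    rw [Matrix.mul_sub, Matrix.neg_mul, Matrix.nonsing_inv_mul _ u1, Matrix.sub_mul,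
      Matrix.neg_mul, Matrix.neg_mul, Matrix.neg_mul, Matrix.mul_assoc,
      Matrix.mul_nonsing_inv _ u2, Matrix.mul_one, Matrix.one_mul]
    abel
  have e' := congrFun (congrFun e j) l
  simp only [Matrix.sub_apply] at e'
  rw [e']
  simp only [Matrix.mul_apply, Matrix.neg_apply, Matrix.sub_apply, Finset.sum_mul]

/-! ### The matrix `√(det g) g⁻¹` -/

theorem dme_GM_eq (g : E n → Matrix (Fin n) (Fin n) ℝ) (x : E n) :
    GM g x = √(g x).det • (g x)⁻¹ := by
  ext j l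
  simp [GM, gg]

theorem dme_smooth_s {g : E n → Matrix (Fin n) (Fin n) ℝ} (h : GOk D g) :
    ContDiffOn ℝ ∞ (fun x => √(g x).det) D :=
  (dme_smooth_det h.smG).sqrt fun x hx => (h.pos x hx).det_pos.ne'

theorem dme_gok {g : E n → Matrix (Fin n) (Fin n) ℝ} (h : GOk D g) : GOk D (GM g) where
  smG := fun j k => (dme_smooth_s h).mul (dme_smooth_inv h j k)
  symm := fun x hx j k => by
    have h1 : ((g x)⁻¹).transpose = (g x)⁻¹ := by
      rw [Matrix.transpose_nonsing_inv]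
      congr 1
      ext a b
      exact h.symm x hx b a
    have h2 := congrFun (congrFun h1 k) j
    rw [Matrix.transpose_apply] at h2
    simp only [dme_GM_eq, Matrix.smul_apply, h2]
  pos := fun x hx => by
    rw [dme_GM_eq]
    exact (h.pos x hx).inv.smul (Real.sqrt_pos.2 (h.pos x hx).det_pos)

theorem dme_det_GM (hn : 3 ≤ n) {g : E n → Matrix (Fin n) (Fin n) ℝ} (h : GOk D g) {x : E n}
    (hx : x ∈ D) : (GM g x).det = √(g x).det ^ (n - 2) := by
  have hp := (h.pos x hx).det_pos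
  have hs : 0 < √(g x).det := Real.sqrt_pos.2 hp
  rw [dme_GM_eq, Matrix.det_smul, Fintype.card_fin, Matrix.det_nonsing_inv,
    Ring.inverse_eq_inv']
  have h2 : (g x).det = √(g x).det ^ 2 := (Real.sq_sqrt hp.le).symm
  have h3 : √(g x).det ^ n = √(g x).det ^ (n - 2) * √(g x).det ^ 2 := by
    rw [← pow_add]; congr 1; omega
  rw [h3, ← h2, mul_assoc, mul_inv_cancel₀ hp.ne', mul_one]

theorem dme_van_s (hn : 3 ≤ n) (hD : RelOpen D) {g₁ g₂ : E n → Matrix (Fin n) (Fin n) ℝ}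
    (h₁ : GOk D g₁) (h₂ : GOk D g₂)
    {k : ℕ} (hG : ∀ j l, Van D k (fun x => GM g₁ x j l - GM g₂ x j l)) :
    Van D k (fun x => √(g₁ x).det - √(g₂ x).det) := by
  have hd := dme_van_det hD (dme_gok h₁).smG (dme_gok h₂).smG hG
  have sS : ContDiffOn ℝ ∞ (fun x => ∑ i ∈ Finset.range (n - 2),
      √(g₁ x).det ^ i * √(g₂ x).det ^ (n - 2 - 1 - i)) D :=
    ContDiffOn.sum fun i _ => ((dme_smooth_s h₁).pow i).mul ((dme_smooth_s h₂).pow _)
  have pS : ∀ x ∈ D, 0 < ∑ i ∈ Finset.range (n - 2),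
      √(g₁ x).det ^ i * √(g₂ x).det ^ (n - 2 - 1 - i) := fun x hx => by
    have a1 : 0 < √(g₁ x).det := Real.sqrt_pos.2 (h₁.pos x hx).det_pos
    have a2 : 0 < √(g₂ x).det := Real.sqrt_pos.2 (h₂.pos x hx).det_pos
    exact Finset.sum_pos (fun i _ => by (clear * - a1 a2; positivity)) ⟨0, Finset.mem_range.2 (by omega)⟩
  have h3 := dme_mul_right hD (sS.inv fun x hx => (pS x hx).ne')
    ((dme_smooth_det (dme_gok h₁).smG).sub (dme_smooth_det (dme_gok h₂).smG)) hd
  refine h3.congr hD fun x hx => ?_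
  simp only [dme_det_GM hn h₁ hx, dme_det_GM hn h₂ hx, Pi.inv_apply]
  rw [← geom_sum₂_mul, ← mul_assoc, inv_mul_cancel₀ (pS x hx).ne', one_mul]

theorem dme_metric_van (hn : 3 ≤ n) (hD : RelOpen D) {g₁ g₂ : E n → Matrix (Fin n) (Fin n) ℝ}
    (h₁ : GOk D g₁) (h₂ : GOk D g₂)
    {k : ℕ} (hG : ∀ j l, Van D k (fun x => GM g₁ x j l - GM g₂ x j l)) :
    ∀ j l, Van D k (fun x => g₁ x j l - g₂ x j l) := by
  intro j l
  have k₁ := dme_gok h₁
  have k₂ := dme_gok h₂
  have hs := dme_van_s hn hD h₁ h₂ hG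
  have hi := dme_inv_van hD k₁ k₂ hG j l
  have t1 := dme_mul_left hD ((dme_smooth_s h₁).sub (dme_smooth_s h₂)) (dme_smooth_inv k₁ j l) hs
  have t2 := dme_mul_right hD (dme_smooth_s h₂)
    ((dme_smooth_inv k₁ j l).sub (dme_smooth_inv k₂ j l)) hi
  refine (Van.add hD (((dme_smooth_s h₁).sub (dme_smooth_s h₂)).mul (dme_smooth_inv k₁ j l))
    ((dme_smooth_s h₂).mul ((dme_smooth_inv k₁ j l).sub (dme_smooth_inv k₂ j l))) t1 t2).congr
    hD fun x hx => ?_
  have key : ∀ g : E n → Matrix (Fin n) (Fin n) ℝ, GOk D g →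
      g x j l = √(g x).det * (GM g x)⁻¹ j l := fun g h => by
    have hp := (h.pos x hx).det_pos
    have hs : 0 < √(g x).det := Real.sqrt_pos.2 hp
    have e : (GM g x)⁻¹ = (√(g x).det)⁻¹ • g x := by
      refine Matrix.inv_eq_left_inv ?_
      rw [dme_GM_eq, Matrix.smul_mul, Matrix.mul_smul, smul_smul, inv_mul_cancel₀ hs.ne',
        Matrix.mul_nonsing_inv _ hp.ne'.isUnit, one_smul]
    rw [e, Matrix.smul_apply, smul_eq_mul, ← mul_assoc, mul_inv_cancel₀ hs.ne', one_mul]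
  simp only [key g₁ h₁, key g₂ h₂]
  ring

end Vale.Agent.P088.EYM
end
end

section

set_option linter.all false

/-!
P088-EYM-A9: cut-off of a local weak solution.
-/

open MeasureTheory Filter Topology
open scoped ContDiff ENNReal

namespace Vale.Agent.P088.A

variable {d : ℕ}

lemma wu_L2 {U : Set (V d)} (hU : IsOpen U) {f g : V d → ℝ}
    (hf : MemLp f 2 (volume.restrict U)) (hg : Continuous g) (hc : HasCompactSupport g)
    (hs : tsupport g ⊆ U) : MemLp (fun x => g x * f x) 2 volume := by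
  have h1 : MemLp (U.indicator f) 2 volume := (memLp_indicator_iff_restrict hU.measurableSet).2 hf
  obtain ⟨C, hC⟩ := hc.exists_bound_of_continuous hg
  have h2 := memLp_bdd_mul hg.aestronglyMeasurable
    (Filter.Eventually.of_forall fun x => hC x) h1
  refine h2.congr_norm ?_ ?_ |>.mono_measure le_rfl
  · have h3 : (fun x => g x * f x) = fun x => g x * U.indicator f x := by
      funext x
      by_cases hx : x ∈ U
      · simp [hx]
      · simp [image_eq_zero_of_notMem_tsupport fun h => hx (hs h)]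
    rw [h3]
    exact h2.1
  · refine Filter.Eventually.of_forall fun x => ?_
    by_cases hx : x ∈ U
    · simp [hx]
    · simp [image_eq_zero_of_notMem_tsupport fun h => hx (hs h)]

lemma wu_int {U : Set (V d)} (hU : IsOpen U) {f g : V d → ℝ}
    (hf : MemLp f 2 (volume.restrict U)) (hg : Continuous g) (hc : HasCompactSupport g)
    (hs : tsupport g ⊆ U) : Integrable (fun x => f x * g x) volume := by
  have h1 : MemLp (U.indicator f) 2 volume := (memLp_indicator_iff_restrict hU.measurableSet).2 hf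
  have h2 := mul_int h1 (hg.memLp_of_hasCompactSupport hc)
  refine h2.congr (Filter.Eventually.of_forall fun x => ?_)
  by_cases hx : x ∈ U
  · simp [hx]
  · simp [image_eq_zero_of_notMem_tsupport fun h => hx (hs h)]

lemma wu_four {f1 f2 f3 f4 : V d → ℝ} (h1 : Integrable f1) (h2 : Integrable f2)
    (h3 : Integrable f3) (h4 : Integrable f4) :
    (∫ x, f1 x) - (∫ x, f2 x) + (∫ x, f3 x) - (∫ x, f4 x)
      = ∫ x, (f1 x - f2 x + f3 x - f4 x) := by
  have u1 : Integrable (fun x => f1 x - f2 x) := h1.sub h2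
  have u2 : Integrable (fun x => f1 x - f2 x + f3 x) := u1.add h3
  rw [integral_sub u2 h4, integral_add u1 h3, integral_sub h1 h2]

lemma wu_four' {f1 f2 f3 f4 : V d → ℝ} (h1 : Integrable f1) (h2 : Integrable f2)
    (h3 : Integrable f3) (h4 : Integrable f4) :
    (∫ x, f1 x) - (∫ x, f2 x) - (∫ x, f3 x) - (∫ x, f4 x)
      = ∫ x, (f1 x - f2 x - f3 x - f4 x) := by
  have u1 : Integrable (fun x => f1 x - f2 x) := h1.sub h2
  have u2 : Integrable (fun x => f1 x - f2 x - f3 x) := u1.sub h3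
  rw [integral_sub u2 h4, integral_sub u1 h3, integral_sub h1 h2]

theorem cutoff {a : Fin d → Fin d → V d → ℝ} (ha : ∀ j k, ContDiff ℝ 2 (a j k))
    {U : Set (V d)} (hU : IsOpen U) {w : V d → ℝ} {Dw : Fin d → V d → ℝ} {F : V d → ℝ}
    (h : WS a U w Dw F) {χ : V d → ℝ} (hχ : TF U χ) :
    WS a Set.univ (fun x => χ x * w x) (fun k x => χ x * Dw k x + pa k χ x * w x)
      (fun x => χ x * F x - (∑ j, ∑ k, a j k x * Dw j x * pa k χ x)
        - (∑ j, ∑ k, a j k x * pa j χ x * Dw k x)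
        - (∑ j, ∑ k, pa k (fun y => a j k y * pa j χ y) x) * w x) := by
  obtain ⟨hχ1, hχ2, hχ3⟩ := hχ
  have hχc : Continuous χ := hχ1.continuous
  have hp1 : ∀ k, ContDiff ℝ ∞ (pa k χ) := fun k => pa_contDiff_infty hχ1 k
  have hp2 : ∀ k, HasCompactSupport (pa k χ) := fun k => pa_hasCompactSupport hχ2 k
  have hp3 : ∀ k, tsupport (pa k χ) ⊆ U := fun k => (tsupport_pa_subset χ k).trans hχ3
  have hb1 : ∀ j k, ContDiff ℝ 1 (fun y => a j k y * pa j χ y) := fun j k =>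
    ((ha j k).of_le (by norm_num)).mul ((hp1 j).of_le (by simp))
  have hb2 : ∀ j k, HasCompactSupport (fun y => a j k y * pa j χ y) := fun j k =>
    (hp2 j).mul_left
  have hb3 : ∀ j k, tsupport (fun y => a j k y * pa j χ y) ⊆ U := fun j k =>
    (tsupport_mul_subset_right (f := fun y => a j k y) (g := pa j χ)).trans (hp3 j)
  have hc1 : ∀ j k, Continuous (pa k (fun y => a j k y * pa j χ y)) := fun j k =>
    pa_continuous (hb1 j k) k
  have hc2 : ∀ j k, HasCompactSupport (pa k (fun y => a j k y * pa j χ y)) := fun j k =>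
    pa_hasCompactSupport (hb2 j k) k
  have hc3 : ∀ j k, tsupport (pa k (fun y => a j k y * pa j χ y)) ⊆ U := fun j k =>
    (tsupport_pa_subset _ k).trans (hb3 j k)
  have hap : ∀ j k, Continuous (fun x => a j k x * pa k χ x) := fun j k =>
    (ha j k).continuous.mul (hp1 k).continuous
  have hap2 : ∀ j k, HasCompactSupport (fun x => a j k x * pa k χ x) := fun j k =>
    (hp2 k).mul_left
  have hap3 : ∀ j k, tsupport (fun x => a j k x * pa k χ x) ⊆ U := fun j k =>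
    (tsupport_mul_subset_right (f := fun y => a j k y) (g := pa k χ)).trans (hp3 k)
  refine ⟨?_, ?_, ?_, ?_, ?_⟩
  · rw [Measure.restrict_univ]
    exact wu_L2 hU h.w_L2 hχc hχ2 hχ3
  · intro k
    rw [Measure.restrict_univ]
    exact (wu_L2 hU (h.D_L2 k) hχc hχ2 hχ3).add
      (wu_L2 hU h.w_L2 (hp1 k).continuous (hp2 k) (hp3 k))
  · rw [Measure.restrict_univ]
    have e1 : MemLp (fun x => ∑ j, ∑ k, a j k x * Dw j x * pa k χ x) 2 volume := by
      refine memLp_finset_sum _ fun j _ => memLp_finset_sum _ fun k _ => ?_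
      refine (wu_L2 hU (h.D_L2 j) (hap j k) (hap2 j k) (hap3 j k)).ae_eq
        (Filter.Eventually.of_forall fun x => ?_)
      show a j k x * pa k χ x * Dw j x = a j k x * Dw j x * pa k χ x
      ring
    have e2 : MemLp (fun x => ∑ j, ∑ k, a j k x * pa j χ x * Dw k x) 2 volume :=
      memLp_finset_sum _ fun j _ => memLp_finset_sum _ fun k _ =>
        wu_L2 hU (h.D_L2 k) (hb1 j k).continuous (hb2 j k) (hb3 j k)
    have e3 : MemLp (fun x => (∑ j, ∑ k, pa k (fun y => a j k y * pa j χ y) x) * w x) 2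
        volume := by
      have : (fun x => (∑ j, ∑ k, pa k (fun y => a j k y * pa j χ y) x) * w x)
          = fun x => ∑ j, ∑ k, pa k (fun y => a j k y * pa j χ y) x * w x := by
        funext x
        rw [Finset.sum_mul]
        exact Finset.sum_congr rfl fun j _ => Finset.sum_mul _ _ _
      rw [this]
      exact memLp_finset_sum _ fun j _ => memLp_finset_sum _ fun k _ =>
        wu_L2 hU h.w_L2 (hc1 j k) (hc2 j k) (hc3 j k)
    exact (((wu_L2 hU h.F_L2 hχc hχ2 hχ3).sub e1).sub e2).sub e3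
  · intro k φ hφ
    obtain ⟨hφ1, hφ2, -⟩ := hφ
    have hχφ : TF U (fun x => χ x * φ x) :=
      ⟨hχ1.mul hφ1, hχ2.mul_right, (tsupport_mul_subset_left).trans hχ3⟩
    have g1 := h.grad k _ hχφ
    have e1 : ∀ x, pa k (fun x => χ x * φ x) x = pa k χ x * φ x + χ x * pa k φ x := fun x =>
      pa_mul ((hχ1.differentiable (by simp)) x) ((hφ1.differentiable (by simp)) x) k
    have i1 : Integrable (fun x => w x * pa k (fun x => χ x * φ x) x) volume :=
      wu_int hU h.w_L2 (pa_contDiff_infty hχφ.1 k).continuous (pa_hasCompactSupport hχφ.2.1 k)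
        ((tsupport_pa_subset _ k).trans hχφ.2.2)
    have i2 : Integrable (fun x => w x * (pa k χ x * φ x)) volume :=
      wu_int hU h.w_L2 ((hp1 k).continuous.mul hφ1.continuous) ((hp2 k).mul_right)
        ((tsupport_mul_subset_left (f := pa k χ) (g := φ)).trans (hp3 k))
    have i3 : Integrable (fun x => Dw k x * (χ x * φ x)) volume :=
      wu_int hU (h.D_L2 k) hχφ.1.continuous hχφ.2.1 hχφ.2.2
    have e2 : ∫ x, χ x * w x * pa k φ x
        = (∫ x, w x * pa k (fun x => χ x * φ x) x) - ∫ x, w x * (pa k χ x * φ x) := by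
      rw [← integral_sub i1 i2]
      refine integral_congr_ae (Filter.Eventually.of_forall fun x => ?_)
      show χ x * w x * pa k φ x = w x * pa k (fun x => χ x * φ x) x - w x * (pa k χ x * φ x)
      rw [e1]
      ring
    have e3 : ∫ x, (χ x * Dw k x + pa k χ x * w x) * φ x
        = (∫ x, Dw k x * (χ x * φ x)) + ∫ x, w x * (pa k χ x * φ x) := by
      rw [← integral_add i3 i2]
      refine integral_congr_ae (Filter.Eventually.of_forall fun x => ?_)
      show (χ x * Dw k x + pa k χ x * w x) * φ x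
        = Dw k x * (χ x * φ x) + w x * (pa k χ x * φ x)
      ring
    show ∫ x, χ x * w x * pa k φ x = - ∫ x, (χ x * Dw k x + pa k χ x * w x) * φ x
    rw [e2, g1, e3]
    ring
  · intro φ hφ
    obtain ⟨hφ1, hφ2, -⟩ := hφ
    have hχφ : TF U (fun x => χ x * φ x) :=
      ⟨hχ1.mul hφ1, hχ2.mul_right, (tsupport_mul_subset_left).trans hχ3⟩
    have e1 : ∀ k x, pa k (fun x => χ x * φ x) x = pa k χ x * φ x + χ x * pa k φ x := fun k x =>
      pa_mul ((hχ1.differentiable (by simp)) x) ((hφ1.differentiable (by simp)) x) k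
    have e2 : ∀ j k x, pa k (fun x => (a j k x * pa j χ x) * φ x) x
        = pa k (fun y => a j k y * pa j χ y) x * φ x + (a j k x * pa j χ x) * pa k φ x :=
      fun j k x => pa_mul (((hb1 j k).differentiable (by norm_num)) x)
        ((hφ1.differentiable (by simp)) x) k
    have hg1 : ∀ j k, ContDiff ℝ 1 (fun x => (a j k x * pa j χ x) * φ x) := fun j k =>
      (hb1 j k).mul (hφ1.of_le (by simp))
    have hg2 : ∀ j k, HasCompactSupport (fun x => (a j k x * pa j χ x) * φ x) := fun j k =>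
      (hb2 j k).mul_right
    have hg3 : ∀ j k, tsupport (fun x => (a j k x * pa j χ x) * φ x) ⊆ U := fun j k =>
      (tsupport_mul_subset_left (f := fun x => a j k x * pa j χ x) (g := φ)).trans (hb3 j k)
    -- the four pieces
    have g1 := h.eqn _ hχφ
    have g2 : ∀ j k, ∫ x, w x * pa k (fun x => (a j k x * pa j χ x) * φ x) x
        = - ∫ x, Dw k x * ((a j k x * pa j χ x) * φ x) := fun j k =>
      grad_C1 hU h.w_L2 (h.D_L2 k) (h.grad k) (hg1 j k) (hg2 j k) (hg3 j k)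
    have i1 : ∀ j k, Integrable (fun x => a j k x * Dw j x * pa k (fun x => χ x * φ x) x)
        volume := by
      intro j k
      refine (wu_int hU (h.D_L2 j) (g := fun x => a j k x * pa k (fun x => χ x * φ x) x)
        ((ha j k).continuous.mul (pa_contDiff_infty hχφ.1 k).continuous)
        ((pa_hasCompactSupport hχφ.2.1 k).mul_left)
        ((tsupport_mul_subset_right (f := fun y => a j k y)).trans
          ((tsupport_pa_subset _ k).trans hχφ.2.2))).congr
        (Filter.Eventually.of_forall fun x => ?_)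
      show Dw j x * (a j k x * pa k (fun x => χ x * φ x) x)
        = a j k x * Dw j x * pa k (fun x => χ x * φ x) x
      ring
    have i2 : ∀ j k, Integrable (fun x => a j k x * Dw j x * pa k χ x * φ x) volume := by
      intro j k
      refine (wu_int hU (h.D_L2 j) (g := fun x => a j k x * pa k χ x * φ x)
        ((hap j k).mul hφ1.continuous) ((hap2 j k).mul_right)
        ((tsupport_mul_subset_left (f := fun x => a j k x * pa k χ x) (g := φ)).trans
          (hap3 j k))).congr (Filter.Eventually.of_forall fun x => ?_)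
      show Dw j x * (a j k x * pa k χ x * φ x) = a j k x * Dw j x * pa k χ x * φ x
      ring
    have i3 : ∀ j k, Integrable (fun x => w x * pa k (fun x => (a j k x * pa j χ x) * φ x) x)
        volume := fun j k =>
      wu_int hU h.w_L2 (pa_continuous (hg1 j k) k) (pa_hasCompactSupport (hg2 j k) k)
        ((tsupport_pa_subset _ k).trans (hg3 j k))
    have i4 : ∀ j k, Integrable (fun x => w x * (pa k (fun y => a j k y * pa j χ y) x * φ x))
        volume := fun j k =>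
      wu_int hU h.w_L2 ((hc1 j k).mul hφ1.continuous) ((hc2 j k).mul_right)
        ((tsupport_mul_subset_left (f := pa k (fun y => a j k y * pa j χ y)) (g := φ)).trans
          (hc3 j k))
    have i5 : ∀ j k, Integrable (fun x => Dw k x * ((a j k x * pa j χ x) * φ x)) volume :=
      fun j k => wu_int hU (h.D_L2 k) (hg1 j k).continuous (hg2 j k) (hg3 j k)
    have i6 : Integrable (fun x => F x * (χ x * φ x)) volume :=
      wu_int hU h.F_L2 hχφ.1.continuous hχφ.2.1 hχφ.2.2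
    have hL : ∫ x, (∑ j, ∑ k, a j k x * (χ x * Dw j x + pa j χ x * w x) * pa k φ x)
        = (∫ x, ∑ j, ∑ k, a j k x * Dw j x * pa k (fun x => χ x * φ x) x)
          - (∑ j, ∑ k, ∫ x, a j k x * Dw j x * pa k χ x * φ x)
          + (∑ j, ∑ k, ∫ x, w x * pa k (fun x => (a j k x * pa j χ x) * φ x) x)
          - ∑ j, ∑ k, ∫ x, w x * (pa k (fun y => a j k y * pa j χ y) x * φ x) := by
      have s1 := integrable_finset_sum (Finset.univ : Finset (Fin d)) fun j _ =>
        integrable_finset_sum (Finset.univ : Finset (Fin d)) fun k _ => i1 j k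
      have s2 := integrable_finset_sum (Finset.univ : Finset (Fin d)) fun j _ =>
        integrable_finset_sum (Finset.univ : Finset (Fin d)) fun k _ => i2 j k
      have s3 := integrable_finset_sum (Finset.univ : Finset (Fin d)) fun j _ =>
        integrable_finset_sum (Finset.univ : Finset (Fin d)) fun k _ => i3 j k
      have s4 := integrable_finset_sum (Finset.univ : Finset (Fin d)) fun j _ =>
        integrable_finset_sum (Finset.univ : Finset (Fin d)) fun k _ => i4 j k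
      have t2 : ∑ j, ∑ k, ∫ x, a j k x * Dw j x * pa k χ x * φ x
          = ∫ x, ∑ j, ∑ k, a j k x * Dw j x * pa k χ x * φ x := by
        rw [integral_finset_sum _ fun j _ => integrable_finset_sum _ fun k _ => i2 j k]
        exact Finset.sum_congr rfl fun j _ => (integral_finset_sum _ fun k _ => i2 j k).symm
      have t3 : ∑ j, ∑ k, ∫ x, w x * pa k (fun x => (a j k x * pa j χ x) * φ x) x
          = ∫ x, ∑ j, ∑ k, w x * pa k (fun x => (a j k x * pa j χ x) * φ x) x := by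
        rw [integral_finset_sum _ fun j _ => integrable_finset_sum _ fun k _ => i3 j k]
        exact Finset.sum_congr rfl fun j _ => (integral_finset_sum _ fun k _ => i3 j k).symm
      have t4 : ∑ j, ∑ k, ∫ x, w x * (pa k (fun y => a j k y * pa j χ y) x * φ x)
          = ∫ x, ∑ j, ∑ k, w x * (pa k (fun y => a j k y * pa j χ y) x * φ x) := by
        rw [integral_finset_sum _ fun j _ => integrable_finset_sum _ fun k _ => i4 j k]
        exact Finset.sum_congr rfl fun j _ => (integral_finset_sum _ fun k _ => i4 j k).symm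
      rw [t2, t3, t4, wu_four s1 s2 s3 s4]
      refine integral_congr_ae (Filter.Eventually.of_forall fun x => ?_)
      simp only []
      rw [← Finset.sum_sub_distrib, ← Finset.sum_add_distrib, ← Finset.sum_sub_distrib]
      refine Finset.sum_congr rfl fun j _ => ?_
      rw [← Finset.sum_sub_distrib, ← Finset.sum_add_distrib, ← Finset.sum_sub_distrib]
      refine Finset.sum_congr rfl fun k _ => ?_
      rw [e1, e2]
      ring
    have hR : ∫ x, (χ x * F x - (∑ j, ∑ k, a j k x * Dw j x * pa k χ x)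
        - (∑ j, ∑ k, a j k x * pa j χ x * Dw k x)
        - (∑ j, ∑ k, pa k (fun y => a j k y * pa j χ y) x) * w x) * φ x
        = (∫ x, F x * (χ x * φ x))
          - (∑ j, ∑ k, ∫ x, a j k x * Dw j x * pa k χ x * φ x)
          - (∑ j, ∑ k, ∫ x, Dw k x * ((a j k x * pa j χ x) * φ x))
          - ∑ j, ∑ k, ∫ x, w x * (pa k (fun y => a j k y * pa j χ y) x * φ x) := by
      have s2 := integrable_finset_sum (Finset.univ : Finset (Fin d)) fun j _ =>
        integrable_finset_sum (Finset.univ : Finset (Fin d)) fun k _ => i2 j k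
      have s4 := integrable_finset_sum (Finset.univ : Finset (Fin d)) fun j _ =>
        integrable_finset_sum (Finset.univ : Finset (Fin d)) fun k _ => i4 j k
      have s5 := integrable_finset_sum (Finset.univ : Finset (Fin d)) fun j _ =>
        integrable_finset_sum (Finset.univ : Finset (Fin d)) fun k _ => i5 j k
      have t2 : ∑ j, ∑ k, ∫ x, a j k x * Dw j x * pa k χ x * φ x
          = ∫ x, ∑ j, ∑ k, a j k x * Dw j x * pa k χ x * φ x := by
        rw [integral_finset_sum _ fun j _ => integrable_finset_sum _ fun k _ => i2 j k]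
        exact Finset.sum_congr rfl fun j _ => (integral_finset_sum _ fun k _ => i2 j k).symm
      have t4 : ∑ j, ∑ k, ∫ x, w x * (pa k (fun y => a j k y * pa j χ y) x * φ x)
          = ∫ x, ∑ j, ∑ k, w x * (pa k (fun y => a j k y * pa j χ y) x * φ x) := by
        rw [integral_finset_sum _ fun j _ => integrable_finset_sum _ fun k _ => i4 j k]
        exact Finset.sum_congr rfl fun j _ => (integral_finset_sum _ fun k _ => i4 j k).symm
      have t5 : ∑ j, ∑ k, ∫ x, Dw k x * ((a j k x * pa j χ x) * φ x)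
          = ∫ x, ∑ j, ∑ k, Dw k x * ((a j k x * pa j χ x) * φ x) := by
        rw [integral_finset_sum _ fun j _ => integrable_finset_sum _ fun k _ => i5 j k]
        exact Finset.sum_congr rfl fun j _ => (integral_finset_sum _ fun k _ => i5 j k).symm
      rw [t2, t4, t5, wu_four' i6 s2 s5 s4]
      refine integral_congr_ae (Filter.Eventually.of_forall fun x => ?_)
      simp only [sub_mul, Finset.sum_mul]
      have q1 : χ x * F x * φ x = F x * (χ x * φ x) := by ring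
      rw [q1]
      congr 1
      · congr 1
        refine Finset.sum_congr rfl fun j _ => Finset.sum_congr rfl fun k _ => ?_
        ring
      · refine Finset.sum_congr rfl fun j _ => Finset.sum_congr rfl fun k _ => ?_
        ring
    show ∫ x, (∑ j, ∑ k, a j k x * (χ x * Dw j x + pa j χ x * w x) * pa k φ x) = _
    rw [hL, hR, g1]
    simp only [g2, Finset.sum_neg_distrib]
    ring

end Vale.Agent.P088.A
end

section

/-!
P088-EYM-A10: unique continuation across a touching sphere, and the spreading lemma.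
-/

set_option linter.all false

open MeasureTheory Filter Topology
open scoped ContDiff ENNReal

namespace Vale.Agent.P088.A

variable {d : ℕ}

/-- The weak gradient vanishes where the function vanishes. -/
theorem grad_zero {a : Fin d → Fin d → V d → ℝ} {U : Set (V d)} {w : V d → ℝ}
    {Dw : Fin d → V d → ℝ} {F : V d → ℝ} (h : WS a U w Dw F) {O : Set (V d)} (hO : IsOpen O)
    (hOU : O ⊆ U) (h0 : ∀ᵐ x, x ∈ O → w x = 0) : ∀ᵐ x, x ∈ O → ∀ k, Dw k x = 0 := by
  have key : ∀ k, ∀ᵐ x, x ∈ O → Dw k x = 0 := by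
    intro k
    have hl : LocallyIntegrableOn (Dw k) O volume := by
      apply locallyIntegrableOn_of_locallyIntegrable_restrict
      exact ((h.D_L2 k).mono_measure (Measure.restrict_mono hOU le_rfl)).locallyIntegrable
        (by norm_num)
    refine hO.ae_eq_zero_of_integral_contDiff_smul_eq_zero hl ?_
    intro φ h1 h2 h3
    have h4 := h.grad k φ ⟨h1, h2, h3.trans hOU⟩
    have h5 : ∫ x, w x * pa k φ x = 0 := by
      apply integral_eq_zero_of_ae
      filter_upwards [h0] with x hx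
      by_cases hxO : x ∈ O
      · simp [hx hxO]
      · have : pa k φ x = 0 := by
          by_contra hne
          exact hxO (h3 (tsupport_pa_subset φ k (subset_tsupport _ hne)))
        simp [this]
    have h6 : ∫ x, Dw k x * φ x = 0 := by linarith only [h4, h5]
    rw [← h6]
    refine integral_congr_ae (Eventually.of_forall fun x => ?_)
    simp [mul_comm]
  have := ae_all_iff.2 key
  filter_upwards [this] with x hx hxO k
  exact hx k hxO

theorem to_pa_psi (y' x : V d) (i : Fin d) :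
    pa i (fun x => -‖x - y'‖ ^ 2) x = -(2 * (x i - y' i)) := by
  have h1 : HasFDerivAt (fun x : V d => x - y') (ContinuousLinearMap.id ℝ (V d)) x :=
    (hasFDerivAt_id x).sub_const y'
  have h2 := (h1.norm_sq).neg
  unfold pa
  have e : (fun x : V d => -‖x - y'‖ ^ 2) = -(fun x : V d => ‖x - y'‖ ^ 2) := rfl
  rw [e, h2.fderiv]
  simp [EuclideanSpace.inner_single_right]

theorem to_parallel (x x₀ y : V d) : ‖x - (1 / 2 : ℝ) • (x₀ + y)‖ ^ 2 =
    ‖x - x₀‖ ^ 2 / 2 + ‖x - y‖ ^ 2 / 2 - dist x₀ y ^ 2 / 4 := by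
  have h := parallelogram_law_with_norm ℝ (x - x₀) (x - y)
  have e1 : x - x₀ - (x - y) = y - x₀ := by abel
  have e2 : x - (1 / 2 : ℝ) • (x₀ + y) = (1 / 2 : ℝ) • (x - x₀ + (x - y)) := by
    have : x = (1 / 2 : ℝ) • (x + x) := by
      rw [← two_smul ℝ x, smul_smul]
      norm_num
    conv_lhs => rw [this]
    rw [← smul_sub]
    congr 1
    abel
  rw [e1] at h
  rw [e2, norm_smul, dist_comm, dist_eq_norm, mul_pow]
  have e3 : ‖(1 / 2 : ℝ)‖ ^ 2 = 1 / 4 := by norm_num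
  rw [e3]
  linarith

theorem to_sq_bound {ι : Type*} [Fintype ι] (C : ℝ) (F : ι → ℝ) (w : ι → ℝ) (D : ι → Fin d → ℝ)
    (hF : ∀ i, |F i| ≤ C * ∑ l, (|w l| + ∑ k, |D l k|)) :
    ∑ i, F i ^ 2 ≤ ((Fintype.card ι : ℝ) * (C ^ 2 * ((Fintype.card ι : ℝ) * (2 + 2 * d)))) *
      ∑ l, (w l ^ 2 + ∑ k, D l k ^ 2) := by
  set s := ∑ l, (|w l| + ∑ k, |D l k|) with hs
  have hs0 : 0 ≤ s := Finset.sum_nonneg fun l _ =>
    add_nonneg (abs_nonneg _) (Finset.sum_nonneg fun k _ => abs_nonneg _)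
  have h1 : ∀ i, F i ^ 2 ≤ C ^ 2 * s ^ 2 := by
    intro i
    rw [← sq_abs, ← mul_pow]
    exact pow_le_pow_left₀ (abs_nonneg _) (hF i) 2
  have h2 : s ^ 2 ≤ (Fintype.card ι : ℝ) * ∑ l, (|w l| + ∑ k, |D l k|) ^ 2 := by
    have := sq_sum_le_card_mul_sum_sq (s := (Finset.univ : Finset ι))
      (f := fun l => |w l| + ∑ k, |D l k|)
    simpa only [ge_iff_le, Finset.card_univ] using this
  have h3 : ∀ l, (|w l| + ∑ k, |D l k|) ^ 2 ≤ (2 + 2 * d) * (w l ^ 2 + ∑ k, D l k ^ 2) := by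
    intro l
    have h4 : (∑ k, |D l k|) ^ 2 ≤ (d : ℝ) * ∑ k, D l k ^ 2 := by
      have := sq_sum_le_card_mul_sum_sq (s := (Finset.univ : Finset (Fin d)))
        (f := fun k => |D l k|)
      simpa only [ge_iff_le, Finset.card_univ, Fintype.card_fin, sq_abs] using this
    have h5 : 0 ≤ ∑ k, D l k ^ 2 := Finset.sum_nonneg fun k _ => sq_nonneg _
    have h6 : (|w l| + ∑ k, |D l k|) ^ 2 ≤ 2 * w l ^ 2 + 2 * (∑ k, |D l k|) ^ 2 := by
      have := sq_nonneg (|w l| - ∑ k, |D l k|)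
      have e := sq_abs (w l)
      linarith
    have h7 : 0 ≤ (d : ℝ) * w l ^ 2 := by (clear * -; positivity)
    linarith
  have h4 : ∑ l, (|w l| + ∑ k, |D l k|) ^ 2 ≤
      (2 + 2 * d) * ∑ l, (w l ^ 2 + ∑ k, D l k ^ 2) := by
    rw [Finset.mul_sum]
    exact Finset.sum_le_sum fun l _ => h3 l
  have h5 : ∑ i, F i ^ 2 ≤ (Fintype.card ι : ℝ) * (C ^ 2 * s ^ 2) := by
    have := Finset.sum_le_sum (s := (Finset.univ : Finset ι)) fun i _ => h1 i
    simpa only [ge_iff_le, Finset.sum_const, Finset.card_univ, nsmul_eq_mul] using this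
  have hc : (0 : ℝ) ≤ Fintype.card ι := by positivity
  calc ∑ i, F i ^ 2 ≤ (Fintype.card ι : ℝ) * (C ^ 2 * s ^ 2) := h5
    _ ≤ (Fintype.card ι : ℝ) * (C ^ 2 * ((Fintype.card ι : ℝ) * ((2 + 2 * d) *
        ∑ l, (w l ^ 2 + ∑ k, D l k ^ 2)))) := by
        gcongr
        exact h2.trans (mul_le_mul_of_nonneg_left h4 hc)
    _ = _ := by ring

theorem to_pa_ev {χ : V d → ℝ} {c : ℝ} {x : V d} (h : χ =ᶠ[𝓝 x] fun _ => c) (k : Fin d) :
    pa k χ =ᶠ[𝓝 x] fun _ => 0 := by
  filter_upwards [eventually_eventually_nhds.2 h] with z hz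
  rw [pa_congr hz k, pa_const]

theorem to_pa_ev2 {χ : V d → ℝ} {c : ℝ} {x : V d} (h : χ =ᶠ[𝓝 x] fun _ => c) (b : V d → ℝ)
    (j k : Fin d) : pa k (fun y => b y * pa j χ y) x = 0 := by
  have h1 : (fun y => b y * pa j χ y) =ᶠ[𝓝 x] fun _ => 0 := by
    filter_upwards [to_pa_ev h j] with z hz
    rw [hz, mul_zero]
  rw [pa_congr h1 k, pa_const]

theorem to_abs {ι : Type*} [Fintype ι] {p : ι → V d → ℝ} {q : ι → Fin d → V d → ℝ}
    {f : ι → V d → ℝ} (hp : ∀ i, MemLp (p i) 2) (hq : ∀ i k, MemLp (q i k) 2)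
    (hf : ∀ i, MemLp (f i) 2) {ψ : V d → ℝ} (hψ : Continuous ψ) (hψ0 : ∀ x, ψ x ≤ 0)
    {μ C₁ C₃ τ₀ s δ : ℝ} (hμ : 0 < μ) (hC₁ : 0 < C₁) (hC₃ : 0 ≤ C₃) (hδ : 0 < δ)
    (hst : ∀ τ : ℝ, τ₀ ≤ τ → 1 ≤ τ → ∀ i,
      ∫ x, (τ * (∑ k, q i k x ^ 2) + τ ^ 3 * p i x ^ 2) * Real.exp (2 * τ * Real.exp (μ * ψ x))
        ≤ C₁ * ∫ x, f i x ^ 2 * Real.exp (2 * τ * Real.exp (μ * ψ x)))
    (hb : ∀ᵐ x, ∑ i, f i x ^ 2 ≤ C₃ * ∑ i, (p i x ^ 2 + ∑ k, q i k x ^ 2) ∨ ψ x ≤ s - δ)
    {B : Set (V d)} (hB : MeasurableSet B) (hB0 : ∀ x ∈ B, s - δ / 2 ≤ ψ x) :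
    ∀ᵐ x, x ∈ B → ∀ i, p i x = 0 := by
  set T : V d → ℝ := fun x => ∑ i, (p i x ^ 2 + ∑ k, q i k x ^ 2) with hT
  set G : V d → ℝ := fun x => ∑ i, f i x ^ 2 with hG
  set M : ℝ := ∫ x, G x with hM
  have hT0 : ∀ x, 0 ≤ T x := fun x => Finset.sum_nonneg fun i _ =>
    add_nonneg (sq_nonneg _) (Finset.sum_nonneg fun k _ => sq_nonneg _)
  have hG0 : ∀ x, 0 ≤ G x := fun x => Finset.sum_nonneg fun i _ => sq_nonneg _
  have hM0 : 0 ≤ M := integral_nonneg hG0
  have hTi : Integrable T := by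
    refine integrable_finset_sum _ fun i _ => ?_
    exact (memLp_sq_int (hp i)).add (integrable_finset_sum _ fun k _ => memLp_sq_int (hq i k))
  have hGi : Integrable G := integrable_finset_sum _ fun i _ => memLp_sq_int (hf i)
  have key : ∀ τ : ℝ, τ₀ ≤ τ → 1 ≤ τ → 2 * C₁ * C₃ ≤ τ → ∫ x in B, T x ≤ 2 * C₁ * M / τ := by
    intro τ h1 h2 h3
    have hτ : 0 < τ := by linarith
    set W : V d → ℝ := fun x => Real.exp (2 * τ * Real.exp (μ * ψ x)) with hW
    have hWc : Continuous W := by fun_prop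
    have hW0 : ∀ x, 0 < W x := fun x => Real.exp_pos _
    have hWB : ∀ x, |W x| ≤ Real.exp (2 * τ) := by
      intro x
      rw [abs_of_pos (hW0 x)]
      apply Real.exp_le_exp.2
      have : Real.exp (μ * ψ x) ≤ 1 := by
        rw [Real.exp_le_one_iff]
        exact mul_nonpos_of_nonneg_of_nonpos hμ.le (hψ0 x)
      nlinarith only [this, h2]
    have hmulW : ∀ g : V d → ℝ, Integrable g → Integrable (fun x => g x * W x) := by
      intro g hg
      have h1 := hg.bdd_mul (c := Real.exp (2 * τ)) hWc.aestronglyMeasurable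
        (Eventually.of_forall fun x => by rw [Real.norm_eq_abs]; exact hWB x)
      refine h1.congr (Eventually.of_forall fun x => ?_)
      simp only
      ring
    have hI : ∀ i, Integrable (fun x => (τ * (∑ k, q i k x ^ 2) + τ ^ 3 * p i x ^ 2) * W x) := by
      intro i
      apply hmulW
      exact ((integrable_finset_sum _ fun k _ => memLp_sq_int (hq i k)).const_mul τ).add
        ((memLp_sq_int (hp i)).const_mul (τ ^ 3))
    have hTW := hmulW T hTi
    have hGW := hmulW G hGi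
    have h4 : τ * ∫ x, T x * W x ≤ C₁ * ∫ x, G x * W x := by
      calc τ * ∫ x, T x * W x = ∫ x, τ * (T x * W x) := (integral_const_mul _ _).symm
        _ ≤ ∫ x, ∑ i, (τ * (∑ k, q i k x ^ 2) + τ ^ 3 * p i x ^ 2) * W x := by
            refine integral_mono (hTW.const_mul τ) (integrable_finset_sum _ fun i _ => hI i) ?_
            intro x
            simp only
            rw [← Finset.sum_mul, ← mul_assoc]
            refine mul_le_mul_of_nonneg_right ?_ (hW0 x).le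
            rw [hT, Finset.mul_sum]
            refine Finset.sum_le_sum fun i _ => ?_
            have e : τ ≤ τ ^ 3 := by nlinarith only [h2, mul_nonneg hτ.le hτ.le]
            nlinarith only [e]
        _ = ∑ i, ∫ x, (τ * (∑ k, q i k x ^ 2) + τ ^ 3 * p i x ^ 2) * W x :=
            integral_finset_sum _ fun i _ => hI i
        _ ≤ ∑ i, C₁ * ∫ x, f i x ^ 2 * W x := Finset.sum_le_sum fun i _ => hst τ h1 h2 i
        _ = C₁ * ∫ x, G x * W x := by
            rw [← Finset.mul_sum, ← integral_finset_sum _ fun i _ =>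
              hmulW _ (memLp_sq_int (hf i))]
            congr 2
            ext x
            rw [hG, Finset.sum_mul]
    set E : ℝ := Real.exp (2 * τ * Real.exp (μ * (s - δ))) with hE
    set L : ℝ := Real.exp (2 * τ * Real.exp (μ * (s - δ / 2))) with hL
    have hE0 : 0 < E := Real.exp_pos _
    have hL0 : 0 < L := Real.exp_pos _
    have hEL : E ≤ L := by
      apply Real.exp_le_exp.2
      refine mul_le_mul_of_nonneg_left ?_ (by positivity)
      apply Real.exp_le_exp.2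
      exact mul_le_mul_of_nonneg_left (by linarith only [hδ]) hμ.le
    have h5 : ∫ x, G x * W x ≤ C₃ * (∫ x, T x * W x) + E * M := by
      calc ∫ x, G x * W x ≤ ∫ x, (C₃ * (T x * W x) + E * G x) := by
            refine integral_mono_ae hGW ((hTW.const_mul C₃).add (hGi.const_mul E)) ?_
            filter_upwards [hb] with x hx
            have hg := hG0 x
            have ht := hT0 x
            have hw := hW0 x
            rcases hx with hx | hx
            · have : G x * W x ≤ C₃ * T x * W x := mul_le_mul_of_nonneg_right hx hw.le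
              have : 0 ≤ E * G x := by (clear * -; positivity)
              (clear hp hq hf hψ hψ0 C₁ τ₀ hμ hC₁ hC₃ hδ hst hb B hB hB0 hT hG M hM hT0 hG0 hM0 hTi hGi h1 h2 h3 hτ hW hWc hWB hmulW hI hTW hGW h4 hE L hL hE0 hL0 hEL hg ht; linarith)
            · have h6 : W x ≤ E := by
                apply Real.exp_le_exp.2
                refine mul_le_mul_of_nonneg_left ?_ (by positivity)
                apply Real.exp_le_exp.2
                exact mul_le_mul_of_nonneg_left hx hμ.le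
              have : G x * W x ≤ G x * E := mul_le_mul_of_nonneg_left h6 hg
              have : 0 ≤ C₃ * (T x * W x) := by (clear * - hC₃; positivity)
              (clear hp hq hf hψ hψ0 C₁ τ₀ hC₁ hδ hst hb B hB hB0 hT hG M hM hT0 hM0 hTi hGi h1 h3 hτ hW hWc hW0 hWB hmulW hI hTW hGW h4 hE L hL hE0 hL0 hEL ht hw; linarith)
        _ = C₃ * (∫ x, T x * W x) + E * M := by
            rw [integral_add (hTW.const_mul C₃) (hGi.const_mul E), integral_const_mul,
              integral_const_mul]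
    have h6 : 0 ≤ ∫ x, T x * W x := integral_nonneg fun x => mul_nonneg (hT0 x) (hW0 x).le
    have h7 : L * ∫ x in B, T x ≤ ∫ x, T x * W x := by
      calc L * ∫ x in B, T x = ∫ x in B, L * T x := (integral_const_mul _ _).symm
        _ ≤ ∫ x in B, T x * W x := by
            refine setIntegral_mono_on (hTi.const_mul L).integrableOn hTW.integrableOn hB ?_
            intro x hx
            have : L ≤ W x := by
              apply Real.exp_le_exp.2
              refine mul_le_mul_of_nonneg_left ?_ (by positivity)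
              apply Real.exp_le_exp.2
              exact mul_le_mul_of_nonneg_left (hB0 x hx) hμ.le
            nlinarith only [mul_le_mul_of_nonneg_left this (hT0 x)]
        _ ≤ ∫ x, T x * W x := setIntegral_le_integral hTW
            (Eventually.of_forall fun x => mul_nonneg (hT0 x) (hW0 x).le)
    have h8 : 0 ≤ ∫ x in B, T x := integral_nonneg hT0
    rw [le_div_iff₀ hτ]
    have h9 : τ * ∫ x, T x * W x ≤ 2 * C₁ * (E * M) := by
      have h10 : C₁ * ∫ x, G x * W x ≤ C₁ * (C₃ * (∫ x, T x * W x) + E * M) :=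
        mul_le_mul_of_nonneg_left h5 hC₁.le
      have h11 : 2 * C₁ * C₃ * (∫ x, T x * W x) ≤ τ * (∫ x, T x * W x) :=
        mul_le_mul_of_nonneg_right h3 h6
      linarith
    have h12 : τ * (L * ∫ x in B, T x) ≤ 2 * C₁ * (L * M) := by
      refine (mul_le_mul_of_nonneg_left h7 hτ.le).trans (h9.trans ?_)
      refine mul_le_mul_of_nonneg_left ?_ (by positivity)
      exact mul_le_mul_of_nonneg_right hEL hM0
    have h13 : L * ((∫ x in B, T x) * τ) ≤ L * (2 * C₁ * M) := by linarith only [h12]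
    exact le_of_mul_le_mul_left h13 hL0
  have hlim : ∫ x in B, T x ≤ 0 := by
    have h1 : Tendsto (fun τ : ℝ => 2 * C₁ * M / τ) atTop (𝓝 0) :=
      tendsto_const_nhds.div_atTop tendsto_id
    refine ge_of_tendsto h1 ?_
    filter_upwards [eventually_ge_atTop τ₀, eventually_ge_atTop (1 : ℝ),
      eventually_ge_atTop (2 * C₁ * C₃)] with τ a b c
    exact key τ a b c
  have h0 : ∫ x in B, T x = 0 := le_antisymm hlim (integral_nonneg hT0)
  rw [integral_eq_zero_iff_of_nonneg hT0 hTi.integrableOn] at h0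
  have h1 := (ae_restrict_iff' hB).1 h0
  filter_upwards [h1] with x hx hxB i
  have h2 : T x = 0 := hx hxB
  rw [hT] at h2
  have h3 := (Finset.sum_eq_zero_iff_of_nonneg fun i _ =>
    add_nonneg (sq_nonneg (p i x)) (Finset.sum_nonneg fun k _ => sq_nonneg (q i k x))).1 h2 i
      (Finset.mem_univ _)
  have h4 : 0 ≤ ∑ k, q i k x ^ 2 := Finset.sum_nonneg fun k _ => sq_nonneg _
  have h5 : p i x ^ 2 = 0 := by
    have := sq_nonneg (p i x)
    linarith only [this, h3, h4]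
  exact pow_eq_zero_iff (two_ne_zero) |>.1 h5

theorem touch {ι : Type*} [Fintype ι] {a : Fin d → Fin d → V d → ℝ} (ha : GC a) {x₀ : V d}
    {R : ℝ} (hR : 0 < R) {w : ι → V d → ℝ} {Dw : ι → Fin d → V d → ℝ} {F : ι → V d → ℝ}
    (h : ∀ i, WS a (Metric.ball x₀ R) (w i) (Dw i) (F i)) {C : ℝ}
    (hF : ∀ᵐ x, x ∈ Metric.ball x₀ R →
      ∀ i, |F i x| ≤ C * ∑ l, (|w l x| + ∑ k, |Dw l k x|))
    {y : V d} (hy : y ≠ x₀)
    (h0 : ∀ᵐ x, x ∈ Metric.ball x₀ R → x ∈ Metric.ball y (dist x₀ y) → ∀ i, w i x = 0) :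
    ∃ r > 0, r ≤ R ∧ ∀ᵐ x, x ∈ Metric.ball x₀ r → ∀ i, w i x = 0 := by
  set ρ₀ : ℝ := dist x₀ y with hρ₀
  have hρ₀p : 0 < ρ₀ := dist_pos.2 hy.symm
  set ρ : ℝ := min R (ρ₀ / 2) / 2 with hρ
  have hρp : 0 < ρ := by
    rw [hρ]
    have : 0 < min R (ρ₀ / 2) := lt_min hR (by linarith only [hρ₀p])
    linarith only [this]
  have hρR : ρ < R := by
    have : min R (ρ₀ / 2) ≤ R := min_le_left _ _
    have : 0 < min R (ρ₀ / 2) := lt_min hR (by linarith only [hρ₀p])
    linarith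
  have hρρ : ρ < ρ₀ / 2 := by
    have : min R (ρ₀ / 2) ≤ ρ₀ / 2 := min_le_right _ _
    have : 0 < min R (ρ₀ / 2) := lt_min hR (by linarith only [hρ₀p])
    linarith
  set y' : V d := (1 / 2 : ℝ) • (x₀ + y) with hy'
  set ψ : V d → ℝ := fun x => -‖x - y'‖ ^ 2 with hψ
  have hψc : ContDiff ℝ ∞ ψ := by
    have : ContDiff ℝ ∞ (fun x : V d => x - y') := contDiff_id.sub contDiff_const
    exact (this.norm_sq ℝ).neg
  have hψ0 : ∀ x, ψ x ≤ 0 := fun x => by
    simp only [hψ]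
    have := sq_nonneg ‖x - y'‖
    linarith only [this]
  have hpar : ∀ x, ψ x = -(‖x - x₀‖ ^ 2 / 2 + ‖x - y‖ ^ 2 / 2 - ρ₀ ^ 2 / 4) := fun x => by
    simp only [hψ, hy', hρ₀]
    rw [to_parallel x x₀ y]
  have hψx₀ : ψ x₀ = -(ρ₀ ^ 2 / 4) := by
    rw [hpar, sub_self, norm_zero, hρ₀, dist_eq_norm]
    ring
  have hx₀y' : ‖x₀ - y'‖ = ρ₀ / 2 := by
    have h1 : ‖x₀ - y'‖ ^ 2 = (ρ₀ / 2) ^ 2 := by
      have : -‖x₀ - y'‖ ^ 2 = -(ρ₀ ^ 2 / 4) := hψx₀
      nlinarith only [hψx₀]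
    exact (pow_left_inj₀ (norm_nonneg _) (by positivity) two_ne_zero).1 h1
  have hKc : IsCompact (Metric.closedBall x₀ ρ) := isCompact_closedBall _ _
  have hd : ∀ x ∈ Metric.closedBall x₀ ρ, ∃ i, pa i ψ x ≠ 0 := by
    intro x hx
    by_contra hne
    push Not at hne
    have h1 : x = y' := by
      ext i
      have := hne i
      rw [hψ, to_pa_psi] at this
      linarith only [this]
    rw [Metric.mem_closedBall, h1, dist_comm, dist_eq_norm, hx₀y'] at hx
    linarith only [hρρ, hx]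
  obtain ⟨μ, hμ, C₁, hC₁, τ₀, hτ₀, hcar⟩ := carleman ha hψc hKc hd
  -- the cut-off
  let χ : ContDiffBump x₀ := ⟨ρ / 4, ρ / 2, by positivity, by linarith only [hρp]⟩
  have hχts : tsupport χ = Metric.closedBall x₀ (ρ / 2) := χ.tsupport_eq
  have hχ : TF (Metric.ball x₀ R) χ := by
    refine ⟨χ.contDiff, χ.hasCompactSupport, ?_⟩
    rw [hχts]
    exact Metric.closedBall_subset_ball (by linarith only [hρp, hρR])
  have hws := fun i => cutoff ha.smooth Metric.isOpen_ball (h i) hχ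
  set p : ι → V d → ℝ := fun i x => χ x * w i x with hp
  set q : ι → Fin d → V d → ℝ := fun i k x => χ x * Dw i k x + pa k χ x * w i x with hq
  set f : ι → V d → ℝ := fun i x => χ x * F i x
      - (∑ j, ∑ k, a j k x * Dw i j x * pa k χ x)
      - (∑ j, ∑ k, a j k x * pa j χ x * Dw i k x)
      - (∑ j, ∑ k, pa k (fun y => a j k y * pa j χ y) x) * w i x with hf
  have hpL : ∀ i, MemLp (p i) 2 := fun i => by
    have := (hws i).w_L2
    rwa [Measure.restrict_univ] at this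
  have hqL : ∀ i k, MemLp (q i k) 2 := fun i k => by
    have := (hws i).D_L2 k
    rwa [Measure.restrict_univ] at this
  have hfL : ∀ i, MemLp (f i) 2 := fun i => by
    have := (hws i).F_L2
    rwa [Measure.restrict_univ] at this
  -- outside the support
  have hA : ∀ x, x ∉ Metric.closedBall x₀ (ρ / 2) → (χ : V d → ℝ) =ᶠ[𝓝 x] fun _ => 0 := by
    intro x hx
    rw [← hχts] at hx
    exact notMem_tsupport_iff_eventuallyEq.1 hx
  have hA1 : ∀ x, x ∉ Metric.closedBall x₀ (ρ / 2) → ∀ i,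
      p i x = 0 ∧ (∀ k, q i k x = 0) ∧ f i x = 0 := by
    intro x hx i
    have e := hA x hx
    have e0 : χ x = 0 := e.eq_of_nhds
    have e1 : ∀ k, pa k χ x = 0 := fun k => (to_pa_ev e k).eq_of_nhds
    have e2 : ∀ j k, pa k (fun y => a j k y * pa j χ y) x = 0 := fun j k => to_pa_ev2 e _ j k
    refine ⟨?_, fun k => ?_, ?_⟩
    · simp only [hp, e0, zero_mul]
    · simp only [hq, e0, e1, zero_mul, add_zero]
    · simp only [hf, e0, e1, e2, zero_mul, mul_zero, Finset.sum_const_zero, sub_zero]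
  have hB1 : ∀ x, x ∈ Metric.ball x₀ (ρ / 4) → ∀ i,
      p i x = w i x ∧ (∀ k, q i k x = Dw i k x) ∧ f i x = F i x := by
    intro x hx i
    have e : (χ : V d → ℝ) =ᶠ[𝓝 x] fun _ => 1 := by
      filter_upwards [Metric.isOpen_ball.mem_nhds hx] with z hz
      exact χ.one_of_mem_closedBall (Metric.ball_subset_closedBall hz)
    have e0 : χ x = 1 := e.eq_of_nhds
    have e1 : ∀ k, pa k χ x = 0 := fun k => (to_pa_ev e k).eq_of_nhds
    have e2 : ∀ j k, pa k (fun y => a j k y * pa j χ y) x = 0 := fun j k => to_pa_ev2 e _ j k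
    refine ⟨?_, fun k => ?_, ?_⟩
    · simp only [hp, e0, one_mul]
    · simp only [hq, e0, e1, zero_mul, add_zero, one_mul]
    · simp only [hf, e0, e1, e2, zero_mul, mul_zero, Finset.sum_const_zero, sub_zero, one_mul]
  have hw0 : ∀ᵐ x, x ∈ Metric.ball x₀ R → x ∈ Metric.ball y ρ₀ →
      ∀ i, w i x = 0 ∧ (∀ k, Dw i k x = 0) ∧ F i x = 0 := by
    have h1 : ∀ i, ∀ᵐ x, x ∈ Metric.ball x₀ R ∩ Metric.ball y ρ₀ → ∀ k, Dw i k x = 0 := by
      intro i
      refine grad_zero (h i) (Metric.isOpen_ball.inter Metric.isOpen_ball)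
        Set.inter_subset_left ?_
      filter_upwards [h0] with x hx hxO
      exact hx hxO.1 hxO.2 i
    filter_upwards [h0, ae_all_iff.2 h1, hF] with x e0 e1 e2 hx1 hx2 i
    have e3 := e2 hx1 i
    have e4 : ∀ l, |w l x| + ∑ k, |Dw l k x| = 0 := fun l => by
      rw [e0 hx1 hx2 l]
      simp only [abs_zero, e1 l ⟨hx1, hx2⟩, Finset.sum_const_zero, add_zero]
    simp only [e4, Finset.sum_const_zero, mul_zero] at e3
    exact ⟨e0 hx1 hx2 i, e1 i ⟨hx1, hx2⟩, abs_eq_zero.1 (le_antisymm e3 (abs_nonneg _))⟩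
  set C₃ : ℝ := (Fintype.card ι : ℝ) * (C ^ 2 * ((Fintype.card ι : ℝ) * (2 + 2 * d))) with hC₃
  set δ : ℝ := (ρ / 4) ^ 2 / 2 with hδ
  have hδp : 0 < δ := by positivity
  have hb : ∀ᵐ x, ∑ i, f i x ^ 2 ≤ C₃ * ∑ i, (p i x ^ 2 + ∑ k, q i k x ^ 2) ∨
      ψ x ≤ -(ρ₀ ^ 2 / 4) - δ := by
    filter_upwards [hF, hw0] with x e1 e2
    have hzero : (∀ i, f i x = 0) →
        ∑ i, f i x ^ 2 ≤ C₃ * ∑ i, (p i x ^ 2 + ∑ k, q i k x ^ 2) := by
      intro hz
      have : 0 ≤ C₃ * ∑ i, (p i x ^ 2 + ∑ k, q i k x ^ 2) := by (clear * -; positivity)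
      simpa only [hz, ne_eq, OfNat.ofNat_ne_zero, not_false_eq_true, zero_pow, Finset.sum_const_zero,     ge_iff_le] using this
    by_cases hx1 : x ∈ Metric.ball x₀ (ρ / 4)
    · left
      have hxR : x ∈ Metric.ball x₀ R := Metric.ball_subset_ball (by linarith only [hρp, hρR]) hx1
      have e3 : ∀ i, f i x = F i x := fun i => (hB1 x hx1 i).2.2
      have e4 : ∀ i, p i x = w i x := fun i => (hB1 x hx1 i).1
      have e5 : ∀ i k, q i k x = Dw i k x := fun i => (hB1 x hx1 i).2.1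
      simp only [e3, e4, e5]
      exact to_sq_bound C (fun i => F i x) (fun i => w i x) (fun i k => Dw i k x) (e1 hxR)
    · by_cases hx2 : x ∈ Metric.closedBall x₀ (ρ / 2)
      · by_cases hx3 : x ∈ Metric.ball y ρ₀
        · left
          apply hzero
          intro i
          have hxR : x ∈ Metric.ball x₀ R := Metric.closedBall_subset_ball (by linarith only [hρp, hρR]) hx2
          obtain ⟨e3, e4, e5⟩ := e2 hxR hx3 i
          simp only [hf, e3, e4, e5, zero_mul, mul_zero, Finset.sum_const_zero, sub_zero]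
        · right
          rw [hpar]
          rw [Metric.mem_ball, dist_eq_norm, not_lt] at hx1 hx3
          have h1 : (ρ / 4) ^ 2 ≤ ‖x - x₀‖ ^ 2 := pow_le_pow_left₀ (by positivity) hx1 2
          have h2 : ρ₀ ^ 2 ≤ ‖x - y‖ ^ 2 := pow_le_pow_left₀ (by positivity) hx3 2
          rw [hδ]
          linarith only [h1, h2]
      · left
        exact hzero fun i => (hA1 x hx2 i).2.2
  have hst : ∀ τ : ℝ, τ₀ ≤ τ → 1 ≤ τ → ∀ i,
      ∫ x, (τ * (∑ k, q i k x ^ 2) + τ ^ 3 * p i x ^ 2) * Real.exp (2 * τ * Real.exp (μ * ψ x))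
        ≤ C₁ * ∫ x, f i x ^ 2 * Real.exp (2 * τ * Real.exp (μ * ψ x)) := by
    intro τ h1 h2 i
    have hW : Continuous (fun x => Real.exp (2 * τ * Real.exp (μ * ψ x))) := by
      have := hψc.continuous
      fun_prop
    refine weak_of_strong ha (K := Metric.closedBall x₀ ρ) (K₀ := Metric.closedBall x₀ (ρ / 2))
      hKc (isCompact_closedBall _ _) ?_ hW (fun x => (Real.exp_pos _).le) (by linarith only [hτ₀, h1])
      (by (clear * - h2; positivity)) hC₁.le (hcar τ h1) (hws i) ?_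
    · have hlt : ρ / 2 < ρ := by linarith only [hρp]
      exact (Metric.closedBall_subset_ball hlt).trans Metric.ball_subset_interior_closedBall
    · exact Eventually.of_forall fun x hx => hA1 x hx i
  -- continuity of the phase at the centre
  have hcont : ∀ᶠ x in 𝓝 x₀, -(ρ₀ ^ 2 / 4) - δ / 2 < ψ x := by
    have h1 : -(ρ₀ ^ 2 / 4) - δ / 2 < ψ x₀ := by
      rw [hψx₀]
      linarith only [hδp]
    exact hψc.continuous.continuousAt.eventually (lt_mem_nhds h1)
  obtain ⟨r', hr', hr'2⟩ := Metric.eventually_nhds_iff_ball.1 hcont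
  have hfin := to_abs hpL hqL hfL hψc.continuous hψ0 (s := -(ρ₀ ^ 2 / 4)) (C₃ := C₃) (δ := δ)
    hμ hC₁ (by (clear * -; positivity)) hδp hst hb
    (B := Metric.ball x₀ (min r' (ρ / 4))) Metric.isOpen_ball.measurableSet (fun x hx =>
      (hr'2 x (Metric.ball_subset_ball (min_le_left _ _) hx)).le)
  refine ⟨min r' (ρ / 4), lt_min hr' (by positivity), ?_, ?_⟩
  · exact (min_le_right _ _).trans (by linarith only [hρp, hρR])
  · filter_upwards [hfin] with x hx hxB i
    rw [← (hB1 x (Metric.ball_subset_ball (min_le_right _ _) hxB) i).1]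
    exact hx hxB i

end Vale.Agent.P088.A
end
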