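import Vale.Agent.P088.MathlibUsed
import Vale.Agent.P088.Bdl.B3
import Vale.Agent.P088.Bdl.B1
import Vale.Agent.P088.Bdl.B6

set_option linter.all false

section

/-!
# P088-EYM, block C: solution coordinates at the limit points
-/

open Bundle Manifold MeasureTheory Set Filter Topology
open scoped ContDiff

noncomputable section

namespace Vale.Agent.P088.EYM

set_option linter.unusedSectionVars false

universe u

section Local

variable {n N : ℕ} [NeZero n]

theorem cCoord_relOpen {D : Set (E n)} (hD : IsOpen D) (h : D ⊆ Hs n) : RelOpen D :=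
  ⟨D, hD, (inter_eq_left.2 h).symm⟩

theorem cCoord_isOpen {D : Set (E n)} (hD : RelOpen D) : IsOpen (D ∩ {x | 0 < x 0}) := by
  obtain ⟨O, hO, rfl⟩ := hD
  have h : O ∩ Hs n ∩ {x | 0 < x 0} = O ∩ {x | 0 < x 0} := by
    ext x
    constructor
    · rintro ⟨⟨h1, -⟩, h2⟩
      exact ⟨h1, h2⟩
    · rintro ⟨h1, h2⟩
      exact ⟨⟨h1, le_of_lt (show 0 < x 0 from h2)⟩, h2⟩
  rw [h]
  exact hO.inter (isOpen_lt continuous_const (continuous_coord 0))

/-- `v ↦ Re v_{j0}` -/
def cCoord_re (j0 : Fin N) : Fib N →L[ℝ] ℝ :=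
  Complex.reCLM ∘L ((EuclideanSpace.proj j0 : Fib N →L[ℂ] ℂ).restrictScalars ℝ)

theorem cCoord_re_apply (j0 : Fin N) (v : Fib N) : cCoord_re j0 v = (v j0).re := rfl

theorem cCoord_xco_apply (j0 : Fin N) (S : E n → EndF N) (T : Fin n → E n → Fib N) (x : E n)
    (a : Fin n) : Xco j0 S T x a = cCoord_re j0 ((Ring.inverse (S x)) (T a x)) := rfl

theorem cCoord_xco_smooth {D : Set (E n)} (j0 : Fin N) {S : E n → EndF N}
    {T : Fin n → E n → Fib N} (hS : ContDiffOn ℝ ∞ S D) (hT : ∀ a, ContDiffOn ℝ ∞ (T a) D)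
    (hu : ∀ x ∈ D, IsUnit (S x)) (a : Fin n) :
    ContDiffOn ℝ ∞ (fun x => Xco j0 S T x a) D := by
  have h := (cCoord_re j0).contDiff.comp_contDiffOn
    (smooth_eval (smooth_ringInverse hS hu) (hT a))
  exact h

/-- the Jacobian at a point where `S = 1` and `dS = 0` -/
theorem cCoord_jac_one {D : Set (E n)} (hD : RelOpen D) (j0 : Fin N) {S : E n → EndF N}
    {T : Fin n → E n → Fib N} (hS : ContDiffOn ℝ ∞ S D) (hT : ∀ a, ContDiffOn ℝ ∞ (T a) D)
    (hu : ∀ x ∈ D, IsUnit (S x)) {z : E n} (hz : z ∈ D) (h1 : S z = 1)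
    (h0 : ∀ i, pd i S z = 0)
    (hJ : ∀ a i, pd i (T a) z = if i = a then EuclideanSpace.single j0 1 else 0) :
    Jac (Xco j0 S T) z = 1 := by
  have hR : ContDiffOn ℝ ∞ (fun x => Ring.inverse (S x)) D := smooth_ringInverse hS hu
  have hdR : ∀ i, pd i (fun x => Ring.inverse (S x)) z = 0 := by
    intro i
    have e1 : pd i (fun y => Ring.inverse (S y) * S y) z = 0 := by
      rw [hD.pd_congr (g := fun _ => (1 : EndF N))
        (fun y hy => Ring.inverse_mul_cancel _ (hu y hy)) hz i, pd_const]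
    rw [hD.pd_mul hR hS hz i, h0 i, mul_zero, zero_add, h1, mul_one] at e1
    exact e1
  ext a i
  have e2 : pd i (fun y => Xco j0 S T y a) z =
      cCoord_re j0 (pd i (fun y => Ring.inverse (S y) (T a y)) z) :=
    hD.pd_clm (cCoord_re j0) (smooth_eval hR (hT a)) hz i
  show pd i (fun y => Xco j0 S T y a) z = (1 : Matrix (Fin n) (Fin n) ℝ) a i
  rw [e2, hD.pd_eval hR (hT a) (by simp) (by simp) hz i, hdR i, h1, Ring.inverse_one, hJ a i,
    cCoord_re_apply, Matrix.one_apply]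
  by_cases h : i = a
  · subst h
    simp only [↓reduceIte, one_apply_eq_self, zero_apply, add_zero, PiLp.single_eq_same, Complex.one_re]
  · have h' : ¬ a = i := fun h'' => h h''.symm
    simp only [h, ↓reduceIte, one_apply_eq_self, zero_apply, add_zero, PiLp.zero_apply, Complex.zero_re, h']

/-- the relation of the determinants for `X₂ = X₁ ∘ τ` -/
theorem cCoord_det {D₁ D₂ : Set (E n)} (h₁ : RelOpen D₁) (h₂ : RelOpen D₂) {X₁ X₂ τ : E n → E n}
    {g₁ g₂ : E n → Matrix (Fin n) (Fin n) ℝ}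
    (hτ : ContDiffOn ℝ ∞ τ D₂) (hm : MapsTo τ D₂ D₁)
    (hX₁ : ∀ a, ContDiffOn ℝ ∞ (fun x => X₁ x a) D₁) (hX : ∀ y ∈ D₂, X₂ y = X₁ (τ y))
    {y : E n} (hy : y ∈ D₂)
    (hg : g₂ y = (Jac τ y).transpose * g₁ (τ y) * Jac τ y) :
    (Jac X₂ y).det ^ 2 * (g₁ (τ y)).det = (Jac X₁ (τ y)).det ^ 2 * (g₂ y).det := by
  have hJ : Jac X₂ y = Jac X₁ (τ y) * Jac τ y := by
    ext a i
    rw [Matrix.mul_apply]
    show pd i (fun w => X₂ w a) y = ∑ k, pd k (fun w => X₁ w a) (τ y) * pd i (fun w => τ w k) y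
    rw [h₂.pd_congr (g := fun w => (fun v => X₁ v a) (τ w))
      (fun w hw => by show X₂ w a = X₁ (τ w) a; rw [hX w hw]) hy i,
      h₂.pd_comp h₁ hτ hm (hX₁ a) hy i]
    exact Finset.sum_congr rfl fun k _ => by rw [smul_eq_mul, mul_comm]
  rw [hJ, hg, Matrix.det_mul, Matrix.det_mul, Matrix.det_mul, Matrix.det_transpose]
  ring

theorem cCoord_jac_cont {D : Set (E n)} (hD : IsOpen D) (hs : D ⊆ Hs n) {X : E n → E n}
    (hX : ∀ a, ContDiffOn ℝ ∞ (fun x => X x a) D) {z : E n} (hz : z ∈ D) :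
    ContinuousAt (fun y => (Jac X y).det) z := by
  have h : ContinuousAt (Jac X) z := by
    refine continuousAt_pi.2 fun a => continuousAt_pi.2 fun i => ?_
    exact ((((cCoord_relOpen hD hs).pd_smooth (hX a) i).continuousOn) z hz).continuousAt
      (hD.mem_nhds hz)
  exact (continuous_id.matrix_det.continuousAt (x := Jac X z)).comp h

theorem cCoord_met_cont {D : Set (E n)} (hD : IsOpen D) {g : E n → Matrix (Fin n) (Fin n) ℝ}
    (hg : ∀ i j, ContDiffOn ℝ ∞ (fun x => g x i j) D) {z : E n} (hz : z ∈ D) :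
    ContinuousAt (fun y => (g y).det) z := by
  have h : ContinuousAt g z := by
    refine continuousAt_pi.2 fun a => continuousAt_pi.2 fun i => ?_
    exact ((hg a i).continuousOn z hz).continuousAt (hD.mem_nhds hz)
  exact (continuous_id.matrix_det.continuousAt (x := g z)).comp h

end Local

section Mfd

variable {n N : ℕ} [NeZero n] {M : Type u} [TopologicalSpace M]
  [ChartedSpace (EuclideanHalfSpace n) M] [IsManifold (𝓡∂ n) ∞ M]

theorem cCoord_pos (hrel : ∀ p : M, RelOpen (tg n p))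
    (hb : ∀ p x : M, x ∈ (xc n p).source → (x ∈ (𝓡∂ n).boundary M ↔ xc n p x 0 = 0))
    {p x : M} (hx : x ∈ (xc n p).source) (hi : x ∈ Mi n M) : 0 < xc n p x 0 := by
  have h1 : 0 ≤ xc n p x 0 := (hrel p).subset ((xc n p).map_source hx)
  refine lt_of_le_of_ne h1 fun h => ?_
  have h2 : x ∈ (𝓡∂ n).boundary M := (hb p x hx).2 h.symm
  exact (Set.disjoint_left.1 (𝓡∂ n).disjoint_interior_boundary) hi h2

theorem cCoord_int (hb : ∀ p x : M, x ∈ (xc n p).source → (x ∈ (𝓡∂ n).boundary M ↔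
    xc n p x 0 = 0)) {p : M} {y : E n} (hy : y ∈ tg n p) (h0 : 0 < y 0) :
    (xc n p).symm y ∈ Mi n M := by
  have h1 : ¬ (xc n p).symm y ∈ (𝓡∂ n).boundary M := by
    rw [hb p _ ((xc n p).map_target hy), (xc n p).right_inv hy]
    exact h0.ne'
  have h2 : (xc n p).symm y ∈ ((𝓡∂ n).boundary M)ᶜ := h1
  rw [ModelWithCorners.compl_boundary] at h2
  exact h2

theorem cCoord_frm_eN (q : M) (s : Fin N → M → Fib N) (y : E n) (j : Fin N) :
    frm n q s y (eN N j) = s j ((xc n q).symm y) := by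
  show (∑ i, rk (eN N i) (s i ((xc n q).symm y))) (eN N j) = _
  rw [_root_.sum_apply]
  simp only [rk_apply, inner_eN]
  rw [Finset.sum_eq_single j]
  · simp only [eN, PiLp.single_eq_same, extChartAt.eq_1, OpenPartialHomeomorph.extend, PartialEquiv.coe_trans_symm, PartialHomeomorph.coe_toPartialEquiv_symm, OpenPartialHomeomorph.coe_toPartialHomeomorph_symm, ModelWithCorners.toPartialEquiv_coe_symm, Function.comp_apply, one_smul]
  · intro i _ hi
    simp [eN, hi]
  · intro h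
    exact absurd (Finset.mem_univ j) h

theorem cCoord_frm_smooth {D : Set (E n)} (q : M) {s : Fin N → M → Fib N}
    (h : ∀ j, ContDiffOn ℝ ∞ (lu (𝓡∂ n) q (s j)) D) : ContDiffOn ℝ ∞ (frm n q s) D := by
  have e : frm n q s = fun y => ∑ i, rk (eN N i) (lu (𝓡∂ n) q (s i) y) := rfl
  rw [e]
  exact ContDiffOn.sum fun i _ => (rk (eN N i)).contDiff.comp_contDiffOn (h i)

theorem cCoord_frm_pd {D : Set (E n)} (hD : RelOpen D) (q : M) {s : Fin N → M → Fib N}
    (h : ∀ j, ContDiffOn ℝ ∞ (lu (𝓡∂ n) q (s j)) D) {z : E n} (hz : z ∈ D) (i : Fin n) :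
    pd i (frm n q s) z = ∑ j, rk (eN N j) (pd i (lu (𝓡∂ n) q (s j)) z) := by
  have e : frm n q s = fun y => ∑ i, rk (eN N i) (lu (𝓡∂ n) q (s i) y) := rfl
  rw [e, hD.pd_sum _ (f := fun k y => rk (eN N k) (lu (𝓡∂ n) q (s k) y))
    (fun k _ => (rk (eN N k)).contDiff.comp_contDiffOn (h k)) hz i]
  exact Finset.sum_congr rfl fun k _ => hD.pd_clm (rk (eN N k)) (h k) hz i

theorem cCoord_second (hrel : ∀ p : M, RelOpen (tg n p))
    (hb : ∀ p x : M, x ∈ (xc n p).source → (x ∈ (𝓡∂ n).boundary M ↔ xc n p x 0 = 0))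
    {p : M} (hi : p ∈ Mi n M) : ∃ x' ∈ Mi n M, p ≠ x' := by
  have hA := cCoord_isOpen (hrel p)
  have hz : xc n p p ∈ tg n p ∩ {y | 0 < y 0} :=
    ⟨mem_extChartAt_target p, cCoord_pos hrel hb (mem_extChartAt_source p) hi⟩
  obtain ⟨r, hr, hball⟩ := Metric.isOpen_iff.1 hA _ hz
  have hy : xc n p p + (r / 2) • ev 0 ∈ Metric.ball (xc n p p) r := by
    rw [Metric.mem_ball, dist_eq_norm, add_sub_cancel_left, norm_smul]
    simp only [ev, PiLp.norm_single, norm_one, mul_one]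
    rw [Real.norm_of_nonneg (by (clear * - hr; positivity))]
    linarith only [hr]
  have hy' := hball hy
  refine ⟨(xc n p).symm (xc n p p + (r / 2) • ev 0), cCoord_int hb hy'.1 hy'.2, fun h => ?_⟩
  have h2 : xc n p p = xc n p p + (r / 2) • ev 0 :=
    (congrArg (xc n p) h).trans ((xc n p).right_inv hy'.1)
  have h3 : (r / 2) • (ev 0 : E n) = 0 := by
    have := h2.symm
    rwa [add_eq_left] at this
  have h4 := congrArg (fun v : E n => v 0) h3
  simp only [PiLp.smul_apply, PiLp.single_eq_same, smul_eq_mul, mul_one, PiLp.zero_apply, div_eq_zero_iff, OfNat.ofNat_ne_zero, or_false] at h4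
  exact hr.ne' h4

theorem cCoord_inv {S V : EndF N} (hS : IsUnit S) (hV : IsUnit V) (v : Fib N) :
    (Ring.inverse (V * S)) (V v) = (Ring.inverse S) v := by
  have h1 : Ring.inverse (V * S) * V = Ring.inverse S := by
    have h2 := Ring.inverse_mul_cancel _ (hV.mul hS)
    calc Ring.inverse (V * S) * V = Ring.inverse (V * S) * V * (S * Ring.inverse S) := by
          rw [Ring.mul_inverse_cancel _ hS, mul_one]
      _ = Ring.inverse (V * S) * (V * S) * Ring.inverse S := by simp only [mul_assoc]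
      _ = Ring.inverse S := by rw [h2, one_mul]
  rw [← h1]
  rfl

end Mfd

theorem cCoord : CRunge_statement.{u} → CUnm_statement.{u} → CData_statement.{u} →
    CUniq_statement.{u} → CLoc_statement.{u} → CConn_statement.{u} → CCoord_statement.{u} := by
  intro hRunge hUnm hData _ hLoc _ n N _ M _ _ _ _ _ _ _ _ P Q Γ x₀ x₀' V₀ x O φ V hn hN hΓ
    hΓn hSame hx₀ hx₀' hV₀ hm hx hφ hV hlim
  obtain ⟨hrel, hok, hbd, hsm⟩ := hLoc n N M
  obtain ⟨⟨hPs, hQs, -⟩, -⟩ := hData n N M P Q Γ hΓ hΓn hSame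
  obtain ⟨x', hx', hne⟩ := cCoord_second hrel hbd hx₀'
  have key : ∀ (a : Fib N) (b : Fin n → Fib N), ∃ u ∈ PP P Q Γ, HasJet u.1 x₀' a b := by
    intro a b
    obtain ⟨u, ⟨f, hf, hu⟩, hj, -⟩ := hRunge n N M P Γ x₀' x' a 0 b (fun _ => 0) (by omega) hΓ
      hΓn hPs hx₀' hx' hne
    obtain ⟨u', hu'⟩ := hQs f hf
    exact ⟨(u, u'), ⟨f, hf, hu, hu'⟩, hj⟩
  set j0 : Fin N := ⟨0, hN⟩ with hj0
  choose s hs hsj using fun j : Fin N => key (EuclideanSpace.single j 1) (fun _ => 0)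
  choose t ht htj using fun a : Fin n => key (if a = 0 then EuclideanSpace.single j0 1 else 0)
    (fun i => if i = a then EuclideanSpace.single j0 1 else 0)
  have hPPs : ∀ u ∈ PP P Q Γ, SmS n u.1 ∧ SmS n u.2 := by
    rintro u ⟨f, -, h1, h2⟩
    exact ⟨h1.smooth, h2.smooth⟩
  set z' := xc n x₀' x₀' with hz'
  set z := xc n x₀ x₀ with hz
  set S₁ : E n → EndF N := frm n x₀' (fun j => (s j).1) with hS₁
  set S₂ : E n → EndF N := frm n x₀ (fun j => (s j).2) with hS₂
  set T₁ : Fin n → E n → Fib N := fun a => lu (𝓡∂ n) x₀' (t a).1 with hT₁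
  set T₂ : Fin n → E n → Fib N := fun a => lu (𝓡∂ n) x₀ (t a).2 with hT₂
  have symm' : (xc n x₀').symm z' = x₀' := extChartAt_to_inv x₀'
  have symm₀ : (xc n x₀).symm z = x₀ := extChartAt_to_inv x₀
  have hS₁z : S₁ z' = 1 := by
    refine endF_ext fun j => ?_
    rw [hS₁, cCoord_frm_eN, symm', (hsj j).1]
    rfl
  have hS₂z : S₂ z = V₀ := by
    refine endF_ext fun j => ?_
    rw [hS₂, cCoord_frm_eN, symm₀, hlim _ (hs j), (hsj j).1]
    rfl
  have hV₀u : IsUnit V₀ := ⟨Unitary.toUnits ⟨V₀, hV₀⟩, rfl⟩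
  have hXX : Xco j0 S₁ T₁ z' = Xco j0 S₂ T₂ z := by
    ext a
    rw [cCoord_xco_apply, cCoord_xco_apply, hS₁z, hS₂z, Ring.inverse_one]
    have e : T₂ a z = V₀ (T₁ a z') := by
      show (t a).2 ((xc n x₀).symm z) = V₀ ((t a).1 ((xc n x₀').symm z'))
      rw [symm₀, symm', hlim _ (ht a)]
    have e2 : (Ring.inverse V₀) (V₀ (T₁ a z')) = T₁ a z' := by
      have := congrArg (fun W : EndF N => W (T₁ a z')) (Ring.inverse_mul_cancel _ hV₀u)
      exact this
    rw [e, e2]
    rfl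
  -- open sets
  have hsm₁ : ∀ j, ContDiffOn ℝ ∞ (lu (𝓡∂ n) x₀' (s j).1) (tg n x₀') :=
    fun j => hsm _ (hPPs _ (hs j)).1 _
  have hsm₂ : ∀ j, ContDiffOn ℝ ∞ (lu (𝓡∂ n) x₀ (s j).2) (tg n x₀) :=
    fun j => hsm _ (hPPs _ (hs j)).2 _
  have hSc₁ : ContDiffOn ℝ ∞ S₁ (tg n x₀') := cCoord_frm_smooth x₀' hsm₁
  have hSc₂ : ContDiffOn ℝ ∞ S₂ (tg n x₀) := cCoord_frm_smooth x₀ hsm₂
  have hTc₁ : ∀ a, ContDiffOn ℝ ∞ (T₁ a) (tg n x₀') := fun a => hsm _ (hPPs _ (ht a)).1 _
  have hTc₂ : ∀ a, ContDiffOn ℝ ∞ (T₂ a) (tg n x₀) := fun a => hsm _ (hPPs _ (ht a)).2 _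
  set D₁ : Set (E n) := (tg n x₀' ∩ {y | 0 < y 0}) ∩ S₁ ⁻¹' {W | IsUnit W} with hD₁
  set D₂ : Set (E n) := (tg n x₀ ∩ {y | 0 < y 0}) ∩ S₂ ⁻¹' {W | IsUnit W} with hD₂
  have hD₁o : IsOpen D₁ := (hSc₁.continuousOn.mono inter_subset_left).isOpen_inter_preimage
    (cCoord_isOpen (hrel x₀')) Units.isOpen
  have hD₂o : IsOpen D₂ := (hSc₂.continuousOn.mono inter_subset_left).isOpen_inter_preimage
    (cCoord_isOpen (hrel x₀)) Units.isOpen
  have hD₁s : D₁ ⊆ tg n x₀' := fun y hy => hy.1.1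
  have hD₂s : D₂ ⊆ tg n x₀ := fun y hy => hy.1.1
  have hD₁h : D₁ ⊆ Hs n := fun y hy => le_of_lt (show 0 < y 0 from hy.1.2)
  have hD₂h : D₂ ⊆ Hs n := fun y hy => le_of_lt (show 0 < y 0 from hy.1.2)
  have hz'D : z' ∈ D₁ := ⟨⟨mem_extChartAt_target x₀',
    cCoord_pos hrel hbd (mem_extChartAt_source x₀') hx₀'⟩, by
      show IsUnit (S₁ z')
      rw [hS₁z]
      exact isUnit_one⟩
  have hzD : z ∈ D₂ := ⟨⟨mem_extChartAt_target x₀,
    cCoord_pos hrel hbd (mem_extChartAt_source x₀) hx₀⟩, by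
      show IsUnit (S₂ z)
      rw [hS₂z]
      exact hV₀u⟩
  have hX₁ : ∀ a, ContDiffOn ℝ ∞ (fun y => Xco j0 S₁ T₁ y a) D₁ := fun a =>
    cCoord_xco_smooth j0 (hSc₁.mono hD₁s) (fun a => (hTc₁ a).mono hD₁s) (fun y hy => hy.2) a
  have hX₂ : ∀ a, ContDiffOn ℝ ∞ (fun y => Xco j0 S₂ T₂ y a) D₂ := fun a =>
    cCoord_xco_smooth j0 (hSc₂.mono hD₂s) (fun a => (hTc₂ a).mono hD₂s) (fun y hy => hy.2) a
  have hJ₁ : Jac (Xco j0 S₁ T₁) z' = 1 := by
    refine cCoord_jac_one (cCoord_relOpen hD₁o hD₁h) j0 (hSc₁.mono hD₁s)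
      (fun a => (hTc₁ a).mono hD₁s) (fun y hy => hy.2) hz'D hS₁z (fun i => ?_) (fun a i => ?_)
    · rw [hS₁, cCoord_frm_pd (hrel x₀') x₀' hsm₁ (hD₁s hz'D) i]
      refine Finset.sum_eq_zero fun j _ => ?_
      rw [(hsj j).2 i, map_zero]
    · exact (htj a).2 i
  refine ⟨j0, s, t, hs, ht, ?_, ?_, ?_, ?_, ?_, hXX⟩
  · show IsUnit (S₁ z')
    rw [hS₁z]
    exact isUnit_one
  · show IsUnit (S₂ z)
    rw [hS₂z]
    exact hV₀u
  · show (Jac (Xco j0 S₁ T₁) z').det ≠ 0
    rw [hJ₁, Matrix.det_one]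
    exact one_ne_zero
  · -- the limit argument
    have hy : Tendsto (fun k => xc n x₀ (x k)) atTop (𝓝 z) :=
      (continuousAt_extChartAt (I := 𝓡∂ n) x₀).tendsto.comp hx
    have hw : Tendsto (fun k => xc n x₀' (φ k (x k))) atTop (𝓝 z') :=
      (continuousAt_extChartAt (I := 𝓡∂ n) x₀').tendsto.comp hφ
    have hev : ∀ᶠ k in atTop, (Jac (Xco j0 S₂ T₂) (xc n x₀ (x k))).det ^ 2 *
        ((P.loc x₀').g (xc n x₀' (φ k (x k)))).det =
        (Jac (Xco j0 S₁ T₁) (xc n x₀' (φ k (x k)))).det ^ 2 *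
          ((Q.loc x₀).g (xc n x₀ (x k))).det := by
      filter_upwards [hx.eventually (extChartAt_source_mem_nhds (I := 𝓡∂ n) x₀),
        hφ.eventually (extChartAt_source_mem_nhds (I := 𝓡∂ n) x₀'),
        hw.eventually (hD₁o.mem_nhds hz'D)] with k hk1 hk2 hk3
      obtain ⟨hmk, hxk⟩ := hm k
      obtain ⟨r, hr, hball, hball2, hτ, hVs, hg, -⟩ :=
        hUnm n N M P Q Γ (O k) (φ k) (V k) hmk x₀' x₀ (x k) hxk hk1 hk2
      set τ : E n → E n := fun y => xc n x₀' (φ k ((xc n x₀).symm y)) with hτd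
      have hτk : τ (xc n x₀ (x k)) = xc n x₀' (φ k (x k)) := by
        simp only [hτd]
        rw [(xc n x₀).left_inv hk1]
      set B' : Set (E n) := Metric.ball (xc n x₀ (x k)) r ∩ τ ⁻¹' D₁ with hB'
      have hB'o : IsOpen B' := hτ.continuousOn.isOpen_inter_preimage Metric.isOpen_ball hD₁o
      have hB'h : B' ⊆ Hs n := fun y hy => le_of_lt (show 0 < y 0 from (hball hy.1).2)
      have hyk : xc n x₀ (x k) ∈ B' := ⟨Metric.mem_ball_self hr, by
        show τ (xc n x₀ (x k)) ∈ D₁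
        rw [hτk]
        exact hk3⟩
      have hXX' : ∀ y ∈ B', Xco j0 S₂ T₂ y = Xco j0 S₁ T₁ (τ y) := by
        intro y hy
        have hyO := (hball2 y hy.1).1
        have hys := (hball2 y hy.1).2.1
        have hinv : (xc n x₀').symm (τ y) = φ k ((xc n x₀).symm y) := (xc n x₀').left_inv hys
        have hSS : S₂ y = V k ((xc n x₀).symm y) * S₁ (τ y) := by
          refine endF_ext fun j => ?_
          show S₂ y (eN N j) = V k ((xc n x₀).symm y) (S₁ (τ y) (eN N j))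
          rw [hS₂, hS₁, cCoord_frm_eN, cCoord_frm_eN, hinv]
          exact hmk.sol _ (hs j) _ hyO
        have hTT : ∀ a, T₂ a y = V k ((xc n x₀).symm y) (T₁ a (τ y)) := by
          intro a
          show (t a).2 ((xc n x₀).symm y) =
            V k ((xc n x₀).symm y) ((t a).1 ((xc n x₀').symm (τ y)))
          rw [hinv]
          exact hmk.sol _ (ht a) _ hyO
        have hVu : IsUnit (V k ((xc n x₀).symm y)) :=
          ⟨Unitary.toUnits ⟨_, hmk.unit _ hyO⟩, rfl⟩
        ext a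
        rw [cCoord_xco_apply, cCoord_xco_apply, hSS, hTT a, cCoord_inv hy.2.2 hVu]
      have hfin := cCoord_det (cCoord_relOpen hD₁o hD₁h) (cCoord_relOpen hB'o hB'h)
        (hτ.mono inter_subset_left) (fun y hy => hy.2) hX₁ hXX' hyk
        (g₁ := (P.loc x₀').g) (g₂ := (Q.loc x₀).g) (by
          have := hg (xc n x₀ (x k)) hyk.1
          exact this)
      rw [hτk] at hfin
      exact hfin
    have hlhs : Tendsto (fun k => (Jac (Xco j0 S₂ T₂) (xc n x₀ (x k))).det ^ 2 *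
        ((P.loc x₀').g (xc n x₀' (φ k (x k)))).det) atTop
        (𝓝 ((Jac (Xco j0 S₂ T₂) z).det ^ 2 * ((P.loc x₀').g z').det)) :=
      (((cCoord_jac_cont hD₂o hD₂h hX₂ hzD).tendsto.comp hy).pow 2).mul
        ((cCoord_met_cont hD₁o (fun i j => ((hok P x₀').g_smooth i j).mono hD₁s)
          hz'D).tendsto.comp hw)
    have hrhs : Tendsto (fun k => (Jac (Xco j0 S₁ T₁) (xc n x₀' (φ k (x k)))).det ^ 2 *
        ((Q.loc x₀).g (xc n x₀ (x k))).det) atTop
        (𝓝 ((Jac (Xco j0 S₁ T₁) z').det ^ 2 * ((Q.loc x₀).g z).det)) :=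
      (((cCoord_jac_cont hD₁o hD₁h hX₁ hz'D).tendsto.comp hw).pow 2).mul
        ((cCoord_met_cont hD₂o (fun i j => ((hok Q x₀).g_smooth i j).mono hD₂s)
          hzD).tendsto.comp hy)
    have heq := tendsto_nhds_unique_of_eventuallyEq hlhs hrhs hev
    rw [hJ₁, Matrix.det_one, one_pow, one_mul] at heq
    have hpos : 0 < ((Q.loc x₀).g z).det := ((hok Q x₀).g_pos z (hD₂s hzD)).det_pos
    intro h0
    have h0' : (Jac (Xco j0 S₂ T₂) z).det = 0 := h0
    rw [h0'] at heq
    simp at heq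
    exact hpos.ne heq
  · show 0 < Xco j0 S₁ T₁ z' 0
    rw [cCoord_xco_apply, hS₁z, Ring.inverse_one]
    have e : T₁ 0 z' = EuclideanSpace.single j0 1 := by
      show (t 0).1 ((xc n x₀').symm z') = _
      rw [symm', (htj 0).1, if_pos rfl]
    rw [e, cCoord_re_apply]
    simp only [one_apply_eq_self, PiLp.single_eq_same, Complex.one_re, zero_lt_one]

end Vale.Agent.P088.EYM
end
end

section

/-!
# P088-EYM, local solvability: termwise differentiation of twisted Fourier series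
-/

open MeasureTheory Set Filter Topology
open scoped ContDiff Real

noncomputable section

namespace Vale.Agent.P088.EYM.ES

variable {n N : ℕ} [NeZero n]

/-- the first order weight -/
def sEval_w (k : La n) : ℝ := 1 + ∑ j, |fr k j|

theorem sEval_w_one (k : La n) : 1 ≤ sEval_w k := by
  have h : 0 ≤ ∑ j, |fr k j| := Finset.sum_nonneg fun j _ => abs_nonneg _
  rw [sEval_w]
  linarith

theorem sEval_fr_le (k : La n) (j : Fin n) : |fr k j| ≤ sEval_w k := by
  have h : |fr k j| ≤ ∑ j, |fr k j| :=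
    Finset.single_le_sum (f := fun j => |fr k j|) (fun j _ => abs_nonneg _) (Finset.mem_univ j)
  rw [sEval_w]
  linarith

theorem sEval_wt (k : La n) : wt k = sEval_w k * sEval_w k := by
  rw [wt, sEval_w, sq]

/-- the linear form `∑ fr_j y_j` -/
def sEval_L (k : La n) : E n →L[ℝ] ℝ :=
  ∑ j, fr k j • (EuclideanSpace.proj j : E n →L[ℝ] ℝ)

theorem sEval_L_apply (k : La n) (y : E n) : sEval_L k y = ∑ j, fr k j * y j := by
  rw [sEval_L, sum_apply]
  rfl

theorem sEval_L_ev (k : La n) (j : Fin n) : sEval_L k (ev j) = fr k j := by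
  classical
  rw [sEval_L_apply, Finset.sum_eq_single j]
  · simp
  · intro i _ hi
    simp [hi]
  · intro hj
    exact absurd (Finset.mem_univ j) hj

theorem sEval_coord_le (y : E n) (j : Fin n) : |y j| ≤ ‖y‖ := by
  have h := PiLp.norm_apply_le (p := 2) y j
  rwa [Real.norm_eq_abs] at h

theorem sEval_L_norm (k : La n) : ‖sEval_L k‖ ≤ sEval_w k := by
  refine ContinuousLinearMap.opNorm_le_bound _ (zero_le_one.trans (sEval_w_one k)) fun y => ?_
  rw [sEval_L_apply, Real.norm_eq_abs]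
  calc |∑ j, fr k j * y j| ≤ ∑ j, |fr k j * y j| := Finset.abs_sum_le_sum_abs _ _
    _ ≤ ∑ j, |fr k j| * ‖y‖ := Finset.sum_le_sum fun j _ => by
        rw [abs_mul]
        exact mul_le_mul_of_nonneg_left (sEval_coord_le y j) (abs_nonneg _)
    _ = (∑ j, |fr k j|) * ‖y‖ := by rw [Finset.sum_mul]
    _ ≤ sEval_w k * ‖y‖ := by
        refine mul_le_mul_of_nonneg_right ?_ (norm_nonneg _)
        rw [sEval_w]
        linarith

theorem sEval_norm_exT (k : La n) (y : E n) : ‖exT k y‖ = 1 := by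
  rw [exT, Complex.norm_exp]
  simp only [Complex.ofReal_sum, Complex.ofReal_mul, Complex.mul_re, Complex.re_ofNat, Complex.ofReal_re, Complex.im_ofNat, Complex.ofReal_im, mul_zero, sub_zero, Complex.I_re, Complex.mul_im, zero_mul, add_zero, Complex.I_im, mul_one, sub_self, Complex.re_sum, Complex.im_sum, Finset.sum_const_zero, Real.exp_zero]

/-- the derivative of the exponential factor, without the exponential -/
def sEval_M (k : La n) : E n →L[ℝ] ℂ :=
  (2 * π * Complex.I : ℂ) • (Complex.ofRealCLM.comp (sEval_L k))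

theorem sEval_M_apply (k : La n) (v : E n) :
    sEval_M k v = 2 * π * Complex.I * ((sEval_L k v : ℝ) : ℂ) := rfl

theorem sEval_norm_two_pi_I : ‖(2 * π * Complex.I : ℂ)‖ = 2 * π := by
  rw [norm_mul, norm_mul, Complex.norm_I, mul_one, Complex.norm_real, Real.norm_eq_abs,
    abs_of_pos Real.pi_pos]
  simp

theorem sEval_M_norm (k : La n) : ‖sEval_M k‖ ≤ 2 * π * sEval_w k := by
  refine ContinuousLinearMap.opNorm_le_bound _ ?_ fun v => ?_
  · have h1 := sEval_w_one k
    have h2 := Real.pi_pos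
    positivity
  · rw [sEval_M_apply, norm_mul, sEval_norm_two_pi_I, Complex.norm_real, mul_assoc (2 * π)]
    have h0 : (0 : ℝ) ≤ 2 * π := by
      have := Real.pi_pos
      positivity
    refine mul_le_mul_of_nonneg_left ?_ h0
    exact ((sEval_L k).le_opNorm v).trans
      (mul_le_mul_of_nonneg_right (sEval_L_norm k) (norm_nonneg _))

theorem sEval_hasFDerivAt_exT (k : La n) (y : E n) :
    HasFDerivAt (exT k) (exT k y • sEval_M k) y := by
  have h1 : HasFDerivAt (fun y : E n => sEval_M k y) (sEval_M k) y := (sEval_M k).hasFDerivAt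
  have h2 := h1.cexp
  have h3 : (fun y : E n => Complex.exp (sEval_M k y)) = exT k := by
    funext z
    rw [exT, sEval_M_apply, sEval_L_apply]
  have h4 : Complex.exp (sEval_M k y) = exT k y := congrFun h3 y
  rw [h3, h4] at h2
  exact h2

section general
variable {G : Type*} [NormedAddCommGroup G] [NormedSpace ℂ G] [NormedSpace ℝ G]
  [IsScalarTower ℝ ℂ G] [CompleteSpace G]

/-- `v ↦ (2πi L_k v) Λ_k` -/
def sEval_D (Λ : La n → G) (k : La n) : E n →L[ℝ] G := (sEval_M k).smulRight (Λ k)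

theorem sEval_D_norm (Λ : La n → G) (k : La n) :
    ‖sEval_D Λ k‖ ≤ 2 * π * (sEval_w k * ‖Λ k‖) := by
  have h0 : (0 : ℝ) ≤ 2 * π * (sEval_w k * ‖Λ k‖) := by
    have h1 := sEval_w_one k
    have h2 := Real.pi_pos
    positivity
  refine ContinuousLinearMap.opNorm_le_bound _ h0 fun v => ?_
  show ‖sEval_M k v • Λ k‖ ≤ _
  rw [norm_smul]
  calc ‖sEval_M k v‖ * ‖Λ k‖ ≤ (2 * π * sEval_w k * ‖v‖) * ‖Λ k‖ :=
        mul_le_mul_of_nonneg_right (((sEval_M k).le_opNorm v).trans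
          (mul_le_mul_of_nonneg_right (sEval_M_norm k) (norm_nonneg _))) (norm_nonneg _)
    _ = 2 * π * (sEval_w k * ‖Λ k‖) * ‖v‖ := by ring

theorem sEval_summable_of_weight {Λ : La n → G}
    (h : Summable fun k => sEval_w k * ‖Λ k‖) : Summable fun k => ‖Λ k‖ :=
  Summable.of_nonneg_of_le (fun k => norm_nonneg _)
    (fun k => le_mul_of_one_le_left (norm_nonneg _) (sEval_w_one k)) h

theorem sEval_norm_term (Λ : La n → G) (k : La n) (y : E n) : ‖exT k y • Λ k‖ = ‖Λ k‖ := by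
  rw [norm_smul, sEval_norm_exT, one_mul]

theorem sEval_summable {Λ : La n → G} (h : Summable fun k => ‖Λ k‖) (y : E n) :
    Summable fun k => exT k y • Λ k := by
  apply Summable.of_norm
  simpa only [sEval_norm_term] using h

theorem sEval_continuous_exT (k : La n) : Continuous (exT k) :=
  continuous_iff_continuousAt.2 fun y => (sEval_hasFDerivAt_exT k y).continuousAt

/-- `v ↦ exT k y (2πi L_k v) Λ_k` -/
def sEval_DD (Λ : La n → G) (k : La n) (y : E n) : E n →L[ℝ] G :=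
  (exT k y • sEval_M k).smulRight (Λ k)

theorem sEval_term (Λ : La n → G) (k : La n) (x : E n) :
    HasFDerivAt (fun y => exT k y • Λ k) (sEval_DD Λ k x) x :=
  (sEval_hasFDerivAt_exT k x).smul_const (Λ k)

theorem sEval_DD_norm (Λ : La n → G) (k : La n) (x : E n) :
    ‖sEval_DD Λ k x‖ ≤ 2 * π * (sEval_w k * ‖Λ k‖) := by
  have h0 : (0 : ℝ) ≤ 2 * π * (sEval_w k * ‖Λ k‖) := by
    have h1 := sEval_w_one k
    have h2 := Real.pi_pos
    (clear x h2; positivity)
  refine ContinuousLinearMap.opNorm_le_bound _ h0 fun v => ?_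
  show ‖(exT k x * sEval_M k v) • Λ k‖ ≤ _
  rw [norm_smul, norm_mul, sEval_norm_exT, one_mul]
  calc ‖sEval_M k v‖ * ‖Λ k‖ ≤ (2 * π * sEval_w k * ‖v‖) * ‖Λ k‖ :=
        mul_le_mul_of_nonneg_right (((sEval_M k).le_opNorm v).trans
          (mul_le_mul_of_nonneg_right (sEval_M_norm k) (norm_nonneg _))) (norm_nonneg _)
    _ = 2 * π * (sEval_w k * ‖Λ k‖) * ‖v‖ := by ring

theorem sEval_hasFDerivAt {Λ : La n → G} (h : Summable fun k => sEval_w k * ‖Λ k‖) (y : E n) :
    HasFDerivAt (fun y : E n => ∑' k, exT k y • Λ k) (∑' k, sEval_DD Λ k y) y :=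
  hasFDerivAt_tsum (𝕜 := ℝ) (u := fun k => 2 * π * (sEval_w k * ‖Λ k‖))
    (f := fun k y => exT k y • Λ k) (f' := fun k y => sEval_DD Λ k y) (x₀ := (0 : E n))
    (h.mul_left _) (fun k x => sEval_term Λ k x) (fun k x => sEval_DD_norm Λ k x)
    (sEval_summable (sEval_summable_of_weight h) 0) y

theorem sEval_DD_eq (Λ : La n → G) (k : La n) (y : E n) :
    sEval_DD Λ k y = exT k y • sEval_D Λ k := by
  ext v
  show (exT k y * sEval_M k v) • Λ k = exT k y • (sEval_M k v • Λ k)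
  rw [smul_smul]

theorem sEval_hasFDerivAt' {Λ : La n → G} (h : Summable fun k => sEval_w k * ‖Λ k‖) (y : E n) :
    HasFDerivAt (fun y : E n => ∑' k, exT k y • Λ k) (∑' k, exT k y • sEval_D Λ k) y := by
  have h1 := sEval_hasFDerivAt h y
  simp only [sEval_DD_eq] at h1
  exact h1

end general

theorem sEval_summable_D {f : La n → Fib N} (h : Summable fun k => sEval_w k * ‖f k‖) :
    Summable fun k => ‖sEval_D f k‖ :=
  Summable.of_nonneg_of_le (fun k => norm_nonneg _) (fun k => sEval_D_norm f k) (h.mul_left _)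

/-- first derivative of the series -/
theorem sEval_fderiv {f : La n → Fib N} (h : Summable fun k => sEval_w k * ‖f k‖) (j : Fin n)
    (y : E n) : fderiv ℝ (evT f) y (ev j) =
      evT (fun k => ((2 * π * Complex.I) * ((fr k j : ℝ) : ℂ)) • f k) y := by
  have h1 : HasFDerivAt (evT f) (∑' k, exT k y • sEval_D f k) y :=
    sEval_hasFDerivAt' h y
  have h2 : Summable fun k => exT k y • sEval_D f k := by
    apply Summable.of_norm
    simpa only [norm_smul, sEval_norm_exT, one_mul] using sEval_summable_D h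
  rw [h1.fderiv]
  have h3 := (ContinuousLinearMap.apply ℝ (Fib N) (ev j : E n)).map_tsum h2
  rw [ContinuousLinearMap.apply_apply] at h3
  rw [h3, evT]
  refine tsum_congr fun k => ?_
  show exT k y • (sEval_M k (ev j) • f k) = _
  rw [sEval_M_apply, sEval_L_ev]

theorem sEval_weight {f : La n → Fib N} (h : Summable fun k => wt k * ‖f k‖) :
    Summable fun k => sEval_w k * ‖f k‖ := by
  refine Summable.of_nonneg_of_le (fun k => mul_nonneg (zero_le_one.trans (sEval_w_one k))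
    (norm_nonneg _)) (fun k => ?_) h
  refine mul_le_mul_of_nonneg_right ?_ (norm_nonneg _)
  rw [sEval_wt]
  exact le_mul_of_one_le_left (zero_le_one.trans (sEval_w_one k)) (sEval_w_one k)

theorem sEval_weight_mul {f : La n → Fib N} (h : Summable fun k => wt k * ‖f k‖) (j : Fin n) :
    Summable fun k =>
      sEval_w k * ‖((2 * π * Complex.I) * ((fr k j : ℝ) : ℂ)) • f k‖ := by
  refine Summable.of_nonneg_of_le (fun k => mul_nonneg (zero_le_one.trans (sEval_w_one k))
    (norm_nonneg _)) (fun k => ?_) (h.mul_left (2 * π))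
  rw [norm_smul, norm_mul, sEval_norm_two_pi_I, Complex.norm_real, Real.norm_eq_abs, sEval_wt]
  have h1 := sEval_fr_le k j
  have h2 := sEval_w_one k
  have h3 := Real.pi_pos
  have h4 : 0 ≤ ‖f k‖ := norm_nonneg _
  calc sEval_w k * (2 * π * |fr k j| * ‖f k‖)
      = (2 * π * ‖f k‖ * sEval_w k) * |fr k j| := by ring
    _ ≤ (2 * π * ‖f k‖ * sEval_w k) * sEval_w k :=
        mul_le_mul_of_nonneg_left h1 (by (clear h j h1 h3 h4; positivity))
    _ = 2 * π * (sEval_w k * sEval_w k * ‖f k‖) := by ring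

/-- termwise differentiation -/
theorem evT_c2 (f : La n → Fib N) (h : Summable fun k => wt k * ‖f k‖) :
    ContDiff ℝ 2 (evT f) ∧
    (∀ j y, fderiv ℝ (evT f) y (ev j) =
      evT (fun k => ((2 * π * Complex.I) * ((fr k j : ℝ) : ℂ)) • f k) y) ∧
    ∀ i j y, fderiv ℝ (fun y => fderiv ℝ (evT f) y (ev j)) y (ev i) =
      evT (fun k => ((2 * π * Complex.I) ^ 2 * ((fr k i * fr k j : ℝ) : ℂ)) • f k) y := by
  have h1 : Summable fun k => sEval_w k * ‖f k‖ := sEval_weight h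
  refine ⟨?_, fun j y => sEval_fderiv h1 j y, fun i j y => ?_⟩
  · have : IsScalarTower ℝ ℂ (E n →L[ℝ] Fib N) := ⟨fun c d S => by
      ext1 w
      exact smul_assoc c d (S w)⟩
    have hd : fderiv ℝ (evT f) = fun y => ∑' k, exT k y • sEval_D f k := by
      funext y
      exact (sEval_hasFDerivAt' h1 y).fderiv
    have h2 : Summable fun k => sEval_w k * ‖sEval_D f k‖ := by
      refine Summable.of_nonneg_of_le (fun k => mul_nonneg (zero_le_one.trans (sEval_w_one k))
        (norm_nonneg _)) (fun k => ?_) (h.mul_left (2 * π))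
      have h4 := mul_le_mul_of_nonneg_left (sEval_D_norm f k)
        (zero_le_one.trans (sEval_w_one k))
      refine h4.trans (le_of_eq ?_)
      rw [sEval_wt]
      ring
    have e2 : (2 : WithTop ℕ∞) = 1 + 1 := by norm_num
    rw [e2, contDiff_succ_iff_fderiv]
    refine ⟨fun y => (sEval_hasFDerivAt h1 y).differentiableAt, by simp, ?_⟩
    rw [contDiff_one_iff_fderiv, hd]
    refine ⟨fun y => (sEval_hasFDerivAt h2 y).differentiableAt, ?_⟩
    have hd2 : (fderiv ℝ fun y : E n => ∑' k, exT k y • sEval_D f k) =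
        fun y => ∑' k, exT k y • sEval_D (sEval_D f) k := by
      funext y
      exact (sEval_hasFDerivAt' h2 y).fderiv
    rw [hd2]
    refine continuous_tsum (u := fun k => 2 * π * (sEval_w k * ‖sEval_D f k‖))
      (fun k => (sEval_continuous_exT k).smul continuous_const) (h2.mul_left _) fun k y => ?_
    rw [norm_smul, sEval_norm_exT, one_mul]
    exact sEval_D_norm _ k
  · have h2 : (fun y => fderiv ℝ (evT f) y (ev j)) =
        evT (fun k => ((2 * π * Complex.I) * ((fr k j : ℝ) : ℂ)) • f k) := by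
      funext z
      exact sEval_fderiv h1 j z
    rw [h2, sEval_fderiv (sEval_weight_mul h j)]
    congr 1
    funext k
    rw [smul_smul]
    congr 1
    push_cast
    ring

/-- sup bounds of the 1-jet -/
theorem evT_bound (f : La n → Fib N) (h : Summable fun k => wt k * ‖f k‖) (y : E n) :
    ‖evT f y‖ ≤ ∑' k, wt k * ‖f k‖ ∧
      ∀ j, ‖fderiv ℝ (evT f) y (ev j)‖ ≤ 2 * π * ∑' k, wt k * ‖f k‖ := by
  have hw : ∀ k : La n, 1 ≤ wt k := fun k => by
    rw [sEval_wt]
    exact one_le_mul_of_one_le_of_one_le (sEval_w_one k) (sEval_w_one k)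
  have h1 : Summable fun k => sEval_w k * ‖f k‖ := sEval_weight h
  constructor
  · have h2 : Summable fun k => ‖f k‖ := sEval_summable_of_weight h1
    have h3 : Summable fun k => ‖exT k y • f k‖ := by simpa only [sEval_norm_term] using h2
    rw [evT]
    refine (norm_tsum_le_tsum_norm h3).trans ?_
    refine h3.tsum_le_tsum (fun k => ?_) h
    rw [sEval_norm_term]
    exact le_mul_of_one_le_left (norm_nonneg _) (hw k)
  · intro j
    rw [sEval_fderiv h1 j y, evT]
    have h4 := sEval_weight_mul h j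
    have h5 := sEval_summable_of_weight h4
    have h3 : Summable fun k => ‖exT k y •
        (((2 * π * Complex.I) * ((fr k j : ℝ) : ℂ)) • f k)‖ := by
      simpa only [sEval_norm_term (fun k => ((2 * π * Complex.I) * ((fr k j : ℝ) : ℂ)) • f k)]
        using h5
    refine (norm_tsum_le_tsum_norm h3).trans ?_
    rw [← tsum_mul_left]
    refine h3.tsum_le_tsum (fun k => ?_) (h.mul_left _)
    rw [norm_smul, sEval_norm_exT, one_mul, norm_smul, norm_mul, sEval_norm_two_pi_I,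
      Complex.norm_real, Real.norm_eq_abs, sEval_wt, mul_assoc]
    refine mul_le_mul_of_nonneg_left ?_ (by have := Real.pi_pos; positivity)
    refine mul_le_mul_of_nonneg_right ?_ (norm_nonneg _)
    exact (sEval_fr_le k j).trans
      (le_mul_of_one_le_left (zero_le_one.trans (sEval_w_one k)) (sEval_w_one k))

end Vale.Agent.P088.EYM.ES
end
end

section

/-!
# P088-EYM, local solvability: convolution on the lattice and the pointwise product
-/

open MeasureTheory Set Filter Topology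
open scoped ContDiff Real

noncomputable section

namespace Vale.Agent.P088.EYM.ES

variable {n N : ℕ} [NeZero n]

/-- `(k, l) ↦ (k - l, l)` -/
def sConv_equiv (n : ℕ) : La n × La n ≃ La n × La n where
  toFun p := (p.1 - p.2, p.2)
  invFun p := (p.1 + p.2, p.2)
  left_inv p := by simp
  right_inv p := by simp

omit [NeZero n] in
theorem sConv_summable_prod {α : La n → EndF N} {f : La n → Fib N}
    (hα : Summable fun k => ‖α k‖) (hf : Summable fun k => ‖f k‖) :
    Summable fun p : La n × La n => ‖α (p.1 - p.2)‖ * ‖f p.2‖ := by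
  have h := hα.mul_of_nonneg hf (fun _ => norm_nonneg _) (fun _ => norm_nonneg _)
  exact (sConv_equiv n).summable_iff.2 h

omit [NeZero n] in
theorem sConv_tsum_prod {α : La n → EndF N} {f : La n → Fib N}
    (hα : Summable fun k => ‖α k‖) (hf : Summable fun k => ‖f k‖) :
    ∑' p : La n × La n, ‖α (p.1 - p.2)‖ * ‖f p.2‖ = (∑' k, ‖α k‖) * ∑' k, ‖f k‖ := by
  rw [hα.tsum_mul_tsum hf (hα.mul_of_nonneg hf (fun _ => norm_nonneg _) (fun _ => norm_nonneg _))]
  exact (sConv_equiv n).tsum_eq fun p : La n × La n => ‖α p.1‖ * ‖f p.2‖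

omit [NeZero n] in
theorem sConv_row {α : La n → EndF N} {f : La n → Fib N} (hα : Summable fun k => ‖α k‖)
    (hf : Summable fun k => ‖f k‖) (k : La n) : Summable fun l => α (k - l) (f l) := by
  refine Summable.of_norm_bounded ((sConv_summable_prod hα hf).prod_factor k) fun l => ?_
  exact (α (k - l)).le_opNorm _

omit [NeZero n] in
theorem conv_summable {α : La n → EndF N} {f : La n → Fib N} (hα : Summable fun k => ‖α k‖)
    (hf : Summable fun k => ‖f k‖) :
    Summable (fun k => ‖conv α f k‖) ∧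
      ∑' k, ‖conv α f k‖ ≤ (∑' k, ‖α k‖) * ∑' k, ‖f k‖ := by
  have hs := sConv_summable_prod hα hf
  have hG : Summable fun k => ∑' l, ‖α (k - l)‖ * ‖f l‖ := hs.prod
  have hle : ∀ k, ‖conv α f k‖ ≤ ∑' l, ‖α (k - l)‖ * ‖f l‖ := fun k =>
    tsum_of_norm_bounded (hs.prod_factor k).hasSum fun l => (α (k - l)).le_opNorm _
  have h1 : Summable fun k => ‖conv α f k‖ :=
    Summable.of_nonneg_of_le (fun _ => norm_nonneg _) hle hG
  refine ⟨h1, ?_⟩
  rw [← sConv_tsum_prod hα hf, hs.tsum_prod]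
  exact h1.tsum_le_tsum hle hG

omit [NeZero n] in
theorem conv_add {α : La n → EndF N} {f f' : La n → Fib N} (hα : Summable fun k => ‖α k‖)
    (hf : Summable fun k => ‖f k‖) (hf' : Summable fun k => ‖f' k‖) (k : La n) :
    conv α (fun k => f k + f' k) k = conv α f k + conv α f' k := by
  unfold conv
  rw [← (sConv_row hα hf k).tsum_add (sConv_row hα hf' k)]
  exact tsum_congr fun l => map_add _ _ _

omit [NeZero n] in
theorem conv_smul {α : La n → EndF N} {f : La n → Fib N} (c : ℂ) (k : La n) :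
    conv α (fun k => c • f k) k = c • conv α f k := by
  unfold conv
  rw [← tsum_const_smul'']
  exact tsum_congr fun l => map_smul _ _ _

theorem sConv_norm_exT (k : La n) (y : E n) : ‖exT k y‖ = 1 := by
  unfold exT
  rw [Complex.norm_exp]
  simp only [Complex.ofReal_sum, Complex.ofReal_mul, Complex.mul_re, Complex.re_ofNat, Complex.ofReal_re, Complex.im_ofNat, Complex.ofReal_im, mul_zero, sub_zero, Complex.I_re, Complex.mul_im, zero_mul, add_zero, Complex.I_im, mul_one, sub_self, Complex.re_sum, Complex.im_sum, Finset.sum_const_zero, Real.exp_zero]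

omit [NeZero n] in
theorem sConv_norm_ex0 (k : La n) (y : E n) : ‖ex0 k y‖ = 1 := by
  unfold ex0
  rw [Complex.norm_exp]
  simp only [Complex.ofReal_sum, Complex.ofReal_mul, Complex.ofReal_intCast, Complex.mul_re, Complex.re_ofNat, Complex.ofReal_re, Complex.im_ofNat, Complex.ofReal_im, mul_zero, sub_zero, Complex.I_re, Complex.mul_im, zero_mul, add_zero, Complex.I_im, mul_one, sub_self, Complex.re_sum, Complex.intCast_re, Complex.intCast_im, Complex.im_sum, Finset.sum_const_zero, Real.exp_zero]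

theorem sConv_exT_eq (k l : La n) (y : E n) : exT k y = ex0 (k - l) y * exT l y := by
  unfold exT ex0
  rw [← Complex.exp_add, ← mul_add, ← Complex.ofReal_add, ← Finset.sum_add_distrib]
  congr 4
  funext j
  unfold fr
  simp only [Pi.sub_apply]
  push_cast
  ring

omit [NeZero n] in
theorem sConv_sum0 {α : La n → EndF N} (hα : Summable fun k => ‖α k‖) (y : E n) :
    Summable fun m => ex0 m y • α m := by
  refine Summable.of_norm_bounded hα fun m => ?_
  rw [norm_smul, sConv_norm_ex0, one_mul]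

theorem sConv_sumT {f : La n → Fib N} (hf : Summable fun k => ‖f k‖) (y : E n) :
    Summable fun l => exT l y • f l := by
  refine Summable.of_norm_bounded hf fun m => ?_
  rw [norm_smul, sConv_norm_exT, one_mul]

omit [NeZero n] in
theorem sConv_inner {α : La n → EndF N} (hα : Summable fun k => ‖α k‖) (y : E n) (l : La n)
    (v : Fib N) : ∑' k, ex0 (k - l) y • α (k - l) v = ev0 α y v := by
  have h1 : ∑' k, ex0 (k - l) y • α (k - l) v = ∑' m, ex0 m y • α m v :=
    (Equiv.subRight l).tsum_eq fun m => ex0 m y • α m v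
  rw [h1]
  exact ((ContinuousLinearMap.apply ℂ (Fib N) v).map_tsum (sConv_sum0 hα y)).symm

theorem sConv_F {α : La n → EndF N} {f : La n → Fib N} (hα : Summable fun k => ‖α k‖)
    (hf : Summable fun k => ‖f k‖) (y : E n) :
    Summable fun p : La n × La n => ex0 (p.1 - p.2) y • α (p.1 - p.2) (exT p.2 y • f p.2) := by
  refine Summable.of_norm_bounded (sConv_summable_prod hα hf) fun p => ?_
  rw [map_smul, norm_smul, norm_smul, sConv_norm_ex0, sConv_norm_exT, one_mul, one_mul]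
  exact (α (p.1 - p.2)).le_opNorm _

theorem sConv_left {α : La n → EndF N} {f : La n → Fib N} (y : E n) :
    evT (conv α f) y = ∑' k, ∑' l, ex0 (k - l) y • α (k - l) (exT l y • f l) := by
  unfold evT conv
  refine tsum_congr fun k => ?_
  rw [← tsum_const_smul'']
  refine tsum_congr fun l => ?_
  rw [sConv_exT_eq k l y, map_smul, smul_smul]

/-- convolution corresponds to the pointwise product -/
theorem conv_ev {α : La n → EndF N} {f : La n → Fib N} (hα : Summable fun k => ‖α k‖)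
    (hf : Summable fun k => ‖f k‖) (y : E n) : evT (conv α f) y = ev0 α y (evT f y) := by
  have h1 : ∑' k, ∑' l, ex0 (k - l) y • α (k - l) (exT l y • f l) =
      ∑' l, ∑' k, ex0 (k - l) y • α (k - l) (exT l y • f l) :=
    ((sConv_F hα hf y).tsum_comm
      (f := fun k l => ex0 (k - l) y • α (k - l) (exT l y • f l))).symm
  have h2 : ∑' l, ∑' k, ex0 (k - l) y • α (k - l) (exT l y • f l) =
      ∑' l, ev0 α y (exT l y • f l) := tsum_congr fun l => sConv_inner hα y l _
  rw [sConv_left y, h1, h2]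
  exact ((ev0 α y).map_tsum (sConv_sumT hf y)).symm

end Vale.Agent.P088.EYM.ES
end
end

section

/-!
# P088-EYM, local solvability: Fourier series of compactly supported functions in the cube
-/

open MeasureTheory Set Filter Topology
open scoped ContDiff Real

noncomputable section

namespace Vale.Agent.P088.EYM.ES

variable {n N : ℕ} [NeZero n]

/-- the point of the torus -/
def SFourMk (y : E n) : UnitAddTorus (Fin n) := fun i => (y i : UnitAddCircle)

/-- the representative in the half open cube -/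
def SFourRep (t : UnitAddTorus (Fin n)) : E n :=
  WithLp.toLp 2 fun i => ((AddCircle.equivIoc 1 (-1 / 2 : ℝ) (t i)) : ℝ)

omit [NeZero n] in
theorem SFour_continuous_mk : Continuous (SFourMk (n := n)) := by
  unfold SFourMk
  refine continuous_pi fun i => ?_
  exact (AddCircle.continuous_mk' (1 : ℝ)).comp (EuclideanSpace.proj (𝕜 := ℝ) i).continuous

omit [NeZero n] in
theorem SFour_rep_mk {y : E n} (hy : ∀ i, y i ∈ Ioc (-1 / 2 : ℝ) (-1 / 2 + 1)) :
    SFourRep (SFourMk y) = y := by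
  ext i
  simp only [SFourRep, SFourMk]
  rw [AddCircle.equivIoc_coe_eq (hy i)]

omit [NeZero n] in
theorem SFour_mem {y : E n} (hy : y ∈ Cub n) : ∀ i, y i ∈ Ioc (-1 / 2 : ℝ) (-1 / 2 + 1) := by
  intro i
  have := abs_lt.1 (hy i)
  constructor <;> linarith only [this]

omit [NeZero n] in
theorem SFour_compact {F : Type*} [NormedAddCommGroup F] {φ : E n → F}
    (hs : tsupport φ ⊆ Cub n) : IsCompact (tsupport φ) := by
  refine Metric.isCompact_of_isClosed_isBounded (isClosed_tsupport φ) ?_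
  refine (Metric.isBounded_closedBall (x := (0 : E n)) (r := Real.sqrt n)).subset fun y hy => ?_
  rw [mem_closedBall_zero_iff, EuclideanSpace.norm_eq]
  refine Real.sqrt_le_sqrt ?_
  calc ∑ i, ‖y i‖ ^ 2 ≤ ∑ _i : Fin n, (1 : ℝ) := by
        refine Finset.sum_le_sum fun i _ => ?_
        have h1 := hs hy i
        rw [Real.norm_eq_abs]
        have h2 := abs_nonneg (y i)
        nlinarith
    _ = n := by simp only [Finset.sum_const, Finset.card_univ, Fintype.card_fin, nsmul_eq_mul, mul_one]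

/-- the periodic extension is continuous -/
theorem SFour_continuous {φ : E n → ℂ} (hφ : Continuous φ) (hs : tsupport φ ⊆ Cub n) :
    Continuous (fun t : UnitAddTorus (Fin n) => φ (SFourRep t)) := by
  set K : Set (UnitAddTorus (Fin n)) := SFourMk '' tsupport φ with hK
  have hKc : IsClosed K := ((SFour_compact hs).image SFour_continuous_mk).isClosed
  have h0 : ∀ t, t ∉ K → φ (SFourRep t) = 0 := by
    intro t ht
    by_contra hne
    apply ht
    refine ⟨SFourRep t, subset_tsupport _ hne, ?_⟩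
    funext i
    simp only [SFourMk, SFourRep]
    exact AddCircle.coe_equivIoc (p := (1 : ℝ)) (a := -1 / 2)
  rw [continuous_iff_continuousAt]
  intro t
  by_cases ht : t ∈ K
  · obtain ⟨y, hy, rfl⟩ := ht
    have hrep : ContinuousAt (SFourRep (n := n)) (SFourMk y) := by
      unfold SFourRep
      refine (PiLp.continuous_toLp 2 (fun _ : Fin n => ℝ)).continuousAt.comp ?_
      refine continuousAt_pi.2 fun i => ?_
      refine continuous_subtype_val.continuousAt.comp ?_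
      have hne : (SFourMk y) i ≠ ((-1 / 2 : ℝ) : AddCircle (1 : ℝ)) := by
        intro h
        have e1 := SFour_mem (hs hy) i
        have e2 : ((-1 / 2 : ℝ) : AddCircle (1 : ℝ)) = ((-1 / 2 + 1 : ℝ) : AddCircle (1 : ℝ)) := by
          rw [AddCircle.coe_add_period]
        rw [e2] at h
        have e3 : (AddCircle.equivIoc 1 (-1 / 2 : ℝ) (SFourMk y i)) = ⟨y i, e1⟩ :=
          AddCircle.equivIoc_coe_eq e1
        have e4 : (AddCircle.equivIoc 1 (-1 / 2 : ℝ) (((-1 / 2 + 1 : ℝ) : AddCircle (1 : ℝ)))) =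
            ⟨-1 / 2 + 1, by constructor <;> norm_num⟩ := AddCircle.equivIoc_coe_eq _
        rw [h, e4] at e3
        have e5 := congrArg Subtype.val e3
        simp only at e5
        have e6 := abs_lt.1 (hs hy i)
        linarith only [e5, e6]
      have := (AddCircle.continuousAt_equivIoc (p := (1 : ℝ)) (a := -1 / 2) hne)
      exact ContinuousAt.comp (f := fun t : UnitAddTorus (Fin n) => t i) this
        (continuous_apply i).continuousAt
    exact hφ.continuousAt.comp hrep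
  · have hev : ∀ᶠ s in 𝓝 t, φ (SFourRep s) = 0 := by
      filter_upwards [hKc.isOpen_compl.mem_nhds ht] with s hs using h0 s hs
    exact (continuousAt_const (y := (0 : ℂ))).congr (hev.mono fun s hs => hs.symm)

omit [NeZero n] in
theorem SFour_mFourier (k : La n) (y : E n) : UnitAddTorus.mFourier k (SFourMk y) = ex0 k y := by
  show ∏ i, fourier (k i) ((SFourMk y) i) = ex0 k y
  unfold ex0 SFourMk
  rw [Finset.prod_congr rfl fun i _ => fourier_coe_apply (T := (1 : ℝ)) (n := k i) (x := y i),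
    ← Complex.exp_sum]
  congr 1
  push_cast
  rw [Finset.mul_sum]
  refine Finset.sum_congr rfl fun i _ => ?_
  ring

omit [NeZero n] in
theorem SFour_mFourier_neg (k : La n) (y : E n) : UnitAddTorus.mFourier (-k) (SFourMk y) =
    Complex.exp (-(2 * π * Complex.I * ((∑ j, (k j : ℝ) * y j : ℝ) : ℂ))) := by
  rw [SFour_mFourier]
  unfold ex0
  congr 1
  push_cast
  rw [← mul_neg, ← Finset.sum_neg_distrib]
  congr 1
  refine Finset.sum_congr rfl fun i _ => ?_
  simp only [Pi.neg_apply, Int.cast_neg, neg_mul]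

theorem SFour_coeff {φ : E n → ℂ} (hs : tsupport φ ⊆ Cub n) (k : La n) :
    UnitAddTorus.mFourierCoeff (fun t : UnitAddTorus (Fin n) => φ (SFourRep t)) k = fco φ k := by
  rw [UnitAddTorus.mFourierCoeff_eq_integral _ k (fun _ => (-1 / 2 : ℝ))]
  unfold fco
  rw [← (PiLp.volume_preserving_toLp (Fin n)).integral_comp
    (MeasurableEquiv.toLp 2 _).measurableEmbedding]
  have h1 : ∀ x : Fin n → ℝ, x ∈ {x : Fin n → ℝ | ∀ i, x i ∈ Ioc (-1 / 2 : ℝ) (-1 / 2 + 1)} →
      UnitAddTorus.mFourier (-k) (fun i => (x i : UnitAddCircle)) •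
        φ (SFourRep (fun i => (x i : UnitAddCircle))) =
      Complex.exp (-(2 * π * Complex.I *
        ((∑ j, (k j : ℝ) * (WithLp.toLp 2 x : E n) j : ℝ) : ℂ))) • φ (WithLp.toLp 2 x) := by
    intro x hx
    have e1 : (fun i => (x i : UnitAddCircle)) = SFourMk (WithLp.toLp 2 x : E n) := rfl
    rw [e1, SFour_mFourier_neg, SFour_rep_mk hx]
  have hms : MeasurableSet {x : Fin n → ℝ | ∀ i, x i ∈ Ioc (-1 / 2 : ℝ) (-1 / 2 + 1)} :=
    MeasurableSet.univ_pi' fun i => measurableSet_Ioc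
  rw [setIntegral_congr_fun hms h1]
  refine setIntegral_eq_integral_of_forall_compl_eq_zero fun x hx => ?_
  have : φ (WithLp.toLp 2 x) = 0 := by
    by_contra hne
    exact hx (SFour_mem (hs (subset_tsupport _ hne)))
  rw [this, smul_zero]

theorem SFour_scalar {φ : E n → ℂ} (hφ : Continuous φ)
    (hs : tsupport φ ⊆ Cub n) (hsum : Summable fun k : La n => ‖fco φ k‖) {y : E n}
    (hy : y ∈ Cub n) : HasSum (fun k : La n => ex0 k y • fco φ k) (φ y) := by
  set f : C(UnitAddTorus (Fin n), ℂ) :=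
    ⟨fun t : UnitAddTorus (Fin n) => φ (SFourRep t), SFour_continuous hφ hs⟩ with hf
  have hcoef : ∀ k, UnitAddTorus.mFourierCoeff f k = fco φ k := fun k => SFour_coeff hs k
  have h1 : Summable (UnitAddTorus.mFourierCoeff f) := by
    refine Summable.of_norm ?_
    simpa only [hcoef] using hsum
  have h2 := UnitAddTorus.hasSum_mFourier_series_apply_of_summable h1 (SFourMk y)
  have h3 : f (SFourMk y) = φ y := by
    show φ (SFourRep (SFourMk y)) = φ y
    rw [SFour_rep_mk (SFour_mem hy)]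
  rw [h3] at h2
  refine h2.congr_fun fun k => ?_
  rw [hcoef, SFour_mFourier, smul_eq_mul, smul_eq_mul, mul_comm]

/-- Fourier series of a continuous function supported in the open cube -/
theorem fco_hasSum {F : Type*} [NormedAddCommGroup F] [NormedSpace ℂ F] [NormedSpace ℝ F]
    [IsScalarTower ℝ ℂ F] [FiniteDimensional ℂ F] {φ : E n → F} (hφ : Continuous φ)
    (hs : tsupport φ ⊆ Cub n) (hsum : Summable fun k : La n => ‖fco φ k‖) {y : E n}
    (hy : y ∈ Cub n) : HasSum (fun k : La n => ex0 k y • fco φ k) (φ y) := by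
  have : CompleteSpace F := FiniteDimensional.complete ℂ F
  set e : F ≃L[ℂ] (Fin (Module.finrank ℂ F) → ℂ) := (Module.finBasis ℂ F).equivFunL with he
  have hcs : HasCompactSupport φ := SFour_compact hs
  have key : HasSum (fun k : La n => e (ex0 k y • fco φ k)) (e (φ y)) := by
    rw [Pi.hasSum]
    intro i
    set ℓ : F →L[ℂ] ℂ := (ContinuousLinearMap.proj i).comp (e : F →L[ℂ] (Fin _ → ℂ)) with hℓ
    have hint : ∀ k : La n, Integrable (fun y : E n =>
        Complex.exp (-(2 * π * Complex.I * ((∑ j, (k j : ℝ) * y j : ℝ) : ℂ))) • φ y) := by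
      intro k
      refine Continuous.integrable_of_hasCompactSupport ?_ hcs.smul_left
      fun_prop
    have hc : ∀ k, fco (fun y => ℓ (φ y)) k = ℓ (fco φ k) := by
      intro k
      unfold fco
      rw [← ContinuousLinearMap.integral_comp_comm ℓ (hint k)]
      refine integral_congr_ae (ae_of_all _ fun y => ?_)
      simp only [map_smul]
    have hs' : tsupport (fun y => ℓ (φ y)) ⊆ Cub n :=
      (tsupport_comp_subset (g := fun v => ℓ v) (map_zero ℓ) φ).trans hs
    have hsum' : Summable fun k : La n => ‖fco (fun y => ℓ (φ y)) k‖ := by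
      refine Summable.of_nonneg_of_le (fun k => norm_nonneg _) (fun k => ?_) (hsum.mul_left ‖ℓ‖)
      rw [hc]
      exact ℓ.le_opNorm _
    have h := SFour_scalar (ℓ.continuous.comp hφ) hs' hsum' hy
    refine h.congr_fun fun k => ?_
    have e1 : fco (⇑ℓ ∘ φ) k = ℓ (fco φ k) := hc k
    rw [e1, ← map_smul]
    rfl
  have h2 := (ContinuousLinearEquiv.hasSum e (f := fun k : La n => ex0 k y • fco φ k)).1 key
  rwa [e.symm_apply_apply] at h2

end Vale.Agent.P088.EYM.ES
end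
end

section

/-!
# P088-EYM, local solvability: Neumann series in a weighted sequence space
-/

open MeasureTheory Set Filter Topology
open scoped ContDiff Real

noncomputable section

namespace Vale.Agent.P088.EYM.ES

set_option linter.unusedSectionVars false

variable {n N : ℕ} [NeZero n]

/-! ### ellipticity -/

theorem score_ell {A0 : Matrix (Fin n) (Fin n) ℝ} (hA : A0.PosDef) :
    ∃ c > 0, ∀ v : Fin n → ℝ, c * (∑ j, |v j|) ^ 2 ≤ ∑ i, ∑ j, A0 i j * v i * v j := by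
  set f : (Fin n → ℝ) → ℝ := fun v => ∑ i, ∑ j, A0 i j * v i * v j with hf
  have hfc : Continuous f := by fun_prop
  have hpos : ∀ v : Fin n → ℝ, v ≠ 0 → 0 < f v := by
    intro v hv
    have h1 := hA.dotProduct_mulVec_pos hv
    have h2 : star v ⬝ᵥ A0.mulVec v = f v := by
      simp only [dotProduct, Matrix.mulVec, Pi.star_apply, star_trivial, Finset.mul_sum, hf]
      exact Finset.sum_congr rfl fun i _ => Finset.sum_congr rfl fun j _ => by ring
    rwa [h2] at h1
  set S : Set (Fin n → ℝ) := {v | ∑ j, |v j| = 1} with hS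
  have hSc : IsCompact S := by
    refine Metric.isCompact_of_isClosed_isBounded ?_ ?_
    · exact isClosed_eq (by (clear * -; fun_prop)) continuous_const
    · refine (Metric.isBounded_closedBall (x := (0 : Fin n → ℝ)) (r := 1)).subset ?_
      intro v hv
      rw [mem_closedBall_zero_iff, pi_norm_le_iff_of_nonneg zero_le_one]
      intro j
      rw [Real.norm_eq_abs]
      have h1 : ∑ j, |v j| = 1 := hv
      rw [← h1]
      exact Finset.single_le_sum (f := fun j => |v j|) (fun i _ => abs_nonneg _) (Finset.mem_univ j)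
  have hSn : S.Nonempty := by
    refine ⟨Pi.single 0 1, ?_⟩
    show ∑ j, |(Pi.single (0 : Fin n) (1 : ℝ) : Fin n → ℝ) j| = 1
    rw [Finset.sum_eq_single (0 : Fin n)]
    · simp
    · intro j _ hj
      simp only [Pi.single_eq_of_ne hj, abs_zero]
    · intro h; exact absurd (Finset.mem_univ _) h
  obtain ⟨v0, hv0, hmin⟩ := hSc.exists_isMinOn hSn hfc.continuousOn
  have hv0' : v0 ≠ 0 := by
    rintro rfl
    have h1 : ∑ j : Fin n, |(0 : Fin n → ℝ) j| = 1 := hv0
    simp at h1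
  refine ⟨f v0, hpos v0 hv0', ?_⟩
  intro v
  set s : ℝ := ∑ j, |v j| with hs
  have hs0 : 0 ≤ s := Finset.sum_nonneg fun j _ => abs_nonneg _
  rcases hs0.eq_or_lt with h0 | h0
  · rw [← h0]
    have hv : v = 0 := by
      ext j
      have h1 := (Finset.sum_eq_zero_iff_of_nonneg (s := Finset.univ) (f := fun j => |v j|)
        (fun j _ => abs_nonneg _)).1 h0.symm j (Finset.mem_univ j)
      exact abs_eq_zero.1 h1
    rw [hv]
    simp only [ne_eq, OfNat.ofNat_ne_zero, not_false_eq_true, zero_pow, mul_zero, Pi.zero_apply, Finset.sum_const_zero, Std.le_refl]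
  · have h1 : (fun j => v j / s) ∈ S := by
      show ∑ j, |v j / s| = 1
      simp only [abs_div, abs_of_pos h0]
      rw [← Finset.sum_div, ← hs, div_self h0.ne']
    have h2 : f v0 ≤ f (fun j => v j / s) := hmin h1
    have h3 : f (fun j => v j / s) = f v / s ^ 2 := by
      simp only [hf, Finset.sum_div]
      refine Finset.sum_congr rfl fun i _ => Finset.sum_congr rfl fun j _ => ?_
      (clear * - h0; field_simp)
    rw [h3, le_div_iff₀ (by (clear * - h0; positivity))] at h2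
    exact h2

theorem score_sum_fr (k : La n) : 1 / 2 ≤ ∑ j, |fr k j| := by
  have h1 : 1 / 2 ≤ |fr k 0| := by
    have h2 : fr k 0 = (k 0 : ℝ) + 1 / 2 := by simp [fr]
    rw [h2]
    rcases le_or_gt 0 (k 0) with h | h
    · have : (0 : ℝ) ≤ (k 0 : ℝ) := by exact_mod_cast h
      rw [abs_of_nonneg (by linarith)]
      linarith
    · have : (k 0 : ℝ) ≤ -1 := by exact_mod_cast (show k 0 ≤ -1 by omega)
      rw [abs_of_neg (by linarith)]
      linarith
  exact h1.trans (Finset.single_le_sum (f := fun j => |fr k j|) (fun i _ => abs_nonneg _)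
    (Finset.mem_univ 0))

theorem score_sy {A0 : Matrix (Fin n) (Fin n) ℝ} (hA : A0.PosDef) :
    ∃ C > 0, ∀ k : La n, sy A0 k ≠ 0 ∧ wt k ≤ C * ‖sy A0 k‖ := by
  obtain ⟨c, hc, h⟩ := score_ell hA
  refine ⟨9 / c, by (clear * - hc; positivity), fun k => ?_⟩
  set s : ℝ := ∑ j, |fr k j| with hs
  have hs0 : 1 / 2 ≤ s := score_sum_fr k
  have h1 := h (fr k)
  set q : ℝ := ∑ i, ∑ j, A0 i j * fr k i * fr k j with hq
  have hq0 : 0 < q := lt_of_lt_of_le (by (clear A0 hA h hs q h1 hq; positivity)) h1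
  have h2 : ‖sy A0 k‖ = (2 * π) ^ 2 * q := by
    unfold sy
    rw [norm_mul, norm_pow, norm_mul, norm_mul, Complex.norm_I, Complex.norm_real,
      Complex.norm_real, Real.norm_of_nonneg hq0.le, Real.norm_of_nonneg Real.pi_pos.le]
    simp
  have h3 : 0 < ‖sy A0 k‖ := by rw [h2]; (clear * - hq0; positivity)
  refine ⟨norm_pos_iff.1 h3, ?_⟩
  have h4 : wt k = (1 + s) ^ 2 := rfl
  have hpi : 1 ≤ (2 * π) ^ 2 := by
    have := Real.pi_gt_three
    nlinarith only [this]
  have h5 : q ≤ (2 * π) ^ 2 * q := by nlinarith only [hq0, hpi]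
  have h6 : (1 + s) ^ 2 ≤ 9 * s ^ 2 := by nlinarith only [hs0]
  rw [h2, h4, div_mul_eq_mul_div, le_div_iff₀ hc]
  (clear hA h hs hq h2 h3 h4; nlinarith)

theorem score_wt_pos (k : La n) : 1 ≤ wt k := by
  have h : 0 ≤ ∑ j, |fr k j| := Finset.sum_nonneg fun j _ => abs_nonneg _
  unfold wt
  nlinarith

theorem score_fr_le (k : La n) (j : Fin n) : |fr k j| ≤ wt k := by
  have h : |fr k j| ≤ ∑ j, |fr k j| :=
    Finset.single_le_sum (f := fun j => |fr k j|) (fun i _ => abs_nonneg _) (Finset.mem_univ j)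
  have h0 := abs_nonneg (fr k j)
  unfold wt
  nlinarith

theorem score_fr2_le (k : La n) (i j : Fin n) : |fr k i * fr k j| ≤ wt k := by
  have h1 : |fr k i| ≤ ∑ j, |fr k j| :=
    Finset.single_le_sum (f := fun j => |fr k j|) (fun i _ => abs_nonneg _) (Finset.mem_univ i)
  have h2 : |fr k j| ≤ ∑ j, |fr k j| :=
    Finset.single_le_sum (f := fun j => |fr k j|) (fun i _ => abs_nonneg _) (Finset.mem_univ j)
  have h0 := abs_nonneg (fr k j)
  have h0' := abs_nonneg (fr k i)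
  rw [abs_mul]
  unfold wt
  nlinarith

/-! ### the sequence space -/

variable (n N) in
/-- absolutely summable sequences -/
abbrev ScoreX : Type := lp (fun _ : La n => Fib N) 1

theorem score_mem {f : La n → Fib N} (hf : Summable fun k => ‖f k‖) :
    Memℓp f 1 := by
  rw [memℓp_gen_iff (by simp only [ENNReal.toReal_one, zero_lt_one])]
  simpa only [ENNReal.toReal_one, Real.rpow_one] using hf

theorem score_summable (f : ScoreX n N) : Summable fun k => ‖f k‖ := by
  have h : Memℓp (f : La n → Fib N) 1 := lp.memℓp f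
  rw [memℓp_gen_iff (by simp only [ENNReal.toReal_one, zero_lt_one])] at h
  simpa only [ENNReal.toReal_one, Real.rpow_one] using h

theorem score_norm (f : ScoreX n N) : ‖f‖ = ∑' k, ‖f k‖ := by
  rw [lp.norm_eq_tsum_rpow (by simp only [ENNReal.toReal_one, zero_lt_one])]
  simp only [ENNReal.toReal_one, Real.rpow_one, ne_eq, one_ne_zero, not_false_eq_true, div_self]

theorem score_mul_summable {m : La n → ℂ} {B : ℝ} (hm : ∀ k, ‖m k‖ ≤ B) {g : La n → Fib N}
    (hg : Summable fun k => ‖g k‖) :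
    (Summable fun k => ‖m k • g k‖) ∧ ∑' k, ‖m k • g k‖ ≤ B * ∑' k, ‖g k‖ := by
  have h1 : ∀ k, ‖m k • g k‖ ≤ B * ‖g k‖ := fun k => by
    rw [norm_smul]
    exact mul_le_mul_of_nonneg_right (hm k) (norm_nonneg _)
  have h2 : Summable fun k => ‖m k • g k‖ :=
    Summable.of_nonneg_of_le (fun _ => norm_nonneg _) h1 (hg.mul_left B)
  refine ⟨h2, ?_⟩
  rw [← tsum_mul_left]
  exact h2.tsum_le_tsum h1 (hg.mul_left B)

/-- multiplication by `m` followed by the convolution with `α` -/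
def scoreCL (α : La n → EndF N) (hα : Summable fun k => ‖α k‖) (m : La n → ℂ) (B : ℝ)
    (hm : ∀ k, ‖m k‖ ≤ B) : ScoreX n N →L[ℂ] ScoreX n N :=
  LinearMap.mkContinuous
    { toFun := fun g => ⟨conv α (fun k => m k • g k),
        score_mem (conv_summable hα (score_mul_summable hm (score_summable g)).1).1⟩
      map_add' := fun g g' => by
        apply Subtype.ext
        funext k
        have h1 := conv_add hα (score_mul_summable hm (score_summable g)).1
          (score_mul_summable hm (score_summable g')).1 k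
        simp only [← smul_add] at h1
        exact h1
      map_smul' := fun c g => by
        apply Subtype.ext
        funext k
        have h1 := conv_smul (α := α) (f := fun k => m k • g k) c k
        simp only [smul_comm c (m _)] at h1
        exact h1 } ((∑' k, ‖α k‖) * B)
    (fun g => by
      rw [score_norm, score_norm, mul_assoc]
      refine (conv_summable hα (score_mul_summable hm (score_summable g)).1).2.trans ?_
      exact mul_le_mul_of_nonneg_left (score_mul_summable hm (score_summable g)).2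
        (tsum_nonneg fun _ => norm_nonneg _))

theorem scoreCL_apply (α : La n → EndF N) (hα : Summable fun k => ‖α k‖) (m : La n → ℂ) (B : ℝ)
    (hm : ∀ k, ‖m k‖ ≤ B) (g : ScoreX n N) (k : La n) :
    scoreCL α hα m B hm g k = conv α (fun k => m k • g k) k := rfl

theorem scoreCL_norm (α : La n → EndF N) (hα : Summable fun k => ‖α k‖) (m : La n → ℂ) {B : ℝ}
    (hB : 0 ≤ B) (hm : ∀ k, ‖m k‖ ≤ B) : ‖scoreCL α hα m B hm‖ ≤ (∑' k, ‖α k‖) * B :=
  LinearMap.mkContinuous_norm_le _ (mul_nonneg (tsum_nonneg fun _ => norm_nonneg _) hB) _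

/-- the perturbation -/
def scoreQ {A0 : Matrix (Fin n) (Fin n) ℝ} {B : ℝ}
    (h2 : ∀ i j, ∀ k : La n,
      ‖((2 * π * Complex.I) ^ 2 * ((fr k i * fr k j : ℝ) : ℂ)) * (sy A0 k)⁻¹‖ ≤ B)
    (h1 : ∀ j, ∀ k : La n, ‖((2 * π * Complex.I) * ((fr k j : ℝ) : ℂ)) * (sy A0 k)⁻¹‖ ≤ B)
    (h0 : ∀ k : La n, ‖(sy A0 k)⁻¹‖ ≤ B)
    (α2 : Fin n → Fin n → La n → EndF N) (α1 : Fin n → La n → EndF N) (α0 : La n → EndF N)
    (s2 : ∀ i j, Summable fun k => ‖α2 i j k‖) (s1 : ∀ j, Summable fun k => ‖α1 j k‖)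
    (s0 : Summable fun k => ‖α0 k‖) : ScoreX n N →L[ℂ] ScoreX n N :=
  ∑ i, ∑ j, scoreCL (α2 i j) (s2 i j) _ B (h2 i j) + ∑ j, scoreCL (α1 j) (s1 j) _ B (h1 j) +
    scoreCL α0 s0 _ B h0

section

variable {A0 : Matrix (Fin n) (Fin n) ℝ} {B : ℝ}
    (h2 : ∀ i j, ∀ k : La n,
      ‖((2 * π * Complex.I) ^ 2 * ((fr k i * fr k j : ℝ) : ℂ)) * (sy A0 k)⁻¹‖ ≤ B)
    (h1 : ∀ j, ∀ k : La n, ‖((2 * π * Complex.I) * ((fr k j : ℝ) : ℂ)) * (sy A0 k)⁻¹‖ ≤ B)
    (h0 : ∀ k : La n, ‖(sy A0 k)⁻¹‖ ≤ B)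
    (α2 : Fin n → Fin n → La n → EndF N) (α1 : Fin n → La n → EndF N) (α0 : La n → EndF N)
    (s2 : ∀ i j, Summable fun k => ‖α2 i j k‖) (s1 : ∀ j, Summable fun k => ‖α1 j k‖)
    (s0 : Summable fun k => ‖α0 k‖)

theorem scoreQ_norm (hB : 0 ≤ B) : ‖scoreQ h2 h1 h0 α2 α1 α0 s2 s1 s0‖ ≤
    ((∑ i, ∑ j, ∑' k, ‖α2 i j k‖) + (∑ j, ∑' k, ‖α1 j k‖) + ∑' k, ‖α0 k‖) * B := by
  unfold scoreQ
  rw [add_mul, add_mul, Finset.sum_mul, Finset.sum_mul]
  refine (norm_add_le _ _).trans (add_le_add ((norm_add_le _ _).trans (add_le_add ?_ ?_)) ?_)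
  · refine (norm_sum_le _ _).trans (Finset.sum_le_sum fun i _ => ?_)
    rw [Finset.sum_mul]
    refine (norm_sum_le _ _).trans (Finset.sum_le_sum fun j _ => ?_)
    exact scoreCL_norm _ _ _ hB _
  · refine (norm_sum_le _ _).trans (Finset.sum_le_sum fun j _ => ?_)
    exact scoreCL_norm _ _ _ hB _
  · exact scoreCL_norm _ _ _ hB _

theorem scoreQ_apply (hs : ∀ k : La n, sy A0 k ≠ 0) (g : ScoreX n N) (k : La n) :
    g k + scoreQ h2 h1 h0 α2 α1 α0 s2 s1 s0 g k =
      Lsq A0 α2 α1 α0 (fun k => (sy A0 k)⁻¹ • g k) k := by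
  unfold scoreQ Lsq
  simp only [_root_.add_apply, _root_.sum_apply, lp.coeFn_add, lp.coeFn_sum, Pi.add_apply,
    Finset.sum_apply, scoreCL_apply, smul_smul, mul_inv_cancel₀ (hs k), one_smul]
  simp only [add_assoc]

end

/-- Neumann series in the weighted sequence space -/
theorem as_core (A0 : Matrix (Fin n) (Fin n) ℝ) (hA : A0.PosDef) :
    ∃ ε > 0, ∃ C : ℝ, 0 ≤ C ∧ ∀ (α2 : Fin n → Fin n → La n → EndF N)
      (α1 : Fin n → La n → EndF N) (α0 : La n → EndF N),
      (∀ i j, Summable fun k => ‖α2 i j k‖) → (∀ j, Summable fun k => ‖α1 j k‖) →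
      (Summable fun k => ‖α0 k‖) →
      (∑ i, ∑ j, ∑' k, ‖α2 i j k‖) + (∑ j, ∑' k, ‖α1 j k‖) + ∑' k, ‖α0 k‖ ≤ ε →
      ∃ G : (La n → Fib N) → (La n → Fib N),
        (∀ h, (Summable fun k => ‖h k‖) → (Summable fun k => wt k * ‖G h k‖) ∧
          ∑' k, wt k * ‖G h k‖ ≤ C * ∑' k, ‖h k‖ ∧ ∀ k, Lsq A0 α2 α1 α0 (G h) k = h k) ∧
        (∀ h h', (Summable fun k => ‖h k‖) → (Summable fun k => ‖h' k‖) →
          G (fun k => h k + h' k) = fun k => G h k + G h' k) ∧
        ∀ (c : ℂ) h, (Summable fun k => ‖h k‖) → G (fun k => c • h k) = fun k => c • G h k := by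
  classical
  obtain ⟨C0, hC0, hsy⟩ := score_sy (n := n) hA
  have hpi : (1 : ℝ) ≤ 2 * π := by
    have := Real.pi_gt_three
    linarith
  set B : ℝ := (2 * π) ^ 2 * C0 with hB
  have hBpos : 0 < B := by positivity
  have hinv : ∀ k : La n, ∀ a : ℝ, |a| ≤ wt k → ∀ c : ℝ, 0 ≤ c → c ≤ (2 * π) ^ 2 →
      c * |a| * ‖(sy A0 k)⁻¹‖ ≤ B := by
    intro k a ha c hc hc'
    have h1 : 0 < ‖sy A0 k‖ := norm_pos_iff.2 (hsy k).1
    rw [norm_inv, ← div_eq_mul_inv, div_le_iff₀ h1, hB, mul_assoc]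
    exact mul_le_mul hc' (ha.trans (hsy k).2) (abs_nonneg _) (by positivity)
  have h2 : ∀ i j, ∀ k : La n,
      ‖((2 * π * Complex.I) ^ 2 * ((fr k i * fr k j : ℝ) : ℂ)) * (sy A0 k)⁻¹‖ ≤ B := by
    intro i j k
    rw [norm_mul, norm_mul, norm_pow, norm_mul, norm_mul, Complex.norm_I, Complex.norm_real,
      Complex.norm_real, Real.norm_of_nonneg Real.pi_pos.le, Real.norm_eq_abs, mul_one]
    have : ‖(2 : ℂ)‖ = 2 := by simp
    rw [this]
    exact hinv k _ (score_fr2_le k i j) _ (by positivity) le_rfl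
  have h1 : ∀ j, ∀ k : La n, ‖((2 * π * Complex.I) * ((fr k j : ℝ) : ℂ)) * (sy A0 k)⁻¹‖ ≤ B := by
    intro j k
    rw [norm_mul, norm_mul, norm_mul, norm_mul, Complex.norm_I, Complex.norm_real,
      Complex.norm_real, Real.norm_of_nonneg Real.pi_pos.le, Real.norm_eq_abs, mul_one]
    have : ‖(2 : ℂ)‖ = 2 := by simp
    rw [this]
    exact hinv k _ (score_fr_le k j) _ (by positivity) (by nlinarith only [hpi])
  have h0 : ∀ k : La n, ‖(sy A0 k)⁻¹‖ ≤ B := by
    intro k
    have h3 := hinv k 1 (by rw [abs_one]; exact score_wt_pos k) 1 zero_le_one (by nlinarith only [hpi])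
    simpa only [norm_inv, ge_iff_le, abs_one, mul_one, one_mul] using h3
  refine ⟨1 / (2 * B), by positivity, C0 * 2, by positivity, ?_⟩
  intro α2 α1 α0 s2 s1 s0 hsum
  set Q := scoreQ h2 h1 h0 α2 α1 α0 s2 s1 s0 with hQ
  have hQn : ‖Q‖ ≤ 1 / 2 := by
    refine (scoreQ_norm h2 h1 h0 α2 α1 α0 s2 s1 s0 hBpos.le).trans ?_
    refine (mul_le_mul_of_nonneg_right hsum hBpos.le).trans_eq ?_
    field_simp
  have hQn' : ‖-Q‖ < 1 := by
    rw [norm_neg]
    linarith only [hQn]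
  set U : (ScoreX n N →L[ℂ] ScoreX n N)ˣ := Units.oneSub (-Q) hQn' with hU
  set T : ScoreX n N →L[ℂ] ScoreX n N := ((U⁻¹ : (ScoreX n N →L[ℂ] ScoreX n N)ˣ) :
    ScoreX n N →L[ℂ] ScoreX n N) with hT
  have hTQ : ∀ g, T g + Q (T g) = g := by
    intro g
    have h3 : (U : ScoreX n N →L[ℂ] ScoreX n N) * T = 1 := U.mul_inv
    have h4 : (U : ScoreX n N →L[ℂ] ScoreX n N) = 1 + Q := by
      rw [hU, Units.val_oneSub, sub_neg_eq_add]
    rw [h4] at h3
    have h5 := congrArg (fun S : ScoreX n N →L[ℂ] ScoreX n N => S g) h3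
    exact h5
  have hTn : ∀ g, ‖T g‖ ≤ 2 * ‖g‖ := by
    intro g
    have h3 : T g = g - Q (T g) := by rw [eq_sub_iff_add_eq]; exact hTQ g
    have h4 : ‖T g‖ ≤ ‖g‖ + ‖Q (T g)‖ := by
      conv_lhs => rw [h3]
      exact norm_sub_le _ _
    have h5 : ‖Q (T g)‖ ≤ 1 / 2 * ‖T g‖ :=
      (Q.le_opNorm _).trans (mul_le_mul_of_nonneg_right hQn (norm_nonneg _))
    linarith only [h4, h5]
  refine ⟨fun h => if hs : Summable (fun k => ‖h k‖) then
    fun k => (sy A0 k)⁻¹ • (T ⟨h, score_mem hs⟩ : ScoreX n N) k else 0, ?_, ?_, ?_⟩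
  · intro h hs
    simp only [dif_pos hs]
    set g : ScoreX n N := T ⟨h, score_mem hs⟩ with hg
    have hle : ∀ k, wt k * ‖(sy A0 k)⁻¹ • g k‖ ≤ C0 * ‖g k‖ := by
      intro k
      have h3 : 0 < ‖sy A0 k‖ := norm_pos_iff.2 (hsy k).1
      rw [norm_smul, norm_inv, ← mul_assoc, ← div_eq_mul_inv]
      refine mul_le_mul_of_nonneg_right ?_ (norm_nonneg _)
      rw [div_le_iff₀ h3]
      exact (hsy k).2
    have hnn : ∀ k : La n, 0 ≤ wt k * ‖(sy A0 k)⁻¹ • g k‖ := fun k =>
      mul_nonneg (zero_le_one.trans (score_wt_pos k)) (norm_nonneg _)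
    have hsm : Summable fun k => wt k * ‖(sy A0 k)⁻¹ • g k‖ :=
      Summable.of_nonneg_of_le hnn hle ((score_summable g).mul_left C0)
    refine ⟨hsm, ?_, ?_⟩
    · have h3 : ∑' k, wt k * ‖(sy A0 k)⁻¹ • g k‖ ≤ C0 * ‖g‖ := by
        rw [score_norm, ← tsum_mul_left]
        exact hsm.tsum_le_tsum hle ((score_summable g).mul_left C0)
      have h4 := hTn ⟨h, score_mem hs⟩
      have h5 : ‖(⟨h, score_mem hs⟩ : ScoreX n N)‖ = ∑' k, ‖h k‖ := score_norm _
      rw [h5] at h4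
      calc _ ≤ C0 * ‖g‖ := h3
        _ ≤ C0 * (2 * ∑' k, ‖h k‖) := mul_le_mul_of_nonneg_left h4 hC0.le
        _ = _ := by ring
    · intro k
      rw [← scoreQ_apply h2 h1 h0 α2 α1 α0 s2 s1 s0 (fun k => (hsy k).1) g k]
      have h3 := hTQ ⟨h, score_mem hs⟩
      have h4 := congrArg (fun f : ScoreX n N => f k) h3
      exact h4
  · intro h h' hs hs'
    have hss : Summable fun k => ‖h k + h' k‖ :=
      Summable.of_nonneg_of_le (fun _ => norm_nonneg _) (fun k => norm_add_le _ _) (hs.add hs')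
    simp only [dif_pos hs, dif_pos hs', dif_pos hss]
    funext k
    have h3 : (⟨fun k => h k + h' k, score_mem hss⟩ : ScoreX n N) =
        ⟨h, score_mem hs⟩ + ⟨h', score_mem hs'⟩ := rfl
    rw [h3, map_add, lp.coeFn_add, Pi.add_apply, smul_add]
  · intro c h hs
    have hss : Summable fun k => ‖c • h k‖ := by
      simp only [norm_smul]
      exact hs.mul_left _
    simp only [dif_pos hs, dif_pos hss]
    funext k
    have h3 : (⟨fun k => c • h k, score_mem hss⟩ : ScoreX n N) = c • ⟨h, score_mem hs⟩ := rfl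
    rw [h3, map_smul, lp.coeFn_smul, Pi.smul_apply, smul_comm]

end Vale.Agent.P088.EYM.ES
end
end

section

/-!
# P088-EYM, local solvability: from sequences to local solutions with prescribed 1-jets
-/

open MeasureTheory Set Filter Topology
open scoped ContDiff Real

noncomputable section

namespace Vale.Agent.P088.EYM.ES

set_option linter.unusedSectionVars false

variable {n N : ℕ} [NeZero n]

theorem slocal_exT_norm (k : La n) (y : E n) : ‖exT k y‖ = 1 := by
  unfold exT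
  rw [show (2 * π * Complex.I * ((∑ j, fr k j * y j : ℝ) : ℂ)) =
    ((2 * π * (∑ j, fr k j * y j) : ℝ) : ℂ) * Complex.I by push_cast; ring]
  exact Complex.norm_exp_ofReal_mul_I _

theorem slocal_summable {f : La n → Fib N} (hf : Summable fun k => ‖f k‖) (y : E n) :
    Summable fun k => exT k y • f k := by
  refine Summable.of_norm ?_
  simpa only [norm_smul, slocal_exT_norm, one_mul] using hf

theorem slocal_evT_add {f g : La n → Fib N} (hf : Summable fun k => ‖f k‖)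
    (hg : Summable fun k => ‖g k‖) (y : E n) :
    evT (fun k => f k + g k) y = evT f y + evT g y := by
  unfold evT
  rw [← (slocal_summable hf y).tsum_add (slocal_summable hg y)]
  exact tsum_congr fun k => smul_add _ _ _

theorem slocal_evT_zero (y : E n) : evT (fun _ => (0 : Fib N)) y = 0 := by
  unfold evT; simp only [smul_zero, tsum_zero]

theorem slocal_evT_sum {ι : Type*} (s : Finset ι) {f : ι → La n → Fib N}
    (hf : ∀ i ∈ s, Summable fun k => ‖f i k‖) (y : E n) :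
    evT (fun k => ∑ i ∈ s, f i k) y = ∑ i ∈ s, evT (f i) y := by
  classical
  induction s using Finset.induction_on with
  | empty => simp only [Finset.sum_empty, slocal_evT_zero]
  | insert a s ha ih =>
    simp only [Finset.sum_insert ha]
    rw [slocal_evT_add (hf a (Finset.mem_insert_self a s)) ?_ y,
      ih (fun i hi => hf i (Finset.mem_insert_of_mem hi))]
    have : Summable fun k => ∑ i ∈ s, ‖f i k‖ :=
      summable_sum fun i hi => hf i (Finset.mem_insert_of_mem hi)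
    exact Summable.of_nonneg_of_le (fun k => norm_nonneg _) (fun k => norm_sum_le _ _) this

theorem slocal_evT_smul (c : ℂ) (f : La n → Fib N) (y : E n) :
    evT (fun k => c • f k) y = c • evT f y := by
  unfold evT
  rw [← tsum_const_smul'']
  exact tsum_congr fun k => smul_comm _ _ _

/-- the weight dominates everything -/
theorem slocal_wt_one (k : La n) : 1 ≤ wt k := by
  unfold wt
  have : 0 ≤ ∑ j, |fr k j| := Finset.sum_nonneg fun j _ => abs_nonneg _
  nlinarith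

theorem slocal_fr_le (k : La n) (j : Fin n) : |fr k j| ≤ ∑ j, |fr k j| :=
  Finset.single_le_sum (f := fun j => |fr k j|) (fun i _ => abs_nonneg _) (Finset.mem_univ j)

theorem slocal_wt_fr (k : La n) (j : Fin n) : |fr k j| ≤ wt k := by
  have h1 := slocal_fr_le k j
  have : 0 ≤ ∑ j, |fr k j| := Finset.sum_nonneg fun j _ => abs_nonneg _
  unfold wt
  nlinarith

theorem slocal_wt_fr2 (k : La n) (i j : Fin n) : |fr k i * fr k j| ≤ wt k := by
  have h1 := slocal_fr_le k j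
  have h2 := slocal_fr_le k i
  have h3 : 0 ≤ ∑ j, |fr k j| := Finset.sum_nonneg fun j _ => abs_nonneg _
  rw [abs_mul]
  have h4 : |fr k i| * |fr k j| ≤ (∑ j, |fr k j|) * ∑ j, |fr k j| :=
    mul_le_mul h2 h1 (abs_nonneg _) h3
  unfold wt
  nlinarith

section W

variable {w : La n → Fib N} (hw : Summable fun k => wt k * ‖w k‖)
include hw

theorem slocal_s0 : Summable fun k => ‖w k‖ :=
  Summable.of_nonneg_of_le (fun k => norm_nonneg _)
    (fun k => le_mul_of_one_le_left (norm_nonneg _) (slocal_wt_one k)) hw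

theorem slocal_s1 (j : Fin n) :
    Summable fun k => ‖((2 * π * Complex.I) * ((fr k j : ℝ) : ℂ)) • w k‖ := by
  refine Summable.of_nonneg_of_le (fun k => norm_nonneg _) (fun k => ?_) (hw.mul_left (2 * π))
  rw [norm_smul, norm_mul]
  have h1 : ‖(2 * π * Complex.I : ℂ)‖ = 2 * π := by
    simp only [Complex.norm_mul, Complex.norm_ofNat, Complex.norm_real, Real.norm_eq_abs, abs_of_pos Real.pi_pos, Complex.norm_I, mul_one]
  rw [h1, Complex.norm_real, Real.norm_eq_abs, mul_assoc]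
  have := slocal_wt_fr k j
  (clear hw h1; gcongr)

theorem slocal_s2 (i j : Fin n) :
    Summable fun k => ‖((2 * π * Complex.I) ^ 2 * ((fr k i * fr k j : ℝ) : ℂ)) • w k‖ := by
  refine Summable.of_nonneg_of_le (fun k => norm_nonneg _) (fun k => ?_) (hw.mul_left ((2 * π) ^ 2))
  rw [norm_smul, norm_mul, norm_pow]
  have h1 : ‖(2 * π * Complex.I : ℂ)‖ = 2 * π := by
    simp only [Complex.norm_mul, Complex.norm_ofNat, Complex.norm_real, Real.norm_eq_abs, abs_of_pos Real.pi_pos, Complex.norm_I, mul_one]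
  rw [h1, Complex.norm_real, Real.norm_eq_abs, mul_assoc]
  have := slocal_wt_fr2 k i j
  gcongr

theorem slocal_sy (A0 : Matrix (Fin n) (Fin n) ℝ) :
    (fun k => sy A0 k • w k) = fun k => ∑ i, ∑ j, (A0 i j : ℂ) •
      (((2 * π * Complex.I) ^ 2 * ((fr k i * fr k j : ℝ) : ℂ)) • w k) := by
  funext k
  unfold sy
  simp only [smul_smul, ← Finset.sum_smul]
  congr 1
  push_cast
  rw [Finset.mul_sum]
  refine Finset.sum_congr rfl fun i _ => ?_
  rw [Finset.mul_sum]
  refine Finset.sum_congr rfl fun j _ => ?_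
  ring

theorem slocal_ev_sy (A0 : Matrix (Fin n) (Fin n) ℝ) (y : E n) :
    (Summable fun k => ‖sy A0 k • w k‖) ∧
    evT (fun k => sy A0 k • w k) y = ∑ i, ∑ j, (A0 i j : ℂ) •
      evT (fun k => ((2 * π * Complex.I) ^ 2 * ((fr k i * fr k j : ℝ) : ℂ)) • w k) y := by
  have hs : ∀ i j, Summable fun k => ‖(A0 i j : ℂ) •
      (((2 * π * Complex.I) ^ 2 * ((fr k i * fr k j : ℝ) : ℂ)) • w k)‖ := fun i j => by
    simp only [norm_smul (A0 i j : ℂ)]
    exact (slocal_s2 hw i j).mul_left _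
  have hs2 : ∀ i, Summable fun k => ‖∑ j, (A0 i j : ℂ) •
      (((2 * π * Complex.I) ^ 2 * ((fr k i * fr k j : ℝ) : ℂ)) • w k)‖ := fun i =>
    Summable.of_nonneg_of_le (fun k => norm_nonneg _) (fun k => norm_sum_le _ _)
      (summable_sum fun j _ => hs i j)
  constructor
  · have h1 : (fun k => ‖sy A0 k • w k‖) = fun k => ‖∑ i, ∑ j, (A0 i j : ℂ) •
      (((2 * π * Complex.I) ^ 2 * ((fr k i * fr k j : ℝ) : ℂ)) • w k)‖ := by
      funext k
      rw [congrFun (slocal_sy hw A0) k]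
    rw [h1]
    exact Summable.of_nonneg_of_le (fun k => norm_nonneg _) (fun k => norm_sum_le _ _)
      (summable_sum fun i _ => hs2 i)
  · rw [slocal_sy hw A0, slocal_evT_sum _ (fun i _ => hs2 i) y]
    refine Finset.sum_congr rfl fun i _ => ?_
    rw [slocal_evT_sum _ (fun j _ => hs i j) y]
    exact Finset.sum_congr rfl fun j _ => slocal_evT_smul _ _ y

/-- the operator on sequences corresponds to the operator on functions -/
theorem slocal_Lsq (A0 : Matrix (Fin n) (Fin n) ℝ) {α2 : Fin n → Fin n → La n → EndF N}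
    {α1 : Fin n → La n → EndF N} {α0 : La n → EndF N}
    (h2 : ∀ i j, Summable fun k => ‖α2 i j k‖) (h1 : ∀ j, Summable fun k => ‖α1 j k‖)
    (h0 : Summable fun k => ‖α0 k‖) (y : E n) :
    evT (Lsq A0 α2 α1 α0 w) y =
      ∑ i, ∑ j, (A0 i j : ℂ) • evT (fun k => ((2 * π * Complex.I) ^ 2 * ((fr k i * fr k j : ℝ) : ℂ)) • w k) y +
      ∑ i, ∑ j, ev0 (α2 i j) y (evT (fun k => ((2 * π * Complex.I) ^ 2 * ((fr k i * fr k j : ℝ) : ℂ)) • w k) y) +
      ∑ j, ev0 (α1 j) y (evT (fun k => ((2 * π * Complex.I) * ((fr k j : ℝ) : ℂ)) • w k) y) +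
      ev0 α0 y (evT w y) := by
  have c2 : ∀ i j, Summable fun k => ‖conv (α2 i j) (fun k => ((2 * π * Complex.I) ^ 2 * ((fr k i * fr k j : ℝ) : ℂ)) • w k) k‖ :=
    fun i j => (conv_summable (h2 i j) (slocal_s2 hw i j)).1
  have c1 : ∀ j, Summable fun k => ‖conv (α1 j) (fun k => ((2 * π * Complex.I) * ((fr k j : ℝ) : ℂ)) • w k) k‖ :=
    fun j => (conv_summable (h1 j) (slocal_s1 hw j)).1
  have c0 : Summable fun k => ‖conv α0 w k‖ := (conv_summable h0 (slocal_s0 hw)).1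
  have sum2 : ∀ i, Summable fun k => ‖∑ j, conv (α2 i j) (fun k => ((2 * π * Complex.I) ^ 2 * ((fr k i * fr k j : ℝ) : ℂ)) • w k) k‖ :=
    fun i => Summable.of_nonneg_of_le (fun k => norm_nonneg _) (fun k => norm_sum_le _ _)
      (summable_sum fun j _ => c2 i j)
  have sum22 : Summable fun k => ‖∑ i, ∑ j, conv (α2 i j) (fun k => ((2 * π * Complex.I) ^ 2 * ((fr k i * fr k j : ℝ) : ℂ)) • w k) k‖ :=
    Summable.of_nonneg_of_le (fun k => norm_nonneg _) (fun k => norm_sum_le _ _)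
      (summable_sum fun i _ => sum2 i)
  have sum1 : Summable fun k => ‖∑ j, conv (α1 j) (fun k => ((2 * π * Complex.I) * ((fr k j : ℝ) : ℂ)) • w k) k‖ :=
    Summable.of_nonneg_of_le (fun k => norm_nonneg _) (fun k => norm_sum_le _ _)
      (summable_sum fun j _ => c1 j)
  have hsy := slocal_ev_sy hw A0 y
  have add_s : ∀ {f g : La n → Fib N}, (Summable fun k => ‖f k‖) → (Summable fun k => ‖g k‖) →
      Summable fun k => ‖f k + g k‖ := fun hf hg =>
    Summable.of_nonneg_of_le (fun k => norm_nonneg _) (fun k => norm_add_le _ _) (hf.add hg)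
  have e1 : Lsq A0 α2 α1 α0 w = fun k => ((sy A0 k • w k +
    ∑ i, ∑ j, conv (α2 i j)
      (fun k => ((2 * π * Complex.I) ^ 2 * ((fr k i * fr k j : ℝ) : ℂ)) • w k) k) +
    ∑ j, conv (α1 j) (fun k => ((2 * π * Complex.I) * ((fr k j : ℝ) : ℂ)) • w k) k) +
    conv α0 w k := rfl
  rw [e1, slocal_evT_add (add_s (add_s hsy.1 sum22) sum1) c0 y,
    slocal_evT_add (add_s hsy.1 sum22) sum1 y, slocal_evT_add hsy.1 sum22 y, hsy.2,
    slocal_evT_sum _ (fun i _ => sum2 i) y, slocal_evT_sum _ (fun j _ => c1 j) y]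
  have e3 : evT (fun k => conv α0 w k) y = ev0 α0 y (evT w y) := conv_ev h0 (slocal_s0 hw) y
  rw [e3]
  congr 1
  congr 1
  · congr 1
    refine Finset.sum_congr rfl fun i _ => ?_
    rw [slocal_evT_sum _ (fun j _ => c2 i j) y]
    exact Finset.sum_congr rfl fun j _ => conv_ev (h2 i j) (slocal_s2 hw i j) y
  · exact Finset.sum_congr rfl fun j _ => conv_ev (h1 j) (slocal_s1 hw j) y

end W

/-- admissible coefficient functions -/
structure SAdm (φ : E n → EndF N) : Prop where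
  cont : Continuous φ
  supp : tsupport φ ⊆ Cub n
  sum : Summable fun k : La n => ‖fco φ k‖

theorem SAdm.ev {φ : E n → EndF N} (h : SAdm φ) {y : E n} (hy : y ∈ Cub n) :
    ev0 (fco φ) y = φ y := (fco_hasSum h.cont h.supp h.sum hy).tsum_eq

/-- the twist -/
def stw (y : E n) : ℂ := Complex.exp (-(π * Complex.I * (y 0 : ℝ)))

theorem slocal_exT (k : La n) (y : E n) : exT k y * stw y = ex0 k y := by
  unfold exT stw ex0
  rw [← Complex.exp_add]
  congr 1
  have h1 : (∑ j, fr k j * y j : ℝ) = (∑ j, (k j : ℝ) * y j) + 1 / 2 * y 0 := by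
    unfold fr
    simp only [add_mul, Finset.sum_add_distrib]
    congr 1
    rw [Finset.sum_eq_single (0 : Fin n)]
    · simp only [↓reduceIte, one_div]
    · intro b _ hb; simp [hb]
    · intro h; exact absurd (Finset.mem_univ _) h
  rw [h1]
  push_cast
  ring

theorem stw_ne (y : E n) : stw y ≠ 0 := Complex.exp_ne_zero _

/-- evaluation at a vector as a continuous linear map -/
def sapp (v : Fib N) : EndF N →L[ℂ] Fib N := ContinuousLinearMap.apply ℂ (Fib N) v

theorem sapp_apply (v : Fib N) (T : EndF N) : sapp v T = T v := rfl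

theorem slocal_hs {ψ : E n → EndF N} (hψ : SAdm ψ) {y : E n} (hy : y ∈ Cub n) (v : Fib N) :
    HasSum (fun k : La n => ex0 k y • (fco ψ k v)) (ψ y v) := by
  have h1 := (fco_hasSum hψ.cont hψ.supp hψ.sum hy).mapL (sapp v)
  have h2 : (fun k : La n => sapp v (ex0 k y • fco ψ k)) = fun k : La n => ex0 k y • (fco ψ k v) := by
    funext k
    rw [map_smul, sapp_apply]
  rw [sapp_apply, h2] at h1
  exact h1

/-- twisted series of a coefficient family applied to a vector -/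
theorem slocal_tw {φ ψ : E n → EndF N} (hψ : SAdm ψ) {y : E n} (hy : y ∈ Cub n) (c : ℂ)
    (h : ψ y = (stw y * c) • φ y) (v : Fib N) :
    evT (fun k => fco ψ k v) y = c • φ y v := by
  have h3 := (slocal_hs hψ hy v).const_smul (stw y)⁻¹
  have h4 : (fun k : La n => (stw y)⁻¹ • ex0 k y • (fco ψ k v)) =
      fun k : La n => exT k y • (fco ψ k v) := by
    funext k
    rw [smul_smul, ← slocal_exT k y, mul_comm (exT k y), inv_mul_cancel_left₀ (stw_ne y)]
  have h5 : (stw y)⁻¹ • ψ y v = c • φ y v := by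
    rw [h, _root_.smul_apply, smul_smul, inv_mul_cancel_left₀ (stw_ne y)]
  rw [h4, h5] at h3
  exact h3.tsum_eq

/-- the right hand side sequence -/
def shh (ψ1 : Fin n → E n → EndF N) (ψ0 : E n → EndF N) (ψ0' : Fin n → E n → EndF N)
    (u : Fib N) (b : Fin n → Fib N) (k : La n) : Fib N :=
  -((∑ j, fco (ψ1 j) k (b j)) + fco ψ0 k u + ∑ j, fco (ψ0' j) k (b j))

theorem shh_le (ψ1 : Fin n → E n → EndF N) (ψ0 : E n → EndF N) (ψ0' : Fin n → E n → EndF N)
    (u : Fib N) (b : Fin n → Fib N) (k : La n) :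
    ‖shh ψ1 ψ0 ψ0' u b k‖ ≤ ((∑ j, ‖fco (ψ1 j) k‖) + ‖fco ψ0 k‖ + ∑ j, ‖fco (ψ0' j) k‖) *
      ‖((u, b) : Fib N × (Fin n → Fib N))‖ := by
  unfold shh
  rw [norm_neg]
  have hu : ‖u‖ ≤ ‖((u, b) : Fib N × (Fin n → Fib N))‖ := norm_fst_le ((u, b) : Fib N × (Fin n → Fib N))
  have hb : ∀ j, ‖b j‖ ≤ ‖((u, b) : Fib N × (Fin n → Fib N))‖ := fun j =>
    (norm_le_pi_norm b j).trans (norm_snd_le ((u, b) : Fib N × (Fin n → Fib N)))
  refine (norm_add₃_le).trans ?_
  rw [add_mul, add_mul, Finset.sum_mul, Finset.sum_mul]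
  refine add_le_add (add_le_add ?_ ?_) ?_
  · refine (norm_sum_le _ _).trans (Finset.sum_le_sum fun j _ => ?_)
    exact ((fco (ψ1 j) k).le_opNorm _).trans (mul_le_mul_of_nonneg_left (hb j) (norm_nonneg _))
  · exact ((fco ψ0 k).le_opNorm _).trans (mul_le_mul_of_nonneg_left hu (norm_nonneg _))
  · refine (norm_sum_le _ _).trans (Finset.sum_le_sum fun j _ => ?_)
    exact ((fco (ψ0' j) k).le_opNorm _).trans (mul_le_mul_of_nonneg_left (hb j) (norm_nonneg _))

section Tw

variable {φ1 : Fin n → E n → EndF N} {φ0 : E n → EndF N}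
  {ψ1 : Fin n → E n → EndF N} {ψ0 : E n → EndF N} {ψ0' : Fin n → E n → EndF N}
  (hψ1 : ∀ j, SAdm (ψ1 j)) (hψ0 : SAdm ψ0) (hψ0' : ∀ j, SAdm (ψ0' j))
include hψ1 hψ0 hψ0'

theorem shh_sum (u : Fib N) (b : Fin n → Fib N) :
    (Summable fun k => ‖shh ψ1 ψ0 ψ0' u b k‖) ∧ ∑' k, ‖shh ψ1 ψ0 ψ0' u b k‖ ≤
      ((∑ j, ∑' k, ‖fco (ψ1 j) k‖) + (∑' k, ‖fco ψ0 k‖) + ∑ j, ∑' k, ‖fco (ψ0' j) k‖) *
      ‖((u, b) : Fib N × (Fin n → Fib N))‖ := by
  have s1 : Summable fun k : La n => ∑ j, ‖fco (ψ1 j) k‖ := summable_sum fun j _ => (hψ1 j).sum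
  have s2 : Summable fun k : La n => ∑ j, ‖fco (ψ0' j) k‖ := summable_sum fun j _ => (hψ0' j).sum
  have s3 : Summable fun k : La n => ((∑ j, ‖fco (ψ1 j) k‖) + ‖fco ψ0 k‖ + ∑ j, ‖fco (ψ0' j) k‖) *
      ‖((u, b) : Fib N × (Fin n → Fib N))‖ := ((s1.add hψ0.sum).add s2).mul_right _
  have s4 : Summable fun k => ‖shh ψ1 ψ0 ψ0' u b k‖ :=
    Summable.of_nonneg_of_le (fun k => norm_nonneg _) (fun k => shh_le ψ1 ψ0 ψ0' u b k) s3
  refine ⟨s4, ?_⟩
  refine (s4.tsum_le_tsum (fun k => shh_le ψ1 ψ0 ψ0' u b k) s3).trans (le_of_eq ?_)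
  rw [tsum_mul_right, (s1.add hψ0.sum).tsum_add s2, s1.tsum_add hψ0.sum,
    Summable.tsum_finsetSum fun j _ => (hψ1 j).sum, Summable.tsum_finsetSum fun j _ => (hψ0' j).sum]

theorem shh_ev {y : E n} (hy : y ∈ Cub n) (e1 : ∀ j, ψ1 j y = stw y • φ1 j y)
    (e0 : ψ0 y = stw y • φ0 y) (e0' : ∀ j, ψ0' j y = (stw y * (y j : ℝ)) • φ0 y)
    (u : Fib N) (b : Fin n → Fib N) :
    evT (shh ψ1 ψ0 ψ0' u b) y =
      -((∑ j, φ1 j y (b j)) + φ0 y u + ∑ j, ((y j : ℝ) : ℂ) • φ0 y (b j)) := by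
  have n1 : ∀ j, Summable fun k => ‖fco (ψ1 j) k (b j)‖ := fun j =>
    Summable.of_nonneg_of_le (fun k => norm_nonneg _) (fun k => (fco (ψ1 j) k).le_opNorm _)
      ((hψ1 j).sum.mul_right _)
  have n0 : Summable fun k => ‖fco ψ0 k u‖ :=
    Summable.of_nonneg_of_le (fun k => norm_nonneg _) (fun k => (fco ψ0 k).le_opNorm _)
      (hψ0.sum.mul_right _)
  have n0' : ∀ j, Summable fun k => ‖fco (ψ0' j) k (b j)‖ := fun j =>
    Summable.of_nonneg_of_le (fun k => norm_nonneg _) (fun k => (fco (ψ0' j) k).le_opNorm _)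
      ((hψ0' j).sum.mul_right _)
  have add_s : ∀ {f g : La n → Fib N}, (Summable fun k => ‖f k‖) → (Summable fun k => ‖g k‖) →
      Summable fun k => ‖f k + g k‖ := fun hf hg =>
    Summable.of_nonneg_of_le (fun k => norm_nonneg _) (fun k => norm_add_le _ _) (hf.add hg)
  have sum_s : ∀ {f : Fin n → La n → Fib N}, (∀ j, Summable fun k => ‖f j k‖) →
      Summable fun k => ‖∑ j, f j k‖ := fun hf =>
    Summable.of_nonneg_of_le (fun k => norm_nonneg _) (fun k => norm_sum_le _ _)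
      (summable_sum fun j _ => hf j)
  have e : shh ψ1 ψ0 ψ0' u b = fun k => (-1 : ℂ) •
      (((∑ j, fco (ψ1 j) k (b j)) + fco ψ0 k u) + ∑ j, fco (ψ0' j) k (b j)) := by
    funext k; unfold shh; rw [neg_one_smul]
  rw [e, slocal_evT_smul, neg_one_smul, slocal_evT_add (add_s (sum_s n1) n0) (sum_s n0') y,
    slocal_evT_add (sum_s n1) n0 y, slocal_evT_sum _ (fun j _ => n1 j) y,
    slocal_evT_sum _ (fun j _ => n0' j) y]
  congr 1
  congr 1
  · congr 1
    · refine Finset.sum_congr rfl fun j _ => ?_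
      rw [slocal_tw (φ := φ1 j) (hψ1 j) hy 1 (by rw [mul_one]; exact e1 j), one_smul]
    · rw [slocal_tw (φ := φ0) hψ0 hy 1 (by rw [mul_one]; exact e0), one_smul]
  · exact Finset.sum_congr rfl fun j _ => slocal_tw (φ := φ0) (hψ0' j) hy _ (e0' j) (b j)

end Tw

/-- the affine part -/
def saff (u : Fib N) (b : Fin n → Fib N) (y : E n) : Fib N := u + ∑ j, y j • b j

theorem saff_hasFDeriv (u : Fib N) (b : Fin n → Fib N) (y : E n) :
    HasFDerivAt (saff u b) (∑ j, (EuclideanSpace.proj (𝕜 := ℝ) j : E n →L[ℝ] ℝ).smulRight (b j)) y := by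
  unfold saff
  refine HasFDerivAt.const_add u ?_
  refine HasFDerivAt.fun_sum fun j _ => ?_
  exact ((EuclideanSpace.proj (𝕜 := ℝ) j : E n →L[ℝ] ℝ).smulRight (b j)).hasFDerivAt

theorem saff_smooth (u : Fib N) (b : Fin n → Fib N) : ContDiff ℝ ∞ (saff u b) := by
  unfold saff
  refine contDiff_const.add (ContDiff.sum fun j _ => ?_)
  exact ((EuclideanSpace.proj (𝕜 := ℝ) j : E n →L[ℝ] ℝ).smulRight (b j)).contDiff

theorem saff_fderiv (u : Fib N) (b : Fin n → Fib N) (y : E n) (i : Fin n) :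
    fderiv ℝ (saff u b) y (ev i) = b i := by
  rw [(saff_hasFDeriv u b y).fderiv, _root_.sum_apply]
  rw [Finset.sum_eq_single i]
  · simp
  · intro j _ hj; simp only [ContinuousLinearMap.smulRight_apply, PiLp.proj_apply, ne_eq, hj, not_false_eq_true, PiLp.single_eq_of_ne, zero_smul]
  · intro h; exact absurd (Finset.mem_univ _) h

/-- local solution at a fixed scale -/
theorem slocal_fixed {A0 : Matrix (Fin n) (Fin n) ℝ}
    {α2 : Fin n → Fin n → E n → EndF N} {α1 : Fin n → E n → EndF N} {α0 : E n → EndF N}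
    {ψ1 : Fin n → E n → EndF N} {ψ0 : E n → EndF N} {ψ0' : Fin n → E n → EndF N}
    (h2 : ∀ i j, SAdm (α2 i j)) (h1 : ∀ j, SAdm (α1 j)) (h0 : SAdm α0)
    (hψ1 : ∀ j, SAdm (ψ1 j)) (hψ0 : SAdm ψ0) (hψ0' : ∀ j, SAdm (ψ0' j))
    (e1 : ∀ j, ∀ y ∈ Cub n, ψ1 j y = stw y • α1 j y)
    (e0 : ∀ y ∈ Cub n, ψ0 y = stw y • α0 y)
    (e0' : ∀ j, ∀ y ∈ Cub n, ψ0' j y = (stw y * (y j : ℝ)) • α0 y)
    {C : ℝ} (hC : 0 ≤ C) {G : (La n → Fib N) → (La n → Fib N)}
    (hG : ∀ h, (Summable fun k => ‖h k‖) → (Summable fun k => wt k * ‖G h k‖) ∧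
          ∑' k, wt k * ‖G h k‖ ≤ C * ∑' k, ‖h k‖ ∧
          ∀ k, Lsq A0 (fun i j => fco (α2 i j)) (fun j => fco (α1 j)) (fco α0) (G h) k = h k)
    (hGa : ∀ h h', (Summable fun k => ‖h k‖) → (Summable fun k => ‖h' k‖) →
          G (fun k => h k + h' k) = fun k => G h k + G h' k)
    (hGs : ∀ (c : ℂ) h, (Summable fun k => ‖h k‖) → G (fun k => c • h k) = fun k => c • G h k)
    (hδ : 2 * π * (C * ((∑ j, ∑' k, ‖fco (ψ1 j) k‖) + (∑' k, ‖fco ψ0 k‖) +
      ∑ j, ∑' k, ‖fco (ψ0' j) k‖)) ≤ 1 / 2) (u : Fib N) (b : Fin n → Fib N) :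
    ∃ V : E n → Fib N, ContDiff ℝ 2 V ∧
      (∀ y ∈ Cub n, ∑ i, ∑ j, (A0 i j : ℂ) • fderiv ℝ (fun y => fderiv ℝ V y (ev j)) y (ev i) +
        ∑ i, ∑ j, α2 i j y (fderiv ℝ (fun y => fderiv ℝ V y (ev j)) y (ev i)) +
        ∑ j, α1 j y (fderiv ℝ V y (ev j)) + α0 y (V y) = 0) ∧
      V 0 = u ∧ ∀ j, fderiv ℝ V 0 (ev j) = b j := by
  set δ := ((∑ j, ∑' k, ‖fco (ψ1 j) k‖) + (∑' k, ‖fco ψ0 k‖) + ∑ j, ∑' k, ‖fco (ψ0' j) k‖) with hδdef
  have hh : ∀ u b, Summable fun k => ‖shh ψ1 ψ0 ψ0' u b k‖ := fun u b =>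
    (shh_sum hψ1 hψ0 hψ0' u b).1
  have hw : ∀ u b, Summable fun k => wt k * ‖G (shh ψ1 ψ0 ψ0' u b) k‖ := fun u b => (hG _ (hh u b)).1
  have hb1 : ∀ u b, ∑' k, wt k * ‖G (shh ψ1 ψ0 ψ0' u b) k‖ ≤ C * (δ * ‖((u, b) : Fib N × (Fin n → Fib N))‖) :=
    fun u b => (hG _ (hh u b)).2.1.trans (mul_le_mul_of_nonneg_left (shh_sum hψ1 hψ0 hψ0' u b).2 hC)
  -- linearity of the right hand side
  have hadd : ∀ u b u' b', shh ψ1 ψ0 ψ0' (u + u') (b + b') =
      fun k => shh ψ1 ψ0 ψ0' u b k + shh ψ1 ψ0 ψ0' u' b' k := by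
    intro u b u' b'
    funext k
    unfold shh
    simp only [Pi.add_apply, map_add, Finset.sum_add_distrib]
    abel
  have hsm : ∀ (c : ℂ) u b, shh ψ1 ψ0 ψ0' (c • u) (c • b) = fun k => c • shh ψ1 ψ0 ψ0' u b k := by
    intro c u b
    funext k
    unfold shh
    simp only [Pi.smul_apply, map_smul, ← Finset.smul_sum, ← smul_add, smul_neg]
  let wv : Fib N × (Fin n → Fib N) → La n → Fib N := fun p => G (shh ψ1 ψ0 ψ0' p.1 p.2)
  have wadd : ∀ p q, wv (p + q) = fun k => wv p k + wv q k := fun p q => by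
    show G (shh ψ1 ψ0 ψ0' (p.1 + q.1) (p.2 + q.2)) = _
    rw [hadd, hGa _ _ (hh _ _) (hh _ _)]
  have wsm : ∀ (c : ℂ) p, wv (c • p) = fun k => c • wv p k := fun c p => by
    show G (shh ψ1 ψ0 ψ0' (c • p.1) (c • p.2)) = _
    rw [hsm, hGs _ _ (hh _ _)]
  have hwv : ∀ p, Summable fun k => wt k * ‖wv p k‖ := fun p => hw p.1 p.2
  let T : (Fib N × (Fin n → Fib N)) →ₗ[ℂ] (Fib N × (Fin n → Fib N)) :=
    { toFun := fun p => (p.1 + evT (wv p) 0, fun j => p.2 j +
        evT (fun k => ((2 * π * Complex.I) * ((fr k j : ℝ) : ℂ)) • wv p k) 0)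
      map_add' := by
        intro p q
        refine Prod.ext ?_ ?_
        · show p.1 + q.1 + evT (wv (p + q)) 0 = (p.1 + evT (wv p) 0) + (q.1 + evT (wv q) 0)
          rw [wadd, slocal_evT_add (slocal_s0 (hwv p)) (slocal_s0 (hwv q))]
          abel
        · funext j
          show p.2 j + q.2 j + evT (fun k => ((2 * π * Complex.I) * ((fr k j : ℝ) : ℂ)) • wv (p + q) k) 0 =
            (p.2 j + evT (fun k => ((2 * π * Complex.I) * ((fr k j : ℝ) : ℂ)) • wv p k) 0) +
            (q.2 j + evT (fun k => ((2 * π * Complex.I) * ((fr k j : ℝ) : ℂ)) • wv q k) 0)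
          rw [wadd]
          simp only [smul_add]
          rw [slocal_evT_add (slocal_s1 (hwv p) j) (slocal_s1 (hwv q) j)]
          abel
      map_smul' := by
        intro c p
        refine Prod.ext ?_ ?_
        · show c • p.1 + evT (wv (c • p)) 0 = c • (p.1 + evT (wv p) 0)
          rw [wsm, slocal_evT_smul, smul_add]
        · funext j
          show c • p.2 j + evT (fun k => ((2 * π * Complex.I) * ((fr k j : ℝ) : ℂ)) • wv (c • p) k) 0 =
            c • (p.2 j + evT (fun k => ((2 * π * Complex.I) * ((fr k j : ℝ) : ℂ)) • wv p k) 0)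
          rw [wsm, smul_add, ← slocal_evT_smul]
          congr 2
          funext k
          rw [smul_comm] }
  have hTn : ∀ p, ‖T p - p‖ ≤ 1 / 2 * ‖p‖ := by
    intro p
    have hδp : C * (δ * ‖p‖) ≤ 1 / 2 * ‖p‖ ∧ 2 * π * (C * (δ * ‖p‖)) ≤ 1 / 2 * ‖p‖ := by
      have h3 : 0 ≤ C * δ := by
        refine mul_nonneg hC ?_
        rw [hδdef]
        refine add_nonneg (add_nonneg (Finset.sum_nonneg fun j _ => tsum_nonneg fun k => norm_nonneg _)
          (tsum_nonneg fun k => norm_nonneg _)) (Finset.sum_nonneg fun j _ => tsum_nonneg fun k => norm_nonneg _)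
      have h4 : C * δ ≤ 1 / 2 := by nlinarith only [hδ, Real.pi_gt_three]
      constructor
      · calc C * (δ * ‖p‖) = (C * δ) * ‖p‖ := by ring
          _ ≤ 1 / 2 * ‖p‖ := mul_le_mul_of_nonneg_right h4 (norm_nonneg _)
      · calc 2 * π * (C * (δ * ‖p‖)) = (2 * π * (C * δ)) * ‖p‖ := by ring
          _ ≤ 1 / 2 * ‖p‖ := mul_le_mul_of_nonneg_right hδ (norm_nonneg _)
    have hb := hb1 p.1 p.2
    have hbd := evT_bound (wv p) (hwv p) 0
    have hc2 := (evT_c2 (wv p) (hwv p)).2.1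
    rw [Prod.norm_def]
    refine max_le ?_ ?_
    · show ‖p.1 + evT (wv p) 0 - p.1‖ ≤ _
      rw [add_sub_cancel_left]
      exact hbd.1.trans (hb.trans hδp.1)
    · rw [pi_norm_le_iff_of_nonneg (by positivity)]
      intro j
      show ‖p.2 j + evT (fun k => ((2 * π * Complex.I) * ((fr k j : ℝ) : ℂ)) • wv p k) 0 - p.2 j‖ ≤ _
      rw [add_sub_cancel_left, ← hc2 j 0]
      refine (hbd.2 j).trans ((mul_le_mul_of_nonneg_left hb (by positivity)).trans hδp.2)
  have hinj : Function.Injective T := by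
    rw [← LinearMap.ker_eq_bot, LinearMap.ker_eq_bot']
    intro p hp
    have h3 := hTn p
    rw [hp, zero_sub, norm_neg] at h3
    have h4 : ‖p‖ ≤ 0 := by linarith only [h3]
    exact norm_le_zero_iff.1 h4
  have hsurj : Function.Surjective T := LinearMap.injective_iff_surjective.1 hinj
  obtain ⟨p, hp⟩ := hsurj (u, b)
  have hp1 : p.1 + evT (wv p) 0 = u := congrArg Prod.fst hp
  have hp2 : ∀ j, p.2 j + evT (fun k => ((2 * π * Complex.I) * ((fr k j : ℝ) : ℂ)) • wv p k) 0 = b j :=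
    fun j => congrFun (congrArg Prod.snd hp) j
  obtain ⟨c2, c2', c2''⟩ := evT_c2 (wv p) (hwv p)
  have hd1 : Differentiable ℝ (evT (wv p)) := c2.differentiable (by norm_num)
  have hV1 : ∀ y j, fderiv ℝ (fun y => saff p.1 p.2 y + evT (wv p) y) y (ev j) =
      p.2 j + evT (fun k => ((2 * π * Complex.I) * ((fr k j : ℝ) : ℂ)) • wv p k) y := by
    intro y j
    rw [fderiv_fun_add (saff_hasFDeriv p.1 p.2 y).differentiableAt (hd1 y), _root_.add_apply,
      saff_fderiv, c2' j y]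
  have hV2 : ∀ y i j, fderiv ℝ (fun y => fderiv ℝ (fun y => saff p.1 p.2 y + evT (wv p) y) y (ev j)) y (ev i) =
      evT (fun k => ((2 * π * Complex.I) ^ 2 * ((fr k i * fr k j : ℝ) : ℂ)) • wv p k) y := by
    intro y i j
    have h3 : (fun y => fderiv ℝ (fun y => saff p.1 p.2 y + evT (wv p) y) y (ev j)) =
        fun y => p.2 j + fderiv ℝ (evT (wv p)) y (ev j) := by
      funext y; rw [hV1 y j, c2' j y]
    rw [h3, fderiv_const_add, c2'' i j y]
  refine ⟨fun y => saff p.1 p.2 y + evT (wv p) y, ((saff_smooth p.1 p.2).of_le (by exact WithTop.coe_le_coe.2 (le_top (a := (2 : ℕ∞))))).add c2, ?_, ?_, ?_⟩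
  · intro y hy
    have hL := slocal_Lsq (hwv p) A0 (fun i j => (h2 i j).sum) (fun j => (h1 j).sum) h0.sum y
    have hL2 : Lsq A0 (fun i j => fco (α2 i j)) (fun j => fco (α1 j)) (fco α0) (wv p) =
        shh ψ1 ψ0 ψ0' p.1 p.2 := funext fun k => (hG _ (hh p.1 p.2)).2.2 k
    rw [hL2, shh_ev hψ1 hψ0 hψ0' hy (fun j => e1 j y hy) (e0 y hy) (fun j => e0' j y hy)] at hL
    simp only [(h2 _ _).ev hy, (h1 _).ev hy, h0.ev hy] at hL
    have e3 : ∀ i j, fderiv ℝ (fun y => fderiv ℝ (fun y => saff p.1 p.2 y + evT (wv p) y) y (ev j)) y (ev i) =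
      evT (fun k => ((2 * π * Complex.I) ^ 2 * ((fr k i * fr k j : ℝ) : ℂ)) • wv p k) y := fun i j => hV2 y i j
    simp only [e3, hV1 y, map_add, Finset.sum_add_distrib]
    have e4 : α0 y (saff p.1 p.2 y) = α0 y p.1 + ∑ j, ((y j : ℝ) : ℂ) • α0 y (p.2 j) := by
      unfold saff
      rw [map_add, map_sum]
      congr 1
      refine Finset.sum_congr rfl fun j _ => ?_
      rw [← Complex.coe_smul, map_smul]
    rw [e4]
    rw [neg_eq_iff_eq_neg] at hL
    refine Eq.trans ?_ (eq_neg_iff_add_eq_zero.1 hL)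
    abel
  · show saff p.1 p.2 0 + evT (wv p) 0 = u
    rw [← hp1]
    congr 1
    simp [saff]
  · intro j
    rw [hV1 0 j, hp2 j]

theorem s_csmul0 (c : ℂ) : c • (0 : EndF N) = 0 := by ext1 w; exact smul_zero c
theorem s_rsmul0 (c : ℝ) : c • (0 : EndF N) = 0 := by ext1 w; exact smul_zero c
theorem s_czero (S : EndF N) : (0 : ℂ) • S = 0 := by ext1 w; exact zero_smul ℂ _
theorem s_rzero (S : EndF N) : (0 : ℝ) • S = 0 := by ext1 w; exact zero_smul ℝ _
theorem s_ccomm (c : ℂ) (r : ℝ) (S : EndF N) : c • r • S = r • c • S := by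
  ext1 w; exact smul_comm c r (S w)

/-- smooth compactly supported families of coefficients vanishing at scale `0` -/
structure SFam (Φ : ℝ → E n → EndF N) : Prop where
  sm : ContDiff ℝ ∞ (Function.uncurry Φ)
  cs : HasCompactSupport (Function.uncurry Φ)
  z0 : ∀ y, Φ 0 y = 0
  sp : ∀ ρ, tsupport (Φ ρ) ⊆ Cub n

theorem SFam.adm {Φ : ℝ → E n → EndF N} (h : SFam Φ) (ρ : ℝ) : SAdm (Φ ρ) where
  cont := h.sm.continuous.comp (Continuous.prodMk continuous_const continuous_id)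
  supp := h.sp ρ
  sum := (fco_small Φ h.sm h.cs h.z0).1 ρ

theorem SFam.tend {Φ : ℝ → E n → EndF N} (h : SFam Φ) :
    Tendsto (fun ρ => ∑' k : La n, ‖fco (Φ ρ) k‖) (𝓝 0) (𝓝 0) :=
  (fco_small Φ h.sm h.cs h.z0).2

/-- complex scalar multiplication as a bounded real bilinear map -/
theorem isBB_csmul : IsBoundedBilinearMap ℝ (fun p : ℂ × EndF N => p.1 • p.2) where
  add_left := fun x y z => add_smul x y z
  smul_left := fun c x y => smul_assoc c x y
  add_right := fun x y z => smul_add x y z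
  smul_right := fun c x y => smul_comm x c y
  bound := ⟨1, one_pos, fun x y => by rw [one_mul]; exact (norm_smul x y).le⟩

theorem SFam.csmul {Φ : ℝ → E n → EndF N} (h : SFam Φ) {s : ℝ → E n → ℂ}
    (hs : ContDiff ℝ ∞ (Function.uncurry s)) : SFam (fun ρ y => s ρ y • Φ ρ y) where
  sm := isBB_csmul.contDiff.comp (hs.prodMk h.sm)
  cs := by
    refine h.cs.mono ?_
    rintro ⟨ρ, y⟩ hy hy'
    refine hy ?_
    show s ρ y • Φ ρ y = 0
    rw [show Φ ρ y = 0 from hy', s_csmul0]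
  z0 := fun y => by rw [h.z0 y, s_csmul0]
  sp := fun ρ => by
    refine (closure_mono ?_).trans (h.sp ρ)
    intro y hy hy'
    refine hy ?_
    show s ρ y • Φ ρ y = 0
    rw [show Φ ρ y = 0 from hy', s_csmul0]

theorem stw_smooth : ContDiff ℝ ∞ (stw : E n → ℂ) := by
  unfold stw
  have h1 : ContDiff ℝ ∞ (fun y : E n => ((y 0 : ℝ) : ℂ)) :=
    Complex.ofRealCLM.contDiff.comp (EuclideanSpace.proj (𝕜 := ℝ) (0 : Fin n)).contDiff
  exact ((contDiff_const.mul h1).neg).cexp

theorem cub_of_ball {y : E n} {r : ℝ} (hr : r < 1 / 2) (hy : ‖y‖ ≤ r) : y ∈ Cub n := fun j => by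
  have h1 : ‖y j‖ ≤ ‖y‖ := PiLp.norm_apply_le y j
  rw [Real.norm_eq_abs] at h1
  (clear * - hr hy h1; linarith)

/-- the basic family -/
theorem sfam_base {O : Set (E n)} {z : E n} {η : ℝ → ℝ}
    (hJ : ∀ (c : E n → EndF N), ContDiffOn ℝ ∞ c O → ∀ χ : E n → ℝ, ContDiff ℝ ∞ χ →
        tsupport χ ⊆ Metric.closedBall 0 (1 / 4) →
        ContDiff ℝ ∞ (Function.uncurry fun (ρ : ℝ) (y : E n) => (η ρ * χ y) • c (z + ρ • y)) ∧
        HasCompactSupport
          (Function.uncurry fun (ρ : ℝ) (y : E n) => (η ρ * χ y) • c (z + ρ • y)))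
    {χ : E n → ℝ} (hχ : ContDiff ℝ ∞ χ) (hχs : tsupport χ ⊆ Metric.closedBall 0 (1 / 4))
    {c : E n → EndF N} (hc : ContDiffOn ℝ ∞ c O) {s : ℝ → E n → ℂ}
    (hs : ContDiff ℝ ∞ (Function.uncurry s)) (h0 : ∀ y, s 0 y • c z = 0) :
    SFam (fun ρ y => s ρ y • ((η ρ * χ y) • c (z + ρ • y))) where
  sm := isBB_csmul.contDiff.comp (hs.prodMk (hJ c hc χ hχ hχs).1)
  cs := by
    refine (hJ c hc χ hχ hχs).2.mono ?_
    rintro ⟨ρ, y⟩ hy hy'
    refine hy ?_
    show s ρ y • ((η ρ * χ y) • c (z + ρ • y)) = 0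
    rw [show (η ρ * χ y) • c (z + ρ • y) = 0 from hy', s_csmul0]
  z0 := fun y => by
    rw [zero_smul, add_zero, s_ccomm, h0 y, s_rsmul0]
  sp := fun ρ => by
    have h1 : Function.support (fun y => s ρ y • ((η ρ * χ y) • c (z + ρ • y))) ⊆
        Function.support χ := by
      intro y hy hy'
      refine hy ?_
      show s ρ y • ((η ρ * χ y) • c (z + ρ • y)) = 0
      rw [show χ y = 0 from hy', mul_zero, s_rzero, s_csmul0]
    refine (closure_mono h1).trans (hχs.trans ?_)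
    intro y hy
    exact cub_of_ball (r := 1 / 4) (by norm_num) (by simpa only [one_div, Metric.mem_closedBall, dist_zero_right] using hy)

theorem as_local {O : Set (E n)} (hO : IsOpen O) {z : E n} (hz : z ∈ O)
    {a : Fin n → Fin n → E n → ℝ} {M : Fin n → E n → EndF N} {M0 : E n → EndF N}
    (ha : ∀ i j, ContDiffOn ℝ ∞ (a i j) O) (hM : ∀ j, ContDiffOn ℝ ∞ (M j) O)
    (hM0 : ContDiffOn ℝ ∞ M0 O) (hp : (Matrix.of fun i j => a i j z).PosDef)
    (u : Fib N) (b : Fin n → Fib N) :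
    ∃ r > 0, Metric.ball z r ⊆ O ∧ ∃ v : E n → Fib N, ContDiff ℝ 2 v ∧
      (∀ x ∈ Metric.ball z r, Pop a M M0 v x = 0) ∧ v z = u ∧
      ∀ j, fderiv ℝ v z (ev j) = b j := by
  set A0 : Matrix (Fin n) (Fin n) ℝ := Matrix.of fun i j => a i j z with hA0
  obtain ⟨ε, hε, C, hC, hcore⟩ := as_core (N := N) A0 hp
  obtain ⟨η, hη, hηc, hη1, hJ⟩ := as_joint (F := EndF N) hO hz
  let χb : ContDiffBump (0 : E n) := ⟨1 / 8, 1 / 4, by norm_num, by norm_num⟩
  set χ : E n → ℝ := fun y => χb y with hχdef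
  have hχ : ContDiff ℝ ∞ χ := χb.contDiff
  have hχs : tsupport χ ⊆ Metric.closedBall 0 (1 / 4) := by
    rw [hχdef, χb.tsupport_eq]
  have hχ1 : ∀ y : E n, ‖y‖ ≤ 1 / 8 → χ y = 1 := fun y hy =>
    χb.one_of_mem_closedBall (by rw [mem_closedBall_zero_iff]; exact hy)
  have cz : ∀ i j, ContDiffOn ℝ ∞ (fun x => (a i j x - a i j z) • (1 : EndF N)) O := fun i j =>
    ((ha i j).sub contDiffOn_const).smul contDiffOn_const
  let F2 : Fin n → Fin n → ℝ → E n → EndF N := fun i j ρ y =>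
    (1 : ℂ) • ((η ρ * χ y) • ((a i j (z + ρ • y) - a i j z) • (1 : EndF N)))
  let F1 : Fin n → ℝ → E n → EndF N := fun j ρ y =>
    (ρ : ℂ) • ((η ρ * χ y) • M j (z + ρ • y))
  let F0 : ℝ → E n → EndF N := fun ρ y => ((ρ : ℂ) ^ 2) • ((η ρ * χ y) • M0 (z + ρ • y))
  have sρ : ContDiff ℝ ∞ (Function.uncurry fun (ρ : ℝ) (_ : E n) => (ρ : ℂ)) :=
    Complex.ofRealCLM.contDiff.comp contDiff_fst
  have sρ2 : ContDiff ℝ ∞ (Function.uncurry fun (ρ : ℝ) (_ : E n) => (ρ : ℂ) ^ 2) := sρ.pow 2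
  have hF2 : ∀ i j, SFam (F2 i j) := fun i j =>
    sfam_base (s := fun _ _ => (1 : ℂ)) hJ hχ hχs (cz i j) contDiff_const (fun y => by
      rw [sub_self, s_rzero, s_csmul0])
  have hF1 : ∀ j, SFam (F1 j) := fun j =>
    sfam_base (s := fun ρ _ => (ρ : ℂ)) hJ hχ hχs (hM j) sρ (fun y => by
      rw [Complex.ofReal_zero, s_czero])
  have hF0 : SFam F0 :=
    sfam_base (s := fun ρ _ => (ρ : ℂ) ^ 2) hJ hχ hχs hM0 sρ2 (fun y => by
      rw [Complex.ofReal_zero, zero_pow two_ne_zero, s_czero])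
  have sst : ContDiff ℝ ∞ (Function.uncurry fun (_ : ℝ) (y : E n) => stw y) :=
    stw_smooth.comp contDiff_snd
  have sst' : ∀ j : Fin n, ContDiff ℝ ∞ (Function.uncurry fun (_ : ℝ) (y : E n) => stw y * ((y j : ℝ) : ℂ)) :=
    fun j => sst.mul ((Complex.ofRealCLM.contDiff.comp
      (EuclideanSpace.proj (𝕜 := ℝ) j).contDiff).comp contDiff_snd)
  have hP1 : ∀ j, SFam (fun ρ y => stw y • F1 j ρ y) := fun j => (hF1 j).csmul sst
  have hP0 : SFam (fun ρ y => stw y • F0 ρ y) := hF0.csmul sst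
  have hP0' : ∀ j : Fin n, SFam (fun ρ y => (stw y * ((y j : ℝ) : ℂ)) • F0 ρ y) := fun j =>
    hF0.csmul (sst' j)
  have t1 : Tendsto (fun ρ => (∑ i, ∑ j, ∑' k : La n, ‖fco (F2 i j ρ) k‖) +
      (∑ j, ∑' k : La n, ‖fco (F1 j ρ) k‖) + ∑' k : La n, ‖fco (F0 ρ) k‖) (𝓝 0) (𝓝 0) := by
    have := ((tendsto_finsetSum Finset.univ fun i _ => tendsto_finsetSum Finset.univ fun j _ =>
      (hF2 i j).tend).add (tendsto_finsetSum Finset.univ fun j _ => (hF1 j).tend)).add hF0.tend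
    simpa only [Finset.sum_const_zero, add_zero] using this
  have t2 : Tendsto (fun ρ => 2 * π * (C * ((∑ j, ∑' k : La n, ‖fco (fun y => stw y • F1 j ρ y) k‖) +
      (∑' k : La n, ‖fco (fun y => stw y • F0 ρ y) k‖) +
      ∑ j : Fin n, ∑' k : La n, ‖fco (fun y => (stw y * ((y j : ℝ) : ℂ)) • F0 ρ y) k‖))) (𝓝 0) (𝓝 0) := by
    have := ((((tendsto_finsetSum Finset.univ fun j _ => (hP1 j).tend).add hP0.tend).add
      (tendsto_finsetSum Finset.univ fun j _ => (hP0' j).tend)).const_mul C).const_mul (2 * π)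
    simpa only [Finset.sum_const_zero, add_zero, mul_zero] using this
  obtain ⟨d, hd, hdO⟩ := Metric.isOpen_iff.1 hO z hz
  have hev : ∀ᶠ ρ : ℝ in 𝓝[>] 0, ((∑ i, ∑ j, ∑' k : La n, ‖fco (F2 i j ρ) k‖) +
      (∑ j, ∑' k : La n, ‖fco (F1 j ρ) k‖) + ∑' k : La n, ‖fco (F0 ρ) k‖ < ε) ∧
      (2 * π * (C * ((∑ j, ∑' k : La n, ‖fco (fun y => stw y • F1 j ρ y) k‖) +
      (∑' k : La n, ‖fco (fun y => stw y • F0 ρ y) k‖) +
      ∑ j : Fin n, ∑' k : La n, ‖fco (fun y => (stw y * ((y j : ℝ) : ℂ)) • F0 ρ y) k‖)) < 1 / 2) ∧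
      η ρ = 1 ∧ ρ < d ∧ 0 < ρ := by
    have a1 := (t1.eventually (gt_mem_nhds hε)).filter_mono (nhdsWithin_le_nhds (s := Ioi 0))
    have a2 := (t2.eventually (gt_mem_nhds (show (0 : ℝ) < 1 / 2 by norm_num))).filter_mono
      (nhdsWithin_le_nhds (s := Ioi 0))
    have a3 := hη1.filter_mono (nhdsWithin_le_nhds (s := Ioi 0))
    have a4 : ∀ᶠ ρ : ℝ in 𝓝[>] 0, ρ < d := (gt_mem_nhds hd).filter_mono nhdsWithin_le_nhds
    filter_upwards [a1, a2, a3, a4, self_mem_nhdsWithin] with ρ b1 b2 b3 b4 b5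
    exact ⟨b1, b2, b3, b4, b5⟩
  obtain ⟨ρ, hρ1, hρ2, hρη, hρd, hρ0⟩ := hev.exists
  obtain ⟨G, hG, hGa, hGs⟩ := hcore (fun i j => fco (F2 i j ρ)) (fun j => fco (F1 j ρ)) (fco (F0 ρ))
    (fun i j => ((hF2 i j).adm ρ).sum) (fun j => ((hF1 j).adm ρ).sum) (hF0.adm ρ).sum hρ1.le
  obtain ⟨V, hV, hVeq, hV0, hV1⟩ := slocal_fixed (A0 := A0) (α2 := fun i j => F2 i j ρ)
    (α1 := fun j => F1 j ρ) (α0 := F0 ρ) (fun i j => (hF2 i j).adm ρ) (fun j => (hF1 j).adm ρ)
    (hF0.adm ρ) (fun j => (hP1 j).adm ρ) (hP0.adm ρ) (fun j => (hP0' j).adm ρ)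
    (fun j y _ => rfl) (fun y _ => rfl) (fun j y _ => rfl) hC hG hGa hGs hρ2.le u
    (fun j => ρ • b j)
  have hne : ρ ≠ 0 := hρ0.ne'
  -- scaling
  set Y : E n → E n := fun x => ρ⁻¹ • (x - z) with hY
  have hYd : ∀ x, HasFDerivAt Y (ρ⁻¹ • ContinuousLinearMap.id ℝ (E n)) x := fun x =>
    ((hasFDerivAt_id x).sub_const z).const_smul ρ⁻¹
  have hYs : ContDiff ℝ 2 Y := (contDiff_id.sub contDiff_const).const_smul ρ⁻¹
  have hVd : Differentiable ℝ V := hV.differentiable (by norm_num)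
  have d1 : ∀ x j, fderiv ℝ (fun x => V (Y x)) x (ev j) = ρ⁻¹ • fderiv ℝ V (Y x) (ev j) := by
    intro x j
    have h1 := ((hVd (Y x)).hasFDerivAt.comp x (hYd x)).fderiv
    have h2 : fderiv ℝ (fun x => V (Y x)) x = (fderiv ℝ V (Y x)).comp (ρ⁻¹ • ContinuousLinearMap.id ℝ (E n)) := h1
    rw [h2]
    simp
  have hV1d : ∀ j, Differentiable ℝ (fun y => fderiv ℝ V y (ev j)) := fun j => by
    have h1 : ContDiff ℝ 1 (fun y => fderiv ℝ V y) := hV.fderiv_right (by norm_num)
    exact (h1.clm_apply contDiff_const).differentiable (by norm_num)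
  have d2 : ∀ x i j, fderiv ℝ (fun x => fderiv ℝ (fun x => V (Y x)) x (ev j)) x (ev i) =
      (ρ⁻¹ * ρ⁻¹) • fderiv ℝ (fun y => fderiv ℝ V y (ev j)) (Y x) (ev i) := by
    intro x i j
    have h3 : (fun x => fderiv ℝ (fun x => V (Y x)) x (ev j)) =
        fun x => ρ⁻¹ • (fun y => fderiv ℝ V y (ev j)) (Y x) := by
      funext x; rw [d1 x j]
    have h4 := (((hV1d j (Y x)).hasFDerivAt.comp x (hYd x)).const_smul ρ⁻¹).fderiv
    have h5 : fderiv ℝ (fun x => ρ⁻¹ • (fun y => fderiv ℝ V y (ev j)) (Y x)) x =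
      ρ⁻¹ • (fderiv ℝ (fun y => fderiv ℝ V y (ev j)) (Y x)).comp (ρ⁻¹ • ContinuousLinearMap.id ℝ (E n)) := h4
    rw [h3, h5]
    simp [smul_smul]
  refine ⟨ρ / 8, by (clear * - hρ0; positivity), ?_, fun x => V (Y x), hV.comp hYs, ?_, ?_, ?_⟩
  · intro x hx
    refine hdO ?_
    rw [Metric.mem_ball] at hx ⊢
    linarith only [hρd, hρ0, hx]
  · intro x hx
    have hxn : ‖x - z‖ < ρ / 8 := by rwa [Metric.mem_ball, dist_eq_norm] at hx
    have hyn : ‖Y x‖ ≤ 1 / 8 := by
      rw [hY]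
      simp only [norm_smul, norm_inv, Real.norm_eq_abs, abs_of_pos hρ0]
      rw [inv_mul_le_iff₀ hρ0]
      linarith only [hxn]
    have hyC : Y x ∈ Cub n := cub_of_ball (r := 1 / 8) (by norm_num) hyn
    have hzx : z + ρ • Y x = x := by
      rw [hY]
      simp only [smul_smul, mul_inv_cancel₀ hne, one_smul, add_sub_cancel]
    have hE := hVeq (Y x) hyC
    have g2 : ∀ i j (w : Fib N), F2 i j ρ (Y x) w = (a i j x - a i j z) • w := by
      intro i j w
      show ((1 : ℂ) • ((η ρ * χ (Y x)) • ((a i j (z + ρ • Y x) - a i j z) • (1 : EndF N)))) w = _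
      rw [hzx, hρη, hχ1 _ hyn, one_smul, one_mul, one_smul]
      rfl
    have g1 : ∀ j (w : Fib N), F1 j ρ (Y x) w = ρ • M j x w := by
      intro j w
      show ((ρ : ℂ) • ((η ρ * χ (Y x)) • M j (z + ρ • Y x))) w = _
      rw [hzx, hρη, hχ1 _ hyn, one_mul, one_smul, _root_.smul_apply, Complex.coe_smul]
    have g0 : ∀ (w : Fib N), F0 ρ (Y x) w = (ρ ^ 2) • M0 x w := by
      intro w
      show (((ρ : ℂ) ^ 2) • ((η ρ * χ (Y x)) • M0 (z + ρ • Y x))) w = _
      rw [hzx, hρη, hχ1 _ hyn, one_mul, one_smul, _root_.smul_apply, ← Complex.ofReal_pow,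
        Complex.coe_smul]
    simp only [g2, g1, g0, Complex.coe_smul] at hE
    unfold Pop
    have p2 : ∑ i, ∑ j, a i j x • fderiv ℝ (fun z => fderiv ℝ (fun x => V (Y x)) z (ev j)) x (ev i) =
        ∑ i, ∑ j, a i j x • (ρ⁻¹ * ρ⁻¹) • fderiv ℝ (fun y => fderiv ℝ V y (ev j)) (Y x) (ev i) :=
      Finset.sum_congr rfl fun i _ => Finset.sum_congr rfl fun j _ => by rw [d2 x i j]
    have p1 : ∑ j, (M j x) (fderiv ℝ (fun x => V (Y x)) x (ev j)) =
        ∑ j, (M j x) (ρ⁻¹ • fderiv ℝ V (Y x) (ev j)) :=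
      Finset.sum_congr rfl fun j _ => by rw [d1 x j]
    rw [p2, p1]
    have e1 : ∑ i, ∑ j, a i j x • (ρ⁻¹ * ρ⁻¹) • fderiv ℝ (fun y => fderiv ℝ V y (ev j)) (Y x) (ev i) =
        (ρ⁻¹ * ρ⁻¹) • (∑ i, ∑ j, A0 i j • fderiv ℝ (fun y => fderiv ℝ V y (ev j)) (Y x) (ev i) +
          ∑ i, ∑ j, (a i j x - a i j z) • fderiv ℝ (fun y => fderiv ℝ V y (ev j)) (Y x) (ev i)) := by
      rw [← Finset.sum_add_distrib, Finset.smul_sum]
      refine Finset.sum_congr rfl fun i _ => ?_
      rw [← Finset.sum_add_distrib, Finset.smul_sum]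
      refine Finset.sum_congr rfl fun j _ => ?_
      rw [← add_smul, smul_comm (a i j x)]
      congr 2
      rw [hA0]
      simp
    have e2 : ∑ j, (M j x) (ρ⁻¹ • fderiv ℝ V (Y x) (ev j)) =
        (ρ⁻¹ * ρ⁻¹) • ∑ j, ρ • M j x (fderiv ℝ V (Y x) (ev j)) := by
      rw [Finset.smul_sum]
      refine Finset.sum_congr rfl fun j _ => ?_
      rw [ContinuousLinearMap.map_smul_of_tower, smul_smul]
      congr 1
      field_simp
    have e3 : M0 x (V (Y x)) = (ρ⁻¹ * ρ⁻¹) • (ρ ^ 2) • M0 x (V (Y x)) := by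
      rw [smul_smul]
      have : ρ⁻¹ * ρ⁻¹ * ρ ^ 2 = 1 := by field_simp
      rw [this, one_smul]
    rw [e1, e2, e3, ← smul_add, ← smul_add, hE, smul_zero]
  · show V (Y z) = u
    have : Y z = 0 := by rw [hY]; simp
    rw [this, hV0]
  · intro j
    rw [d1 z j]
    have : Y z = 0 := by rw [hY]; simp
    rw [this, hV1 j, smul_smul, inv_mul_cancel₀ hne, one_smul]

end Vale.Agent.P088.EYM.ES
end
end
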