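import Vale.Agent.P088.MathlibUsed
import Vale.Agent.P088.Bdl.B3
import Vale.Agent.P088.Bdl.B1
import Vale.Agent.P088.Bdl.B2
import Vale.Agent.P088.Bdl.B5
import Vale.Agent.P088.Bdl.B4

set_option linter.all false

section

/-!
# P088-EYM, block C: Runge, part C (orthogonality to local solutions)
-/

set_option linter.all false

open Bundle Manifold MeasureTheory Set Filter Topology
open scoped ContDiff

noncomputable section

namespace Vale.Agent.P088.EYM

universe u

/-! ### Local calculus -/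

section Local

variable {n N : ℕ} [NeZero n]
variable {F : Type*} [NormedAddCommGroup F] [NormedSpace ℝ F]

theorem CRungeC_ok_mono {L : LD n N} {D D' : Set (E n)} (h : L.Ok D) (hs : D' ⊆ D) : L.Ok D' where
  g_smooth i j := (h.g_smooth i j).mono hs
  g_pos x hx := h.g_pos x (hs hx)
  B_smooth i := (h.B_smooth i).mono hs
  h_smooth := h.h_smooth.mono hs
  h_adj x hx := h.h_adj x (hs hx)
  h_pos x hx := h.h_pos x (hs hx)
  compat x hx := h.compat x (hs hx)

theorem CRungeC_pd_smooth {D : Set (E n)} (hD : RelOpen D) {f : E n → F} {m k : WithTop ℕ∞}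
    (hf : ContDiffOn ℝ k f D) (hm : m + 1 ≤ k) (i : Fin n) : ContDiffOn ℝ m (pd i f) D := by
  have h1 : ContDiffOn ℝ m (fun x => fderivWithin ℝ f (Hs n) x) D := by
    refine (hf.fderivWithin hD.uniqueDiffOn hm).congr fun x hx => ?_
    exact (hD.fderivWithin_eq hx f).symm
  exact h1.clm_apply contDiffOn_const

theorem CRungeC_nab_smooth {L : LD n N} {D : Set (E n)} (hD : RelOpen D) (hL : L.Ok D)
    {c : E n → Fib N} {m k : WithTop ℕ∞} (hc : ContDiffOn ℝ k c D) (hm : m + 1 ≤ k) (hm' : m ≤ ∞)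
    (i : Fin n) : ContDiffOn ℝ m (nab L i c) D := by
  refine (CRungeC_pd_smooth hD hc hm i).add ?_
  exact smooth_eval ((hL.B_smooth i).of_le hm') (hc.of_le (le_trans le_self_add hm))

theorem CRungeC_flux_smooth {L : LD n N} {D : Set (E n)} (hD : RelOpen D) (hL : L.Ok D)
    (hg : ∀ j k, ContDiffOn ℝ ∞ (gg L.g j k) D)
    {c : E n → Fib N} {m k : WithTop ℕ∞} (hc : ContDiffOn ℝ k c D) (hm : m + 1 ≤ k) (hm' : m ≤ ∞)
    (i : Fin n) : ContDiffOn ℝ m (flux L i c) D := by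
  refine ContDiffOn.sum fun k _ => ?_
  exact ((hg i k).of_le hm').smul (CRungeC_nab_smooth hD hL hc hm hm' k)

theorem CRungeC_Lop_cont {L : LD n N} {D : Set (E n)} (hD : RelOpen D) (hL : L.Ok D)
    (hg : ∀ j k, ContDiffOn ℝ ∞ (gg L.g j k) D)
    {c : E n → Fib N} (hc : ContDiffOn ℝ 2 c D) : ContinuousOn (Lop L c) D := by
  have h12 : (1 : WithTop ℕ∞) + 1 ≤ 2 := by norm_num
  have h1 : ∀ j, ContDiffOn ℝ 1 (flux L j c) D := fun j =>
    CRungeC_flux_smooth hD hL hg hc h12 (by exact_mod_cast le_top) j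
  have h2 : ∀ j, ContDiffOn ℝ 0 (fun x => pd j (flux L j c) x + L.B j x (flux L j c x)) D := by
    intro j
    refine (CRungeC_pd_smooth hD (h1 j) (by norm_num) j).add ?_
    exact smooth_eval ((hL.B_smooth j).of_le (by exact_mod_cast le_top))
      ((h1 j).of_le (by norm_num))
  exact (ContDiffOn.sum fun j _ => h2 j).continuousOn

theorem CRungeC_nab_congr {L : LD n N} {D : Set (E n)} (hD : RelOpen D) {c d : E n → Fib N}
    (h : EqOn c d D) {x : E n} (hx : x ∈ D) (j : Fin n) : nab L j c x = nab L j d x := by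
  unfold nab
  rw [hD.pd_congr h hx j, h hx]

theorem CRungeC_Lop_congr {L : LD n N} {D : Set (E n)} (hD : RelOpen D) {c d : E n → Fib N}
    (h : EqOn c d D) {x : E n} (hx : x ∈ D) : Lop L c x = Lop L d x := by
  have h1 : ∀ j, EqOn (flux L j c) (flux L j d) D := fun j y hy => by
    unfold flux
    exact Finset.sum_congr rfl fun k _ => by rw [CRungeC_nab_congr hD h hy k]
  unfold Lop
  exact Finset.sum_congr rfl fun j _ => by rw [hD.pd_congr (h1 j) hx j, h1 j hx]

theorem CRungeC_Lop_zero {L : LD n N} {D : Set (E n)} (hD : RelOpen D) {c : E n → Fib N}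
    (h : ∀ x ∈ D, c x = 0) {x : E n} (hx : x ∈ D) : Lop L c x = 0 := by
  have h0 : EqOn c (fun _ => 0) D := fun y hy => h y hy
  rw [CRungeC_Lop_congr hD h0 hx]
  have h1 : ∀ j, flux L j (fun _ => (0 : Fib N)) = fun _ => 0 := by
    intro j
    funext y
    unfold flux nab
    simp [pd_const]
  unfold Lop
  simp only [h1, pd_const, map_zero, add_zero, Finset.sum_const_zero]

theorem CRungeC_ed_congr {L : LD n N} {D : Set (E n)} (hD : RelOpen D) {c c' d d' : E n → Fib N}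
    (h : EqOn c c' D) (h' : EqOn d d' D) {x : E n} (hx : x ∈ D) : ed L c d x = ed L c' d' x := by
  unfold ed
  exact Finset.sum_congr rfl fun j _ => Finset.sum_congr rfl fun k _ => by
    rw [CRungeC_nab_congr hD h hx j, CRungeC_nab_congr hD h' hx k]

theorem CRungeC_ed_cont {L : LD n N} {D : Set (E n)} (hD : RelOpen D) (hL : L.Ok D)
    (hg : ∀ j k, ContDiffOn ℝ ∞ (gg L.g j k) D) {c d : E n → Fib N}
    (hc : ContDiffOn ℝ 1 c D) (hd : ContDiffOn ℝ 1 d D) : ContinuousOn (ed L c d) D := by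
  have h1 : ∀ j, ContinuousOn (nab L j c) D := fun j =>
    (CRungeC_nab_smooth (m := 0) hD hL hc (by norm_num) (by exact_mod_cast le_top) j).continuousOn
  have h2 : ∀ j, ContinuousOn (nab L j d) D := fun j =>
    (CRungeC_nab_smooth (m := 0) hD hL hd (by norm_num) (by exact_mod_cast le_top) j).continuousOn
  have h3 : ∀ k, ContinuousOn (fun x => L.h x (nab L k d x)) D := fun k =>
    (smooth_eval (m := 0) (hL.h_smooth.of_le (by exact_mod_cast le_top))
      (contDiffOn_zero.2 (h2 k))).continuousOn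
  refine continuousOn_finset_sum _ fun j _ => continuousOn_finset_sum _ fun k _ => ?_
  exact (Complex.continuous_ofReal.comp_continuousOn (hg j k).continuousOn).mul
    ((h1 j).inner (𝕜 := ℂ) (h3 k))

theorem CRungeC_nab_sub {L : LD n N} {D : Set (E n)} (hD : RelOpen D) {c d : E n → Fib N}
    (hc : ContDiffOn ℝ 1 c D) (hd : ContDiffOn ℝ 1 d D) {x : E n} (hx : x ∈ D) (j : Fin n) :
    nab L j (fun y => c y - d y) x = nab L j c x - nab L j d x := by
  have h1 : pd j (fun y => c y - d y) x = pd j c x - pd j d x :=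
    pd_of_has (hD.subset hx) ((hD.hasD hx hc one_ne_zero).sub (hD.hasD hx hd one_ne_zero)) j
  unfold nab
  rw [h1, map_sub]
  abel

theorem CRungeC_ed_sub {L : LD n N} {D : Set (E n)} (hD : RelOpen D) {c d e : E n → Fib N}
    (hd : ContDiffOn ℝ 1 d D) (he : ContDiffOn ℝ 1 e D) {x : E n} (hx : x ∈ D) :
    ed L c (fun y => d y - e y) x = ed L c d x - ed L c e x := by
  unfold ed
  rw [← Finset.sum_sub_distrib]
  refine Finset.sum_congr rfl fun j _ => ?_
  rw [← Finset.sum_sub_distrib]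
  refine Finset.sum_congr rfl fun k _ => ?_
  rw [CRungeC_nab_sub hD hd he hx k, map_sub, inner_sub_right, mul_sub]

/-- the inverse metric is symmetric -/
theorem CRungeC_gg_symm {g : E n → Matrix (Fin n) (Fin n) ℝ} {x : E n} (h : (g x).PosDef)
    (j k : Fin n) : gg g j k x = gg g k j x := by
  unfold gg
  have h1 := h.inv.isHermitian
  have h2 := congrFun (congrFun h1 j) k
  simp only [Matrix.conjTranspose_apply, star_trivial] at h2
  rw [h2]

theorem CRungeC_ed_symm {L : LD n N} {c d : E n → Fib N} {x : E n} (hg : (L.g x).PosDef)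
    (hh : L.h x = 1) : ed L c d x = (starRingEnd ℂ) (ed L d c x) := by
  unfold ed
  rw [map_sum, Finset.sum_comm]
  simp only [map_sum]
  refine Finset.sum_congr rfl fun j _ => Finset.sum_congr rfl fun k _ => ?_
  rw [hh, map_mul, Complex.conj_ofReal, CRungeC_gg_symm hg]
  have h1 : ∀ v : Fib N, (1 : EndF N) v = v := fun v => rfl
  rw [h1, h1, inner_conj_symm]

/-- the form at a point -/
theorem CRungeC_ed_form {L : LD n N} {x : E n} (hg : (L.g x).PosDef) (hh : L.h x = 1) :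
    ∃ A : Matrix (Fin n) (Fin n) ℝ, ∀ c d : E n → Fib N, ed L c d x =
      ∑ k, inner ℂ (∑ i, A k i • nab L i c x) (∑ i, A k i • nab L i d x) := by
  obtain ⟨B, hB⟩ := exists_conj hg.inv.posSemidef
  obtain ⟨s, hs⟩ : ∃ s : ℝ, s * s = Real.sqrt (L.g x).det :=
    ⟨Real.sqrt (Real.sqrt (L.g x).det), Real.mul_self_sqrt (Real.sqrt_nonneg _)⟩
  refine ⟨s • B, fun c d => ?_⟩
  have h1 : ∀ v : Fib N, (1 : EndF N) v = v := fun v => rfl
  have h2 : ∀ j k, gg L.g j k x = ∑ l, (s * B l j) * (s * B l k) := by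
    intro j k
    unfold gg
    rw [hB, ← hs, Matrix.mul_apply, Finset.mul_sum]
    refine Finset.sum_congr rfl fun l _ => ?_
    simp only [Matrix.conjTranspose_apply, star_trivial]
    ring
  unfold ed
  simp only [hh, h1, h2, sum_inner, inner_sum, Complex.ofReal_sum, Finset.sum_mul]
  have h3 : ∀ (k : Fin n), (∑ j, ∑ i, inner ℂ ((s • B) k i • nab L i c x)
      ((s • B) k j • nab L j d x)) = ∑ i, ∑ j, (((s * B k i) * (s * B k j) : ℝ) : ℂ) *
      inner ℂ (nab L i c x) (nab L j d x) := by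
    intro k
    rw [Finset.sum_comm]
    refine Finset.sum_congr rfl fun i _ => Finset.sum_congr rfl fun j _ => ?_
    rw [inner_smul_left_eq_smul, inner_smul_right_eq_smul, smul_smul, Complex.real_smul]
    rfl
  simp only [h3]
  rw [Finset.sum_comm]
  rw [Finset.sum_congr rfl fun y _ => Finset.sum_comm, Finset.sum_comm]
  exact Finset.sum_congr rfl fun l _ => Finset.sum_comm

theorem CRungeC_ed_nonneg {L : LD n N} {x : E n} (hg : (L.g x).PosDef) (hh : L.h x = 1)
    (c : E n → Fib N) : 0 ≤ (ed L c c x).re := by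
  obtain ⟨A, hA⟩ := CRungeC_ed_form hg hh
  rw [hA, Complex.re_sum]
  refine Finset.sum_nonneg fun k _ => ?_
  exact inner_self_nonneg (𝕜 := ℂ)

theorem CRungeC_amgm {L : LD n N} {x : E n} (hg : (L.g x).PosDef) (hh : L.h x = 1)
    (c d : E n → Fib N) {t : ℝ} (ht : 0 < t) :
    ‖ed L c d x‖ ≤ (t * (ed L c c x).re + t⁻¹ * (ed L d d x).re) / 2 := by
  obtain ⟨A, hA⟩ := CRungeC_ed_form hg hh
  rw [hA, hA, hA, Complex.re_sum, Complex.re_sum, Finset.mul_sum, Finset.mul_sum,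
    ← Finset.sum_add_distrib, Finset.sum_div]
  refine (norm_sum_le _ _).trans (Finset.sum_le_sum fun k _ => ?_)
  set a := ∑ i, A k i • nab L i c x
  set b := ∑ i, A k i • nab L i d x
  have h1 : (inner ℂ a a : ℂ).re = ‖a‖ ^ 2 := inner_self_eq_norm_sq (𝕜 := ℂ) a
  have h2 : (inner ℂ b b : ℂ).re = ‖b‖ ^ 2 := inner_self_eq_norm_sq (𝕜 := ℂ) b
  rw [h1, h2]
  refine (norm_inner_le_norm a b).trans ?_
  have h3 : 0 ≤ t⁻¹ * (t * ‖a‖ - ‖b‖) ^ 2 := by (clear * - ht; positivity)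
  have h4 : t⁻¹ * (t * ‖a‖ - ‖b‖) ^ 2 = t * ‖a‖ ^ 2 - 2 * (‖a‖ * ‖b‖) + t⁻¹ * ‖b‖ ^ 2 := by
    field_simp
    ring
  linarith only [h3, h4]

/-- crude bound of the energy density on a compact set -/
theorem CRungeC_ed_bound {L : LD n N} {D : Set (E n)} (hL : L.Ok D)
    (hg : ∀ j k, ContDiffOn ℝ ∞ (gg L.g j k) D) (hh : ∀ x ∈ D, L.h x = 1) {K : Set (E n)}
    (hK : IsCompact K) (hKD : K ⊆ D) :
    ∃ C : ℝ, 0 ≤ C ∧ ∀ c : E n → Fib N, ∀ x ∈ K, ∀ ε : ℝ, 0 ≤ ε → ‖c x‖ ≤ ε →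
      (∀ j, ‖pd j c x‖ ≤ ε) → (ed L c c x).re ≤ C * ε ^ 2 := by
  have h1 : ∀ j k, ∃ C, ∀ x ∈ K, ‖gg L.g j k x‖ ≤ C := fun j k =>
    hK.exists_bound_of_continuousOn ((hg j k).continuousOn.mono hKD)
  choose G hG using h1
  have h2 : ∀ j, ∃ C, ∀ x ∈ K, ‖L.B j x‖ ≤ C := fun j =>
    hK.exists_bound_of_continuousOn ((hL.B_smooth j).continuousOn.mono hKD)
  choose b hb using h2
  refine ⟨∑ j, ∑ k, |G j k| * ((1 + |b j|) * (1 + |b k|)), by (clear * -; positivity), ?_⟩
  intro c x hx ε hε hc hp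
  have h3 : ∀ j, ‖nab L j c x‖ ≤ (1 + |b j|) * ε := by
    intro j
    unfold nab
    refine (norm_add_le _ _).trans ?_
    have h4 : ‖L.B j x (c x)‖ ≤ |b j| * ε :=
      ((L.B j x).le_opNorm _).trans (mul_le_mul ((hb j x hx).trans (le_abs_self _)) hc
        (norm_nonneg _) (abs_nonneg _))
    linarith [hp j]
  refine (Complex.re_le_norm _).trans ?_
  unfold ed
  rw [Finset.sum_mul]
  refine (norm_sum_le _ _).trans (Finset.sum_le_sum fun j _ => ?_)
  rw [Finset.sum_mul]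
  refine (norm_sum_le _ _).trans (Finset.sum_le_sum fun k _ => ?_)
  rw [hh x (hKD hx), norm_mul, Complex.norm_real]
  have h5 : ‖(inner ℂ (nab L j c x) ((1 : EndF N) (nab L k c x)) : ℂ)‖ ≤
      ((1 + |b j|) * ε) * ((1 + |b k|) * ε) :=
    (norm_inner_le_norm _ _).trans (mul_le_mul (h3 j) (h3 k) (norm_nonneg _) (by (clear * - hε; positivity)))
  calc ‖gg L.g j k x‖ * ‖(inner ℂ (nab L j c x) ((1 : EndF N) (nab L k c x)) : ℂ)‖
      ≤ |G j k| * (((1 + |b j|) * ε) * ((1 + |b k|) * ε)) :=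
        mul_le_mul ((hG j k x hx).trans (le_abs_self _)) h5 (norm_nonneg _) (abs_nonneg _)
    _ = _ := by ring

theorem CRungeC_relOpen_sdiff {D K : Set (E n)} (hD : RelOpen D) (hK : IsClosed K) :
    RelOpen (D \ K) := by
  have h := hD.univ_inter hK.isOpen_compl
  have h1 : Kᶜ ∩ D = D \ K := by rw [inter_comm]; rfl
  rwa [h1] at h

theorem CRungeC_meas {D : Set (E n)} (hD : RelOpen D) : MeasurableSet D := by
  obtain ⟨O, hO, rfl⟩ := hD
  exact hO.measurableSet.inter isClosed_Hs.measurableSet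

theorem CRungeC_nab_zero {L : LD n N} {D : Set (E n)} (hD : RelOpen D) {c : E n → Fib N}
    (h : ∀ x ∈ D, c x = 0) {x : E n} (hx : x ∈ D) (j : Fin n) : nab L j c x = 0 := by
  have h0 : EqOn c (fun _ => 0) D := fun y hy => h y hy
  rw [CRungeC_nab_congr hD h0 hx]
  unfold nab
  simp [pd_const]

theorem CRungeC_ed_zero {L : LD n N} {D : Set (E n)} (hD : RelOpen D) (c : E n → Fib N)
    {d : E n → Fib N} (h : ∀ x ∈ D, d x = 0) {x : E n} (hx : x ∈ D) : ed L c d x = 0 := by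
  unfold ed
  refine Finset.sum_eq_zero fun j _ => Finset.sum_eq_zero fun k _ => ?_
  rw [CRungeC_nab_zero hD h hx k, map_zero, inner_zero_right, mul_zero]

theorem CRungeC_ed_integrable {L : LD n N} {D : Set (E n)} (hD : RelOpen D) (hL : L.Ok D)
    (hg : ∀ j k, ContDiffOn ℝ ∞ (gg L.g j k) D) {c d : E n → Fib N}
    (hc : ContDiffOn ℝ 1 c D) (hd : ContDiffOn ℝ 1 d D) {K : Set (E n)} (hK : IsCompact K)
    (hKD : K ⊆ D) (hd0 : ∀ x ∈ D, x ∉ K → d x = 0) : IntegrableOn (ed L c d) D := by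
  have h1 : IntegrableOn (ed L c d) K :=
    ((CRungeC_ed_cont hD hL hg hc hd).mono hKD).integrableOn_compact hK
  refine h1.of_forall_diff_eq_zero (CRungeC_meas hD) fun x hx => ?_
  exact CRungeC_ed_zero (CRungeC_relOpen_sdiff hD hK.isClosed) c (fun y hy => hd0 y hy.1 hy.2) hx

theorem CRungeC_En_diff {L : LD n N} {D : Set (E n)} (hD : RelOpen D) (hL : L.Ok D)
    (hg : ∀ j k, ContDiffOn ℝ ∞ (gg L.g j k) D) (hh : ∀ x ∈ D, L.h x = 1) {K : Set (E n)}
    (hK : IsCompact K) (hKD : K ⊆ D) :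
    ∃ C : ℝ, 0 ≤ C ∧ ∀ c : E n → Fib N, ContDiffOn ℝ 1 c D → IntegrableOn (ed L c c) D →
      ∀ φ ψ : E n → Fib N, ContDiffOn ℝ 1 φ D → ContDiffOn ℝ 1 ψ D →
      (∀ x ∈ D, x ∉ K → φ x = 0) → (∀ x ∈ D, x ∉ K → ψ x = 0) → ∀ ε : ℝ, 0 < ε →
      (∀ x ∈ K, ‖ψ x - φ x‖ ≤ ε ∧ ∀ j, ‖pd j ψ x - pd j φ x‖ ≤ ε) →
      ‖En L D c ψ - En L D c φ‖ ≤ ε * ((En L D c c).re + C) := by
  obtain ⟨C₀, hC₀, hb⟩ := CRungeC_ed_bound hL hg hh hK hKD
  refine ⟨C₀ * (volume.real K), by (clear * - hC₀; positivity), ?_⟩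
  intro c hc hci φ ψ hφ hψ hφ0 hψ0 ε hε hclose
  have i1 := CRungeC_ed_integrable hD hL hg hc hψ hK hKD hψ0
  have i2 := CRungeC_ed_integrable hD hL hg hc hφ hK hKD hφ0
  have hζ : ContDiffOn ℝ 1 (fun y => ψ y - φ y) D := hψ.sub hφ
  have e1 : En L D c ψ - En L D c φ = ∫ x in D, ed L c (fun y => ψ y - φ y) x := by
    unfold En
    rw [← integral_sub i1 i2]
    exact setIntegral_congr_fun (CRungeC_meas hD) fun x hx => (CRungeC_ed_sub hD hψ hφ hx).symm
  have hKm : MeasurableSet K := hK.isClosed.measurableSet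
  have hKfin : volume K < ⊤ := hK.measure_lt_top
  have hind : IntegrableOn (K.indicator fun _ => C₀ * ε ^ 2) D := by
    refine Integrable.integrableOn ?_
    exact (integrable_indicator_iff hKm).2 (integrableOn_const hKfin.ne)
  have hre : IntegrableOn (fun x => (ed L c c x).re) D := hci.re
  have hgi : IntegrableOn (fun x => (ε * (ed L c c x).re +
      ε⁻¹ * (K.indicator (fun _ => C₀ * ε ^ 2) x)) / 2) D :=
    ((hre.const_mul ε).add (hind.const_mul ε⁻¹)).div_const 2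
  have hbound : ∀ x ∈ D, ‖ed L c (fun y => ψ y - φ y) x‖ ≤ (ε * (ed L c c x).re +
      ε⁻¹ * (K.indicator (fun _ => C₀ * ε ^ 2) x)) / 2 := by
    intro x hx
    refine (CRungeC_amgm (hL.g_pos x hx) (hh x hx) c _ hε).trans ?_
    have h1 : (ed L (fun y => ψ y - φ y) (fun y => ψ y - φ y) x).re ≤
        K.indicator (fun _ => C₀ * ε ^ 2) x := by
      by_cases hxK : x ∈ K
      · rw [indicator_of_mem hxK]
        refine hb _ x hxK ε hε.le (hclose x hxK).1 fun j => ?_
        have h2 : pd j (fun y => ψ y - φ y) x = pd j ψ x - pd j φ x :=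
          pd_of_has (hD.subset hx)
            ((hD.hasD hx hψ one_ne_zero).sub (hD.hasD hx hφ one_ne_zero)) j
        rw [h2]
        exact (hclose x hxK).2 j
      · rw [indicator_of_notMem hxK]
        refine le_of_eq ?_
        rw [CRungeC_ed_zero (CRungeC_relOpen_sdiff hD hK.isClosed) _
          (fun y hy => by rw [hψ0 y hy.1 hy.2, hφ0 y hy.1 hy.2, sub_zero]) ⟨hx, hxK⟩]
        rfl
    have h3 : ε⁻¹ * (ed L (fun y => ψ y - φ y) (fun y => ψ y - φ y) x).re ≤
        ε⁻¹ * K.indicator (fun _ => C₀ * ε ^ 2) x :=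
      mul_le_mul_of_nonneg_left h1 (by (clear * - hε; positivity))
    (clear hL hg hh hKD hC₀ hc hci i1 i2 hζ e1 hKm hKfin hind hre hgi; linarith)
  rw [e1]
  refine (norm_integral_le_of_norm_le hgi
    ((ae_restrict_iff' (CRungeC_meas hD)).2 (Eventually.of_forall hbound))).trans ?_
  have e2 : ∫ x in D, K.indicator (fun _ => C₀ * ε ^ 2) x = C₀ * ε ^ 2 * volume.real K := by
    rw [setIntegral_indicator hKm, inter_eq_self_of_subset_right hKD, setIntegral_const,
      smul_eq_mul, mul_comm]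
  have e3 : ∫ x in D, (ed L c c x).re = (En L D c c).re := by
    unfold En
    exact integral_re hci
  rw [integral_div, integral_add (hre.const_mul ε) (hind.const_mul ε⁻¹), integral_const_mul,
    integral_const_mul, e2, e3]
  have h4 : 0 ≤ (En L D c c).re := by
    rw [← e3]
    exact setIntegral_nonneg (CRungeC_meas hD)
      fun x hx => CRungeC_ed_nonneg (hL.g_pos x hx) (hh x hx) c
  have h5 : ε⁻¹ * (C₀ * ε ^ 2 * volume.real K) = ε * (C₀ * volume.real K) := by
    (clear * - hε; field_simp)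
  rw [h5]
  have h6 : 0 ≤ C₀ * volume.real K := by (clear * - hC₀; positivity)
  (clear hg hK hKD hb hc φ ψ hφ hψ hφ0 hψ0 hclose i1 i2 hζ e1 hKm hKfin hind hre hgi hbound e2 h5; nlinarith [mul_nonneg hε.le h4, mul_nonneg hε.le h6])

theorem CRungeC_green (hG : AGreen_statement) {L : LD n N} {z : E n} {R ρ₁ ρ₂ : ℝ} (hR : 0 < R)
    (hρ₂ : ρ₂ < R) (hpos : Metric.ball z R ⊆ {y | 0 < y 0}) (hL : L.Ok (Metric.ball z R))
    (hg : ∀ j k, ContDiffOn ℝ ∞ (gg L.g j k) (Metric.ball z R))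
    (hh : ∀ x ∈ Metric.ball z R, L.h x = 1) {φ : E n → Fib N}
    (hφ : ContDiffOn ℝ 2 φ (Metric.ball z R))
    (hφ0 : ∀ y ∈ Metric.ball z R, y ∉ Metric.ball z ρ₂ → φ y = 0)
    (hLφ : ∀ y ∈ Metric.ball z ρ₁, Lop L φ y = 0) :
    ∃ C : ℝ, 0 ≤ C ∧ ∀ c : E n → Fib N, ContDiffOn ℝ 1 c (Metric.ball z R) → ∀ t : ℝ, 0 < t →
      ‖En L (Metric.ball z R) c φ‖ ≤
        C * (t + t⁻¹ * ∫ y in Metric.closedBall z ρ₂ \ Metric.ball z ρ₁, ‖c y‖ ^ 2) := by
  set D := Metric.ball z R with hDdef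
  have hHB : HB z R = D := inter_eq_self_of_subset_left fun y hy =>
    le_of_lt (show (0 : ℝ) < y 0 from hpos hy)
  have hD : RelOpen D := ⟨D, Metric.isOpen_ball, hHB.symm⟩
  set K₀ := Metric.closedBall z ρ₂ \ Metric.ball z ρ₁ with hK₀
  have hKc : IsCompact K₀ := (isCompact_closedBall z ρ₂).diff Metric.isOpen_ball
  have hKD : K₀ ⊆ D := fun y hy => Metric.closedBall_subset_ball hρ₂ hy.1
  have hLc : ContinuousOn (Lop L φ) D := CRungeC_Lop_cont hD hL hg hφ
  obtain ⟨b, hb⟩ := hKc.exists_bound_of_continuousOn (hLc.mono hKD)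
  refine ⟨|b| * (1 + volume.real K₀), by (clear * -; positivity), ?_⟩
  intro c hc t ht
  have h1 : En L D c φ = (starRingEnd ℂ) (En L D φ c) := by
    unfold En
    rw [← integral_conj]
    exact setIntegral_congr_fun (CRungeC_meas hD)
      fun x hx => CRungeC_ed_symm (hL.g_pos x hx) (hh x hx)
  have h2 : En L D φ c = - ∫ x in D, inner ℂ (Lop L φ x) (L.h x (c x)) := by
    have := hG n N L z R hR (by rw [hHB]; exact hL) φ c (by rw [hHB]; exact hφ)
      (by rw [hHB]; exact hc) ⟨ρ₂, hρ₂, by rw [hHB]; exact hφ0⟩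
      (by rw [hHB]; exact fun x hx h0 => absurd h0 (hpos hx).ne')
    rwa [hHB] at this
  have h3 : ∀ x ∈ D \ K₀, inner ℂ (Lop L φ x) (L.h x (c x)) = 0 := by
    intro x hx
    have h4 : Lop L φ x = 0 := by
      by_cases hx1 : x ∈ Metric.ball z ρ₁
      · exact hLφ x hx1
      · have hx2 : x ∉ Metric.closedBall z ρ₂ := fun h => hx.2 ⟨h, hx1⟩
        refine CRungeC_Lop_zero (CRungeC_relOpen_sdiff hD Metric.isClosed_closedBall)
          (fun y hy => hφ0 y hy.1 fun h => hy.2 (Metric.ball_subset_closedBall h)) ⟨hx.1, hx2⟩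
    rw [h4, inner_zero_left]
  have h5 : ∫ x in D, (inner ℂ (Lop L φ x) (L.h x (c x)) : ℂ) =
      ∫ x in K₀, (inner ℂ (Lop L φ x) (L.h x (c x)) : ℂ) :=
    setIntegral_eq_of_subset_of_forall_diff_eq_zero (CRungeC_meas hD) hKD h3
  have hcc : ContinuousOn (fun y => ‖c y‖ ^ 2) K₀ := (hc.continuousOn.mono hKD).norm.pow 2
  have hci : IntegrableOn (fun y => ‖c y‖ ^ 2) K₀ := hcc.integrableOn_compact hKc
  have hKm : MeasurableSet K₀ := hKc.isClosed.measurableSet
  have hconst : IntegrableOn (fun _ : E n => t) K₀ := integrableOn_const hKc.measure_lt_top.ne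
  have h6 : ∀ x ∈ K₀, ‖(inner ℂ (Lop L φ x) (L.h x (c x)) : ℂ)‖ ≤
      |b| * ((t + t⁻¹ * ‖c x‖ ^ 2) / 2) := by
    intro x hx
    rw [hh x (hKD hx)]
    refine (norm_inner_le_norm _ _).trans ?_
    have h7 : ‖(1 : EndF N) (c x)‖ = ‖c x‖ := rfl
    rw [h7]
    refine mul_le_mul ((hb x hx).trans (le_abs_self _)) ?_ (norm_nonneg _) (abs_nonneg _)
    have h8 : 0 ≤ t⁻¹ * (t - ‖c x‖) ^ 2 := by (clear * - ht; positivity)
    have h9 : t⁻¹ * (t - ‖c x‖) ^ 2 = t - 2 * ‖c x‖ + t⁻¹ * ‖c x‖ ^ 2 := by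
      field_simp
      ring
    linarith only [h8, h9]
  rw [h1, RCLike.norm_conj, h2, norm_neg, h5]
  refine (norm_integral_le_of_norm_le
    (((hconst.add (hci.const_mul t⁻¹)).div_const 2).const_mul |b|)
    ((ae_restrict_iff' hKm).2 (Eventually.of_forall h6))).trans ?_
  have h10 : ∫ x in K₀, |b| * (((fun _ : E n => t) + fun x => t⁻¹ * ‖c x‖ ^ 2) x / 2) =
      |b| * ((t * volume.real K₀ + t⁻¹ * ∫ y in K₀, ‖c y‖ ^ 2) / 2) := by
    rw [integral_const_mul, integral_div]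
    simp only [Pi.add_apply]
    rw [integral_add hconst (hci.const_mul t⁻¹), integral_const_mul, setIntegral_const, smul_eq_mul,
      mul_comm t]
  refine (le_of_eq h10).trans ?_
  have h11 : 0 ≤ ∫ y in K₀, ‖c y‖ ^ 2 := setIntegral_nonneg hKm fun x _ => by (clear * -; positivity)
  have h12 : 0 ≤ volume.real K₀ := measureReal_nonneg
  have h13 : 0 ≤ t⁻¹ * ∫ y in K₀, ‖c y‖ ^ 2 := by (clear * - ht; positivity)
  have h14 : (t * volume.real K₀ + t⁻¹ * ∫ y in K₀, ‖c y‖ ^ 2) / 2 ≤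
      (1 + volume.real K₀) * (t + t⁻¹ * ∫ y in K₀, ‖c y‖ ^ 2) := by
    nlinarith only [ht, h13, h12]
  calc |b| * ((t * volume.real K₀ + t⁻¹ * ∫ y in K₀, ‖c y‖ ^ 2) / 2)
      ≤ |b| * ((1 + volume.real K₀) * (t + t⁻¹ * ∫ y in K₀, ‖c y‖ ^ 2)) :=
        mul_le_mul_of_nonneg_left h14 (abs_nonneg _)
    _ = _ := by ring

end Local

/-! ### The manifold part -/

section Mfd

variable {n N : ℕ} [NeZero n] {M : Type u} [TopologicalSpace M]
  [ChartedSpace (EuclideanHalfSpace n) M] [IsManifold (𝓡∂ n) ∞ M] [MeasurableSpace M]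

theorem CRungeC_gg_loc (P : One n N M) (p : M) (j k : Fin n) :
    ContDiffOn ℝ ∞ (gg (P.loc p).g j k) (tg n p) :=
  (contDiffOn_dens P.g p).mul (contDiffOn_gram_inv P.g p j k)

theorem CRungeC_sms_sub {u v : M → Fib N} (hu : SmS n u) (hv : SmS n v) : SmS n (u - v) :=
  ContMDiff.sub hu hv

theorem CRungeC_cb_compact {x : M} {R ρ : ℝ} (hR : IsCB n x R) (hρR : ρ ≤ R) :
    IsCompact (cb n x ρ) := by
  refine (isCompact_closedBall _ ρ).image_of_continuousOn ?_
  refine (continuousOn_extChartAt_symm x).mono fun y hy => ?_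
  exact (hR.2 (Metric.closedBall_subset_closedBall hρR hy)).1

theorem CRungeC_mem_cb {x m : M} {R ρ : ℝ} (hR : IsCB n x R) (hρR : ρ ≤ R) (hm : m ∈ cb n x ρ) :
    m ∈ (xc n x).source ∧ xc n x m ∈ Metric.closedBall (xc n x x) ρ ∧
      (xc n x).symm (xc n x m) = m := by
  obtain ⟨y, hy, rfl⟩ := hm
  have hyt : y ∈ tg n x := (hR.2 (Metric.closedBall_subset_closedBall hρR hy)).1
  have h1 : (xc n x).symm y ∈ (xc n x).source := (xc n x).map_target hyt
  refine ⟨h1, ?_, (xc n x).left_inv h1⟩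
  rw [(xc n x).right_inv hyt]
  exact hy

/-- bounded energies -/
theorem CRungeC_bdd (hForm : CForm_statement.{u}) [T2Space M] [CompactSpace M] [BorelSpace M]
    (P : One n N M) (w : ℕ → M → Fib N) (hw : ∀ k, SmS n (w k))
    (hC : ∀ ε > 0, ∃ k₀, ∀ k ≥ k₀, ∀ l ≥ k₀, (P.E (w k - w l) (w k - w l)).re ≤ ε) :
    ∃ (B : ℝ) (k₀ : ℕ), 0 ≤ B ∧ ∀ k ≥ k₀, (P.E (w k) (w k)).re ≤ B := by
  obtain ⟨f1, f2, f3, f4, f5⟩ := hForm n N M P
  obtain ⟨k₀, hk₀⟩ := hC 1 one_pos
  refine ⟨2 + 2 * (P.E (w k₀) (w k₀)).re, k₀, by (clear hForm hC f1 f2 f3 f5 hk₀; linarith [f4 _ (hw k₀)]), fun k hk => ?_⟩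
  have h1 := hk₀ k hk k₀ le_rfl
  set a := w k - w k₀ with ha
  have hab : w k = a + w k₀ := by rw [ha]; abel
  have sa : SmS n a := CRungeC_sms_sub (hw k) (hw k₀)
  have e1 : P.E (w k) (w k) = P.E a a + P.E (w k₀) a + (P.E a (w k₀) + P.E (w k₀) (w k₀)) := by
    have g1 : P.E (w k) a = P.E a a + P.E (w k₀) a := by
      rw [f3 a (w k) sa (hw k)]
      conv_lhs => rw [hab]
      rw [f1 a a (w k₀) sa sa (hw k₀), map_add, ← f3 a a sa sa, ← f3 a (w k₀) sa (hw k₀)]
    have g2 : P.E (w k) (w k₀) = P.E a (w k₀) + P.E (w k₀) (w k₀) := by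
      rw [f3 (w k₀) (w k) (hw k₀) (hw k)]
      conv_lhs => rw [hab]
      rw [f1 (w k₀) a (w k₀) (hw k₀) sa (hw k₀), map_add, ← f3 (w k₀) a (hw k₀) sa,
        ← f3 (w k₀) (w k₀) (hw k₀) (hw k₀)]
    calc P.E (w k) (w k) = P.E (w k) (a + w k₀) := by rw [← hab]
      _ = P.E (w k) a + P.E (w k) (w k₀) := f1 _ _ _ (hw k) sa (hw k₀)
      _ = _ := by rw [g1, g2]
  have h2 : ‖P.E a (w k₀)‖ ^ 2 ≤ (P.E a a).re * (P.E (w k₀) (w k₀)).re := f5 a _ sa (hw k₀)
  have h3 : (P.E (w k₀) a).re = (P.E a (w k₀)).re := by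
    rw [f3 a (w k₀) sa (hw k₀), Complex.conj_re]
  have h4 := f4 a sa
  have h5 := f4 _ (hw k₀)
  have h6 : 2 * (P.E a (w k₀)).re ≤ (P.E a a).re + (P.E (w k₀) (w k₀)).re := by
    have h7 := Complex.re_le_norm (P.E a (w k₀))
    have h8 : 2 * ‖P.E a (w k₀)‖ ≤ (P.E a a).re + (P.E (w k₀) (w k₀)).re := by
      refine abs_le_of_sq_le_sq' ?_ (by (clear hForm hC f1 f2 f3 f5 hk₀ hk h1 ha hab e1 h2 h3 h7; positivity)) |>.2
      (clear hForm hC f1 f2 f3 f4 hk₀ hk h1 ha hab e1 h3 h4 h5 h7; nlinarith [sq_nonneg ((P.E a a).re - (P.E (w k₀) (w k₀)).re)])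
    (clear hForm hC f1 f2 f3 hk₀ hk h1 ha hab e1 h3; linarith)
  rw [e1]
  simp only [Complex.add_re]
  rw [h3]
  (clear hForm hC f1 f2 f3 hk₀ hk ha hab e1 h3; linarith)

end Mfd

theorem CRungeC_one (hG : AGreen_statement) (hDen : ADens_statement) (hFin : CInt_statement.{u})
    (hEn : CEnergy_statement.{u}) (hExt : CExt_statement.{u}) (hForm : CForm_statement.{u})
    (hLoc : CLoc_statement.{u}) {n N : ℕ} [NeZero n] {M : Type u} [TopologicalSpace M]
    [ChartedSpace (EuclideanHalfSpace n) M] [IsManifold (𝓡∂ n) ∞ M] [T2Space M] [CompactSpace M]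
    [MeasurableSpace M] [BorelSpace M] (P : One n N M) (x : M) (R ρ : ℝ)
    (h : M → Fib N) (hR : IsCB n x R) (hρ : 0 < ρ) (hρR : ρ < R)
    (hh : MemLp h 2 (P.μ.restrict (cb n x ρ))) (w : ℕ → M → Fib N) (hw : ∀ k, SmS n (w k))
    (hC : ∀ ε > 0, ∃ k₀, ∀ k ≥ k₀, ∀ l ≥ k₀, (P.E (w k - w l) (w k - w l)).re ≤ ε)
    (hT : ∀ φ : M → Fib N, SmS n φ →
      tsupport φ ⊆ (xc n x).symm '' (Metric.ball (xc n x x) R) →
      Tendsto (fun k => P.E (w k) φ) atTop (𝓝 (∫ m in cb n x ρ, inner ℂ (h m) (φ m) ∂P.μ)))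
    (hZ : ∀ K : Set (E n), IsCompact K →
      K ⊆ Metric.ball (xc n x x) R \ Metric.closedBall (xc n x x) ρ →
        Tendsto (fun k => ∫ y in K, ‖lu (𝓡∂ n) x (w k) y‖ ^ 2) atTop (𝓝 0))
    (v : E n → Fib N) (hv : ContDiffOn ℝ 2 v (Metric.ball (xc n x x) R))
    (hLv : ∀ y ∈ Metric.ball (xc n x x) R, Lop (P.loc x) v y = 0) :
    ∫ m in cb n x ρ, inner ℂ (h m) (v (xc n x m)) ∂P.μ = 0 := by
  obtain ⟨hfin, -, -⟩ := hFin n N M P
  haveI := hfin
  obtain ⟨l1, l2, l3, l4⟩ := hLoc n N M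
  set z := xc n x x with hz
  set D := Metric.ball z R with hDdef
  set L := P.loc x with hLdef
  have hR0 : 0 < R := hR.1
  have hDt : D ⊆ tg n x := fun y hy => (hR.2 (Metric.ball_subset_closedBall hy)).1
  have hpos : D ⊆ {y | 0 < y 0} := fun y hy => (hR.2 (Metric.ball_subset_closedBall hy)).2
  have hDH : D ⊆ Hs n := fun y hy => le_of_lt (show (0 : ℝ) < y 0 from hpos hy)
  have hD : RelOpen D := ⟨D, Metric.isOpen_ball, (inter_eq_self_of_subset_left hDH).symm⟩
  have hLok : L.Ok D := CRungeC_ok_mono (l2 P x) hDt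
  have hg : ∀ j k, ContDiffOn ℝ ∞ (gg L.g j k) D := fun j k => (CRungeC_gg_loc P x j k).mono hDt
  have hh1 : ∀ y ∈ D, L.h y = 1 := fun y _ => rfl
  have hc : ∀ k, ContDiffOn ℝ 1 (lu (𝓡∂ n) x (w k)) D := fun k =>
    ((l4 (w k) (hw k) x).mono hDt).of_le (by exact_mod_cast le_top)
  have hcE : ∀ k, (En L D (lu (𝓡∂ n) x (w k)) (lu (𝓡∂ n) x (w k))).re ≤ (P.E (w k) (w k)).re ∧
      IntegrableOn (ed L (lu (𝓡∂ n) x (w k)) (lu (𝓡∂ n) x (w k))) D := fun k =>
    (hEn n N M P x D hD hDt).2 (w k) (hw k)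
  have hcbm : MeasurableSet (cb n x ρ) := (CRungeC_cb_compact hR hρR.le).isClosed.measurableSet
  have hmem : ∀ m ∈ cb n x ρ, m ∈ (xc n x).source ∧ xc n x m ∈ Metric.closedBall z ρ ∧
      (xc n x).symm (xc n x m) = m := fun m hm => CRungeC_mem_cb hR hρR.le hm
  -- the cut-off function
  obtain ⟨ρ₁, hρ₁, hρ₁R⟩ := exists_between hρR
  obtain ⟨ρ₂, hρ₂, hρ₂R⟩ := exists_between hρ₁R
  let χ : ContDiffBump z := ⟨ρ₁, ρ₂, hρ.trans hρ₁, hρ₂⟩
  set φ : E n → Fib N := fun y => χ y • v y with hφdef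
  have hφD : ContDiffOn ℝ 2 φ D := (χ.contDiff.contDiffOn).smul hv
  have hφs : tsupport φ ⊆ Metric.closedBall z ρ₂ := by
    have h1 : tsupport φ ⊆ tsupport χ := tsupport_smul_subset_left χ v
    rwa [χ.tsupport_eq] at h1
  have hφsD : tsupport φ ⊆ D := hφs.trans (Metric.closedBall_subset_ball hρ₂R)
  have hφ2 : ContDiff ℝ 2 φ := by
    rw [contDiff_iff_contDiffAt]
    intro y
    by_cases hy : y ∈ D
    · exact hφD.contDiffAt (Metric.isOpen_ball.mem_nhds hy)
    · have h1 : φ =ᶠ[𝓝 y] fun _ => 0 :=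
        notMem_tsupport_iff_eventuallyEq.1 fun h => hy (hφsD h)
      exact contDiffAt_const.congr_of_eventuallyEq h1
  have hφc : HasCompactSupport φ :=
    (isCompact_closedBall z ρ₂).of_isClosed_subset (isClosed_tsupport φ) hφs
  have hφ0 : ∀ y, y ∉ Metric.ball z ρ₂ → φ y = 0 := by
    intro y hy
    have h1 : χ y = 0 := by
      have h2 : y ∉ Function.support χ := by rw [χ.support_eq]; exact hy
      simpa using h2
    rw [hφdef]
    simp only [h1, zero_smul]
  have hφv : ∀ y ∈ Metric.closedBall z ρ₁, φ y = v y := by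
    intro y hy
    rw [hφdef]
    simp only
    rw [χ.one_of_mem_closedBall hy, one_smul]
  have hb₁ : Metric.ball z ρ₁ ⊆ D := Metric.ball_subset_ball hρ₁R.le
  have hLφ : ∀ y ∈ Metric.ball z ρ₁, Lop L φ y = 0 := by
    intro y hy
    have h1 : RelOpen (Metric.ball z ρ₁) := ⟨Metric.ball z ρ₁, Metric.isOpen_ball,
      (inter_eq_self_of_subset_left (hb₁.trans hDH)).symm⟩
    rw [CRungeC_Lop_congr h1 (fun y' hy' => hφv y' (Metric.ball_subset_closedBall hy')) hy]
    exact hLv y (hb₁ hy)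
  -- the functional
  set ℓ : (E n → Fib N) → ℂ := fun ψ => ∫ m in cb n x ρ, inner ℂ (h m) (ψ (xc n x m)) ∂P.μ with hℓ
  have hhi : IntegrableOn h (cb n x ρ) P.μ := hh.integrable one_le_two
  have hint : ∀ f : E n → Fib N, Continuous f →
      IntegrableOn (fun m => (inner ℂ (h m) (f (xc n x m)) : ℂ)) (cb n x ρ) P.μ := by
    intro f hf
    obtain ⟨b, hb⟩ := (isCompact_closedBall z ρ).exists_bound_of_continuousOn hf.continuousOn
    have h1 : ContinuousOn (fun m => f (xc n x m)) (cb n x ρ) := by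
      refine hf.comp_continuousOn ((continuousOn_extChartAt x).mono fun m hm => ?_)
      exact (hmem m hm).1
    have h2 : AEStronglyMeasurable (fun m => f (xc n x m)) (P.μ.restrict (cb n x ρ)) :=
      h1.aestronglyMeasurable hcbm
    refine Integrable.mono' (hhi.norm.mul_const b) (hhi.aestronglyMeasurable.inner h2) ?_
    refine (ae_restrict_iff' hcbm).2 (Eventually.of_forall fun m hm => ?_)
    exact (norm_inner_le_norm _ _).trans
      (mul_le_mul_of_nonneg_left (hb _ (hmem m hm).2.1) (norm_nonneg _))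
  set C₂ : ℝ := ∫ m in cb n x ρ, ‖h m‖ ∂P.μ with hC₂
  have hC₂0 : 0 ≤ C₂ := integral_nonneg fun _ => norm_nonneg _
  have hℓd : ∀ ψ : E n → Fib N, Continuous ψ → ∀ ε : ℝ, (∀ y, ‖ψ y - φ y‖ ≤ ε) →
      ‖ℓ ψ - ℓ φ‖ ≤ ε * C₂ := by
    intro ψ hψ ε hε
    have h1 : ℓ ψ - ℓ φ = ∫ m in cb n x ρ, (inner ℂ (h m) (ψ (xc n x m)) -
        inner ℂ (h m) (φ (xc n x m))) ∂P.μ :=
      (integral_sub (hint ψ hψ) (hint φ hφ2.continuous)).symm
    rw [h1]
    refine (norm_integral_le_of_norm_le (hhi.norm.const_mul ε)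
      (Eventually.of_forall fun m => ?_)).trans (le_of_eq (integral_const_mul _ _))
    rw [← inner_sub_right]
    refine (norm_inner_le_norm _ _).trans ?_
    rw [mul_comm]
    exact mul_le_mul_of_nonneg_right (hε _) (norm_nonneg _)
  -- smooth test functions
  have s1 : ∀ ψ : E n → Fib N, Tst0 D ψ →
      Tendsto (fun k => En L D (lu (𝓡∂ n) x (w k)) ψ) atTop (𝓝 (ℓ ψ)) := by
    intro ψ hψ
    obtain ⟨u, hu, hu1, -, hu3⟩ := hExt n N M x ψ D (tsupport ψ) hD hDt hψ.1.contDiffOn hψ.2.1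
      hψ.2.2 (fun y _ hy => image_eq_zero_of_notMem_tsupport hy)
    have hus : tsupport u ⊆ (xc n x).symm '' D := hu3.trans (image_mono hψ.2.2)
    have h1 := hT u hu hus
    have h2 : ∫ m in cb n x ρ, inner ℂ (h m) (u m) ∂P.μ = ℓ ψ := by
      refine setIntegral_congr_fun hcbm fun m hm => ?_
      obtain ⟨-, m2, m3⟩ := hmem m hm
      have h3 : u m = ψ (xc n x m) := by
        rw [← hu1 _ (Metric.closedBall_subset_ball hρR m2), m3]
      simp only [h3]
    rw [h2] at h1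
    refine h1.congr fun k => ?_
    rw [(hEn n N M P x D hD hDt).1 (w k) u (hw k) hu (Or.inr hus)]
    unfold En
    exact setIntegral_congr_fun (CRungeC_meas hD) fun y hy =>
      CRungeC_ed_congr hD (fun _ _ => rfl) (fun y hy => hu1 y hy) hy
  -- approximation
  obtain ⟨K, ψ, hK, hKD, hψ, happ⟩ := hDen n N D φ Metric.isOpen_ball hDH
    (hφ2.of_le (by norm_num)) hφc hφsD
  obtain ⟨C₁, hC₁, hdiff⟩ := CRungeC_En_diff hD hLok hg hh1
    (hK.union (isCompact_closedBall z ρ₂))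
    (union_subset hKD (Metric.closedBall_subset_ball hρ₂R))
  obtain ⟨B, k₀, hB, hbd⟩ := CRungeC_bdd hForm P w hw hC
  have s2 : Tendsto (fun k => En L D (lu (𝓡∂ n) x (w k)) φ) atTop (𝓝 (ℓ φ)) := by
    rw [Metric.tendsto_atTop]
    intro ε hε
    set δ : ℝ := ε / (2 * (B + C₁ + C₂ + 1)) with hδ
    have hden : 0 < B + C₁ + C₂ + 1 := by (clear hG hDen hFin hEn hExt hForm hLoc R hR hρ hρR hh w hw hC v l1 l2 l3 l4 z hz D hT hZ hv hDdef L hLv hLdef hR0 hDt hpos hDH hD hLok hg hh1 hc hcE hcbm hmem ρ₁ hρ₁ hρ₁R ρ₂ hρ₂ hρ₂R χ φ hφdef hφD hφs hφsD hφ2 hφc hφ0 hφv hb₁ hLφ ℓ hℓ hhi hint hC₂ hC₂0 hℓd s1 K ψ hK hKD hψ happ hdiff k₀ hbd ε hε δ hδ; positivity)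
    have hδ0 : 0 < δ := by (clear hG hDen hFin hEn hExt hForm hLoc R hR hρ hρR hh w hw hC v l1 l2 l3 l4 z hz D hT hZ hv hDdef L hLv hLdef hR0 hDt hpos hDH hD hLok hg hh1 hc hcE hcbm hmem ρ₁ hρ₁ hρ₁R ρ₂ hρ₂ hρ₂R χ φ hφdef hφD hφs hφsD hφ2 hφc hφ0 hφv hb₁ hLφ ℓ hℓ hhi hint hC₂ hC₂0 hℓd s1 K ψ hK hKD hψ happ hdiff k₀ hbd hδ hden; positivity)
    have hδε : δ * (B + C₁ + C₂ + 1) = ε / 2 := by
      rw [hδ]; (clear * - hB hC₁ hC₂0 hε; field_simp)
    obtain ⟨m, hm⟩ := happ δ hδ0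
    have hm' := hm m le_rfl
    obtain ⟨k₁, hk₁⟩ := Metric.tendsto_atTop.1 (s1 (ψ m) (hψ m).1) (ε / 2) (by (clear * - hε; positivity))
    refine ⟨max k₀ k₁, fun k hk => ?_⟩
    have e1 : ‖En L D (lu (𝓡∂ n) x (w k)) (ψ m) - En L D (lu (𝓡∂ n) x (w k)) φ‖ ≤
        δ * (B + C₁) := by
      refine (hdiff _ (hc k) (hcE k).2 φ (ψ m) (hφD.of_le (by norm_num))
        ((hψ m).1.1.contDiffOn.of_le (by exact_mod_cast le_top)) ?_ ?_ δ hδ0
        (fun y _ => hm' y)).trans ?_
      · intro y _ hy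
        exact hφ0 y fun h' => hy (Or.inr (Metric.ball_subset_closedBall h'))
      · intro y _ hy
        exact image_eq_zero_of_notMem_tsupport fun h' => hy (Or.inl ((hψ m).2 h'))
      · refine mul_le_mul_of_nonneg_left ?_ hδ0.le
        (clear hG hDen hFin hExt hForm hLoc ρ h hρ hρR hh hC v l1 l2 l3 l4 hz hT hZ hv hDdef hLv hLdef hR0 hLok hg hh1 hc hcbm hmem ρ₁ hρ₁ hρ₁R ρ₂ hρ₂ hρ₂R χ φ hφdef hφD hφs hφsD hφ2 hφc hφ0 hφv hb₁ hLφ ℓ hℓ hhi hint C₂ hC₂ hC₂0 hℓd s1 K ψ hK hKD hψ happ hC₁ hdiff hB ε hε δ hδ hden hδ0 hδε m hm hm' hk₁; linarith [(hcE k).1, hbd k ((le_max_left _ _).trans hk)])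
    have e2 := hk₁ k ((le_max_right _ _).trans hk)
    rw [dist_eq_norm] at e2
    have e3 := hℓd (ψ m) (hψ m).1.1.continuous δ (fun y => (hm' y).1)
    rw [dist_eq_norm]
    have e4 : En L D (lu (𝓡∂ n) x (w k)) φ - ℓ φ =
        -(En L D (lu (𝓡∂ n) x (w k)) (ψ m) - En L D (lu (𝓡∂ n) x (w k)) φ) +
        (En L D (lu (𝓡∂ n) x (w k)) (ψ m) - ℓ (ψ m)) + (ℓ (ψ m) - ℓ φ) := by ring
    rw [e4]
    refine lt_of_le_of_lt ((norm_add_le _ _).trans (add_le_add_left (norm_add_le _ _) _)) ?_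
    rw [norm_neg]
    (clear hG hDen hFin hExt hForm hLoc hC l1 l2 l3 hz hT hZ hDdef hLv hLdef hR0 hLok hg hh1 hρ₁R hφc hφv hb₁ hLφ hℓ hC₂ s1 hK hKD happ hden hk₁ e4; nlinarith)
  -- the limit is zero
  obtain ⟨C₃, hC₃, hgreen⟩ := CRungeC_green hG (ρ₁ := ρ₁) hR0 hρ₂R hpos hLok hg hh1 hφD
    (fun y _ hy => hφ0 y hy) hLφ
  have hK₀ : Metric.closedBall z ρ₂ \ Metric.ball z ρ₁ ⊆
      Metric.ball z R \ Metric.closedBall z ρ := by
    intro y hy
    refine ⟨Metric.closedBall_subset_ball hρ₂R hy.1, fun h' => hy.2 ?_⟩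
    exact Metric.closedBall_subset_ball hρ₁ h'
  have hZ' := hZ _ ((isCompact_closedBall z ρ₂).diff Metric.isOpen_ball) hK₀
  have s3 : Tendsto (fun k => En L D (lu (𝓡∂ n) x (w k)) φ) atTop (𝓝 0) := by
    rw [Metric.tendsto_atTop]
    intro ε hε
    set t : ℝ := ε / (2 * (C₃ + 1)) with ht
    have ht0 : 0 < t := by (clear * - hε hC₃; positivity)
    have htε : t * (C₃ + 1) = ε / 2 := by
      rw [ht]; (clear * - hC₃ hε; field_simp)
    have h1 : Tendsto (fun k => C₃ * (t⁻¹ * ∫ y in Metric.closedBall z ρ₂ \ Metric.ball z ρ₁,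
        ‖lu (𝓡∂ n) x (w k) y‖ ^ 2)) atTop (𝓝 (C₃ * (t⁻¹ * 0))) :=
      (hZ'.const_mul t⁻¹).const_mul C₃
    rw [mul_zero, mul_zero] at h1
    obtain ⟨k₁, hk₁⟩ := Metric.tendsto_atTop.1 h1 (ε / 2) (by (clear * - hε; positivity))
    refine ⟨k₁, fun k hk => ?_⟩
    have h2 := hk₁ k hk
    rw [dist_zero_right] at h2 ⊢
    have h3 := hgreen _ (hc k) t ht0
    have h4 := (le_abs_self _).trans_lt h2
    refine h3.trans_lt ?_
    rw [mul_add]
    (clear hG hDen hFin hEn hExt hForm hLoc R ρ h hR hρ hρR hh hw hC v l1 l2 l3 l4 hz D hT hZ hv hDdef L hLv hLdef hR0 hDt hpos hDH hD hLok hg hh1 hc hcE hcbm hmem hρ₁ hρ₁R hρ₂ hρ₂R χ φ hφdef hφD hφs hφsD hφ2 hφc hφ0 hφv hb₁ hLφ ℓ hℓ hhi hint C₂ hC₂ hC₂0 hℓd s1 K ψ hK hKD hψ happ C₁ hC₁ hdiff B k₀ hB hbd s2 hgreen hK₀ hZ' h1 k₁ hk₁ hk h3; nlinarith)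
  have s4 : ℓ φ = 0 := tendsto_nhds_unique s2 s3
  rw [← s4]
  refine setIntegral_congr_fun hcbm fun m hm => ?_
  obtain ⟨-, m2, -⟩ := hmem m hm
  simp only [hφv _ (Metric.closedBall_subset_closedBall hρ₁.le m2)]

theorem CRungeC_test (hLoc : CLoc_statement.{u}) {n N : ℕ} [NeZero n] {M : Type u}
    [TopologicalSpace M] [ChartedSpace (EuclideanHalfSpace n) M] [IsManifold (𝓡∂ n) ∞ M]
    [MeasurableSpace M] {Γ : Set M} {x : M} {R : ℝ} (hR : IsCB n x R)
    {φ : M → Fib N} (hφ : SmS n φ)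
    (hs : tsupport φ ⊆ (xc n x).symm '' (Metric.ball (xc n x x) R)) :
    IsBdryData (𝓡∂ n) Γ φ ∧ ∀ m, m ∉ cb n x R → φ m = 0 := by
  obtain ⟨-, -, l3, -⟩ := hLoc n N M
  have h0 : ∀ m, m ∉ cb n x R → φ m = 0 := by
    intro m hm
    by_contra hne
    obtain ⟨y, hy, rfl⟩ := hs (subset_tsupport φ hne)
    exact hm ⟨y, Metric.ball_subset_closedBall hy, rfl⟩
  have h1 : ∀ m ∈ (𝓡∂ n).boundary M, φ m = 0 := by
    intro m hm
    by_contra hne
    obtain ⟨y, hy, rfl⟩ := hs (subset_tsupport φ hne)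
    have h2 := hR.2 (Metric.ball_subset_closedBall hy)
    have h3 := (l3 x _ ((xc n x).map_target h2.1)).1 hm
    rw [(xc n x).right_inv h2.1] at h3
    exact (show (0 : ℝ) < y 0 from h2.2).ne' h3
  refine ⟨⟨hφ, ?_⟩, h0⟩
  have h2 : {m ∈ (𝓡∂ n).boundary M | φ m ≠ 0} = ∅ := by
    ext m
    simp only [mem_ofPred_eq, mem_empty_iff_false, iff_false]
    exact fun hm => hm.2 (h1 m hm.1)
  rw [h2, closure_empty]
  exact empty_subset _

theorem cRungeC : CRungeA_statement.{u} → CRungeB_statement.{u} → AGreen_statement →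
    ADens_statement → CInt_statement.{u} → CEnergy_statement.{u} → CExt_statement.{u} →
    CForm_statement.{u} → CLoc_statement.{u} → CRungeC_statement.{u} := by
  intro hA hB hG hDen hInt hEn hExt hForm hLoc
  intro n N _ M _ _ _ _ _ _ _ _ P Γ x x' R R' ρ ρ' h hn hΓ hΓn hSol hR hR' hρ hρR hρ' hρR' hdis
    hh horth v v' hv hv' hLv hLv'
  have c1 : IsCompact (cb n x ρ) := CRungeC_cb_compact hR hρR.le
  have c2 : IsCompact (cb n x' ρ') := CRungeC_cb_compact hR' hρR'.le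
  have m1 : MeasurableSet (cb n x ρ) := c1.isClosed.measurableSet
  have m2 : MeasurableSet (cb n x' ρ') := c2.isClosed.measurableSet
  have sub1 : cb n x ρ ⊆ cb n x R := image_mono (Metric.closedBall_subset_closedBall hρR.le)
  have sub2 : cb n x' ρ' ⊆ cb n x' R' := image_mono (Metric.closedBall_subset_closedBall hρR'.le)
  obtain ⟨w, hw, hwb, hwE, hwL, hwT⟩ := hA n N M P Γ (cb n x ρ ∪ cb n x' ρ') h hΓ hΓn hSol
    (c1.union c2) hh horth
  have hwT0 : ∀ φ : M → Fib N, IsBdryData (𝓡∂ n) Γ φ →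
      (∀ m ∈ cb n x ρ ∪ cb n x' ρ', φ m = 0) →
      Tendsto (fun k => P.E (w k) φ) atTop (𝓝 0) := by
    intro φ hφ h0
    have h1 := hwT φ hφ
    rwa [setIntegral_eq_zero_of_forall_eq_zero
      fun m hm => by rw [h0 m hm, inner_zero_right]] at h1
  have hZ := hB n N M P Γ x x' R R' ρ ρ' hn hΓ hΓn hR hR' hρ hρR hρ' hρR' hdis w hw hwb hwE hwL
    hwT0
  have t1 : ∀ φ : M → Fib N, SmS n φ →
      tsupport φ ⊆ (xc n x).symm '' (Metric.ball (xc n x x) R) →
      Tendsto (fun k => P.E (w k) φ) atTop (𝓝 (∫ m in cb n x ρ, inner ℂ (h m) (φ m) ∂P.μ)) := by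
    intro φ hφ hs
    obtain ⟨b1, b2⟩ := CRungeC_test (Γ := Γ) hLoc hR hφ hs
    have h1 := hwT φ b1
    rwa [setIntegral_eq_of_subset_of_forall_diff_eq_zero (m1.union m2) subset_union_left
      (fun m hm => by
        have h2 : m ∈ cb n x' R' := sub2 (hm.1.resolve_left hm.2)
        rw [b2 m fun h3 => disjoint_left.1 hdis h3 h2, inner_zero_right])] at h1
  have t2 : ∀ φ : M → Fib N, SmS n φ →
      tsupport φ ⊆ (xc n x').symm '' (Metric.ball (xc n x' x') R') →
      Tendsto (fun k => P.E (w k) φ) atTop (𝓝 (∫ m in cb n x' ρ', inner ℂ (h m) (φ m) ∂P.μ)) := by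
    intro φ hφ hs
    obtain ⟨b1, b2⟩ := CRungeC_test (Γ := Γ) hLoc hR' hφ hs
    have h1 := hwT φ b1
    rwa [setIntegral_eq_of_subset_of_forall_diff_eq_zero (m1.union m2) subset_union_right
      (fun m hm => by
        have h2 : m ∈ cb n x R := sub1 (hm.1.resolve_right hm.2)
        rw [b2 m fun h3 => disjoint_left.1 hdis h2 h3, inner_zero_right])] at h1
  have r1 := CRungeC_one hG hDen hInt hEn hExt hForm hLoc P x R ρ h hR hρ hρR
    (hh.mono_measure (Measure.restrict_mono subset_union_left le_rfl)) w hw hwE t1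
    (fun K hK => (hZ K hK).1) v hv hLv
  have r2 := CRungeC_one hG hDen hInt hEn hExt hForm hLoc P x' R' ρ' h hR' hρ' hρR'
    (hh.mono_measure (Measure.restrict_mono subset_union_right le_rfl)) w hw hwE t2
    (fun K hK => (hZ K hK).2) v' hv' hLv'
  rw [r1, r2, add_zero]

end Vale.Agent.P088.EYM
end
end

section

/-!
# P088-EYM-C21: from equal models to a local match
-/

open Bundle Manifold MeasureTheory Set Filter Topology
open scoped ContDiff

noncomputable section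

namespace Vale.Agent.P088.EYM

universe u

set_option linter.unusedSectionVars false

section

variable {n N : ℕ} [NeZero n]

theorem cMatch_isOpen {D : Set (E n)} (hD : RelOpen D) : IsOpen (D ∩ {x : E n | 0 < x 0}) := by
  obtain ⟨O, hO, rfl⟩ := hD
  have : (O ∩ Hs n) ∩ {x : E n | 0 < x 0} = O ∩ {x : E n | 0 < x 0} := by
    ext x
    simp only [mem_inter_iff, Hs, mem_ofPred_eq]
    constructor
    · rintro ⟨⟨h1, _⟩, h2⟩; exact ⟨h1, h2⟩
    · rintro ⟨h1, h2⟩; exact ⟨⟨h1, h2.le⟩, h2⟩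
  rw [this]
  exact hO.inter (isOpen_lt continuous_const (continuous_coord 0))

theorem cMatch_relOpen {D : Set (E n)} (hD : RelOpen D) : RelOpen (D ∩ {x : E n | 0 < x 0}) :=
  ⟨_, cMatch_isOpen hD, by
    rw [eq_comm, inter_eq_left]
    exact fun x hx => hD.subset hx.1⟩

theorem cMatch_range : range (𝓡∂ n) = Hs n :=
  range_modelWithCornersEuclideanHalfSpace n

theorem cMatch_HB (z : E n) (r : ℝ) : RelOpen (HB z r) := ⟨_, Metric.isOpen_ball, rfl⟩

theorem cMatch_pull {L L₁ L₂ : LD n N} {D D' : Set (E n)} {X Y : E n → E n} {S : E n → EndF N}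
    (h : IsPull L L₂ D D' X Y S) (hg : ∀ x ∈ D', L₁.g x = L₂.g x)
    (hB : ∀ x ∈ D', ∀ j, L₁.B j x = L₂.B j x) (hh : ∀ x ∈ D', L₁.h x = L₂.h x) :
    IsPull L L₁ D D' X Y S where
  diffeo := h.diffeo
  smS := h.smS
  unit := h.unit
  g_eq := fun x hx => by rw [h.g_eq x hx, hg _ (h.diffeo.mapsX hx)]
  B_eq := fun x hx j => by
    rw [h.B_eq x hx j]
    congr 1
    exact Finset.sum_congr rfl fun k _ => by rw [hB _ (h.diffeo.mapsX hx)]
  h_eq := fun x hx => by rw [h.h_eq x hx, hh _ (h.diffeo.mapsX hx)]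

theorem cMatch_symmD {D D' : Set (E n)} {X Y : E n → E n} (h : IsDiffeo D D' X Y) :
    IsDiffeo D' D Y X where
  mapsX := h.mapsY
  mapsY := h.mapsX
  inv1 := h.inv2
  inv2 := h.inv1
  smX := h.smY
  smY := h.smX

/-- a left inverse of a unit is its inverse -/
theorem cMatch_unitary {V : EndF N} (hV : IsUnit V) (h : ContinuousLinearMap.adjoint V * V = 1) :
    V ∈ unitary (EndF N) := by
  rw [Unitary.mem_iff]
  refine ⟨h, ?_⟩
  obtain ⟨u, rfl⟩ := hV
  have h1 : ContinuousLinearMap.adjoint (u : EndF N) = ((u⁻¹ : (EndF N)ˣ) : EndF N) := by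
    calc ContinuousLinearMap.adjoint (u : EndF N)
        = ContinuousLinearMap.adjoint (u : EndF N) * ((u : EndF N) * ((u⁻¹ : (EndF N)ˣ) : EndF N)) := by
          rw [Units.mul_inv, mul_one]
      _ = ((u⁻¹ : (EndF N)ˣ) : EndF N) := by rw [← mul_assoc, h, one_mul]
  show (u : EndF N) * ContinuousLinearMap.adjoint (u : EndF N) = 1
  rw [h1, Units.mul_inv]

end

theorem cMatch : BSymm_statement → BComp_statement → BIntr_statement → CChart_statement.{u} →
    CLoc_statement.{u} → CMatch_statement.{u} := by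
  intro hSymm hComp hIntr hChart hLoc
  intro n N _ M _ _ _ _ _ _ P Q Γ q₁ q₂ z r L₁ L₂ D₁ D₂ X₁ Y₁ X₂ Y₂ S₁ S₂ hD₁ hD₂ hs₁ hs₂ h₁ h₂
    hg hB hh hsol
  obtain ⟨-, -, hbd, -⟩ := hLoc n N M
  have hHB := cMatch_HB z r
  have h₂' : IsPull (Q.loc q₂) L₁ D₂ (HB z r) X₂ Y₂ S₂ := cMatch_pull h₂ hg hB hh
  have h₁' := hSymm n N (P.loc q₁) L₁ D₁ (HB z r) X₁ Y₁ S₁ hD₁ hHB h₁
  have hC := hComp n N (Q.loc q₂) L₁ (P.loc q₁) D₂ (HB z r) D₁ X₂ Y₂ Y₁ X₁ S₂
    (fun y => Ring.inverse (S₁ (Y₁ y))) hD₂ hHB hD₁ h₂' h₁'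
  set A : Set (E n) := D₂ ∩ {x : E n | 0 < x 0} with hA
  have hAo : IsOpen A := cMatch_isOpen hD₂
  have hAr : RelOpen A := cMatch_relOpen hD₂
  have hAD : A ⊆ D₂ := inter_subset_left
  have hAt : A ⊆ tg n q₂ := hAD.trans hs₂
  set τ : E n → E n := fun x => Y₁ (X₂ x) with hτ
  set W : E n → EndF N := fun x => S₂ x * Ring.inverse (S₁ (Y₁ (X₂ x))) with hW
  set O : Set M := (xc n q₂).symm '' A with hO
  have hOeq : O = (xc n q₂).source ∩ (xc n q₂) ⁻¹' A :=
    (xc n q₂).symm_image_eq_source_inter_preimage hAt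
  have hOo : IsOpen O := by
    rw [hOeq]
    exact (continuousOn_extChartAt q₂).isOpen_inter_preimage (isOpen_extChartAt_source q₂) hAo
  have hτD : ∀ x ∈ A, τ x ∈ D₁ := fun x hx => h₁.diffeo.mapsY (h₂.diffeo.mapsX (hAD hx))
  have hτp : ∀ x ∈ A, 0 < τ x 0 := by
    intro x hx
    have e1 := hIntr n D₂ (HB z r) X₂ Y₂ hD₂ hHB h₂.diffeo x (hAD hx) hx.2
    exact hIntr n (HB z r) D₁ Y₁ X₁ hHB hD₁ (cMatch_symmD h₁.diffeo) _
      (h₂.diffeo.mapsX (hAD hx)) e1
  set φ : M → M := fun m => (xc n q₁).symm (τ (xc n q₂ m)) with hφ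
  set V : M → EndF N := fun m => W (xc n q₂ m) with hV
  have hOm : ∀ m ∈ O, m ∈ (xc n q₂).source ∧ xc n q₂ m ∈ A := by
    intro m hm
    rw [hOeq] at hm
    exact hm
  have hint : ∀ (p m : M), m ∈ (xc n p).source → 0 < xc n p m 0 → m ∈ Mi n M := by
    intro p m hm h0
    have : m ∉ (𝓡∂ n).boundary M := fun hb => h0.ne' ((hbd p m hm).1 hb)
    rcases (𝓡∂ n).isInteriorPoint_or_isBoundaryPoint m with h | h
    · exact h
    · exact absurd h this
  have hφs : ∀ m ∈ O, φ m ∈ (xc n q₁).source ∧ xc n q₁ (φ m) = τ (xc n q₂ m) := by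
    intro m hm
    have e1 := hs₁ (hτD _ (hOm m hm).2)
    exact ⟨(xc n q₁).map_target e1, (xc n q₁).right_inv e1⟩
  have hτsm : ContDiffOn ℝ ∞ τ A := (h₁.diffeo.smY.comp h₂.diffeo.smX h₂.diffeo.mapsX).mono hAD
  have hWsm : ContDiffOn ℝ ∞ W A := hC.smS.mono hAD
  have hxc : ContMDiffOn (𝓡∂ n) 𝓘(ℝ, E n) ∞ (xc n q₂) O :=
    (contMDiffOn_extChartAt (I := 𝓡∂ n) (x := q₂) (n := ∞)).mono (fun m hm => by
      rw [← extChartAt_source (𝓡∂ n)]; exact (hOm m hm).1)
  have smφ : ContMDiffOn (𝓡∂ n) (𝓡∂ n) ∞ φ O := by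
    have e1 : ContMDiffOn (𝓡∂ n) 𝓘(ℝ, E n) ∞ (fun m => τ (xc n q₂ m)) O :=
      (contMDiffOn_iff_contDiffOn.2 hτsm).comp hxc (fun m hm => (hOm m hm).2)
    exact (contMDiffOn_extChartAt_symm q₁).comp e1 (fun m hm => hs₁ (hτD _ (hOm m hm).2))
  have smV : ContMDiffOn (𝓡∂ n) 𝓘(ℝ, EndF N) ∞ V O :=
    (contMDiffOn_iff_contDiffOn.2 hWsm).comp hxc (fun m hm => (hOm m hm).2)
  -- the Jacobian
  have hJac : ∀ m ∈ O, Jac (fun y => xc n q₁ (φ ((xc n q₂).symm y))) (xc n q₂ m) =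
      Jac (Y₁ ∘ X₂) (xc n q₂ m) := by
    intro m hm
    ext i j
    simp only [Jac, Matrix.of_apply]
    refine hAr.pd_congr ?_ (hOm m hm).2 j
    intro y hy
    have e1 : (xc n q₂).symm y ∈ O := mem_image_of_mem _ hy
    have e2 := (hφs _ e1).2
    simp only [Function.comp_apply]
    rw [e2, (xc n q₂).right_inv (hAt hy)]
  have key : ∀ m ∈ O, (∀ j, mfderiv (𝓡∂ n) (𝓡∂ n) φ m (coordVec (𝓡∂ n) q₂ m j) =
      ∑ k, Jac (Y₁ ∘ X₂) (xc n q₂ m) k j • coordVec (𝓡∂ n) q₁ (φ m) k) ∧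
      ∀ v : TangentSpace (𝓡∂ n) m, ∃ c : Fin n → ℝ, v = ∑ j, c j • coordVec (𝓡∂ n) q₂ m j := by
    intro m hm
    have := hChart n M O φ hOo smφ q₁ q₂ m hm (hOm m hm).1 (hφs m hm).1
    rw [hJac m hm] at this
    exact this
  have hloc : ∀ m ∈ O, (xc n q₂).symm (xc n q₂ m) = m := fun m hm => (xc n q₂).left_inv (hOm m hm).1
  refine ⟨O, φ, V, ?_, fun x hx h0 => mem_image_of_mem _ ⟨hx, h0⟩⟩
  refine ⟨hOo, ?_, ?_, smφ, smV, ?_, ?_, ?_, ?_⟩
  · intro m hm
    exact hint q₂ m (hOm m hm).1 (hOm m hm).2.2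
  · intro m hm
    refine hint q₁ _ (hφs m hm).1 ?_
    rw [(hφs m hm).2]
    exact hτp _ (hOm m hm).2
  · -- unitary
    intro m hm
    have hx := hAD (hOm m hm).2
    refine cMatch_unitary (hC.unit _ hx) ?_
    have h1 : ContinuousLinearMap.adjoint (V m) * (1 : EndF N) * V m = 1 := hC.h_eq _ hx
    rwa [mul_one] at h1
  · -- metric
    intro m hm v w
    obtain ⟨k1, k2⟩ := key m hm
    obtain ⟨c, rfl⟩ := k2 v
    obtain ⟨d, rfl⟩ := k2 w
    have hge := hC.g_eq _ (hAD (hOm m hm).2)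
    have hge' : ∀ i j, Q.g.inner m (coordVec (𝓡∂ n) q₂ m i) (coordVec (𝓡∂ n) q₂ m j) =
        P.g.inner (φ m) (mfderiv (𝓡∂ n) (𝓡∂ n) φ m (coordVec (𝓡∂ n) q₂ m i))
          (mfderiv (𝓡∂ n) (𝓡∂ n) φ m (coordVec (𝓡∂ n) q₂ m j)) := by
      intro i j
      have e1 := congrFun (congrFun hge i) j
      have e2 : (Q.loc q₂).g (xc n q₂ m) i j =
          Q.g.inner m (coordVec (𝓡∂ n) q₂ m i) (coordVec (𝓡∂ n) q₂ m j) := by
        simp only [One.loc, locM, gram, Matrix.of_apply]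
        rw [hloc m hm]
      have e3 : ∀ k l, (P.loc q₁).g ((Y₁ ∘ X₂) (xc n q₂ m)) k l =
          P.g.inner (φ m) (coordVec (𝓡∂ n) q₁ (φ m) k) (coordVec (𝓡∂ n) q₁ (φ m) l) := by
        intro k l
        rfl
      rw [← e2, e1, k1 i, k1 j]
      simp only [Matrix.mul_apply, Matrix.transpose_apply, e3, Finset.sum_mul, map_sum, map_smul, sum_apply, smul_apply, smul_eq_mul, Finset.mul_sum]
      refine Finset.sum_congr rfl fun k _ => Finset.sum_congr rfl fun l _ => ?_
      ring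
    simp only [map_sum, map_smul, sum_apply, smul_apply, hge']
  · -- connection
    intro m hm v
    obtain ⟨k1, k2⟩ := key m hm
    obtain ⟨c, rfl⟩ := k2 v
    have hsm : MDifferentiableAt (𝓡∂ n) 𝓘(ℝ, EndF N) V m :=
      ((smV m hm).contMDiffAt (hOo.mem_nhds hm)).mdifferentiableAt (by simp)
    have hj : ∀ j, dmap (𝓡∂ n) V m (coordVec (𝓡∂ n) q₂ m j) +
        Q.A.form m (coordVec (𝓡∂ n) q₂ m j) ∘L V m =
        V m ∘L P.A.form (φ m) (mfderiv (𝓡∂ n) (𝓡∂ n) φ m (coordVec (𝓡∂ n) q₂ m j)) := by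
      intro j
      have hx := (hOm m hm).2
      have e1 := hC.B_eq _ (hAD hx) j
      have e2 : dmap (𝓡∂ n) V m (coordVec (𝓡∂ n) q₂ m j) = pd j W (xc n q₂ m) := by
        rw [dmap_coordVec (𝓡∂ n) (hOm m hm).1 hsm j]
        have : fderivWithin ℝ (lu (𝓡∂ n) q₂ V) (range (𝓡∂ n)) (xc n q₂ m)
            (EuclideanSpace.single j 1) = pd j (lu (𝓡∂ n) q₂ V) (xc n q₂ m) := by
          unfold pd
          rw [cMatch_range]
        rw [this]
        refine hAr.pd_congr ?_ hx j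
        intro y hy
        simp only [lu, hV]
        rw [(xc n q₂).right_inv (hAt hy)]
      have e3 : Q.A.form m (coordVec (𝓡∂ n) q₂ m j) = (Q.loc q₂).B j (xc n q₂ m) := by
        simp only [One.loc, locM]
        rw [hloc m hm]
      have e6 : (P.A.form (φ m)) (∑ k, Jac (Y₁ ∘ X₂) (xc n q₂ m) k j • coordVec (𝓡∂ n) q₁ (φ m) k) =
          ∑ k, Jac (Y₁ ∘ X₂) (xc n q₂ m) k j • (P.loc q₁).B k ((Y₁ ∘ X₂) (xc n q₂ m)) := by
        rw [map_sum]
        exact Finset.sum_congr rfl fun k _ => map_smul _ _ _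
      rw [e2, e3, k1 j, e6]
      exact e1
    have e4 : ∀ (T : EndF N) (S : Fin n → EndF N), (∑ j, c j • S j) ∘L T =
        ∑ j, c j • (S j ∘L T) := by
      intro T S
      ext1 w
      simp only [ContinuousLinearMap.comp_apply, sum_apply, smul_apply]
    have e5 : ∀ (T : EndF N) (S : Fin n → EndF N), T ∘L (∑ j, c j • S j) =
        ∑ j, c j • (T ∘L S j) := by
      intro T S
      ext1 w
      simp only [ContinuousLinearMap.comp_apply, sum_apply, smul_apply, map_sum]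
      exact Finset.sum_congr rfl fun k _ => ContinuousLinearMap.map_smul_of_tower T (c k) _
    simp only [map_sum, map_smul]
    rw [e4, e5, ← Finset.sum_add_distrib]
    refine Finset.sum_congr rfl fun j _ => ?_
    exact (smul_add (c j) _ _).symm.trans (congrArg (fun T : EndF N => c j • T) (hj j))
  · -- solutions
    intro u hu m hm
    have hx := hAD (hOm m hm).2
    have e1 := hsol u hu (X₂ (xc n q₂ m)) (h₂.diffeo.mapsX hx)
    rw [h₂.diffeo.inv1 _ hx] at e1
    simp only [hV, hW, hφ, hτ]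
    have e2 : lu (𝓡∂ n) q₂ u.2 (xc n q₂ m) = u.2 m := by
      simp only [lu]
      rw [hloc m hm]
    rw [mul_apply_eq_comp]
    have e3 : lu (𝓡∂ n) q₁ u.1 (Y₁ (X₂ (xc n q₂ m))) =
      u.1 ((xc n q₁).symm (Y₁ (X₂ (xc n q₂ m)))) := rfl
    rw [← e3, e1, e2, ← mul_apply_eq_comp, Ring.mul_inverse_cancel _ (h₂.unit _ hx)]
    rfl

end Vale.Agent.P088.EYM
end
end

section

set_option linter.all false

/-!
P088-EYM-A12: `C²` reflection across the flat boundary of a half ball.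
-/

open MeasureTheory Filter Topology
open scoped ContDiff ENNReal

namespace Vale.Agent.P088.A

variable {d : ℕ} [NeZero d]

section glue

variable {G : Type*} [NormedAddCommGroup G] [NormedSpace ℝ G]

/-- gluing of two functions along the hyperplane -/
noncomputable def reGl {G : Type*} (p q : V d → G) (x : V d) : G :=
  open Classical in if 0 ≤ x 0 then p x else q x

lemma reGl_pos {p q : V d → G} {x : V d} (h : 0 ≤ x 0) : reGl p q x = p x := if_pos h

lemma reGl_neg {p q : V d → G} {x : V d} (h : x 0 < 0) : reGl p q x = q x := if_neg (not_le.2 h)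

lemma re_cont0 : Continuous fun x : V d => x 0 := (EuclideanSpace.proj (𝕜 := ℝ) (0 : Fin d)).continuous

lemma re_open_pos : IsOpen {x : V d | 0 < x 0} := isOpen_lt continuous_const re_cont0

lemma re_open_neg : IsOpen {x : V d | x 0 < 0} := isOpen_lt re_cont0 continuous_const

lemma re_union : ({x : V d | 0 ≤ x 0} ∪ {x : V d | x 0 ≤ 0}) = Set.univ := by
  ext x
  simp only [Set.mem_union, Set.mem_setOf_eq, Set.mem_univ, iff_true]
  exact le_total _ _

lemma re_gl_low {B : Set (V d)} (hB : IsOpen B) {p q : V d → G}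
    (h0 : ∀ x ∈ B, x 0 = 0 → p x = q x) {x : V d} (hx : x ∈ B) :
    reGl p q =ᶠ[𝓝[{x : V d | x 0 ≤ 0}] x] q := by
  have h1 : B ∈ 𝓝[{x : V d | x 0 ≤ 0}] x := mem_nhdsWithin_of_mem_nhds (hB.mem_nhds hx)
  filter_upwards [h1, self_mem_nhdsWithin] with y hy hy0
  rcases lt_or_eq_of_le (show y 0 ≤ 0 from hy0) with h | h
  · exact reGl_neg h
  · rw [reGl_pos h.ge]
    exact h0 y hy h

lemma re_glue {B : Set (V d)} (hB : IsOpen B) {p q : V d → G} {p' q' : V d → V d →L[ℝ] G}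
    (hp : ∀ x ∈ B, 0 ≤ x 0 → HasFDerivWithinAt p (p' x) {x | 0 ≤ x 0} x)
    (hq : ∀ x ∈ B, x 0 ≤ 0 → HasFDerivWithinAt q (q' x) {x | x 0 ≤ 0} x)
    (h0 : ∀ x ∈ B, x 0 = 0 → p x = q x) (h1 : ∀ x ∈ B, x 0 = 0 → p' x = q' x) :
    ∀ x ∈ B, HasFDerivAt (reGl p q) (reGl p' q' x) x := by
  intro x hx
  rcases lt_trichotomy (x 0) 0 with h | h | h
  · rw [reGl_neg h]
    have h2 : {x : V d | x 0 ≤ 0} ∈ 𝓝 x := by
      filter_upwards [re_open_neg.mem_nhds h] with y hy
      exact le_of_lt hy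
    refine ((hq x hx h.le).hasFDerivAt h2).congr_of_eventuallyEq ?_
    filter_upwards [re_open_neg.mem_nhds h] with y hy
    exact reGl_neg hy
  · rw [← hasFDerivWithinAt_univ, ← re_union, reGl_pos h.ge]
    refine HasFDerivWithinAt.union ?_ ?_
    · exact (hp x hx h.ge).congr (fun y hy => reGl_pos hy) (reGl_pos h.ge)
    · rw [h1 x hx h]
      refine (hq x hx h.le).congr_of_eventuallyEq (re_gl_low hB h0 hx) ?_
      rw [reGl_pos h.ge]
      exact h0 x hx h
  · rw [reGl_pos h.le]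
    have h2 : {x : V d | 0 ≤ x 0} ∈ 𝓝 x := by
      filter_upwards [re_open_pos.mem_nhds h] with y hy
      exact le_of_lt hy
    refine ((hp x hx h.le).hasFDerivAt h2).congr_of_eventuallyEq ?_
    filter_upwards [re_open_pos.mem_nhds h] with y hy
    exact reGl_pos (le_of_lt hy)

lemma re_glueC {B : Set (V d)} (hB : IsOpen B) {p q : V d → G}
    (hp : ∀ x ∈ B, 0 ≤ x 0 → ContinuousWithinAt p {x | 0 ≤ x 0} x)
    (hq : ∀ x ∈ B, x 0 ≤ 0 → ContinuousWithinAt q {x | x 0 ≤ 0} x)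
    (h0 : ∀ x ∈ B, x 0 = 0 → p x = q x) :
    ContinuousOn (reGl p q) B := by
  intro x hx
  refine ContinuousAt.continuousWithinAt ?_
  rcases lt_trichotomy (x 0) 0 with h | h | h
  · have h2 : {x : V d | x 0 ≤ 0} ∈ 𝓝 x := by
      filter_upwards [re_open_neg.mem_nhds h] with y hy
      exact le_of_lt hy
    refine ((hq x hx h.le).continuousAt h2).congr ?_
    filter_upwards [re_open_neg.mem_nhds h] with y hy
    exact (reGl_neg hy).symm
  · rw [← continuousWithinAt_univ, ← re_union]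
    refine ContinuousWithinAt.union ?_ ?_
    · exact (hp x hx h.ge).congr (fun y hy => reGl_pos hy) (reGl_pos h.ge)
    · refine (hq x hx h.le).congr_of_eventuallyEq (re_gl_low hB h0 hx) ?_
      rw [reGl_pos h.ge]
      exact h0 x hx h
  · have h2 : {x : V d | 0 ≤ x 0} ∈ 𝓝 x := by
      filter_upwards [re_open_pos.mem_nhds h] with y hy
      exact le_of_lt hy
    refine ((hp x hx h.le).continuousAt h2).congr ?_
    filter_upwards [re_open_pos.mem_nhds h] with y hy
    exact (reGl_pos (le_of_lt hy)).symm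

end glue

section refl

/-- the projection on the first coordinate -/
noncomputable def reP : V d →L[ℝ] V d :=
  (EuclideanSpace.proj (𝕜 := ℝ) (0 : Fin d)).smulRight (EuclideanSpace.single 0 1)

/-- `x` with the coordinate `0` multiplied by `-l` -/
noncomputable def reT (l : ℝ) : V d →L[ℝ] V d := ContinuousLinearMap.id ℝ (V d) - (1 + l) • reP

lemma reP_apply (x : V d) : reP x = (x 0) • (EuclideanSpace.single 0 1 : V d) := rfl

lemma reT_apply (l : ℝ) (x : V d) : reT l x = x - ((1 + l) * x 0) • (EuclideanSpace.single 0 1 : V d) := by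
  unfold reT
  rw [sub_apply, smul_apply, reP_apply, smul_smul]
  rfl

lemma reT_coord (l : ℝ) (x : V d) (i : Fin d) :
    reT l x i = x i - (1 + l) * x 0 * (if i = 0 then 1 else 0) := by
  rw [reT_apply, PiLp.sub_apply, PiLp.smul_apply, EuclideanSpace.single_apply, smul_eq_mul]

lemma reT_zero (l : ℝ) (x : V d) : reT l x 0 = -l * x 0 := by
  rw [reT_coord, if_pos rfl]
  ring

lemma reT_fix (l : ℝ) {x : V d} (hx : x 0 = 0) : reT l x = x := by
  rw [reT_apply, hx, mul_zero, zero_smul, sub_zero]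

lemma reT_norm {l : ℝ} (h0 : 0 ≤ l) (h3 : l ≤ 3) (x : V d) : ‖reT l x‖ ≤ 3 * ‖x‖ := by
  refine abs_le_of_sq_le_sq' ?_ (by positivity) |>.2
  rw [mul_pow, EuclideanSpace.norm_sq_eq, EuclideanSpace.norm_sq_eq, Finset.mul_sum]
  refine Finset.sum_le_sum fun i _ => ?_
  rw [reT_coord, Real.norm_eq_abs, Real.norm_eq_abs, sq_abs, sq_abs]
  by_cases hi : i = 0
  · subst hi
    rw [if_pos rfl]
    have h1 : x 0 - (1 + l) * x 0 * 1 = -(l * x 0) := by ring
    rw [h1, neg_sq, mul_pow]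
    have h2 : l ^ 2 ≤ 3 ^ 2 := pow_le_pow_left₀ h0 h3 2
    exact mul_le_mul_of_nonneg_right h2 (sq_nonneg _)
  · rw [if_neg hi, mul_zero, sub_zero]
    nlinarith only []

lemma reT_mem {z : V d} (hz : z 0 = 0) {r : ℝ} {l : ℝ} (h0 : 0 ≤ l) (h3 : l ≤ 3) {x : V d}
    (hx : x ∈ Metric.ball z (r / 3)) : reT l x ∈ Metric.ball z r := by
  rw [Metric.mem_ball, dist_eq_norm] at hx ⊢
  have h1 : reT l x - z = reT l (x - z) := by rw [map_sub, reT_fix l hz]
  rw [h1]
  have := reT_norm h0 h3 (x - z)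
  linarith

/-- composition with a fixed map on the right -/
noncomputable def reC {G : Type*} [NormedAddCommGroup G] [NormedSpace ℝ G] (T : V d →L[ℝ] V d) :
    (V d →L[ℝ] G) →L[ℝ] (V d →L[ℝ] G) :=
  (ContinuousLinearMap.compL ℝ (V d) (V d) G).flip T

lemma reC_apply {G : Type*} [NormedAddCommGroup G] [NormedSpace ℝ G] (T : V d →L[ℝ] V d)
    (L : V d →L[ℝ] G) : reC T L = L.comp T := rfl

lemma re_low {G : Type*} [NormedAddCommGroup G] [NormedSpace ℝ G] {z : V d} (hz : z 0 = 0) {r : ℝ}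
    {p : V d → G} {p' : V d → V d →L[ℝ] G}
    (hp : ∀ x ∈ Metric.ball z r, 0 ≤ x 0 → HasFDerivWithinAt p (p' x) {x | 0 ≤ x 0} x)
    {l : ℝ} (h0 : 0 ≤ l) (h3 : l ≤ 3) {x : V d} (hx : x ∈ Metric.ball z (r / 3)) (hx0 : x 0 ≤ 0) :
    HasFDerivWithinAt (fun y => p (reT l y)) ((p' (reT l x)).comp (reT l)) {x | x 0 ≤ 0} x := by
  have hm : Set.MapsTo (reT (d := d) l) {x | x 0 ≤ 0} {x | 0 ≤ x 0} := by
    intro y hy
    have hy' : y 0 ≤ 0 := hy
    show 0 ≤ reT l y 0
    rw [reT_zero]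
    nlinarith
  exact (hp _ (reT_mem hz h0 h3 hx) (hm hx0)).comp x (reT l).hasFDerivAt.hasFDerivWithinAt hm

lemma re_lowC {G : Type*} [NormedAddCommGroup G] [NormedSpace ℝ G] {z : V d} (hz : z 0 = 0) {r : ℝ}
    {p : V d → G}
    (hp : ∀ x ∈ Metric.ball z r, 0 ≤ x 0 → ContinuousWithinAt p {x | 0 ≤ x 0} x)
    {l : ℝ} (h0 : 0 ≤ l) (h3 : l ≤ 3) {x : V d} (hx : x ∈ Metric.ball z (r / 3)) (hx0 : x 0 ≤ 0) :
    ContinuousWithinAt (fun y => p (reT l y)) {x | x 0 ≤ 0} x := by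
  have hm : Set.MapsTo (reT (d := d) l) {x | x 0 ≤ 0} {x | 0 ≤ x 0} := by
    intro y hy
    have hy' : y 0 ≤ 0 := hy
    show 0 ≤ reT l y 0
    rw [reT_zero]
    (clear z hz r p hp h3 x hx hx0; nlinarith)
  exact (hp _ (reT_mem hz h0 h3 hx) (hm hx0)).comp (reT l).continuous.continuousWithinAt hm

lemma re_unique {z : V d} (hz : z 0 = 0) {r : ℝ} (hr : 0 < r) :
    UniqueDiffOn ℝ (Metric.ball z r ∩ {x : V d | 0 ≤ x 0}) := by
  apply uniqueDiffOn_convex
  · refine (convex_ball z r).inter ?_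
    exact convex_halfSpace_ge (f := fun x : V d => x 0)
      ⟨fun x y => rfl, fun c x => rfl⟩ 0
  · refine ⟨z + (r / 2) • EuclideanSpace.single 0 1, ?_⟩
    rw [mem_interior]
    refine ⟨Metric.ball z r ∩ {x : V d | 0 < x 0}, ?_, Metric.isOpen_ball.inter re_open_pos, ?_⟩
    · intro x hx
      have h2 : 0 < x 0 := hx.2
      exact ⟨hx.1, h2.le⟩
    · refine ⟨?_, ?_⟩
      · rw [Metric.mem_ball, dist_eq_norm, add_sub_cancel_left, norm_smul,
          EuclideanSpace.norm_single, norm_one, mul_one, Real.norm_eq_abs, abs_of_pos (by positivity)]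
        linarith
      · show 0 < (z + (r / 2) • (EuclideanSpace.single 0 1 : V d)) 0
        rw [PiLp.add_apply, PiLp.smul_apply, EuclideanSpace.single_apply, if_pos rfl, hz,
          smul_eq_mul, zero_add, mul_one]
        (clear z hz; positivity)

end refl

/-- `C²` extension of a function from a half ball. -/
theorem reflect {z : V d} (hz : z 0 = 0) {r : ℝ} (hr : 0 < r) {f : V d → ℝ}
    (hf : ContDiffOn ℝ 2 f (Metric.ball z r ∩ {x | 0 ≤ x 0})) :
    ∃ g : V d → ℝ, ContDiffOn ℝ 2 g (Metric.ball z (r / 3)) ∧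
      ∀ x ∈ Metric.ball z (r / 3), 0 ≤ x 0 → g x = f x := by
  have hu := re_unique hz hr
  have e2 : (2 : WithTop ℕ∞) = 1 + 1 := by norm_num
  have e1 : (1 : WithTop ℕ∞) = 0 + 1 := by norm_num
  rw [e2, contDiffOn_succ_iff_hasFDerivWithinAt_of_uniqueDiffOn hu] at hf
  obtain ⟨-, f1, hf1c, hf1⟩ := hf
  rw [e1, contDiffOn_succ_iff_hasFDerivWithinAt_of_uniqueDiffOn hu] at hf1c
  obtain ⟨-, f2, hf2c, hf2⟩ := hf1c
  rw [contDiffOn_zero] at hf2c
  have hS : ∀ x ∈ Metric.ball z r, Metric.ball z r ∈ 𝓝 x := fun x hx =>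
    Metric.isOpen_ball.mem_nhds hx
  have a1 : ∀ x ∈ Metric.ball z r, 0 ≤ x 0 → HasFDerivWithinAt f (f1 x) {x | 0 ≤ x 0} x := by
    intro x hx hx0
    have := hf1 x ⟨hx, hx0⟩
    rw [Set.inter_comm] at this
    exact (hasFDerivWithinAt_inter (hS x hx)).1 this
  have a2 : ∀ x ∈ Metric.ball z r, 0 ≤ x 0 → HasFDerivWithinAt f1 (f2 x) {x | 0 ≤ x 0} x := by
    intro x hx hx0
    have := hf2 x ⟨hx, hx0⟩
    rw [Set.inter_comm] at this
    exact (hasFDerivWithinAt_inter (hS x hx)).1 this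
  have a3 : ∀ x ∈ Metric.ball z r, 0 ≤ x 0 → ContinuousWithinAt f2 {x | 0 ≤ x 0} x := by
    intro x hx hx0
    have := hf2c x ⟨hx, hx0⟩
    rw [Set.inter_comm] at this
    exact (continuousWithinAt_inter (hS x hx)).1 this
  obtain ⟨B, hBdef⟩ : ∃ B, B = Metric.ball z (r / 3) := ⟨_, rfl⟩
  have hB : IsOpen B := by rw [hBdef]; exact Metric.isOpen_ball
  have hBr : ∀ x ∈ B, x ∈ Metric.ball z r := by
    intro x hx
    rw [hBdef] at hx
    exact Metric.ball_subset_ball (by linarith only [hr]) hx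
  have hB' : ∀ x ∈ B, x ∈ Metric.ball z (r / 3) := by rw [hBdef]; exact fun x hx => hx
  -- the lower functions
  obtain ⟨q, hq⟩ : ∃ q : V d → ℝ, q = fun x => (6 : ℝ) • f (reT 1 x) - (8 : ℝ) • f (reT 2 x)
    + (3 : ℝ) • f (reT 3 x) := ⟨_, rfl⟩
  obtain ⟨q1, hq1⟩ : ∃ q1 : V d → V d →L[ℝ] ℝ, q1 = fun x =>
    (6 : ℝ) • reC (reT 1) (f1 (reT 1 x)) - (8 : ℝ) • reC (reT 2) (f1 (reT 2 x))
    + (3 : ℝ) • reC (reT 3) (f1 (reT 3 x)) := ⟨_, rfl⟩
  obtain ⟨q2, hq2⟩ : ∃ q2 : V d → V d →L[ℝ] V d →L[ℝ] ℝ, q2 = fun x =>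
    (6 : ℝ) • (reC (reT 1)).comp (reC (reT 1) (f2 (reT 1 x)))
    - (8 : ℝ) • (reC (reT 2)).comp (reC (reT 2) (f2 (reT 2 x)))
    + (3 : ℝ) • (reC (reT 3)).comp (reC (reT 3) (f2 (reT 3 x))) := ⟨_, rfl⟩
  have b1 : ∀ x ∈ B, x 0 ≤ 0 → HasFDerivWithinAt q (q1 x) {x | x 0 ≤ 0} x := by
    intro x hx hx0
    rw [hq, hq1]
    exact (((re_low hz a1 (l := 1) (by norm_num) (by norm_num) (hB' x hx) hx0).const_smul
      (6 : ℝ)).sub ((re_low hz a1 (l := 2) (by norm_num) (by norm_num) (hB' x hx) hx0).const_smul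
      (8 : ℝ))).add ((re_low hz a1 (l := 3) (by norm_num) (by norm_num) (hB' x hx) hx0).const_smul
      (3 : ℝ))
  have b2 : ∀ x ∈ B, x 0 ≤ 0 → HasFDerivWithinAt q1 (q2 x) {x | x 0 ≤ 0} x := by
    intro x hx hx0
    have key : ∀ l : ℝ, 0 ≤ l → l ≤ 3 → HasFDerivWithinAt
        (fun y => reC (reT l) (f1 (reT l y))) ((reC (reT l)).comp (reC (reT l) (f2 (reT l x))))
        {x | x 0 ≤ 0} x := by
      intro l h0 h3
      exact (reC (reT l)).hasFDerivAt.comp_hasFDerivWithinAt x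
        (re_low hz a2 h0 h3 (hB' x hx) hx0)
    rw [hq1, hq2]
    exact (((key 1 (by norm_num) (by norm_num)).const_smul (6 : ℝ)).sub
      ((key 2 (by norm_num) (by norm_num)).const_smul (8 : ℝ))).add
      ((key 3 (by (clear * -; norm_num)) (by norm_num)).const_smul (3 : ℝ))
  have b3 : ∀ x ∈ B, x 0 ≤ 0 → ContinuousWithinAt q2 {x | x 0 ≤ 0} x := by
    intro x hx hx0
    have key : ∀ l : ℝ, 0 ≤ l → l ≤ 3 → ContinuousWithinAt
        (fun y => (reC (reT l)).comp (reC (reT l) (f2 (reT l y)))) {x | x 0 ≤ 0} x := by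
      intro l h0 h3
      have h := re_lowC hz a3 h0 h3 (hB' x hx) hx0
      have hc : Continuous fun L : V d →L[ℝ] V d →L[ℝ] ℝ =>
          (reC (reT l)).comp (reC (reT l) L) :=
        (ContinuousLinearMap.compL ℝ (V d) (V d →L[ℝ] ℝ) (V d →L[ℝ] ℝ) (reC (reT l))).continuous.comp
          (reC (reT l)).continuous
      exact hc.continuousAt.comp_continuousWithinAt h
    rw [hq2]
    exact (((key 1 (by norm_num) (by norm_num)).const_smul (6 : ℝ)).sub
      ((key 2 (by norm_num) (by norm_num)).const_smul (8 : ℝ))).add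
      ((key 3 (by norm_num) (by norm_num)).const_smul (3 : ℝ))
  have i0 : ∀ x ∈ B, x 0 = 0 → f x = q x := by
    intro x hx h
    rw [hq]
    simp only [reT_fix _ h, smul_eq_mul]
    ring
  have i1 : ∀ x ∈ B, x 0 = 0 → f1 x = q1 x := by
    intro x hx h
    rw [hq1]
    ext v
    simp only [reT_fix _ h, reC_apply, add_apply, sub_apply,
      smul_apply, ContinuousLinearMap.comp_apply, reT_apply, map_sub, map_smul, smul_eq_mul]
    ring
  have i2 : ∀ x ∈ B, x 0 = 0 → f2 x = q2 x := by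
    intro x hx h
    rw [hq2]
    ext v w
    simp only [reT_fix _ h, reC_apply, add_apply, sub_apply, smul_apply, ContinuousLinearMap.comp_apply, reT_apply, map_sub, map_smul, smul_eq_mul]
    ring
  have c1 := re_glue hB (fun x hx hx0 => a1 x (hBr x hx) hx0) b1 i0 i1
  have c2 := re_glue hB (fun x hx hx0 => a2 x (hBr x hx) hx0) b2 i1 i2
  have c3 := re_glueC hB (fun x hx hx0 => a3 x (hBr x hx) hx0) b3 i2
  refine ⟨reGl f q, ?_, fun x _ hx0 => reGl_pos hx0⟩
  rw [← hBdef, e2, contDiffOn_succ_iff_hasFDerivWithinAt_of_uniqueDiffOn hB.uniqueDiffOn]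
  refine ⟨by simp only [WithTop.one_ne_top, IsEmpty.forall_iff], reGl f1 q1, ?_, fun x hx => (c1 x hx).hasFDerivWithinAt⟩
  rw [e1, contDiffOn_succ_iff_hasFDerivWithinAt_of_uniqueDiffOn hB.uniqueDiffOn]
  refine ⟨by simp only [WithTop.zero_ne_top, IsEmpty.forall_iff], reGl f2 q2, ?_, fun x hx => (c2 x hx).hasFDerivWithinAt⟩
  rw [contDiffOn_zero]
  exact c3

/-- Coefficients on a half ball agree near the centre with global ones. -/
theorem refl_coef {z : V d} (hz : z 0 = 0) {r : ℝ} (hr : 0 < r)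
    {a : Fin d → Fin d → V d → ℝ}
    (ha : ∀ j k, ContDiffOn ℝ 2 (a j k) (Metric.ball z r ∩ {x | 0 ≤ x 0}))
    (hs : ∀ j k, ∀ x ∈ Metric.ball z r ∩ {x | 0 ≤ x 0}, a j k x = a k j x)
    (hp : ∀ x ∈ Metric.ball z r ∩ {x | 0 ≤ x 0}, ∀ ξ : Fin d → ℝ, ξ ≠ 0 →
      0 < ∑ j, ∑ k, a j k x * ξ j * ξ k) :
    ∃ a' : Fin d → Fin d → V d → ℝ, GC a' ∧ ∃ r' > 0, r' ≤ r ∧
      ∀ y ∈ Metric.ball z r', 0 ≤ y 0 → ∀ j k, a' j k y = a j k y := by
  choose g hg hga using fun j k => reflect hz hr (ha j k)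
  obtain ⟨b, hb⟩ : ∃ b : Fin d → Fin d → V d → ℝ, b = fun j k x => (g j k x + g k j x) / 2 :=
    ⟨_, rfl⟩
  have hbc : ∀ j k, ContDiffOn ℝ 2 (b j k) (Metric.ball z (r / 3)) := by
    intro j k
    rw [hb]
    exact ((hg j k).add (hg k j)).div_const 2
  have hbs : ∀ j k x, b j k x = b k j x := by
    intro j k x
    rw [hb]
    show (g j k x + g k j x) / 2 = (g k j x + g j k x) / 2
    rw [add_comm]
  have hba : ∀ x ∈ Metric.ball z (r / 3), 0 ≤ x 0 → ∀ j k, b j k x = a j k x := by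
    intro x hx hx0 j k
    have hxr : x ∈ Metric.ball z r := Metric.ball_subset_ball (by (clear * - hr; linarith)) hx
    rw [hb]
    show (g j k x + g k j x) / 2 = a j k x
    rw [hga j k x hx hx0, hga k j x hx hx0, hs k j x ⟨hxr, hx0⟩]
    ring
  have hz3 : z ∈ Metric.ball z (r / 3) := Metric.mem_ball_self (by positivity)
  have hzr : z ∈ Metric.ball z r := Metric.mem_ball_self hr
  have hpos : ∀ᶠ x in 𝓝 z, ∀ ξ ∈ Metric.sphere (0 : Fin d → ℝ) 1,
      0 < ∑ j, ∑ k, b j k x * ξ j * ξ k := by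
    refine (isCompact_sphere (0 : Fin d → ℝ) 1).eventually_forall_of_forall_eventually ?_
    intro ξ hξ
    have hξ0 : ξ ≠ 0 := by
      rintro rfl
      simp only [mem_sphere_iff_norm, sub_self, norm_zero, zero_ne_one] at hξ
    have h1 : 0 < ∑ j, ∑ k, b j k z * ξ j * ξ k := by
      have h2 := hp z ⟨hzr, hz.ge⟩ ξ hξ0
      simpa only [hba z hz3 hz.ge] using h2
    have h3 : ContinuousAt (fun p : V d × (Fin d → ℝ) => ∑ j, ∑ k, b j k p.1 * p.2 j * p.2 k)
        (z, ξ) := by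
      refine tendsto_finsetSum _ fun j _ => tendsto_finsetSum _ fun k _ => ?_
      have h4 : ContinuousAt (b j k) z :=
        ((hbc j k).continuousOn.continuousAt (Metric.isOpen_ball.mem_nhds hz3))
      have h5 : ContinuousAt (fun p : V d × (Fin d → ℝ) => b j k p.1) (z, ξ) :=
        ContinuousAt.comp (f := Prod.fst) (x := (z, ξ)) h4 continuousAt_fst
      have h6 : ∀ i : Fin d, ContinuousAt (fun p : V d × (Fin d → ℝ) => p.2 i) (z, ξ) := fun i =>
        ((continuous_apply i).comp continuous_snd).continuousAt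
      exact (h5.mul (h6 j)).mul (h6 k)
    exact h3.eventually (lt_mem_nhds h1)
  obtain ⟨ρ, hρ, hρb⟩ := Metric.eventually_nhds_iff_ball.1 hpos
  obtain ⟨σ, hσ⟩ : ∃ σ, σ = min ρ (r / 3) := ⟨_, rfl⟩
  have hσ0 : 0 < σ := by rw [hσ]; exact lt_min hρ (by positivity)
  have hσ3 : Metric.ball z σ ⊆ Metric.ball z (r / 3) :=
    Metric.ball_subset_ball (by rw [hσ]; exact min_le_right _ _)
  obtain ⟨a', ha', r'', hr'', hsub, hagree⟩ := loc_coef (U := Metric.ball z σ) Metric.isOpen_ball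
    (a := b) (fun j k => (hbc j k).mono hσ3) (fun j k x _ => hbs j k x)
    (by
      intro x hx ξ hξ
      have hn : 0 < ‖ξ‖ := norm_pos_iff.2 hξ
      have h1 := hρb x (Metric.ball_subset_ball (by rw [hσ]; exact min_le_left _ _) hx)
        (‖ξ‖⁻¹ • ξ) (by
          rw [mem_sphere_zero_iff_norm, norm_smul, norm_inv, norm_norm]
          exact inv_mul_cancel₀ hn.ne')
      have h2 : ∑ j, ∑ k, b j k x * ξ j * ξ k
          = ‖ξ‖ ^ 2 * ∑ j, ∑ k, b j k x * (‖ξ‖⁻¹ • ξ) j * (‖ξ‖⁻¹ • ξ) k := by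
        rw [Finset.mul_sum]
        refine Finset.sum_congr rfl fun j _ => ?_
        rw [Finset.mul_sum]
        refine Finset.sum_congr rfl fun k _ => ?_
        simp only [Pi.smul_apply, smul_eq_mul]
        (clear * - hξ; field_simp)
      rw [h2]
      (clear * - hξ h1; positivity))
    (Metric.mem_ball_self hσ0)
  refine ⟨a', ha', min r'' r, lt_min hr'' hr, min_le_right _ _, ?_⟩
  intro y hy hy0 j k
  have hy1 : y ∈ Metric.ball z r'' := Metric.ball_subset_ball (min_le_left _ _) hy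
  rw [hagree y hy1 j k]
  exact hba y (hσ3 (hsub hy1)) hy0 j k

end Vale.Agent.P088.A
end

section

/-!
P088-EYM-A14: unique continuation for `C²` functions, interior and from the flat boundary.
-/

set_option linter.all false

open MeasureTheory Filter Topology
open scoped ContDiff ENNReal

namespace Vale.Agent.P088.A

variable {d : ℕ}

/-! ### Integrability -/

lemma su_memLp {f : V d → ℝ} {B : Set (V d)} (hB : MeasurableSet B) (hfin : volume B ≠ ⊤)
    (hm : AEStronglyMeasurable f (volume.restrict B)) {C : ℝ} (hC : ∀ x ∈ B, |f x| ≤ C) :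
    MemLp f 2 (volume.restrict B) := by
  haveI : IsFiniteMeasure (volume.restrict B) := ⟨by
    rw [Measure.restrict_apply MeasurableSet.univ, Set.univ_inter]
    exact hfin.lt_top⟩
  refine MemLp.of_bound hm C ?_
  rw [ae_restrict_iff' hB]
  exact Eventually.of_forall hC

lemma su_integrable {g ψ : V d → ℝ} {B : Set (V d)} (hg : MemLp g 2 (volume.restrict B))
    (hψ : Continuous ψ) (hc : HasCompactSupport ψ) (hs : tsupport ψ ⊆ B) :
    Integrable (fun x => g x * ψ x) := by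
  have h1 : MemLp ψ 2 (volume.restrict B) := (hψ.memLp_of_hasCompactSupport hc).restrict B
  have h2 : IntegrableOn (fun x => g x * ψ x) B := hg.integrable_mul h1
  refine (integrableOn_iff_integrable_of_support_subset ?_).1 h2
  intro x hx
  apply hs
  by_contra h
  exact hx (by simp [image_eq_zero_of_notMem_tsupport h])

/-! ### Interior integration by parts -/

lemma su_cd {m : WithTop ℕ∞} {f : V d → ℝ} (h : ∀ x ∈ tsupport f, ContDiffAt ℝ m f x) :
    ContDiff ℝ m f := by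
  refine contDiff_iff_contDiffAt.2 fun x => ?_
  by_cases hx : x ∈ tsupport f
  · exact h x hx
  · have h1 : f =ᶠ[𝓝 x] fun _ => (0 : ℝ) := notMem_tsupport_iff_eventuallyEq.1 hx
    exact contDiffAt_const.congr_of_eventuallyEq h1

lemma su_pa_cont {U : Set (V d)} (hU : IsOpen U) {f : V d → ℝ} (hf : ContDiffOn ℝ 1 f U)
    (k : Fin d) : ContinuousOn (pa k f) U :=
  (hf.continuousOn_fderiv_of_isOpen hU le_rfl).clm_apply continuousOn_const

lemma su_pa_C1 {U : Set (V d)} (hU : IsOpen U) {f : V d → ℝ} (hf : ContDiffOn ℝ 2 f U)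
    (k : Fin d) : ContDiffOn ℝ 1 (pa k f) U :=
  (hf.fderiv_of_isOpen hU (m := 1) (by norm_num)).clm_apply contDiffOn_const

lemma su_ibp {U : Set (V d)} (hU : IsOpen U) {f : V d → ℝ} (hf : ContDiffOn ℝ 1 f U)
    {φ : V d → ℝ} (hφ : ContDiff ℝ 1 φ) (hc : HasCompactSupport φ) (hs : tsupport φ ⊆ U)
    (k : Fin d) : ∫ x, f x * pa k φ x = - ∫ x, pa k f x * φ x := by
  have hfd : ∀ x ∈ U, DifferentiableAt ℝ f x := fun x hx =>
    (hf.differentiableOn one_ne_zero).differentiableAt (hU.mem_nhds hx)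
  have hsub : tsupport (fun x => f x * φ x) ⊆ tsupport φ := by
    refine closure_mono fun x hx => ?_
    exact right_ne_zero_of_mul hx
  have hg : ContDiff ℝ 1 (fun x => f x * φ x) := by
    refine su_cd fun x hx => ?_
    exact (hf.contDiffAt (hU.mem_nhds (hs (hsub hx)))).mul hφ.contDiffAt
  have hgc : HasCompactSupport (fun x => f x * φ x) := hc.mul_left
  have h0 := integral_pa_eq_zero hg hgc k
  have he : ∀ x, pa k (fun x => f x * φ x) x = f x * pa k φ x + pa k f x * φ x := by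
    intro x
    by_cases hx : x ∈ U
    · rw [pa_mul (hfd x hx) (hφ.differentiable (by norm_num) x)]
      ring
    · have hx1 : x ∉ tsupport φ := fun h => hx (hs h)
      have hx2 : x ∉ tsupport (pa k φ) := fun h => hx1 (tsupport_pa_subset φ k h)
      have hx3 : x ∉ tsupport (pa k (fun x => f x * φ x)) := fun h =>
        hx1 (hsub (tsupport_pa_subset _ k h))
      rw [image_eq_zero_of_notMem_tsupport hx1, image_eq_zero_of_notMem_tsupport hx2,
        image_eq_zero_of_notMem_tsupport hx3]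
      ring
  have hi1 : Integrable (fun x => f x * pa k φ x) := by
    refine Continuous.integrable_of_hasCompactSupport ?_ (pa_hasCompactSupport hc k).mul_left
    rw [← contDiff_zero (𝕜 := ℝ)]
    refine su_cd fun x hx => ?_
    have hx1 : x ∈ tsupport φ := by
      refine tsupport_pa_subset φ k ?_
      exact closure_mono (fun y hy => right_ne_zero_of_mul hy) hx
    refine ContDiffAt.mul ?_ ?_
    · exact (hf.contDiffAt (hU.mem_nhds (hs hx1))).of_le (by norm_num)
    · exact (contDiff_zero.2 (pa_continuous hφ k)).contDiffAt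
  have hi2 : Integrable (fun x => pa k f x * φ x) := by
    refine Continuous.integrable_of_hasCompactSupport ?_ hc.mul_left
    rw [← contDiff_zero (𝕜 := ℝ)]
    refine su_cd fun x hx => ?_
    have hx1 : x ∈ tsupport φ := closure_mono (fun y hy => right_ne_zero_of_mul hy) hx
    refine ContDiffAt.mul ?_ ?_
    · exact (contDiffOn_zero.2 (su_pa_cont hU hf k)).contDiffAt (hU.mem_nhds (hs hx1))
    · exact hφ.contDiffAt.of_le (by norm_num)
  simp_rw [he] at h0
  rw [integral_add hi1 hi2] at h0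
  linarith only [h0]

/-- The bound of the right-hand side. -/
lemma su_sum_bound {ι : Type*} [Fintype ι] {A : Fin d → Fin d → ℝ} {P : Fin d → Fin d → ℝ}
    {w : ι → ℝ} {Dw : ι → Fin d → ℝ} {S C M : ℝ} (i : ι)
    (h1 : |S| ≤ C * ∑ l, (|w l| + ∑ k, |Dw l k|)) (hM : ∀ j k, |P j k| ≤ M) (hM0 : 0 ≤ M) :
    |-(∑ j, ∑ k, P j k * Dw i j + S)| ≤ (C + d * M) * ∑ l, (|w l| + ∑ k, |Dw l k|) := by
  have h2 : |∑ j, ∑ k, P j k * Dw i j| ≤ d * M * ∑ l, (|w l| + ∑ k, |Dw l k|) := by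
    have h3 : |∑ j, ∑ k, P j k * Dw i j| ≤ ∑ j, ∑ k : Fin d, M * |Dw i j| := by
      refine (Finset.abs_sum_le_sum_abs _ _).trans (Finset.sum_le_sum fun j _ => ?_)
      refine (Finset.abs_sum_le_sum_abs _ _).trans (Finset.sum_le_sum fun k _ => ?_)
      rw [abs_mul]
      exact mul_le_mul_of_nonneg_right (hM j k) (abs_nonneg _)
    refine h3.trans ?_
    have h4 : ∑ j, ∑ k : Fin d, M * |Dw i j| = d * M * ∑ j, |Dw i j| := by
      simp_rw [Finset.sum_const, Finset.card_univ, Fintype.card_fin, nsmul_eq_mul]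
      rw [← Finset.mul_sum, ← Finset.mul_sum]
      ring
    rw [h4]
    refine mul_le_mul_of_nonneg_left ?_ (by (clear * - hM0; positivity))
    have h5 : |w i| + ∑ k, |Dw i k| ≤ ∑ l, (|w l| + ∑ k, |Dw l k|) :=
      Finset.single_le_sum (f := fun l => |w l| + ∑ k, |Dw l k|)
        (fun l _ => add_nonneg (abs_nonneg _) (Finset.sum_nonneg fun k _ => abs_nonneg _))
        (Finset.mem_univ i)
    linarith only [h5, abs_nonneg (w i)]
  rw [abs_neg]
  refine (abs_add_le _ _).trans ?_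
  linarith only [h1, h2]

/-- A `C²` function is a weak solution in a ball. -/
lemma su_ws {U : Set (V d)} (hU : IsOpen U) {a' : Fin d → Fin d → V d → ℝ} (ha : GC a')
    {w : V d → ℝ} (hw : ContDiffOn ℝ 2 w U) {x₀ : V d} {R : ℝ}
    (hR : Metric.closedBall x₀ R ⊆ U) :
    WS a' (Metric.ball x₀ R) w (fun k => pa k w)
      (fun x => - ∑ j, ∑ k, pa k (fun y => a' j k y * pa j w y) x) := by
  have hK : IsCompact (Metric.closedBall x₀ R) := isCompact_closedBall _ _
  have hBK : Metric.ball x₀ R ⊆ Metric.closedBall x₀ R := Metric.ball_subset_closedBall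
  have hBU : Metric.ball x₀ R ⊆ U := hBK.trans hR
  have hL : ∀ f : V d → ℝ, ContinuousOn f U → MemLp f 2 (volume.restrict (Metric.ball x₀ R)) := by
    intro f hf
    obtain ⟨C, hC⟩ := hK.exists_bound_of_continuousOn (hf.mono hR)
    exact su_memLp measurableSet_ball measure_ball_lt_top.ne
      ((hf.mono hBU).aestronglyMeasurable measurableSet_ball) fun x hx => hC x (hBK hx)
  have hf1 : ∀ j k, ContDiffOn ℝ 1 (fun y => a' j k y * pa j w y) U := fun j k =>
    ((ha.smooth j k).contDiffOn.of_le (by norm_num)).mul (su_pa_C1 hU hw j)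
  have hcF : ∀ j k, ContinuousOn (pa k (fun y => a' j k y * pa j w y)) U := fun j k =>
    su_pa_cont hU (hf1 j k) k
  refine ⟨hL w hw.continuousOn, fun k => hL _ (su_pa_cont hU (hw.of_le (by norm_num)) k),
    hL _ ?_, ?_, ?_⟩
  · exact (continuousOn_finset_sum _ fun j _ => continuousOn_finset_sum _ fun k _ => hcF j k).neg
  · intro k φ hφ
    exact su_ibp hU (hw.of_le (by norm_num)) (hφ.1.of_le (by norm_cast)) hφ.2.1
      (hφ.2.2.trans hBU) k
  · intro φ hφ
    have hφ1 : ContDiff ℝ 1 φ := hφ.1.of_le (by norm_cast)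
    have hi : ∀ j k, Integrable (fun x => a' j k x * pa j w x * pa k φ x) := fun j k =>
      su_integrable (hL _ (hf1 j k).continuousOn) (pa_continuous hφ1 k)
        (pa_hasCompactSupport hφ.2.1 k) ((tsupport_pa_subset φ k).trans hφ.2.2)
    have hi2 : ∀ j k, Integrable (fun x => pa k (fun y => a' j k y * pa j w y) x * φ x) :=
      fun j k => su_integrable (hL _ (hcF j k)) hφ1.continuous hφ.2.1 hφ.2.2
    rw [integral_finsetSum _ fun j _ => integrable_finset_sum _ fun k _ => hi j k]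
    simp_rw [integral_finsetSum _ fun k _ => hi _ k]
    have e1 : ∀ j k, ∫ x, a' j k x * pa j w x * pa k φ x =
        - ∫ x, pa k (fun y => a' j k y * pa j w y) x * φ x := fun j k =>
      su_ibp hU (hf1 j k) hφ1 hφ.2.1 (hφ.2.2.trans hBU) k
    simp_rw [e1]
    have e2 : ∀ x, (- ∑ j, ∑ k, pa k (fun y => a' j k y * pa j w y) x) * φ x =
        - ∑ j, ∑ k, pa k (fun y => a' j k y * pa j w y) x * φ x := by
      intro x
      rw [neg_mul, Finset.sum_mul]
      simp_rw [Finset.sum_mul]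
    simp_rw [e2]
    rw [integral_neg, integral_finsetSum _ fun j _ => integrable_finset_sum _ fun k _ => hi2 j k]
    simp_rw [integral_finsetSum _ fun k _ => hi2 _ k, Finset.sum_neg_distrib]

lemma su_zero_of_ae {O : Set (V d)} (hO : IsOpen O) {f : V d → ℝ} (hf : ContinuousOn f O)
    (h : ∀ᵐ x, x ∈ O → f x = 0) : ∀ x ∈ O, f x = 0 := by
  intro x hx
  by_contra hne
  have h1 : ∀ᶠ y in 𝓝 x, y ∈ O ∧ f y ≠ 0 := by
    have h2 : ContinuousAt f x := hf.continuousAt (hO.mem_nhds hx)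
    filter_upwards [hO.mem_nhds hx, h2.eventually_ne hne] with y h3 h4
    exact ⟨h3, h4⟩
  obtain ⟨s, hs, hs1⟩ := Metric.eventually_nhds_iff_ball.1 h1
  have h3 : volume (Metric.ball x s) = 0 := by
    refine measure_mono_null ?_ h
    intro y hy hy'
    exact (hs1 y hy).2 (hy' (hs1 y hy).1)
  exact (Metric.measure_ball_pos volume x hs).ne' h3

theorem smooth_ucp {ι : Type*} [Fintype ι] {U : Set (V d)} (hU : IsOpen U)
    (hc : IsPreconnected U) {a : Fin d → Fin d → V d → ℝ}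
    (ha : ∀ j k, ContDiffOn ℝ 2 (a j k) U) (hs : ∀ j k, ∀ x ∈ U, a j k x = a k j x)
    (hp : ∀ x ∈ U, ∀ ξ : Fin d → ℝ, ξ ≠ 0 → 0 < ∑ j, ∑ k, a j k x * ξ j * ξ k)
    {w : ι → V d → ℝ} (hw : ∀ i, ContDiffOn ℝ 2 (w i) U)
    (hb : ∀ x ∈ U, ∃ C : ℝ, ∀ᶠ y in 𝓝 x, ∀ i,
      |∑ j, ∑ k, a j k y * pa j (pa k (w i)) y| ≤ C * ∑ l, (|w l y| + ∑ k, |pa k (w l) y|))
    {O : Set (V d)} (hO : IsOpen O) (hOU : O ⊆ U) (hne : O.Nonempty)
    (h0 : ∀ x ∈ O, ∀ i, w i x = 0) : ∀ x ∈ U, ∀ i, w i x = 0 := by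
  set Z : Set (V d) := {x | ∃ s > 0, Metric.ball x s ⊆ U ∧
    ∀ y ∈ Metric.ball x s, ∀ i, w i y = 0} with hZdef
  have hZ0 : ∀ x ∈ Z, ∀ i, w i x = 0 := by
    rintro x ⟨s, hs1, _, hs3⟩ i
    exact hs3 x (Metric.mem_ball_self hs1) i
  have hZU : Z ⊆ U := by
    rintro x ⟨s, hs1, hs2, _⟩
    exact hs2 (Metric.mem_ball_self hs1)
  have hZo : IsOpen Z := by
    rw [Metric.isOpen_iff]
    rintro x ⟨s, hs1, hs2, hs3⟩
    refine ⟨s, hs1, fun y hy => ?_⟩
    have hy' : dist y x < s := hy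
    have hsub : Metric.ball y (s - dist y x) ⊆ Metric.ball x s := by
      intro u hu
      rw [Metric.mem_ball] at hu ⊢
      have := dist_triangle u y x
      linarith only [hu, this]
    exact ⟨s - dist y x, by linarith only [hy'], hsub.trans hs2, fun u hu => hs3 u (hsub hu)⟩
  have hZne : Z.Nonempty := by
    obtain ⟨x, hx⟩ := hne
    obtain ⟨s, hs1, hs2⟩ := Metric.isOpen_iff.1 hO x hx
    exact ⟨x, s, hs1, hs2.trans hOU, fun y hy => h0 y (hs2 hy)⟩
  have hZe : Z = U := by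
    refine spread hU hc hZo hZU hZne fun x₀ hx₀ y hy hball => ?_
    obtain ⟨a', hga, r₀, hr₀, hr₀U, haa⟩ := loc_coef hU ha hs hp hx₀
    obtain ⟨C, hC⟩ := hb x₀ hx₀
    obtain ⟨ρ, hρ, hCρ⟩ := Metric.eventually_nhds_iff_ball.1 hC
    set R := min r₀ ρ / 2 with hRdef
    have hR : 0 < R := by
      have := lt_min hr₀ hρ
      simp only [hRdef]
      linarith only [this]
    have hRr : R < r₀ := by
      have h1 := min_le_left r₀ ρ
      have := lt_min hr₀ hρ
      simp only [hRdef]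
      linarith only [hr₀, h1]
    have hRρ : R < ρ := by
      have h1 := min_le_right r₀ ρ
      have := lt_min hr₀ hρ
      simp only [hRdef]
      linarith only [hρ, h1]
    have hcl : Metric.closedBall x₀ R ⊆ U := (Metric.closedBall_subset_ball hRr).trans hr₀U
    have hbl : Metric.ball x₀ R ⊆ U := Metric.ball_subset_closedBall.trans hcl
    -- the derivatives of the coefficients are bounded
    obtain ⟨M, hM0, hM⟩ : ∃ M : ℝ, 0 ≤ M ∧ ∀ x ∈ Metric.ball x₀ R, ∀ j k,
        |pa k (a' j k) x| ≤ M := by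
      have h1 : ∀ j k, ∃ M : ℝ, ∀ x ∈ Metric.closedBall x₀ R, ‖pa k (a' j k) x‖ ≤ M :=
        fun j k => (isCompact_closedBall x₀ R).exists_bound_of_continuousOn
          (pa_continuous ((hga.smooth j k).of_le (by norm_num)) k).continuousOn
      choose M hM using h1
      refine ⟨∑ j, ∑ k, |M j k|, Finset.sum_nonneg fun j _ => Finset.sum_nonneg fun k _ =>
        abs_nonneg _, fun x hx j k => ?_⟩
      have h2 := hM j k x (Metric.ball_subset_closedBall hx)
      have h3 : |M j k| ≤ ∑ k, |M j k| :=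
        Finset.single_le_sum (f := fun k => |M j k|) (fun k _ => abs_nonneg _)
          (Finset.mem_univ k)
      have h4 : ∑ k, |M j k| ≤ ∑ j, ∑ k, |M j k| :=
        Finset.single_le_sum (f := fun j => ∑ k, |M j k|)
          (fun j _ => Finset.sum_nonneg fun k _ => abs_nonneg _) (Finset.mem_univ j)
      exact ((h2.trans (le_abs_self _)).trans h3).trans h4
    have hws : ∀ i, WS a' (Metric.ball x₀ R) (w i) (fun k => pa k (w i))
        (fun x => - ∑ j, ∑ k, pa k (fun y => a' j k y * pa j (w i) y) x) :=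
      fun i => su_ws hU hga (hw i) hcl
    have hF : ∀ x, x ∈ Metric.ball x₀ R → ∀ i,
        |(- ∑ j, ∑ k, pa k (fun y => a' j k y * pa j (w i) y) x)| ≤
          (C + d * M) * ∑ l, (|w l x| + ∑ k, |pa k (w l) x|) := by
      intro x hx i
      have hxU : x ∈ U := hbl hx
      have e1 : ∀ j k, pa k (fun y => a' j k y * pa j (w i) y) x =
          pa k (a' j k) x * pa j (w i) x + a j k x * pa k (pa j (w i)) x := by
        intro j k
        rw [pa_mul (((hga.smooth j k).differentiable (by norm_num)) x)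
          (((su_pa_C1 hU (hw i) j).differentiableOn one_ne_zero).differentiableAt
            (hU.mem_nhds hxU)),
          haa x (Metric.ball_subset_ball hRr.le hx) j k]
      have e2 : ∑ j, ∑ k, pa k (fun y => a' j k y * pa j (w i) y) x =
          ∑ j, ∑ k, pa k (a' j k) x * pa j (w i) x +
            ∑ j, ∑ k, a j k x * pa j (pa k (w i)) x := by
        have e3 : ∑ j, ∑ k, a j k x * pa k (pa j (w i)) x =
            ∑ j, ∑ k, a j k x * pa j (pa k (w i)) x := by
          rw [Finset.sum_comm]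
          refine Finset.sum_congr rfl fun j _ => Finset.sum_congr rfl fun k _ => ?_
          rw [hs k j x hxU]
        rw [← e3, ← Finset.sum_add_distrib]
        refine Finset.sum_congr rfl fun j _ => ?_
        rw [← Finset.sum_add_distrib]
        exact Finset.sum_congr rfl fun k _ => e1 j k
      rw [e2]
      exact su_sum_bound (A := fun _ _ => 0) (P := fun j k => pa k (a' j k) x)
        (w := fun l => w l x) (Dw := fun l k => pa k (w l) x) i
        (hCρ x (Metric.ball_subset_ball hRρ.le hx) i) (fun j k => hM x hx j k) hM0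
    obtain ⟨s, hs0, hsR, hsz⟩ := touch hga hR hws (Eventually.of_forall hF) hy
      (Eventually.of_forall fun x _ hx => hZ0 x (hball hx))
    refine ⟨s, hs0, (Metric.ball_subset_ball hsR).trans hbl, fun x hx i => ?_⟩
    refine su_zero_of_ae (O := Metric.ball x₀ s) Metric.isOpen_ball
      ((hw i).continuousOn.mono ((Metric.ball_subset_ball hsR).trans hbl)) ?_ x hx
    filter_upwards [hsz] with u hu hu'
    exact hu hu' i
  intro x hx i
  exact hZ0 x (hZe ▸ hx) i

/-! ### The half ball -/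

section Half

variable [NeZero d]

lemma su_H_closed : IsClosed {x : V d | 0 ≤ x 0} :=
  isClosed_le continuous_const (by fun_prop)

lemma su_P_open : IsOpen {x : V d | 0 < x 0} :=
  isOpen_lt continuous_const (by fun_prop)

lemma su_H_convex : Convex ℝ {x : V d | 0 ≤ x 0} := by
  intro x hx y hy s t hs ht _
  simp only [Set.mem_setOf_eq, PiLp.add_apply, PiLp.smul_apply, smul_eq_mul] at hx hy ⊢
  positivity

lemma su_P_convex : Convex ℝ {x : V d | 0 < x 0} := by
  intro x hx y hy s t hs ht hst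
  simp only [Set.mem_setOf_eq, PiLp.add_apply, PiLp.smul_apply, smul_eq_mul] at hx hy ⊢
  rcases hs.eq_or_lt with h | h
  · have : t = 1 := by linarith
    rw [← h, this]
    (clear s t hs ht hst hx h this; linarith)
  · have h1 := mul_pos h hx
    have h2 := mul_nonneg ht hy.le
    linarith

lemma su_PH {x : V d} (hx : x ∈ {x : V d | 0 < x 0}) : x ∈ {x : V d | 0 ≤ x 0} := by
  simp only [Set.mem_setOf_eq] at hx ⊢
  exact hx.le

lemma su_H_ud : UniqueDiffOn ℝ {x : V d | 0 ≤ x 0} := by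
  refine uniqueDiffOn_convex su_H_convex ?_
  refine ⟨EuclideanSpace.single 0 1, mem_interior.2 ⟨{x : V d | 0 < x 0}, ?_, su_P_open, ?_⟩⟩
  · intro x hx
    exact su_PH hx
  · simp only [Set.mem_ofPred_eq, PiLp.single_eq_same, zero_lt_one]

lemma su_S_ud (z : V d) (r : ℝ) : UniqueDiffOn ℝ (Metric.ball z r ∩ {x : V d | 0 ≤ x 0}) := by
  rw [Set.inter_comm]
  exact su_H_ud.inter Metric.isOpen_ball

lemma su_ph_eq {z : V d} {r : ℝ} {f : V d → ℝ} {x : V d} (hx : x ∈ Metric.ball z r)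
    (k : Fin d) : ph k f x = fderivWithin ℝ f (Metric.ball z r ∩ {x : V d | 0 ≤ x 0}) x
      (EuclideanSpace.single k 1) := by
  unfold ph
  rw [Set.inter_comm, fderivWithin_inter (Metric.isOpen_ball.mem_nhds hx)]

lemma su_ph_cont {z : V d} {r : ℝ} {f : V d → ℝ}
    (hf : ContDiffOn ℝ 1 f (Metric.ball z r ∩ {x : V d | 0 ≤ x 0})) (k : Fin d) :
    ContinuousOn (ph k f) (Metric.ball z r ∩ {x : V d | 0 ≤ x 0}) := by
  have h := (hf.continuousOn_fderivWithin (su_S_ud z r) le_rfl).clm_apply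
    (continuousOn_const (c := (EuclideanSpace.single k 1 : V d)))
  exact h.congr fun x hx => su_ph_eq hx.1 k

lemma su_ph_C1 {z : V d} {r : ℝ} {f : V d → ℝ}
    (hf : ContDiffOn ℝ 2 f (Metric.ball z r ∩ {x : V d | 0 ≤ x 0})) (k : Fin d) :
    ContDiffOn ℝ 1 (ph k f) (Metric.ball z r ∩ {x : V d | 0 ≤ x 0}) := by
  have h := (hf.fderivWithin (su_S_ud z r) (m := 1) (by norm_num)).clm_apply
    (contDiffOn_const (c := (EuclideanSpace.single k 1 : V d)))
  exact h.congr fun x hx => su_ph_eq hx.1 k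

lemma su_dw {z : V d} {r : ℝ} {f : V d → ℝ}
    (hf : ContDiffOn ℝ 1 f (Metric.ball z r ∩ {x : V d | 0 ≤ x 0})) {x : V d}
    (hx : x ∈ Metric.ball z r ∩ {x : V d | 0 ≤ x 0}) :
    DifferentiableWithinAt ℝ f {x : V d | 0 ≤ x 0} x := by
  have h := hf.differentiableOn one_ne_zero x hx
  rw [Set.inter_comm] at h
  exact (differentiableWithinAt_inter (Metric.isOpen_ball.mem_nhds hx.1)).1 h

lemma su_ph_mul {z : V d} {r : ℝ} {f g : V d → ℝ}
    (hf : ContDiffOn ℝ 1 f (Metric.ball z r ∩ {x : V d | 0 ≤ x 0}))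
    (hg : ContDiffOn ℝ 1 g (Metric.ball z r ∩ {x : V d | 0 ≤ x 0})) {x : V d}
    (hx : x ∈ Metric.ball z r ∩ {x : V d | 0 ≤ x 0}) (k : Fin d) :
    ph k (fun y => f y * g y) x = ph k f x * g x + f x * ph k g x := by
  unfold ph
  rw [fderivWithin_fun_mul (su_H_ud x hx.2) (su_dw hf hx) (su_dw hg hx)]
  simp only [add_apply, smul_apply, smul_eq_mul]
  ring

/-- Interior points. -/
lemma su_ph_pa {f : V d → ℝ} {x : V d} (hx : 0 < x 0) (k : Fin d) : ph k f x = pa k f x := by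
  unfold ph pa
  rw [fderivWithin_of_mem_nhds]
  refine Filter.mem_of_superset (su_P_open.mem_nhds hx) fun y hy => ?_
  exact su_PH hy

lemma su_ph_pa2 {f : V d → ℝ} {x : V d} (hx : 0 < x 0) (j k : Fin d) :
    ph j (ph k f) x = pa j (pa k f) x := by
  rw [su_ph_pa hx]
  refine pa_congr ?_ j
  filter_upwards [su_P_open.mem_nhds hx] with y hy
  exact su_ph_pa hy k

lemma su_zx_L2 {z : V d} {r R : ℝ} (hR : R < r) {f : V d → ℝ}
    (hf : ContinuousOn f (Metric.ball z r ∩ {x : V d | 0 ≤ x 0})) :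
    MemLp (zx f) 2 (volume.restrict (Metric.ball z R)) := by
  have hK : IsCompact (Metric.closedBall z R ∩ {x : V d | 0 ≤ x 0}) :=
    (isCompact_closedBall _ _).inter_right su_H_closed
  have hKS : Metric.closedBall z R ∩ {x : V d | 0 ≤ x 0} ⊆
      Metric.ball z r ∩ {x : V d | 0 ≤ x 0} :=
    Set.inter_subset_inter_left _ (Metric.closedBall_subset_ball hR)
  obtain ⟨C, hC⟩ := hK.exists_bound_of_continuousOn (hf.mono hKS)
  refine su_memLp (C := |C|) measurableSet_ball measure_ball_lt_top.ne ?_ ?_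
  · unfold zx
    rw [aestronglyMeasurable_indicator_iff su_H_closed.measurableSet,
      Measure.restrict_restrict su_H_closed.measurableSet]
    refine (hf.mono ?_).aestronglyMeasurable
      (su_H_closed.measurableSet.inter measurableSet_ball)
    intro x hx
    exact ⟨Metric.ball_subset_ball hR.le hx.2, hx.1⟩
  · intro x hx
    unfold zx
    by_cases h : x ∈ {x : V d | 0 ≤ x 0}
    · rw [Set.indicator_of_mem h]
      exact (hC x ⟨Metric.ball_subset_closedBall hx, h⟩).trans (le_abs_self _)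
    · rw [Set.indicator_of_notMem h, abs_zero]
      exact abs_nonneg _

/-- The zero extension is a weak solution. -/
lemma su_wsh {z : V d} {r r' R : ℝ} (hr' : r' ≤ r) (hR : R < r')
    {a a' : Fin d → Fin d → V d → ℝ}
    (ha : ∀ j k, ContDiffOn ℝ 2 (a j k) (Metric.ball z r ∩ {x | 0 ≤ x 0}))
    (haa : ∀ y ∈ Metric.ball z r', 0 ≤ y 0 → ∀ j k, a' j k y = a j k y)
    {w : V d → ℝ} (hw : ContDiffOn ℝ 2 w (Metric.ball z r ∩ {x | 0 ≤ x 0}))
    (h0 : ∀ x ∈ Metric.ball z r, x 0 = 0 → w x = 0 ∧ ∀ k, ph k w x = 0) :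
    WS a' (Metric.ball z R) (zx w) (fun k => zx (ph k w))
      (fun x => - ∑ j, ∑ k, zx (ph k (fun y => a j k y * ph j w y)) x) := by
  have hRr : R < r := hR.trans_le hr'
  have hsub : Metric.ball z R ⊆ Metric.ball z r := Metric.ball_subset_ball hRr.le
  have hf1 : ∀ j k, ContDiffOn ℝ 1 (fun y => a j k y * ph j w y)
      (Metric.ball z r ∩ {x | 0 ≤ x 0}) := fun j k =>
    ((ha j k).of_le (by norm_num)).mul (su_ph_C1 hw j)
  have hf0 : ∀ j k, ∀ x ∈ Metric.ball z r, x 0 = 0 → (fun y => a j k y * ph j w y) x = 0 := by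
    intro j k x hx hx0
    simp only [(h0 x hx hx0).2 j, mul_zero]
  have hL1 : ∀ j k, MemLp (zx (fun y => a j k y * ph j w y)) 2
      (volume.restrict (Metric.ball z R)) := fun j k => su_zx_L2 hRr (hf1 j k).continuousOn
  have hL2 : ∀ j k, MemLp (zx (ph k (fun y => a j k y * ph j w y))) 2
      (volume.restrict (Metric.ball z R)) := fun j k => su_zx_L2 hRr (su_ph_cont (hf1 j k) k)
  refine ⟨su_zx_L2 hRr hw.continuousOn,
    fun k => su_zx_L2 hRr (su_ph_cont (hw.of_le (by norm_num)) k), ?_, ?_, ?_⟩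
  · exact (memLp_finset_sum _ fun j _ => memLp_finset_sum _ fun k _ => hL2 j k).neg
  · intro k φ hφ
    exact grad_zx (hw.of_le (by norm_num)) (fun x hx hx0 => (h0 x hx hx0).1)
      (hφ.1.of_le (by norm_cast)) hφ.2.1 (hφ.2.2.trans hsub) k
  · intro φ hφ
    have hφ1 : ContDiff ℝ 1 φ := hφ.1.of_le (by norm_cast)
    have hi : ∀ j k, Integrable (fun x => zx (fun y => a j k y * ph j w y) x * pa k φ x) :=
      fun j k => su_integrable (hL1 j k) (pa_continuous hφ1 k)
        (pa_hasCompactSupport hφ.2.1 k) ((tsupport_pa_subset φ k).trans hφ.2.2)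
    have hi2 : ∀ j k, Integrable
        (fun x => zx (ph k (fun y => a j k y * ph j w y)) x * φ x) :=
      fun j k => su_integrable (hL2 j k) hφ1.continuous hφ.2.1 hφ.2.2
    have e0 : ∀ x, ∑ j, ∑ k, a' j k x * zx (ph j w) x * pa k φ x =
        ∑ j, ∑ k, zx (fun y => a j k y * ph j w y) x * pa k φ x := by
      intro x
      refine Finset.sum_congr rfl fun j _ => Finset.sum_congr rfl fun k _ => ?_
      by_cases hx : x ∈ Metric.ball z R
      · congr 1
        unfold zx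
        by_cases h : x ∈ {x : V d | 0 ≤ x 0}
        · rw [Set.indicator_of_mem h, Set.indicator_of_mem h,
            haa x (Metric.ball_subset_ball hR.le hx) h j k]
        · rw [Set.indicator_of_notMem h, Set.indicator_of_notMem h, mul_zero]
      · have h1 : pa k φ x = 0 := image_eq_zero_of_notMem_tsupport fun h =>
          hx (hφ.2.2 (tsupport_pa_subset φ k h))
        rw [h1, mul_zero, mul_zero]
    simp_rw [e0]
    rw [integral_finsetSum _ fun j _ => integrable_finset_sum _ fun k _ => hi j k]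
    simp_rw [integral_finsetSum _ fun k _ => hi _ k]
    have e1 : ∀ j k, ∫ x, zx (fun y => a j k y * ph j w y) x * pa k φ x =
        - ∫ x, zx (ph k (fun y => a j k y * ph j w y)) x * φ x := fun j k =>
      grad_zx (hf1 j k) (hf0 j k) hφ1 hφ.2.1 (hφ.2.2.trans hsub) k
    simp_rw [e1]
    have e2 : ∀ x, (- ∑ j, ∑ k, zx (ph k (fun y => a j k y * ph j w y)) x) * φ x =
        - ∑ j, ∑ k, zx (ph k (fun y => a j k y * ph j w y)) x * φ x := by
      intro x
      rw [neg_mul, Finset.sum_mul]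
      simp_rw [Finset.sum_mul]
    simp_rw [e2]
    rw [integral_neg, integral_finsetSum _ fun j _ => integrable_finset_sum _ fun k _ => hi2 j k]
    simp_rw [integral_finsetSum _ fun k _ => hi2 _ k, Finset.sum_neg_distrib]

end Half

theorem half_ucp [NeZero d] {ι : Type*} [Fintype ι] {z : V d} (hz : z 0 = 0) {r : ℝ} (hr : 0 < r)
    {a : Fin d → Fin d → V d → ℝ}
    (ha : ∀ j k, ContDiffOn ℝ 2 (a j k) (Metric.ball z r ∩ {x | 0 ≤ x 0}))
    (hs : ∀ j k, ∀ x ∈ Metric.ball z r ∩ {x | 0 ≤ x 0}, a j k x = a k j x)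
    (hp : ∀ x ∈ Metric.ball z r ∩ {x | 0 ≤ x 0}, ∀ ξ : Fin d → ℝ, ξ ≠ 0 →
      0 < ∑ j, ∑ k, a j k x * ξ j * ξ k)
    {w : ι → V d → ℝ} (hw : ∀ i, ContDiffOn ℝ 2 (w i) (Metric.ball z r ∩ {x | 0 ≤ x 0}))
    (hb : ∀ x ∈ Metric.ball z r ∩ {x | 0 ≤ x 0}, ∃ C : ℝ, ∀ᶠ y in 𝓝[{x | 0 ≤ x 0}] x, ∀ i,
      |∑ j, ∑ k, a j k y * ph j (ph k (w i)) y| ≤ C * ∑ l, (|w l y| + ∑ k, |ph k (w l) y|))
    (h0 : ∀ x ∈ Metric.ball z r, x 0 = 0 → ∀ i, w i x = 0 ∧ ∀ k, ph k (w i) x = 0) :
    ∀ x ∈ Metric.ball z r ∩ {x | 0 ≤ x 0}, ∀ i, w i x = 0 := by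
  have hzS : z ∈ Metric.ball z r ∩ {x : V d | 0 ≤ x 0} :=
    ⟨Metric.mem_ball_self hr, hz.ge⟩
  obtain ⟨a', hga, r', hr', hr'r, haa⟩ := refl_coef hz hr ha hs hp
  obtain ⟨C, hC⟩ := hb z hzS
  rw [eventually_nhdsWithin_iff] at hC
  obtain ⟨ρ, hρ, hCρ⟩ := Metric.eventually_nhds_iff_ball.1 hC
  set R := min r' ρ / 2 with hRdef
  have hmin := lt_min hr' hρ
  have hR : 0 < R := by
    simp only [hRdef]
    linarith only [hmin]
  have hRr : R < r' := by
    have h1 := min_le_left r' ρ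
    simp only [hRdef]
    linarith only [hRdef, hR, h1]
  have hRρ : R < ρ := by
    have h1 := min_le_right r' ρ
    simp only [hRdef]
    linarith only [hRdef, hR, h1]
  have hRr2 : R < r := hRr.trans_le hr'r
  obtain ⟨M, hM0, hM⟩ : ∃ M : ℝ, 0 ≤ M ∧ ∀ x ∈ Metric.ball z R, 0 ≤ x 0 → ∀ j k,
      |ph k (a j k) x| ≤ M := by
    have hK : IsCompact (Metric.closedBall z R ∩ {x : V d | 0 ≤ x 0}) :=
      (isCompact_closedBall _ _).inter_right su_H_closed
    have hKS : Metric.closedBall z R ∩ {x : V d | 0 ≤ x 0} ⊆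
        Metric.ball z r ∩ {x : V d | 0 ≤ x 0} :=
      Set.inter_subset_inter_left _ (Metric.closedBall_subset_ball hRr2)
    have h1 : ∀ j k, ∃ M : ℝ, ∀ x ∈ Metric.closedBall z R ∩ {x : V d | 0 ≤ x 0},
        ‖ph k (a j k) x‖ ≤ M :=
      fun j k => hK.exists_bound_of_continuousOn
        ((su_ph_cont ((ha j k).of_le (by norm_num)) k).mono hKS)
    choose M hM using h1
    refine ⟨∑ j, ∑ k, |M j k|, Finset.sum_nonneg fun j _ => Finset.sum_nonneg fun k _ =>
      abs_nonneg _, fun x hx hx0 j k => ?_⟩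
    have h2 := hM j k x ⟨Metric.ball_subset_closedBall hx, hx0⟩
    have h3 : |M j k| ≤ ∑ k, |M j k| :=
      Finset.single_le_sum (f := fun k => |M j k|) (fun k _ => abs_nonneg _)
        (Finset.mem_univ k)
    have h4 : ∑ k, |M j k| ≤ ∑ j, ∑ k, |M j k| :=
      Finset.single_le_sum (f := fun j => ∑ k, |M j k|)
        (fun j _ => Finset.sum_nonneg fun k _ => abs_nonneg _) (Finset.mem_univ j)
    exact ((h2.trans (le_abs_self _)).trans h3).trans h4
  have hws : ∀ i, WS a' (Metric.ball z R) (zx (w i)) (fun k => zx (ph k (w i)))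
      (fun x => - ∑ j, ∑ k, zx (ph k (fun y => a j k y * ph j (w i) y)) x) :=
    fun i => su_wsh hr'r hRr ha haa (hw i) fun x hx hx0 => h0 x hx hx0 i
  have hF : ∀ x, x ∈ Metric.ball z R → ∀ i,
      |(- ∑ j, ∑ k, zx (ph k (fun y => a j k y * ph j (w i) y)) x)| ≤
        (C + d * M) * ∑ l, (|zx (w l) x| + ∑ k, |zx (ph k (w l)) x|) := by
    intro x hx i
    by_cases h : x ∈ {x : V d | 0 ≤ x 0}
    · have hxS : x ∈ Metric.ball z r ∩ {x : V d | 0 ≤ x 0} :=
        ⟨Metric.ball_subset_ball hRr2.le hx, h⟩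
      simp only [zx, Set.indicator_of_mem h]
      have e1 : ∀ j k, ph k (fun y => a j k y * ph j (w i) y) x =
          ph k (a j k) x * ph j (w i) x + a j k x * ph k (ph j (w i)) x := fun j k =>
        su_ph_mul ((ha j k).of_le (by norm_num)) (su_ph_C1 (hw i) j) hxS k
      have e2 : ∑ j, ∑ k, ph k (fun y => a j k y * ph j (w i) y) x =
          ∑ j, ∑ k, ph k (a j k) x * ph j (w i) x +
            ∑ j, ∑ k, a j k x * ph j (ph k (w i)) x := by
        have e3 : ∑ j, ∑ k, a j k x * ph k (ph j (w i)) x =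
            ∑ j, ∑ k, a j k x * ph j (ph k (w i)) x := by
          rw [Finset.sum_comm]
          refine Finset.sum_congr rfl fun j _ => Finset.sum_congr rfl fun k _ => ?_
          rw [hs k j x hxS]
        rw [← e3, ← Finset.sum_add_distrib]
        refine Finset.sum_congr rfl fun j _ => ?_
        rw [← Finset.sum_add_distrib]
        exact Finset.sum_congr rfl fun k _ => e1 j k
      rw [e2]
      exact su_sum_bound (A := fun _ _ => 0) (P := fun j k => ph k (a j k) x)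
        (w := fun l => w l x) (Dw := fun l k => ph k (w l) x) i
        (hCρ x (Metric.ball_subset_ball hRρ.le hx) h i) (fun j k => hM x hx h j k) hM0
    · simp only [zx, Set.indicator_of_notMem h]
      simp only [Finset.sum_const_zero, neg_zero, abs_zero, add_zero, mul_zero, Std.le_refl]
  -- the touching ball below the boundary
  set y : V d := z - EuclideanSpace.single 0 1 with hy
  have hyz : y ≠ z := by
    intro h
    have h1 := congrArg (fun x : V d => x 0) h
    simp [hy] at h1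
  have hdist : dist z y = 1 := by
    rw [dist_eq_norm, hy]
    simp
  obtain ⟨s, hs0, hsR, hsz⟩ := touch hga hR hws (Eventually.of_forall hF) hyz
    (Eventually.of_forall fun x _ hx i => by
      rw [hdist, Metric.mem_ball, dist_eq_norm] at hx
      have h1 : |(x - y) 0| ≤ ‖x - y‖ := by
        have := PiLp.norm_apply_le (p := 2) (x - y) 0
        simpa only [PiLp.sub_apply, ge_iff_le, Real.norm_eq_abs] using this
      have h2 : (x - y) 0 = x 0 + 1 := by
        simp only [hy, PiLp.sub_apply, hz, PiLp.single_eq_same, zero_sub, sub_neg_eq_add]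
      rw [h2] at h1
      have h3 : ¬ (0 ≤ x 0) := by
        intro h4
        rw [abs_of_nonneg (by (clear hz r hr a ha hs hp w hw hb h0 hzS a' hga hr' hr'r haa C hC hρ hCρ hRdef hmin hR hRr hRρ hRr2 M hM0 hM hws hF y hy hyz hdist hx i h1 h2; linarith))] at h1
        (clear hz r hr a ha hs hp w hw hb h0 hzS a' hga hr' hr'r haa C hC hρ hCρ hRdef hmin hR hRr hRρ hRr2 M hM0 hM hws hF hy hyz hdist i h2; linarith)
      have h5 : x ∉ {x : V d | 0 ≤ x 0} := h3
      exact Set.indicator_of_notMem h5 _)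
  have hsr : s < r := hsR.trans_lt hRr2
  -- the open part
  have hzero : ∀ x ∈ Metric.ball z s ∩ {x : V d | 0 < x 0}, ∀ i, w i x = 0 := by
    intro x hx i
    refine su_zero_of_ae (O := Metric.ball z s ∩ {x : V d | 0 < x 0})
      (Metric.isOpen_ball.inter su_P_open) ((hw i).continuousOn.mono ?_) ?_ x hx
    · intro u hu
      exact ⟨Metric.ball_subset_ball hsr.le hu.1, su_PH hu.2⟩
    · filter_upwards [hsz] with u hu hu'
      have h1 := hu hu'.1 i
      have h2 : u ∈ {x : V d | 0 ≤ x 0} := su_PH hu'.2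
      rwa [zx, Set.indicator_of_mem h2] at h1
  have hUS : Metric.ball z r ∩ {x : V d | 0 < x 0} ⊆ Metric.ball z r ∩ {x : V d | 0 ≤ x 0} :=
    fun u hu => ⟨hu.1, su_PH hu.2⟩
  have hopen : ∀ x ∈ Metric.ball z r ∩ {x : V d | 0 < x 0}, ∀ i, w i x = 0 := by
    refine smooth_ucp (U := Metric.ball z r ∩ {x : V d | 0 < x 0}) (a := a)
      (O := Metric.ball z s ∩ {x : V d | 0 < x 0})
      (Metric.isOpen_ball.inter su_P_open)
      (((convex_ball z r).inter su_P_convex).isPreconnected)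
      (fun j k => (ha j k).mono hUS) (fun j k x hx => hs j k x (hUS hx))
      (fun x hx => hp x (hUS hx)) (fun i => (hw i).mono hUS) ?_
      (Metric.isOpen_ball.inter su_P_open)
      (Set.inter_subset_inter_left _ (Metric.ball_subset_ball hsr.le)) ?_ hzero
    · intro x hx
      obtain ⟨C', hC'⟩ := hb x (hUS hx)
      refine ⟨C', ?_⟩
      have hnh : {x : V d | 0 ≤ x 0} ∈ 𝓝 x :=
        Filter.mem_of_superset (su_P_open.mem_nhds hx.2) fun u hu => su_PH hu
      rw [nhdsWithin_eq_nhds.2 hnh] at hC'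
      filter_upwards [hC', su_P_open.mem_nhds hx.2] with u hu hu0 i
      have h1 := hu i
      simp_rw [su_ph_pa2 hu0, su_ph_pa hu0] at h1
      exact h1
    · refine ⟨z + EuclideanSpace.single 0 (s / 2), ?_, ?_⟩
      · rw [Metric.mem_ball, dist_eq_norm]
        simp only [add_sub_cancel_left, EuclideanSpace.norm_single, Real.norm_eq_abs]
        rw [abs_of_pos (by linarith only [hs0])]
        linarith only [hs0]
      · simp [hz, hs0]
  intro x hx i
  rcases (show 0 ≤ x 0 from hx.2).eq_or_lt with h | h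
  · exact (h0 x hx.1 h.symm i).1
  · exact hopen x ⟨hx.1, h⟩ i

end Vale.Agent.P088.A
end

section

/-!
P088-EYM-A16: unique continuation for sequences of asymptotic solutions.
-/

set_option linter.all false

open MeasureTheory Filter Topology
open scoped ContDiff ENNReal

namespace Vale.Agent.P088.A

variable {d : ℕ}

/-- the square integrals over `S` tend to zero -/
def se_T (f : ℕ → V d → ℝ) (S : Set (V d)) : Prop :=
  Tendsto (fun m => ∫⁻ x in S, ENNReal.ofReal (f m x ^ 2)) atTop (𝓝 0)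

theorem se_T_mono {f : ℕ → V d → ℝ} {S S' : Set (V d)} (h : se_T f S) (hS : S' ⊆ S) :
    se_T f S' :=
  tendsto_of_tendsto_of_tendsto_of_le_of_le tendsto_const_nhds h (fun _ => bot_le)
    (fun m => lintegral_mono_set hS)

theorem se_T_union {f : ℕ → V d → ℝ} {S S' : Set (V d)} (h : se_T f S) (h' : se_T f S') :
    se_T f (S ∪ S') := by
  have h1 := Tendsto.add h h'
  rw [add_zero] at h1
  exact tendsto_of_tendsto_of_tendsto_of_le_of_le tendsto_const_nhds h1 (fun _ => bot_le)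
    (fun m => lintegral_union_le _ _ _)

theorem se_T_iff {f : ℕ → V d → ℝ} {S : Set (V d)}
    (hf : ∀ m, IntegrableOn (fun x => f m x ^ 2) S) :
    se_T f S ↔ Tendsto (fun m => ∫ x in S, f m x ^ 2) atTop (𝓝 0) := by
  have h1 : ∀ m, ∫⁻ x in S, ENNReal.ofReal (f m x ^ 2) = ENNReal.ofReal (∫ x in S, f m x ^ 2) :=
    fun m => (ofReal_integral_eq_lintegral_ofReal (hf m)
      (Eventually.of_forall fun x => sq_nonneg _)).symm
  have h0 : ∀ m, 0 ≤ ∫ x in S, f m x ^ 2 := fun m => integral_nonneg fun x => sq_nonneg _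
  unfold se_T
  simp only [h1]
  constructor
  · intro h
    have h2 := (ENNReal.tendsto_toReal ENNReal.zero_ne_top).comp h
    simp only [ENNReal.toReal_zero] at h2
    refine h2.congr fun m => ?_
    exact ENNReal.toReal_ofReal (h0 m)
  · intro h
    have h2 := ENNReal.tendsto_ofReal h
    rwa [ENNReal.ofReal_zero] at h2

theorem se_T_zero {f : ℕ → V d → ℝ} {g : V d → ℝ} {S : Set (V d)} (h : se_T f S)
    (h' : se_T (fun m x => f m x - g x) S) (hf : ∀ m, AEMeasurable (f m) (volume.restrict S))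
    (hg : AEMeasurable g (volume.restrict S)) : ∀ᵐ x ∂(volume.restrict S), g x = 0 := by
  have h1 : ∀ m, ∫⁻ x in S, ENNReal.ofReal (g x ^ 2) ≤
      2 * (∫⁻ x in S, ENNReal.ofReal (f m x ^ 2)) +
        2 * (∫⁻ x in S, ENNReal.ofReal ((f m x - g x) ^ 2)) := by
    intro m
    have e1 : AEMeasurable (fun x => ENNReal.ofReal (f m x ^ 2)) (volume.restrict S) :=
      ((hf m).pow_const 2).ennreal_ofReal
    have e2 : AEMeasurable (fun x => ENNReal.ofReal ((f m x - g x) ^ 2)) (volume.restrict S) :=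
      (((hf m).sub hg).pow_const 2).ennreal_ofReal
    rw [← lintegral_const_mul'' 2 e1, ← lintegral_const_mul'' 2 e2,
      ← lintegral_add_left' (e1.const_mul 2)]
    refine lintegral_mono fun x => ?_
    rw [← ENNReal.ofReal_ofNat, ← ENNReal.ofReal_mul (by norm_num),
      ← ENNReal.ofReal_mul (by norm_num), ← ENNReal.ofReal_add (by (clear * -; positivity)) (by (clear * -; positivity))]
    refine ENNReal.ofReal_le_ofReal ?_
    nlinarith only [sq_nonneg (f m x + (f m x - g x))]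
  have h2 : Tendsto (fun m => 2 * (∫⁻ x in S, ENNReal.ofReal (f m x ^ 2)) +
        2 * (∫⁻ x in S, ENNReal.ofReal ((f m x - g x) ^ 2))) atTop (𝓝 (2 * 0 + 2 * 0)) :=
    (ENNReal.Tendsto.const_mul (a := 2) h (Or.inr ENNReal.ofNat_ne_top)).add
      (ENNReal.Tendsto.const_mul (a := 2) h' (Or.inr ENNReal.ofNat_ne_top))
  rw [mul_zero, add_zero] at h2
  have h3 : ∫⁻ x in S, ENNReal.ofReal (g x ^ 2) = 0 :=
    le_antisymm (ge_of_tendsto' h2 h1) bot_le
  rw [lintegral_eq_zero_iff' (hg.pow_const 2).ennreal_ofReal] at h3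
  filter_upwards [h3] with x hx
  have h4 : ENNReal.ofReal (g x ^ 2) = 0 := hx
  rw [ENNReal.ofReal_eq_zero] at h4
  exact pow_eq_zero_iff (two_ne_zero) |>.1 (le_antisymm h4 (sq_nonneg _))

theorem se_T_of_zero {f : ℕ → V d → ℝ} {g : V d → ℝ} {S : Set (V d)}
    (h' : se_T (fun m x => f m x - g x) S) (hg : ∀ᵐ x ∂(volume.restrict S), g x = 0) :
    se_T f S := by
  refine Tendsto.congr (fun m => lintegral_congr_ae ?_) h'
  filter_upwards [hg] with x hx
  rw [hx, sub_zero]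

theorem se_local {S : Set (V d)} {p : V d → Prop}
    (h : ∀ x ∈ S, ∃ t > 0, ∀ᵐ y, y ∈ Metric.ball x t → p y) : ∀ᵐ x, x ∈ S → p x := by
  rw [ae_iff]
  refine measure_null_of_locally_null _ fun x hx => ?_
  simp only [Classical.not_imp, Set.mem_setOf_eq] at hx
  obtain ⟨t, ht, h1⟩ := h x hx.1
  refine ⟨{x | ¬(x ∈ S → p x)} ∩ Metric.ball x t, ?_, ?_⟩
  · exact inter_mem_nhdsWithin _ (Metric.ball_mem_nhds x ht)
  · rw [ae_iff] at h1
    refine measure_mono_null ?_ h1
    rintro y ⟨hy2, hy1⟩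
    simp only [Classical.not_imp, Set.mem_setOf_eq] at hy2 ⊢
    exact ⟨hy1, hy2.2⟩

theorem se_pa_cont {U : Set (V d)} (hU : IsOpen U) {f : V d → ℝ} (hf : ContDiffOn ℝ 1 f U)
    (k : Fin d) : ContinuousOn (pa k f) U :=
  (hf.continuousOn_fderiv_of_isOpen hU le_rfl).clm_apply continuousOn_const

theorem se_mul_cont {U : Set (V d)} (hU : IsOpen U) {f φ : V d → ℝ} (hf : ContinuousOn f U)
    (hφ : Continuous φ) (hs : tsupport φ ⊆ U) : Continuous fun x => f x * φ x := by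
  refine continuous_of_tsupport fun x hx => ?_
  have hx' : x ∈ U := hs (closure_mono (Function.support_mul_subset_right f φ) hx)
  exact (hf.continuousAt (hU.mem_nhds hx')).mul hφ.continuousAt

theorem se_grad {U : Set (V d)} (hU : IsOpen U) {f : V d → ℝ} (hf : ContDiffOn ℝ 1 f U)
    {φ : V d → ℝ} (hφ : TF U φ) (k : Fin d) :
    ∫ x, f x * pa k φ x = - ∫ x, pa k f x * φ x := by
  have hφ1 : ContDiff ℝ 1 φ := hφ.1.of_le (by norm_cast)
  have hF : ContDiff ℝ 1 fun x => f x * φ x := by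
    rw [contDiff_iff_contDiffAt]
    intro x
    by_cases hx : x ∈ tsupport φ
    · exact (hf.contDiffAt (hU.mem_nhds (hφ.2.2 hx))).mul hφ1.contDiffAt
    · have e1 : φ =ᶠ[𝓝 x] fun _ => 0 := notMem_tsupport_iff_eventuallyEq.1 hx
      have e2 : (fun x => f x * φ x) =ᶠ[𝓝 x] fun _ => (0 : ℝ) := by
        filter_upwards [e1] with y hy
        rw [hy, mul_zero]
      exact contDiffAt_const.congr_of_eventuallyEq e2
  have hFc : HasCompactSupport fun x => f x * φ x := hφ.2.1.mul_left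
  have h0 := integral_pa_eq_zero hF hFc k
  have h1 : ∀ x, pa k (fun x => f x * φ x) x = pa k f x * φ x + f x * pa k φ x := by
    intro x
    by_cases hx : x ∈ U
    · exact pa_mul ((hf.contDiffAt (hU.mem_nhds hx)).differentiableAt (by norm_num))
        (hφ1.differentiable (by norm_num) x) k
    · have hx' : x ∉ tsupport φ := fun h => hx (hφ.2.2 h)
      have e1 : φ =ᶠ[𝓝 x] fun _ => 0 := notMem_tsupport_iff_eventuallyEq.1 hx'
      have e2 : (fun x => f x * φ x) =ᶠ[𝓝 x] fun _ => 0 := by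
        filter_upwards [e1] with y hy
        rw [hy, mul_zero]
      rw [pa_congr e2, pa_congr e1, pa_const, e1.eq_of_nhds]
      ring
  simp only [h1] at h0
  have hcs : HasCompactSupport (pa k φ) := pa_hasCompactSupport hφ.2.1 k
  have hc1 : Integrable fun x => pa k f x * φ x :=
    int_cc (se_mul_cont hU (se_pa_cont hU hf k) hφ1.continuous hφ.2.2) hφ.2.1.mul_left
  have hc2 : Integrable fun x => f x * pa k φ x :=
    int_cc (se_mul_cont hU hf.continuousOn (pa_continuous hφ1 k)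
      ((tsupport_pa_subset φ k).trans hφ.2.2)) hcs.mul_left
  rw [integral_add hc1 hc2] at h0
  linarith only [h0]

theorem se_memLp {B K : Set (V d)} (hB : MeasurableSet B) (hK : IsCompact K) (hBK : B ⊆ K)
    {f : V d → ℝ} (hf : ContinuousOn f K) : MemLp f 2 (volume.restrict B) := by
  haveI : IsFiniteMeasure (volume.restrict B) :=
    ⟨by rw [Measure.restrict_apply_univ]
        exact (measure_mono hBK).trans_lt hK.measure_lt_top⟩
  obtain ⟨C, hC⟩ := hK.exists_bound_of_continuousOn hf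
  exact MemLp.of_bound ((hf.mono hBK).aestronglyMeasurable hB) C
    ((ae_restrict_iff' hB).2 (Eventually.of_forall fun x hx => hC x (hBK hx)))

theorem se_sq_int {B K : Set (V d)} (hB : MeasurableSet B) (hK : IsCompact K) (hBK : B ⊆ K)
    {f : V d → ℝ} (hf : ContinuousOn f K) : IntegrableOn (fun x => f x ^ 2) B :=
  (se_memLp hB hK hBK hf).integrable_sq

/-- the points near which the square integrals tend to zero -/
def se_Z {ι : Type*} (U : Set (V d)) (w : ℕ → ι → V d → ℝ) : Set (V d) :=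
  {x | ∃ s > 0, Metric.closedBall x s ⊆ U ∧ ∀ i, se_T (fun m => w m i) (Metric.ball x s)}

theorem se_Z_open {ι : Type*} (U : Set (V d)) (w : ℕ → ι → V d → ℝ) : IsOpen (se_Z U w) := by
  rw [Metric.isOpen_iff]
  rintro x ⟨s, hs, h1, h2⟩
  refine ⟨s, hs, fun y hy => ?_⟩
  have hy' : 0 < s - dist y x := by
    rw [Metric.mem_ball] at hy; linarith
  have h3 : Metric.closedBall y ((s - dist y x) / 2) ⊆ Metric.ball x s := by
    intro u hu
    rw [Metric.mem_closedBall] at hu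
    rw [Metric.mem_ball]
    have := dist_triangle u y x
    linarith only [hy', hu, this]
  exact ⟨(s - dist y x) / 2, by linarith only [hy'], h3.trans (Metric.ball_subset_closedBall.trans h1),
    fun i => se_T_mono (h2 i) (Metric.ball_subset_closedBall.trans h3)⟩

theorem se_touch {ι : Type*} [Fintype ι] {U : Set (V d)} (hU : IsOpen U)
    {a : Fin d → Fin d → V d → ℝ}
    (ha : ∀ j k, ContDiffOn ℝ 2 (a j k) U) (hs : ∀ j k, ∀ x ∈ U, a j k x = a k j x)
    (hp : ∀ x ∈ U, ∀ ξ : Fin d → ℝ, ξ ≠ 0 → 0 < ∑ j, ∑ k, a j k x * ξ j * ξ k)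
    {Q : Fin d → ι → ι → V d → ℝ} (hQ : ∀ k i l, ContinuousOn (Q k i l) U)
    {Rc : ι → ι → V d → ℝ} (hRc : ∀ i l, ContinuousOn (Rc i l) U)
    {w : ℕ → ι → V d → ℝ} (hw : ∀ m i, ContDiffOn ℝ 1 (w m i) U)
    (hC : ∀ K, IsCompact K → K ⊆ U → ∀ ε > 0, ∃ M, ∀ m ≥ M, ∀ m' ≥ M, ∀ i,
      ∫ x in K, ((w m i x - w m' i x) ^ 2 + ∑ k, (pa k (w m i) x - pa k (w m' i) x) ^ 2) ≤ ε)
    (heq : ∀ i φ, TF U φ → Tendsto (fun m => ∫ x,
      ((∑ j, ∑ k, a j k x * pa j (w m i) x * pa k φ x)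
        + (∑ k, ∑ l, Q k i l x * pa k (w m l) x) * φ x
        + (∑ l, Rc i l x * w m l x) * φ x)) atTop (𝓝 0))
    {x₀ : V d} (hx : x₀ ∈ U) {y : V d} (hy : y ≠ x₀)
    (hZ : Metric.ball y (dist x₀ y) ⊆ se_Z U w) : x₀ ∈ se_Z U w := by
  obtain ⟨a', ha', r, hr, hrU, haa⟩ := loc_coef hU ha hs hp hx
  set R := r / 2 with hR
  have hR0 : 0 < R := by positivity
  have hKr : Metric.closedBall x₀ R ⊆ Metric.ball x₀ r :=
    Metric.closedBall_subset_ball (by rw [hR]; (clear * - hr; linarith))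
  have hKU : Metric.closedBall x₀ R ⊆ U := hKr.trans hrU
  have hK : IsCompact (Metric.closedBall x₀ R) := isCompact_closedBall x₀ R
  have hBK : Metric.ball x₀ R ⊆ Metric.closedBall x₀ R := Metric.ball_subset_closedBall
  have hBm : MeasurableSet (Metric.ball x₀ R) := measurableSet_ball
  have hwc : ∀ m i, ContinuousOn (w m i) (Metric.closedBall x₀ R) :=
    fun m i => (hw m i).continuousOn.mono hKU
  have hpc : ∀ m i k, ContinuousOn (pa k (w m i)) (Metric.closedBall x₀ R) :=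
    fun m i k => (se_pa_cont hU (hw m i) k).mono hKU
  obtain ⟨w', Dw', F', C, h1, h2, h3⟩ := lim_WS (a := a') (B := Metric.ball x₀ R)
    Metric.isOpen_ball Metric.isBounded_ball
    (fun j k => by
      obtain ⟨M, hM⟩ := hK.exists_bound_of_continuousOn (ha'.smooth j k).continuous.continuousOn
      exact ⟨M, fun x hx => hM x (hBK hx)⟩)
    (fun j k => (ha'.smooth j k).continuous.aestronglyMeasurable)
    (Q := Q) (Rc := Rc)
    (fun k i l => by
      obtain ⟨M, hM⟩ := hK.exists_bound_of_continuousOn ((hQ k i l).mono hKU)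
      exact ⟨M, fun x hx => hM x (hBK hx)⟩)
    (fun k i l => ((hQ k i l).mono (hBK.trans hKU)).aestronglyMeasurable hBm)
    (fun i l => by
      obtain ⟨M, hM⟩ := hK.exists_bound_of_continuousOn ((hRc i l).mono hKU)
      exact ⟨M, fun x hx => hM x (hBK hx)⟩)
    (fun i l => ((hRc i l).mono (hBK.trans hKU)).aestronglyMeasurable hBm)
    (f := w) (Df := fun m i k => pa k (w m i))
    (fun m i => se_memLp hBm hK hBK (hwc m i))
    (fun m i k => se_memLp hBm hK hBK (hpc m i k))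
    (fun m i k φ hφ => se_grad Metric.isOpen_ball ((hw m i).mono (hBK.trans hKU)) hφ k)
    (fun ε hε => by
      obtain ⟨M, hM⟩ := hC _ hK hKU ε hε
      refine ⟨M, fun m hm m' hm' i => le_trans ?_ (hM m hm m' hm' i)⟩
      refine setIntegral_mono_set ?_ ?_ (Eventually.of_forall hBK)
      · refine ContinuousOn.integrableOn_compact hK ?_
        refine (((hwc m i).sub (hwc m' i)).pow 2).add ?_
        exact continuousOn_finsetSum _ fun k _ => ((hpc m i k).sub (hpc m' i k)).pow 2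
      · exact Eventually.of_forall fun x => by (clear * -; positivity))
    (fun i φ hφ => by
      have hφU : TF U φ := ⟨hφ.1, hφ.2.1, hφ.2.2.trans (hBK.trans hKU)⟩
      refine (heq i φ hφU).congr fun m => ?_
      rw [← setIntegral_eq_integral_of_forall_compl_eq_zero (s := Metric.ball x₀ R)]
      · refine setIntegral_congr_fun hBm fun x hx => ?_
        simp only [haa x (hKr (hBK hx))]
      · intro x hx
        have hx' : x ∉ tsupport φ := fun h => hx (hφ.2.2 h)
        have e1 : φ x = 0 := image_eq_zero_of_notMem_tsupport hx'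
        have e2 : ∀ k, pa k φ x = 0 := fun k =>
          image_eq_zero_of_notMem_tsupport fun h => hx' (tsupport_pa_subset φ k h)
        simp only [e2, mul_zero, Finset.sum_const_zero, e1, add_zero])
  -- convergence in the lintegral form
  have hT : ∀ i, se_T (fun m x => w m i x - w' i x) (Metric.ball x₀ R) := by
    intro i
    rw [se_T_iff]
    · exact h3 i
    · intro m
      exact ((se_memLp hBm hK hBK (hwc m i)).sub (h1 i).w_L2).integrable_sq
  have hmf : ∀ {S : Set (V d)}, MeasurableSet S → S ⊆ Metric.ball x₀ R → ∀ m i,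
      AEMeasurable (w m i) (volume.restrict S) := fun hS hSB m i =>
    (((hwc m i).mono (hSB.trans hBK)).aestronglyMeasurable hS).aemeasurable
  have hmg : ∀ {S : Set (V d)}, S ⊆ Metric.ball x₀ R → ∀ i,
      AEMeasurable (w' i) (volume.restrict S) := fun hSB i =>
    ((h1 i).w_L2.aestronglyMeasurable.mono_measure (Measure.restrict_mono hSB le_rfl)).aemeasurable
  have hlens : ∀ᵐ x, x ∈ Metric.ball x₀ R ∩ Metric.ball y (dist x₀ y) → ∀ i, w' i x = 0 := by
    refine se_local fun x hx' => ?_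
    obtain ⟨s, hs0, -, hs2⟩ := hZ hx'.2
    obtain ⟨t, ht0, ht⟩ := Metric.isOpen_iff.1
      ((Metric.isOpen_ball (x := x₀) (ε := R)).inter (Metric.isOpen_ball (x := x) (ε := s))) x
      ⟨hx'.1, Metric.mem_ball_self hs0⟩
    refine ⟨t, ht0, ?_⟩
    have h4 : ∀ i, ∀ᵐ u ∂(volume.restrict (Metric.ball x t)), w' i u = 0 := fun i =>
      se_T_zero (se_T_mono (hs2 i) (ht.trans Set.inter_subset_right))
        (se_T_mono (hT i) (ht.trans Set.inter_subset_left))
        (fun m => hmf measurableSet_ball (ht.trans Set.inter_subset_left) m i)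
        (hmg (ht.trans Set.inter_subset_left) i)
    have h5 := ae_all_iff.2 h4
    rw [ae_restrict_iff' measurableSet_ball] at h5
    exact h5
  obtain ⟨r', hr', hr'R, h6⟩ := touch ha' hR0 h1 h2 hy (by
    filter_upwards [hlens] with x hx1 hx2 hx3
    exact hx1 ⟨hx2, hx3⟩)
  refine ⟨r', hr', (Metric.closedBall_subset_closedBall hr'R).trans hKU, fun i => ?_⟩
  refine se_T_of_zero (se_T_mono (hT i) (Metric.ball_subset_ball hr'R)) ?_
  rw [ae_restrict_iff' measurableSet_ball]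
  filter_upwards [h6] with x hx1 hx2
  exact hx1 hx2 i

theorem seq_ucp {ι : Type*} [Fintype ι] {U : Set (V d)} (hU : IsOpen U)
    (hc : IsPreconnected U) {a : Fin d → Fin d → V d → ℝ}
    (ha : ∀ j k, ContDiffOn ℝ 2 (a j k) U) (hs : ∀ j k, ∀ x ∈ U, a j k x = a k j x)
    (hp : ∀ x ∈ U, ∀ ξ : Fin d → ℝ, ξ ≠ 0 → 0 < ∑ j, ∑ k, a j k x * ξ j * ξ k)
    {Q : Fin d → ι → ι → V d → ℝ} (hQ : ∀ k i l, ContinuousOn (Q k i l) U)
    {Rc : ι → ι → V d → ℝ} (hRc : ∀ i l, ContinuousOn (Rc i l) U)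
    {w : ℕ → ι → V d → ℝ} (hw : ∀ m i, ContDiffOn ℝ 1 (w m i) U)
    (hC : ∀ K, IsCompact K → K ⊆ U → ∀ ε > 0, ∃ M, ∀ m ≥ M, ∀ m' ≥ M, ∀ i,
      ∫ x in K, ((w m i x - w m' i x) ^ 2 + ∑ k, (pa k (w m i) x - pa k (w m' i) x) ^ 2) ≤ ε)
    (heq : ∀ i φ, TF U φ → Tendsto (fun m => ∫ x,
      ((∑ j, ∑ k, a j k x * pa j (w m i) x * pa k φ x)
        + (∑ k, ∑ l, Q k i l x * pa k (w m l) x) * φ x
        + (∑ l, Rc i l x * w m l x) * φ x)) atTop (𝓝 0))
    {z : V d} {r : ℝ} (hr : 0 < r) (hb : Metric.closedBall z r ⊆ U)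
    (h0 : ∀ i, Tendsto (fun m => ∫ x in Metric.ball z r, w m i x ^ 2) atTop (𝓝 0)) :
    ∀ K, IsCompact K → K ⊆ U → ∀ i,
      Tendsto (fun m => ∫ x in K, w m i x ^ 2) atTop (𝓝 0) := by
  have hZU : se_Z U w ⊆ U := by
    rintro x ⟨s, hs0, h1, -⟩
    exact h1 (Metric.mem_closedBall_self hs0.le)
  have hz : z ∈ se_Z U w := by
    refine ⟨r, hr, hb, fun i => ?_⟩
    rw [se_T_iff]
    · exact h0 i
    · intro m
      exact se_sq_int measurableSet_ball (isCompact_closedBall z r)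
        Metric.ball_subset_closedBall ((hw m i).continuousOn.mono hb)
  have hZ : se_Z U w = U := spread hU hc (se_Z_open U w) hZU ⟨z, hz⟩
    fun x₀ hx₀ y hy hyZ => se_touch hU ha hs hp hQ hRc hw hC heq hx₀ hy hyZ
  intro K hK hKU i
  rw [← se_T_iff fun m => se_sq_int hK.measurableSet hK subset_rfl
    ((hw m i).continuousOn.mono hKU)]
  refine hK.induction_on (p := fun S => se_T (fun m => w m i) S) ?_
    (fun S S' hSS h => se_T_mono h hSS) (fun S S' h h' => se_T_union h h') ?_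
  · unfold se_T
    simp only [Measure.restrict_empty, lintegral_zero_measure]
    exact tendsto_const_nhds
  · intro x hx
    have hxZ : x ∈ se_Z U w := by rw [hZ]; exact hKU hx
    obtain ⟨s, hs0, -, h2⟩ := hxZ
    exact ⟨Metric.ball x s, mem_nhdsWithin_of_mem_nhds (Metric.ball_mem_nhds x hs0), h2 i⟩

theorem se_coord [NeZero d] : Continuous fun x : V d => x 0 :=
  (EuclideanSpace.proj (𝕜 := ℝ) (0 : Fin d)).continuous

theorem se_Hclosed [NeZero d] : IsClosed {x : V d | 0 ≤ x 0} :=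
  isClosed_le continuous_const se_coord

theorem se_Hud [NeZero d] : UniqueDiffOn ℝ {x : V d | 0 ≤ x 0} := by
  refine uniqueDiffOn_convex ?_ ?_
  · intro x hx y hy a b ha hb _
    have hx' : 0 ≤ x 0 := hx
    have hy' : 0 ≤ y 0 := hy
    change 0 ≤ (a • x + b • y) 0
    simp only [PiLp.add_apply, PiLp.smul_apply, smul_eq_mul]
    positivity
  · refine ⟨EuclideanSpace.single 0 1, interior_maximal (s := {x : V d | 0 ≤ x 0})
      (t := {x : V d | 0 < x 0}) (fun x hx => ?_) (isOpen_lt continuous_const se_coord) ?_⟩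
    · exact le_of_lt (show 0 < x 0 from hx)
    · change 0 < (EuclideanSpace.single (0 : Fin d) (1 : ℝ)) 0
      simp only [PiLp.single_eq_same, zero_lt_one]

theorem se_ph_cont [NeZero d] {z : V d} {r : ℝ} {f : V d → ℝ}
    (hf : ContDiffOn ℝ 1 f (Metric.ball z r ∩ {x | 0 ≤ x 0})) (k : Fin d) :
    ContinuousOn (ph k f) (Metric.ball z r ∩ {x | 0 ≤ x 0}) := by
  rw [Set.inter_comm] at hf ⊢
  have h1 : UniqueDiffOn ℝ ({x : V d | 0 ≤ x 0} ∩ Metric.ball z r) :=
    se_Hud.inter Metric.isOpen_ball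
  have h2 := (hf.continuousOn_fderivWithin h1 le_rfl).clm_apply
    (continuousOn_const (c := EuclideanSpace.single k (1 : ℝ)))
  refine h2.congr fun x hx => ?_
  have e := fderivWithin_inter (𝕜 := ℝ) (f := f) (s := {x : V d | 0 ≤ x 0})
    (Metric.isOpen_ball.mem_nhds hx.2)
  change (fderivWithin ℝ f {x : V d | 0 ≤ x 0} x) (EuclideanSpace.single k 1) =
    (fderivWithin ℝ f ({x : V d | 0 ≤ x 0} ∩ Metric.ball z r) x) (EuclideanSpace.single k 1)
  rw [e]

theorem se_zx_memLp [NeZero d] {B K : Set (V d)} (hB : MeasurableSet B) (hK : IsCompact K)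
    (hBK : B ∩ {x | 0 ≤ x 0} ⊆ K) {f : V d → ℝ} (hf : ContinuousOn f K) :
    MemLp (zx f) 2 (volume.restrict B) := by
  unfold zx
  rw [memLp_indicator_iff_restrict se_Hclosed.measurableSet,
    Measure.restrict_restrict se_Hclosed.measurableSet, Set.inter_comm]
  exact se_memLp (hB.inter se_Hclosed.measurableSet) hK hBK hf

theorem se_zx_meas [NeZero d] {B K : Set (V d)} (hB : MeasurableSet B)
    (hBK : B ∩ {x | 0 ≤ x 0} ⊆ K) {f : V d → ℝ} (hf : ContinuousOn f K) :
    AEStronglyMeasurable (zx f) (volume.restrict B) := by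
  unfold zx
  rw [aestronglyMeasurable_indicator_iff se_Hclosed.measurableSet,
    Measure.restrict_restrict se_Hclosed.measurableSet, Set.inter_comm]
  exact (hf.mono hBK).aestronglyMeasurable (hB.inter se_Hclosed.measurableSet)

theorem se_zx_bd [NeZero d] {B K : Set (V d)} (hK : IsCompact K)
    (hBK : B ∩ {x | 0 ≤ x 0} ⊆ K) {f : V d → ℝ} (hf : ContinuousOn f K) :
    ∃ M, ∀ x ∈ B, |zx f x| ≤ M := by
  obtain ⟨M, hM⟩ := hK.exists_bound_of_continuousOn hf
  refine ⟨max M 0, fun x hx => ?_⟩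
  unfold zx
  by_cases h : x ∈ {x : V d | 0 ≤ x 0}
  · rw [Set.indicator_of_mem h]
    exact (hM x (hBK ⟨hx, h⟩)).trans (le_max_left _ _)
  · rw [Set.indicator_of_notMem h, abs_zero]
    exact le_max_right _ _

theorem seq_half [NeZero d] {ι : Type*} [Fintype ι] {z : V d} (hz : z 0 = 0) {r : ℝ} (hr : 0 < r)
    {a : Fin d → Fin d → V d → ℝ}
    (ha : ∀ j k, ContDiffOn ℝ 2 (a j k) (Metric.ball z r ∩ {x | 0 ≤ x 0}))
    (hs : ∀ j k, ∀ x ∈ Metric.ball z r ∩ {x | 0 ≤ x 0}, a j k x = a k j x)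
    (hp : ∀ x ∈ Metric.ball z r ∩ {x | 0 ≤ x 0}, ∀ ξ : Fin d → ℝ, ξ ≠ 0 →
      0 < ∑ j, ∑ k, a j k x * ξ j * ξ k)
    {Q : Fin d → ι → ι → V d → ℝ}
    (hQ : ∀ k i l, ContinuousOn (Q k i l) (Metric.ball z r ∩ {x | 0 ≤ x 0}))
    {Rc : ι → ι → V d → ℝ}
    (hRc : ∀ i l, ContinuousOn (Rc i l) (Metric.ball z r ∩ {x | 0 ≤ x 0}))
    {w : ℕ → ι → V d → ℝ}
    (hw : ∀ m i, ContDiffOn ℝ 1 (w m i) (Metric.ball z r ∩ {x | 0 ≤ x 0}))
    (hw0 : ∀ m i, ∀ x ∈ Metric.ball z r, x 0 = 0 → w m i x = 0)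
    (hC : ∀ K, IsCompact K → K ⊆ Metric.ball z r ∩ {x | 0 ≤ x 0} →
      ∀ ε > 0, ∃ M, ∀ m ≥ M, ∀ m' ≥ M, ∀ i,
      ∫ x in K, ((w m i x - w m' i x) ^ 2 + ∑ k, (ph k (w m i) x - ph k (w m' i) x) ^ 2) ≤ ε)
    (heq : ∀ i φ, TF (Metric.ball z r) φ →
      Tendsto (fun m => ∫ x in Metric.ball z r ∩ {x | 0 ≤ x 0},
      ((∑ j, ∑ k, a j k x * ph j (w m i) x * pa k φ x)
        + (∑ k, ∑ l, Q k i l x * ph k (w m l) x) * φ x
        + (∑ l, Rc i l x * w m l x) * φ x)) atTop (𝓝 0)) :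
    ∃ r' > 0, r' ≤ r ∧ ∀ i, Tendsto (fun m =>
      ∫ x in Metric.ball z r' ∩ {x | 0 ≤ x 0}, w m i x ^ 2) atTop (𝓝 0) := by
  obtain ⟨a', ha', r₁, hr₁, hr₁r, haa⟩ := refl_coef hz hr ha hs hp
  set H : Set (V d) := {x | 0 ≤ x 0} with hH
  have hHm : MeasurableSet H := se_Hclosed.measurableSet
  set R := r₁ / 2 with hR
  have hR0 : 0 < R := by (clear * - hr₁; positivity)
  have hKr : Metric.closedBall z R ⊆ Metric.ball z r₁ :=
    Metric.closedBall_subset_ball (by rw [hR]; linarith only [hr₁])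
  have hrr : Metric.ball z r₁ ⊆ Metric.ball z r := Metric.ball_subset_ball hr₁r
  set K : Set (V d) := Metric.closedBall z R ∩ H with hKdef
  have hK : IsCompact K := (isCompact_closedBall z R).inter_right se_Hclosed
  have hKU : K ⊆ Metric.ball z r ∩ H := Set.inter_subset_inter_left _ (hKr.trans hrr)
  have hBc : Metric.ball z R ⊆ Metric.closedBall z R := Metric.ball_subset_closedBall
  have hBK : Metric.ball z R ∩ H ⊆ K := Set.inter_subset_inter_left _ hBc
  have hBm : MeasurableSet (Metric.ball z R) := measurableSet_ball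
  have hBr : Metric.ball z R ⊆ Metric.ball z r := hBc.trans (hKr.trans hrr)
  have hwc : ∀ m i, ContinuousOn (w m i) K := fun m i => (hw m i).continuousOn.mono hKU
  have hpc : ∀ m i k, ContinuousOn (ph k (w m i)) K := fun m i k =>
    (se_ph_cont (hw m i) k).mono hKU
  obtain ⟨w', Dw', F', C, h1, h2, h3⟩ := lim_WS (a := a') (B := Metric.ball z R)
    Metric.isOpen_ball Metric.isBounded_ball
    (fun j k => by
      obtain ⟨M, hM⟩ := (isCompact_closedBall z R).exists_bound_of_continuousOn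
        (ha'.smooth j k).continuous.continuousOn
      exact ⟨M, fun x hx => hM x (hBc hx)⟩)
    (fun j k => (ha'.smooth j k).continuous.aestronglyMeasurable)
    (Q := fun k i l => zx (Q k i l)) (Rc := fun i l => zx (Rc i l))
    (fun k i l => se_zx_bd hK hBK ((hQ k i l).mono hKU))
    (fun k i l => se_zx_meas hBm hBK ((hQ k i l).mono hKU))
    (fun i l => se_zx_bd hK hBK ((hRc i l).mono hKU))
    (fun i l => se_zx_meas hBm hBK ((hRc i l).mono hKU))
    (f := fun m i => zx (w m i)) (Df := fun m i k => zx (ph k (w m i)))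
    (fun m i => se_zx_memLp hBm hK hBK (hwc m i))
    (fun m i k => se_zx_memLp hBm hK hBK (hpc m i k))
    (fun m i k φ hφ => grad_zx (hw m i) (hw0 m i) (hφ.1.of_le (by norm_cast)) hφ.2.1
      (hφ.2.2.trans hBr) k)
    (fun ε hε => by
      obtain ⟨M, hM⟩ := hC _ hK hKU ε hε
      refine ⟨M, fun m hm m' hm' i => le_trans ?_ (hM m hm m' hm' i)⟩
      have e : ∀ x, (zx (w m i) x - zx (w m' i) x) ^ 2 +
          ∑ k, (zx (ph k (w m i)) x - zx (ph k (w m' i)) x) ^ 2 =
          H.indicator (fun x => (w m i x - w m' i x) ^ 2 +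
            ∑ k, (ph k (w m i) x - ph k (w m' i) x) ^ 2) x := by
        intro x
        unfold zx
        rw [← hH]
        by_cases hx : x ∈ H
        · simp only [Set.indicator_of_mem hx]
        · simp only [Set.indicator_of_notMem hx]
          simp
      simp only [e]
      rw [setIntegral_indicator hHm]
      refine setIntegral_mono_set ?_ ?_ (Eventually.of_forall hBK)
      · refine ContinuousOn.integrableOn_compact hK ?_
        refine (((hwc m i).sub (hwc m' i)).pow 2).add ?_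
        exact continuousOn_finsetSum _ fun k _ => ((hpc m i k).sub (hpc m' i k)).pow 2
      · exact Eventually.of_forall fun x => by (clear z hz r hr a Q Rc hw0 a' ha' r₁ hr₁ hr₁r haa H ha hs hp hQ hRc hw hC heq hH hHm R hR hR0 hKr hrr K hKdef hK hKU hBc hBK hBm hBr hwc hpc ε hε M hM hm hm' e; positivity))
    (fun i φ hφ => by
      have hφU : TF (Metric.ball z r) φ := ⟨hφ.1, hφ.2.1, hφ.2.2.trans hBr⟩
      refine (heq i φ hφU).congr fun m => ?_
      have e : ∀ x ∈ Metric.ball z R,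
          ((∑ j, ∑ k, a' j k x * zx (ph j (w m i)) x * pa k φ x)
            + (∑ k, ∑ l, zx (Q k i l) x * zx (ph k (w m l)) x) * φ x
            + (∑ l, zx (Rc i l) x * zx (w m l) x) * φ x) =
          H.indicator (fun x => ((∑ j, ∑ k, a j k x * ph j (w m i) x * pa k φ x)
            + (∑ k, ∑ l, Q k i l x * ph k (w m l) x) * φ x
            + (∑ l, Rc i l x * w m l x) * φ x)) x := by
        intro x hx
        unfold zx
        rw [← hH]
        by_cases hxH : x ∈ H
        · simp only [Set.indicator_of_mem hxH, haa x (hKr (hBc hx)) hxH]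
        · simp only [Set.indicator_of_notMem hxH]
          simp only [mul_zero, zero_mul, Finset.sum_const_zero, add_zero]
      rw [setIntegral_congr_fun hBm e, setIntegral_indicator hHm]
      refine setIntegral_eq_of_subset_of_forall_diff_eq_zero
        (measurableSet_ball.inter hHm) (Set.inter_subset_inter_left _ hBr) ?_
      rintro x ⟨hx1, hx2⟩
      have hx' : x ∉ tsupport φ := fun h => hx2 ⟨hφ.2.2 h, hx1.2⟩
      have e1 : φ x = 0 := image_eq_zero_of_notMem_tsupport hx'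
      have e2 : ∀ k, pa k φ x = 0 := fun k =>
        image_eq_zero_of_notMem_tsupport fun h => hx' (tsupport_pa_subset φ k h)
      simp only [e2, mul_zero, Finset.sum_const_zero, e1, add_zero])
  have hwm : ∀ m i, MemLp (zx (w m i)) 2 (volume.restrict (Metric.ball z R)) :=
    fun m i => se_zx_memLp hBm hK hBK (hwc m i)
  have hT : ∀ i, se_T (fun m x => zx (w m i) x - w' i x) (Metric.ball z R) := by
    intro i
    rw [se_T_iff]
    · exact h3 i
    · intro m
      exact ((hwm m i).sub (h1 i).w_L2).integrable_sq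
  -- the touching ball
  set y : V d := z - EuclideanSpace.single 0 R with hy
  have hdist : dist z y = R := by
    rw [hy, dist_eq_norm, sub_sub_cancel, PiLp.norm_single, Real.norm_eq_abs, abs_of_pos hR0]
  have hyz : y ≠ z := by
    intro h
    rw [h, dist_self] at hdist
    exact hR0.ne hdist
  have hneg : ∀ x ∈ Metric.ball y (dist z y), x ∉ H := by
    intro x hx hxH
    rw [hdist, Metric.mem_ball, dist_eq_norm] at hx
    have h4 : |(x - y) 0| ≤ ‖x - y‖ := by
      have := PiLp.norm_apply_le (x - y) 0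
      rwa [Real.norm_eq_abs] at this
    have h5 : (x - y) 0 = x 0 + R := by
      simp [hy, hz]
    have h6 : 0 ≤ x 0 := hxH
    rw [h5, abs_of_nonneg (by (clear z hz r hr a Q Rc w hw0 a' ha' hr₁r haa H ha hs hp hQ hRc hw hC heq hH hHm hR hKr hrr K hKdef hK hKU hBc hBK hBm hBr hwc hpc w' Dw' F' C h1 h2 h3 hwm hT y hy hdist hyz hx hxH h4 h5; linarith))] at h4
    (clear hz r hr a Q Rc w hw0 a' ha' hr₁ hr₁r haa H ha hs hp hQ hRc hw hC heq hH hHm hR hR0 hKr hrr K hKdef hK hKU hBc hBK hBm hBr hwc hpc w' Dw' F' C h1 h2 h3 hwm hT hy hdist hyz hxH h5; linarith)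
  obtain ⟨s, hs0, hsR, h6⟩ := touch ha' hR0 h1 h2 hyz (by
    have h4 : ∀ i, ∀ᵐ u ∂(volume.restrict (Metric.ball z R ∩ Metric.ball y (dist z y))),
        w' i u = 0 := by
      intro i
      refine se_T_zero (f := fun m => zx (w m i)) ?_ (se_T_mono (hT i) Set.inter_subset_left)
        (fun m => ((hwm m i).aestronglyMeasurable.mono_measure
          (Measure.restrict_mono Set.inter_subset_left le_rfl)).aemeasurable)
        ((h1 i).w_L2.aestronglyMeasurable.mono_measure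
          (Measure.restrict_mono Set.inter_subset_left le_rfl)).aemeasurable
      unfold se_T
      have e : ∀ m, ∫⁻ x in Metric.ball z R ∩ Metric.ball y (dist z y),
          ENNReal.ofReal (zx (w m i) x ^ 2) = 0 := by
        intro m
        rw [setLIntegral_congr_fun (g := fun _ => 0)
          (measurableSet_ball.inter measurableSet_ball) ?_]
        · simp only [lintegral_const, MeasurableSet.univ, Measure.restrict_apply, Set.univ_inter, zero_mul]
        · intro x hx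
          have e0 : zx (w m i) x = 0 := Set.indicator_of_notMem (hneg x hx.2) _
          simp only [e0]
          simp
      simp only [e]
      exact tendsto_const_nhds
    have h5 := ae_all_iff.2 h4
    rw [ae_restrict_iff' (measurableSet_ball.inter measurableSet_ball)] at h5
    filter_upwards [h5] with x hx1 hx2 hx3
    exact hx1 ⟨hx2, hx3⟩)
  have hsr : s ≤ r := hsR.trans (by rw [hR]; linarith only [hr, hr₁r])
  refine ⟨s, hs0, hsr, fun i => ?_⟩
  have h7 : se_T (fun m => zx (w m i)) (Metric.ball z s) := by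
    refine se_T_of_zero (se_T_mono (hT i) (Metric.ball_subset_ball hsR)) ?_
    rw [ae_restrict_iff' measurableSet_ball]
    filter_upwards [h6] with x hx1 hx2
    exact hx1 hx2 i
  rw [se_T_iff fun m => (((hwm m i).mono_measure
    (Measure.restrict_mono (Metric.ball_subset_ball hsR) le_rfl)).integrable_sq)] at h7
  refine h7.congr fun m => ?_
  rw [← setIntegral_indicator hHm]
  refine setIntegral_congr_fun measurableSet_ball fun x _ => ?_
  unfold zx
  rw [← hH]
  by_cases hx : x ∈ H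
  · simp only [Set.indicator_of_mem hx]
  · simp only [Set.indicator_of_notMem hx]
    simp

end Vale.Agent.P088.A
end

section

set_option linter.all false

/-!
# P088-EYM, block A: unique continuation for sequences, interior
-/

open MeasureTheory Set Filter Topology
open scoped ContDiff

noncomputable section

namespace Vale.Agent.P088.EYM

variable {n N : ℕ} [NeZero n] {D : Set (E n)} {L : LD n N}

theorem ui_pd_pa (hD : IsOpen D) (hDH : D ⊆ Hs n) {x : E n} (hx : x ∈ D) (f : E n → ℝ)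
    (k : Fin n) : pd k f x = A.pa k f x := by
  unfold pd A.pa
  rw [fderivWithin_of_mem_nhds (Filter.mem_of_superset (hD.mem_nhds hx) hDH)]

/-- the divergence term integrates to zero -/
theorem ui_div (hD : IsOpen D) (hDH : D ⊆ Hs n) {Y : E n → ℝ} (hY : ContDiffOn ℝ ∞ Y D)
    {φ : E n → ℝ} (hφ : A.TF D φ) (k : Fin n) :
    IntegrableOn (fun x => Y x * pd k φ x + pd k Y x * φ x) D ∧
      ∫ x in D, (Y x * pd k φ x + pd k Y x * φ x) = 0 := by
  have hDr := linInt_relOpen hD hDH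
  obtain ⟨h1, h2, h3⟩ := hφ
  have hZ : ContDiffOn ℝ ∞ (fun x => ((Y x * φ x : ℝ) : ℂ)) D :=
    Complex.ofRealCLM.contDiff.comp_contDiffOn (hY.mul h1.contDiffOn)
  have hp := linInt_int_zero hD hDH (Y := fun x => ((Y x * φ x : ℝ) : ℂ)) (hZ.of_le (by simp only [WithTop.one_le_coe, le_top]))
    h2 h3 (fun x hx => by rw [image_eq_zero_of_notMem_tsupport hx]; simp) k
  have e1 : ∀ x ∈ D, pd k (fun x => ((Y x * φ x : ℝ) : ℂ)) x
      = ((Y x * pd k φ x + pd k Y x * φ x : ℝ) : ℂ) := by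
    intro x hx
    have e2 := hDr.pd_clm Complex.ofRealCLM (hY.mul h1.contDiffOn) hx k
    have e3 := hDr.pd_smul hY h1.contDiffOn hx k
    simp only [smul_eq_mul] at e3
    rw [← e3]
    exact e2
  have e4 : IntegrableOn (fun x => ((Y x * pd k φ x + pd k Y x * φ x : ℝ) : ℂ)) D :=
    hp.1.congr_fun e1 hD.measurableSet
  have e5 : IntegrableOn (fun x => Y x * pd k φ x + pd k Y x * φ x) D := by
    have h := e4.re
    have h' : Integrable (fun x => Y x * pd k φ x + pd k Y x * φ x) (volume.restrict D) := by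
      simpa only [Complex.ofReal_add, Complex.ofReal_mul, RCLike.re_to_complex, Complex.add_re, Complex.mul_re,     Complex.ofReal_re, Complex.ofReal_im, mul_zero, sub_zero] using h
    exact h'
  refine ⟨e5, ?_⟩
  have e6 := hp.2
  rw [setIntegral_congr_fun hD.measurableSet e1, integral_complex_ofReal] at e6
  exact_mod_cast e6

theorem ui_cont {c : E n → Fib N} (hD : RelOpen D) (hL : L.Ok D) (hc : ContDiffOn ℝ ∞ c D)
    {ψ : E n → Fib N} (hψ : ContDiff ℝ ∞ ψ) : ContinuousOn (ed L c ψ) D := by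
  unfold ed
  refine continuousOn_finsetSum _ fun j _ => continuousOn_finsetSum _ fun k _ => ?_
  have h1 : ContinuousOn (fun x => (gg L.g j k x : ℂ)) D :=
    Complex.continuous_ofReal.comp_continuousOn
      (hD.gg_smooth hL.g_smooth hL.g_pos j k).continuousOn
  refine h1.mul ?_
  have h2 := (eqs_nab_smooth hD hL hc j).continuousOn
  have h3 := (smooth_eval hL.h_smooth (eqs_nab_smooth hD hL hψ.contDiffOn k)).continuousOn
  exact ContinuousOn.inner (𝕜 := ℂ) h2 h3

theorem ui_ed_int {c : E n → Fib N} (hD : RelOpen D) (hL : L.Ok D) (hDm : MeasurableSet D)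
    (hc : ContDiffOn ℝ ∞ c D) {ψ : E n → Fib N} (hψ : ContDiff ℝ ∞ ψ)
    {K : Set (E n)} (hK : IsCompact K) (hKD : K ⊆ D) (h0 : ∀ x ∈ D, x ∉ K → ed L c ψ x = 0) :
    IntegrableOn (ed L c ψ) D := by
  have h1 : IntegrableOn (ed L c ψ) K :=
    ((ui_cont hD hL hc hψ).mono hKD).integrableOn_compact hK
  exact h1.of_forall_diff_eq_zero hDm fun x hx => h0 x hx.1 hx.2

theorem ui_ed_zero {c ψ : E n → Fib N} {x : E n} (h : ψ =ᶠ[𝓝 x] fun _ => 0) :
    ed L c ψ x = 0 := by
  unfold ed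
  refine Finset.sum_eq_zero fun j _ => Finset.sum_eq_zero fun k _ => ?_
  have h1 : nab L k ψ x = 0 := by
    unfold nab pd
    rw [h.eq_of_nhds, (h.filter_mono nhdsWithin_le_nhds).fderivWithin_eq h.eq_of_nhds]
    simp only [fderivWithin_fun_const, Pi.zero_apply, zero_apply, map_zero, add_zero]
  rw [h1]
  simp


/-- the real form of the energy -/
theorem ui_energy (hD : IsOpen D) (hDH : D ⊆ Hs n) (hL : L.Ok D) {c : E n → Fib N}
    (hc : ContDiffOn ℝ ∞ c D) {φ : E n → ℝ} (hφ : A.TF D φ) (p : Fin N × Bool) :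
    ∫ x, ((∑ j, ∑ k, gg L.g j k x * A.pa j (fun y => aInt_proj p (ur_w L c y)) x * A.pa k φ x)
      + (∑ k, ∑ q, ur_Q L k p q x * A.pa k (fun y => aInt_proj q (ur_w L c y)) x) * φ x
      + (∑ q, ur_R L p q x * aInt_proj q (ur_w L c x)) * φ x)
      = (En L D c (fun y => φ y • ur_eb p)).re := by
  have hDr := linInt_relOpen hD hDH
  have hDm := hD.measurableSet
  have hψ : ContDiff ℝ ∞ (fun y => φ y • (ur_eb p : Fib N)) := hφ.1.smul contDiff_const
  have hz : ∀ x, x ∉ tsupport φ → (fun y => φ y • (ur_eb p : Fib N)) =ᶠ[𝓝 x] fun _ => 0 := by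
    intro x hx
    filter_upwards [(isClosed_tsupport φ).isOpen_compl.mem_nhds hx] with y hy
    rw [image_eq_zero_of_notMem_tsupport hy, zero_smul]
  have hint : IntegrableOn (ed L c (fun y => φ y • ur_eb p)) D :=
    ui_ed_int hDr hL hDm hc hψ hφ.2.1 hφ.2.2 fun x _ hx => ui_ed_zero (hz x hx)
  have hout : ∀ x, x ∉ D →
      ((∑ j, ∑ k, gg L.g j k x * A.pa j (fun y => aInt_proj p (ur_w L c y)) x * A.pa k φ x)
      + (∑ k, ∑ q, ur_Q L k p q x * A.pa k (fun y => aInt_proj q (ur_w L c y)) x) * φ x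
      + (∑ q, ur_R L p q x * aInt_proj q (ur_w L c x)) * φ x) = 0 := by
    intro x hx
    have hx' : x ∉ tsupport φ := fun h => hx (hφ.2.2 h)
    have h1 : φ x = 0 := image_eq_zero_of_notMem_tsupport hx'
    have h2 : ∀ k, A.pa k φ x = 0 := fun k =>
      image_eq_zero_of_notMem_tsupport fun h => hx' (A.tsupport_pa_subset φ k h)
    simp only [h2, mul_zero, Finset.sum_const_zero, h1, add_zero]
  rw [← setIntegral_eq_integral_of_forall_compl_eq_zero hout]
  have hin : ∀ x ∈ D,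
      ((∑ j, ∑ k, gg L.g j k x * A.pa j (fun y => aInt_proj p (ur_w L c y)) x * A.pa k φ x)
      + (∑ k, ∑ q, ur_Q L k p q x * A.pa k (fun y => aInt_proj q (ur_w L c y)) x) * φ x
      + (∑ q, ur_R L p q x * aInt_proj q (ur_w L c x)) * φ x)
      = (ed L c (fun y => φ y • ur_eb p) x).re
        + ∑ k, (ur_Y L c p k x * pd k φ x + pd k (ur_Y L c p k) x * φ x) := by
    intro x hx
    rw [← ur_main hDr hL hc hφ.1 p hx]
    simp only [ui_pd_pa hD hDH hx]
  rw [setIntegral_congr_fun hDm hin]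
  have hd := fun k => ui_div hD hDH (ur_Y_smooth hDr hL hc p k) hφ k
  have hre : Integrable (fun x => (ed L c (fun y => φ y • ur_eb p) x).re) (volume.restrict D) :=
    hint.re
  have hsum : Integrable (fun x => ∑ k, (ur_Y L c p k x * pd k φ x
      + pd k (ur_Y L c p k) x * φ x)) (volume.restrict D) :=
    integrable_finsetSum _ fun k _ => (hd k).1
  rw [integral_add hre hsum,
    integral_finsetSum _ fun k _ => (hd k).1, Finset.sum_eq_zero fun k _ => (hd k).2, add_zero]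
  unfold En
  exact integral_re hint


theorem ui_Q_cont (hD : RelOpen D) (hL : L.Ok D) (k : Fin n) (p q : Fin N × Bool) :
    ContinuousOn (ur_Q L k p q) D := by
  have h1 : ContDiffOn ℝ ∞ (fun x => ∑ j, (2 * gg L.g j k x)
      • ContinuousLinearMap.adjoint (L.B j x)) D :=
    ContDiffOn.sum fun j _ => (contDiffOn_const.mul
      (hD.gg_smooth hL.g_smooth hL.g_pos j k)).smul (smooth_adj (hL.B_smooth j))
  exact ((aInt_proj p).contDiff.comp_contDiffOn
    (smooth_eval h1 (contDiffOn_const (c := ur_eb q)))).continuousOn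

theorem ui_R_cont (hD : RelOpen D) (hL : L.Ok D) (p q : Fin N × Bool) :
    ContinuousOn (ur_R L p q) D := by
  have h1 : ContDiffOn ℝ ∞ (fun x => ∑ j, ∑ k,
    (pd k (fun y => gg L.g j k y • ContinuousLinearMap.adjoint (L.B j y)) x
      - gg L.g j k x • (ContinuousLinearMap.adjoint (L.B k x)
        * ContinuousLinearMap.adjoint (L.B j x)))) D :=
    ContDiffOn.sum fun j _ => ContDiffOn.sum fun k _ =>
      (hD.pd_smooth (ur_BG_smooth hD hL j k) k).sub
        ((hD.gg_smooth hL.g_smooth hL.g_pos j k).smul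
          (smooth_mul (smooth_adj (hL.B_smooth k)) (smooth_adj (hL.B_smooth j))))
  exact ((aInt_proj p).contDiff.comp_contDiffOn
    (smooth_eval h1 (contDiffOn_const (c := ur_eb q)))).continuousOn

theorem ui_pos (hL : L.Ok D) {x : E n} (hx : x ∈ D) (ξ : Fin n → ℝ) (hξ : ξ ≠ 0) :
    0 < ∑ j, ∑ k, gg L.g j k x * ξ j * ξ k := by
  have h := (AHardy_gg_pos (hL.g_pos x hx)).dotProduct_mulVec_pos hξ
  simp only [dotProduct, Matrix.mulVec, Matrix.of_apply, star_trivial, Finset.mul_sum] at h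
  refine lt_of_lt_of_eq h ?_
  refine Finset.sum_congr rfl fun j _ => Finset.sum_congr rfl fun k _ => ?_
  ring

theorem aUcpInt : AUcpInt_statement := by
  intro n N _ L D hDo hDH hL hpre w hw hC hψ z' r' hr' hb h0 K hK hKD
  have hDr := linInt_relOpen hDo hDH
  have hWs : ∀ m (p : Fin N × Bool), ContDiffOn ℝ ∞ (fun y => aInt_proj p (ur_w L (w m) y)) D :=
    fun m p => (aInt_proj p).contDiff.comp_contDiffOn (ur_w_smooth hL (hw m))
  have key := A.seq_ucp (ι := Fin N × Bool) (U := D) hDo hpre (a := fun j k => gg L.g j k)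
    (fun j k => (hDr.gg_smooth hL.g_smooth hL.g_pos j k).of_le (by norm_cast))
    (fun j k x hx => eqs_gg_symm hL hx j k)
    (fun x hx ξ hξ => ui_pos hL hx ξ hξ)
    (Q := ur_Q L) (fun k p q => ui_Q_cont hDr hL k p q)
    (Rc := ur_R L) (fun p q => ui_R_cont hDr hL p q)
    (w := fun m p y => aInt_proj p (ur_w L (w m) y))
    (fun m p => (hWs m p).of_le (by norm_cast))
    ?_ ?_ hr' hb ?_ K hK hKD
  · -- conclusion
    obtain ⟨C, hC0, hC2⟩ := ub_two (N := N) hL hK hKD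
    have h1 : Tendsto (fun m => C * ∑ p : Fin N × Bool,
        ∫ x in K, (aInt_proj p (ur_w L (w m) x)) ^ 2) atTop (𝓝 0) := by
      have := (tendsto_finsetSum (Finset.univ : Finset (Fin N × Bool)) fun p _ =>
        key p).const_mul C
      simpa only [Finset.sum_const_zero, mul_zero] using this
    refine squeeze_zero (fun m => integral_nonneg fun x => sq_nonneg _) (fun m => ?_) h1
    have hi : ∀ p : Fin N × Bool, IntegrableOn (fun x => (aInt_proj p (ur_w L (w m) x)) ^ 2) K :=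
      fun p => (((hWs m p).continuousOn.mono hKD).pow 2).integrableOn_compact hK
    rw [← integral_finsetSum _ fun p _ => hi p, ← integral_const_mul]
    refine setIntegral_mono_on ?_ ?_ hK.measurableSet fun x hx => ?_
    · exact ((((hw m).continuousOn.mono hKD).norm).pow 2).integrableOn_compact hK
    · exact (integrable_finsetSum _ fun p _ => hi p).const_mul C
    · exact hC2 x hx (w m x)
  · -- Cauchy
    intro K' hK' hKD' ε hε
    obtain ⟨C, hC0, hC1⟩ := ub_one hDr hL hK' hKD'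
    obtain ⟨M, hM⟩ := hC K' hK' hKD' (ε / (C + 1)) (by (clear * - hε hC0; positivity))
    refine ⟨M, fun m hm m' hm' p => ?_⟩
    have hd : ContDiffOn ℝ ∞ (fun x => w m x - w m' x) D := (hw m).sub (hw m')
    have e1 : ∀ x ∈ K', (aInt_proj p (ur_w L (w m) x) - aInt_proj p (ur_w L (w m') x)) ^ 2
        + ∑ k, (A.pa k (fun y => aInt_proj p (ur_w L (w m) y)) x
          - A.pa k (fun y => aInt_proj p (ur_w L (w m') y)) x) ^ 2
        ≤ C * (‖w m x - w m' x‖ ^ 2 + ∑ k, ‖pd k (fun x => w m x - w m' x) x‖ ^ 2) := by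
      intro x hx
      have h2 := hC1 _ hd x hx p
      have h3 : ∀ k, pd k (fun y => aInt_proj p (ur_w L (fun x => w m x - w m' x) y)) x
          = A.pa k (fun y => aInt_proj p (ur_w L (w m) y)) x
            - A.pa k (fun y => aInt_proj p (ur_w L (w m') y)) x := by
        intro k
        rw [← ui_pd_pa hDo hDH (hKD' hx), ← ui_pd_pa hDo hDH (hKD' hx),
          ← hDr.pd_sub (hWs m p) (hWs m' p) (hKD' hx) k]
        congr 1
        funext y
        rw [ub_sub, map_sub]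
      simp only [h3] at h2
      rw [ub_sub, map_sub] at h2
      exact h2
    have i1 : IntegrableOn (fun x => (‖w m x - w m' x‖ ^ 2
        + ∑ k, ‖pd k (fun x => w m x - w m' x) x‖ ^ 2)) K' := by
      refine ContinuousOn.integrableOn_compact hK' ?_
      refine ((hd.continuousOn.mono hKD').norm.pow 2).add ?_
      exact continuousOn_finsetSum _ fun k _ =>
        (((hDr.pd_smooth hd k).continuousOn.mono hKD').norm).pow 2
    have i2 : IntegrableOn (fun x =>
        (aInt_proj p (ur_w L (w m) x) - aInt_proj p (ur_w L (w m') x)) ^ 2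
        + ∑ k, (A.pa k (fun y => aInt_proj p (ur_w L (w m) y)) x
          - A.pa k (fun y => aInt_proj p (ur_w L (w m') y)) x) ^ 2) K' := by
      refine ContinuousOn.integrableOn_compact hK' ?_
      have hpa : ∀ m k, ContinuousOn (A.pa k (fun y => aInt_proj p (ur_w L (w m) y))) K' := by
        intro m k
        refine (((hDr.pd_smooth (hWs m p) k).continuousOn.mono hKD').congr fun x hx => ?_)
        exact (ui_pd_pa hDo hDH (hKD' hx) _ k).symm
      refine ((((hWs m p).continuousOn.mono hKD').sub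
        ((hWs m' p).continuousOn.mono hKD')).pow 2).add ?_
      exact continuousOn_finsetSum _ fun k _ => ((hpa m k).sub (hpa m' k)).pow 2
    calc _ ≤ ∫ x in K', C * (‖w m x - w m' x‖ ^ 2
          + ∑ k, ‖pd k (fun x => w m x - w m' x) x‖ ^ 2) :=
          setIntegral_mono_on i2 (i1.const_mul C) hK'.measurableSet e1
      _ = C * H1 K' (fun x => w m x - w m' x) := by rw [integral_const_mul]; rfl
      _ ≤ C * (ε / (C + 1)) := mul_le_mul_of_nonneg_left (hM m hm m' hm') hC0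
      _ ≤ ε := by
        rw [mul_div_assoc', div_le_iff₀ (by (clear * - hC0; positivity))]
        nlinarith only [hε]
  · -- equation
    intro p φ hφ
    have hT : Tst0 D (fun y => φ y • (ur_eb p : Fib N)) := by
      refine ⟨hφ.1.smul contDiff_const, hφ.2.1.smul_right, ?_⟩
      refine (closure_mono ?_).trans hφ.2.2
      intro x hx hx0
      exact hx (by simp [hx0])
    have h1 := (Complex.continuous_re.tendsto 0).comp (hψ _ hT)
    refine Tendsto.congr (fun m => ?_) h1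
    exact (ui_energy hDo hDH hL (hw m) hφ p).symm
  · -- smallness
    intro p
    obtain ⟨C, hC0, hC1⟩ := ub_one hDr hL (isCompact_closedBall z' r') hb
    have hh : ContinuousOn L.h (Metric.closedBall z' r') := hL.h_smooth.continuousOn.mono hb
    obtain ⟨M, hM⟩ := (isCompact_closedBall z' r').exists_bound_of_continuousOn hh
    have h2 := h0.const_mul (M ^ 2)
    rw [mul_zero] at h2
    refine squeeze_zero (fun m => integral_nonneg fun x => sq_nonneg _) (fun m => ?_) h2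
    rw [← integral_const_mul]
    have hcl : Metric.ball z' r' ⊆ Metric.closedBall z' r' := Metric.ball_subset_closedBall
    refine setIntegral_mono_on ?_ ?_ measurableSet_ball fun x hx => ?_
    · exact ((((hWs m p).continuousOn.mono hb).pow 2).integrableOn_compact
        (isCompact_closedBall z' r')).mono_set hcl
    · exact (((((hw m).continuousOn.mono hb).norm.pow 2).integrableOn_compact
        (isCompact_closedBall z' r')).mono_set hcl).const_mul _
    · refine (ub_proj_le _ _).trans ?_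
      rw [← mul_pow]
      refine pow_le_pow_left₀ (norm_nonneg _) ?_ 2
      exact ((L.h x).le_opNorm _).trans
        (mul_le_mul_of_nonneg_right (hM x (hcl hx)) (norm_nonneg _))

end Vale.Agent.P088.EYM
end
end

section

/-!
# P088-EYM, block C: frames and coordinates near a boundary point
-/

open Bundle Manifold MeasureTheory Set Filter Topology
open scoped ContDiff

noncomputable section

namespace Vale.Agent.P088.EYM

set_option linter.unusedSectionVars false
set_option linter.all false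

universe u

variable {n N : ℕ} [NeZero n]

theorem cStart_relOpen_HB (z : E n) (r : ℝ) : RelOpen (HB z r) :=
  ⟨Metric.ball z r, Metric.isOpen_ball, rfl⟩

theorem cStart_Ok_mono {L : LD n N} {D D' : Set (E n)} (h : L.Ok D) (hD : D' ⊆ D) : L.Ok D' where
  g_smooth i j := (h.g_smooth i j).mono hD
  g_pos x hx := h.g_pos x (hD hx)
  B_smooth i := (h.B_smooth i).mono hD
  h_smooth := h.h_smooth.mono hD
  h_adj x hx := h.h_adj x (hD hx)
  h_pos x hx := h.h_pos x (hD hx)
  compat x hx := h.compat x (hD hx)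

theorem cStart_Sol_mono {L : LD n N} {D D' : Set (E n)} {c : E n → Fib N} (h : Sol L D c)
    (hD : D' ⊆ D) : Sol L D' c :=
  ⟨h.1.mono hD, fun x hx => h.2 x (hD hx)⟩

/-- the tangential derivatives of a function which vanishes on the flat part -/
theorem cStart_pd_flat {F : Type*} [NormedAddCommGroup F] [NormedSpace ℝ F] {f : E n → F}
    {D : Set (E n)} (hD : RelOpen D) (hf : ContDiffOn ℝ ∞ f D) (h : ∀ y ∈ D, y 0 = 0 → f y = 0)
    {z : E n} (hz : z ∈ D) (hz0 : z 0 = 0) {j : Fin n} (hj : j ≠ 0) : pd j f z = 0 := by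
  have hz' : z ∈ Hs n := hD.subset hz
  have hfd := hD.hasD hz hf (by simp)
  rw [pd_of_has hz' hfd j]
  have hγ : HasDerivAt (fun t : ℝ => z + t • (ev j : E n)) (ev j) 0 := by
    have h1 : HasDerivAt (fun t : ℝ => t • (ev j : E n)) ((1 : ℝ) • (ev j : E n)) 0 :=
      (hasDerivAt_id (0 : ℝ)).smul_const _
    rw [one_smul] at h1
    exact h1.const_add z
  have hflat : ∀ t : ℝ, (z + t • (ev j : E n)) 0 = 0 := by
    intro t
    simp only [PiLp.add_apply, hz0, PiLp.smul_apply, ne_eq, hj.symm, not_false_eq_true, PiLp.single_eq_of_ne, smul_eq_mul, mul_zero, add_zero]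
  have hmem : ∀ t : ℝ, z + t • (ev j : E n) ∈ Hs n := fun t => by
    show 0 ≤ (z + t • (ev j : E n)) 0
    rw [hflat]
  have h1 : HasDerivAt (f ∘ fun t : ℝ => z + t • (ev j : E n))
      (fderivWithin ℝ f (Hs n) z (ev j)) 0 :=
    HasFDerivWithinAt.comp_hasDerivAt_of_eq (t := Hs n) (y := z) 0 hfd hγ
      (Eventually.of_forall hmem) (by simp)
  obtain ⟨O, hO, rfl⟩ := hD
  have h2 : (f ∘ fun t : ℝ => z + t • (ev j : E n)) =ᶠ[𝓝 0] fun _ : ℝ => (0 : F) := by
    have hc : ContinuousAt (fun t : ℝ => z + t • (ev j : E n)) 0 := hγ.continuousAt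
    have hb : ∀ᶠ t : ℝ in 𝓝 0, z + t • (ev j : E n) ∈ O := by
      refine hc.eventually_mem (hO.mem_nhds ?_)
      simpa only [zero_smul, add_zero] using hz.1
    filter_upwards [hb] with t ht
    exact h _ ⟨ht, hmem t⟩ (hflat t)
  exact (h1.congr_of_eventuallyEq h2.symm).unique (hasDerivAt_const 0 (0 : F))

/-- the flux of a section which vanishes on the flat part -/
theorem cStart_flux {L : LD n N} {D : Set (E n)} (hD : RelOpen D) {c : E n → Fib N}
    (hc : ContDiffOn ℝ ∞ c D) (h : ∀ y ∈ D, y 0 = 0 → c y = 0) {z : E n} (hz : z ∈ D)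
    (hz0 : z 0 = 0) : flux L 0 c z = gg L.g 0 0 z • pd 0 c z := by
  unfold flux
  rw [Finset.sum_eq_single 0]
  · unfold nab
    rw [h z hz hz0, map_zero, add_zero]
  · intro k _ hk
    unfold nab
    rw [h z hz hz0, map_zero, add_zero, cStart_pd_flat hD hc h hz hz0 hk, smul_zero]
  · intro h0
    exact absurd (Finset.mem_univ _) h0

theorem cStart_gg_pos {g : E n → Matrix (Fin n) (Fin n) ℝ} {z : E n} (h : (g z).PosDef) :
    0 < gg g 0 0 z :=
  mul_pos (Real.sqrt_pos.2 h.det_pos) h.inv.diag_pos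

theorem cStart_pd_csmul {D : Set (E n)} (hD : RelOpen D) {c : E n → Fib N}
    (hc : ContDiffOn ℝ ∞ c D) {z : E n} (hz : z ∈ D) (a : ℂ) (i : Fin n) :
    pd i (fun y => a • c y) z = a • pd i c z :=
  hD.pd_clm ((a • ContinuousLinearMap.id ℂ (Fib N)).restrictScalars ℝ) hc hz i

/-- the energy only depends on the section on the domain -/
theorem cStart_En_congr {L : LD n N} {D : Set (E n)} (hD : RelOpen D) {c c' d : E n → Fib N}
    (h : ∀ y ∈ D, c y = c' y) : En L D c d = En L D c' d := by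
  unfold En
  have hm : MeasurableSet D := by
    obtain ⟨O, hO, rfl⟩ := hD
    exact hO.measurableSet.inter isClosed_Hs.measurableSet
  refine setIntegral_congr_fun hm fun x hx => ?_
  have h1 : ∀ j, nab L j c x = nab L j c' x := fun j => by
    unfold nab
    rw [hD.pd_congr h hx j, h x hx]
  simp only [ed, h1]

/-- boundary data with prescribed values near a point of `Γ` -/
theorem cStart_data {M : Type u} [TopologicalSpace M] [ChartedSpace (EuclideanHalfSpace n) M]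
    [IsManifold (𝓡∂ n) ∞ M] [T2Space M] (hExt : CExt_statement.{u}) {O Γ : Set M}
    (hΓ : Γ = O ∩ (𝓡∂ n).boundary M) {q : M} {D : Set (E n)} (hD : RelOpen D) (hDt : D ⊆ tg n q)
    (hDO : ∀ y ∈ D, (xc n q).symm y ∈ O) {z : E n} {ρ : ℝ} (hρ : 0 < ρ)
    (hz : Metric.closedBall z ρ ∩ Hs n ⊆ D) {c : E n → Fib N} (hc : ContDiff ℝ ∞ c) :
    ∃ f : M → Fib N, IsBdryData (𝓡∂ n) Γ f ∧
      (∀ y ∈ HB z (ρ / 2), f ((xc n q).symm y) = c y) ∧
      ∀ y ∈ D, y ∉ Metric.closedBall z ρ → f ((xc n q).symm y) = 0 := by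
  set χ : ContDiffBump z := ⟨ρ / 2, ρ, by positivity, by linarith only [hρ]⟩ with hχ
  have hs : ContDiff ℝ ∞ (fun y => χ y • c y) := χ.contDiff.smul hc
  set K : Set (E n) := Metric.closedBall z ρ ∩ Hs n with hK
  have hKc : IsCompact K := (isCompact_closedBall z ρ).inter_right isClosed_Hs
  have h0 : ∀ y ∈ D, y ∉ K → χ y • c y = 0 := by
    intro y hy hyK
    have h1 : y ∉ Metric.closedBall z ρ := fun h => hyK ⟨h, hD.subset hy⟩
    have h2 : χ y = 0 := by
      refine χ.zero_of_le_dist ?_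
      rw [Metric.mem_closedBall, not_le] at h1
      exact h1.le
    rw [h2, zero_smul]
  obtain ⟨f, hf, hfD, hf0, hfs⟩ := hExt n N M q (fun y => χ y • c y) D K hD hDt hs.contDiffOn hKc
    hz h0
  refine ⟨f, ⟨hf, ?_⟩, ?_, ?_⟩
  · have hcl : IsClosed ((𝓡∂ n).boundary M) :=
      ModelWithCorners.isClosed_boundary (n := ∞) (I := 𝓡∂ n) (M := M) (by simp)
    intro x hx
    have h1 : x ∈ (𝓡∂ n).boundary M := by
      have : closure {x ∈ (𝓡∂ n).boundary M | f x ≠ 0} ⊆ closure ((𝓡∂ n).boundary M) :=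
        closure_mono fun y hy => hy.1
      rw [hcl.closure_eq] at this
      exact this hx
    have h2 : x ∈ tsupport f := by
      have : closure {x ∈ (𝓡∂ n).boundary M | f x ≠ 0} ⊆ closure (Function.support f) :=
        closure_mono fun y hy => hy.2
      exact this hx
    obtain ⟨y, hy, rfl⟩ := hfs h2
    rw [hΓ]
    exact ⟨hDO y (hz hy), h1⟩
  · intro y hy
    have hyK : y ∈ K := ⟨Metric.mem_closedBall.2 ((Metric.mem_ball.1 hy.1).le.trans (by linarith only [hρ])),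
      hy.2⟩
    rw [hfD y (hz hyK)]
    have h1 : χ y = 1 := χ.one_of_mem_closedBall (Metric.ball_subset_closedBall hy.1)
    show χ y • c y = c y
    rw [h1, one_smul]
  · intro y hy hyK
    rw [hfD y hy]
    exact h0 y hy fun h => hyK h.1

theorem cStart : CUcp_statement.{u} → LinBd_statement → AFlux_statement → CData_statement.{u} →
    CExt_statement.{u} → CEnergy_statement.{u} → CHarm_statement.{u} → CUniq_statement.{u} →
    CLoc_statement.{u} → CStart_statement.{u} := by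
  intro hUcp hLin hFlux hData hExt hEn hHarm hUniq hLoc n N _ M _ _ _ _ _ _ _ _ P Q Γ hn hN hΓ
    hne hS
  obtain ⟨hRO, hOk, hbd, hsm⟩ := hLoc n N M
  obtain ⟨O, hO, hΓO⟩ := id hΓ
  obtain ⟨q, hq⟩ := hne
  have hne : Γ.Nonempty := ⟨q, hq⟩
  have hqO : q ∈ O := by rw [hΓO] at hq; exact hq.1
  have hqb : q ∈ (𝓡∂ n).boundary M := by rw [hΓO] at hq; exact hq.2
  have hbne : ((𝓡∂ n).boundary M).Nonempty := ⟨q, hqb⟩
  set z₀ : E n := xc n q q with hz₀
  have hz₀t : z₀ ∈ tg n q := mem_extChartAt_target q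
  have hz₀0 : z₀ 0 = 0 := (hbd q q (mem_extChartAt_source q)).1 hqb
  have hsymm0 : (xc n q).symm z₀ = q := extChartAt_to_inv q
  -- a half ball in the chart
  obtain ⟨R, hR, hRt, hRO'⟩ : ∃ R > 0, HB z₀ R ⊆ tg n q ∧ ∀ y ∈ HB z₀ R, (xc n q).symm y ∈ O := by
    have h1 : tg n q ∩ (xc n q).symm ⁻¹' O ∈ 𝓝[tg n q] z₀ := by
      refine inter_mem self_mem_nhdsWithin ?_
      have hcont : ContinuousWithinAt (xc n q).symm (tg n q) z₀ :=
        continuousOn_extChartAt_symm q z₀ hz₀t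
      refine hcont (hO.mem_nhds ?_)
      rw [hsymm0]
      exact hqO
    rw [(hRO q).nhdsWithin hz₀t, Metric.mem_nhdsWithin_iff] at h1
    obtain ⟨R, hR, h2⟩ := h1
    exact ⟨R, hR, fun y hy => (h2 hy).1, fun y hy => (h2 hy).2⟩
  have hbdy : ∀ y ∈ HB z₀ R, y 0 = 0 → (xc n q).symm y ∈ (𝓡∂ n).boundary M := by
    intro y hy hy0
    rw [hbd q _ ((xc n q).map_target (hRt hy)), (xc n q).right_inv (hRt hy)]
    exact hy0
  have hroR : RelOpen (HB z₀ R) := cStart_relOpen_HB z₀ R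
  -- the second centre
  obtain ⟨i₁, hi₁⟩ : ∃ i₁ : Fin n, i₁ ≠ 0 := by
    refine ⟨⟨1, by omega⟩, ?_⟩
    intro h
    have := congrArg Fin.val h
    simp at this
  set z₁ : E n := z₀ + (R / 2) • ev i₁ with hz₁
  have hz₁0 : z₁ 0 = 0 := by
    rw [hz₁]
    simp [hz₀0, hi₁.symm]
  have hdist : dist z₁ z₀ = R / 2 := by
    rw [hz₁, dist_eq_norm, add_sub_cancel_left, norm_smul]
    simp [abs_of_pos hR]
  have hsub1 : HB z₁ (R / 8) ⊆ HB z₀ R := by
    intro y hy
    refine ⟨?_, hy.2⟩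
    have h1 := Metric.mem_ball.1 hy.1
    have h2 := dist_triangle y z₁ z₀
    rw [Metric.mem_ball]
    linarith only [hR, hdist, h1, h2]
  have hdisj : ∀ y ∈ HB z₁ (R / 8), y ∉ Metric.closedBall z₀ (R / 8) := by
    intro y hy hy'
    have h1 := Metric.mem_ball.1 hy.1
    have h2 := Metric.mem_closedBall.1 hy'
    have h3 := dist_triangle z₁ y z₀
    rw [dist_comm z₁ y] at h3
    linarith only [hR, hdist, h1, h2, h3]
  -- the data
  have j₀ : Fin N := ⟨0, hN⟩
  have hcb : Metric.closedBall z₀ (R / 8) ∩ Hs n ⊆ HB z₀ R := by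
    intro y hy
    exact ⟨Metric.mem_ball.2 ((Metric.mem_closedBall.1 hy.1).trans_lt (by linarith only [hR])), hy.2⟩
  obtain ⟨f, hf, hf1, hf2⟩ := cStart_data hExt hΓO hroR hRt hRO' (by (clear * - hR; positivity) : 0 < R / 8) hcb
    (c := fun _ => (EuclideanSpace.single j₀ (1 : ℂ) : Fib N)) contDiff_const
  have hfq : f q ≠ 0 := by
    have h1 := hf1 z₀ ⟨Metric.mem_ball_self (by (clear * - hR; positivity)), by show 0 ≤ z₀ 0; rw [hz₀0]⟩
    rw [hsymm0] at h1
    rw [h1]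
    intro h2
    have h3 := congrArg (fun v : Fib N => v j₀) h2
    simp at h3
  obtain ⟨u₁, -, u₂, -, hu₁, -, hu₂, -, -⟩ := hS f f hf hf
  have hPu : P.Harm f u₁ := hu₁
  have hQu : Q.Harm f u₂ := hu₂
  have hzero : ∀ (u : M → Fib N), (∀ x ∈ (𝓡∂ n).boundary M, u x = f x) →
      ∀ y ∈ HB z₁ (R / 8), y 0 = 0 → lu (𝓡∂ n) q u y = 0 := by
    intro u hu y hy hy0
    show u ((xc n q).symm y) = 0
    rw [hu _ (hbdy y (hsub1 hy) hy0)]
    exact hf2 y (hsub1 hy) (hdisj y hy)
  have hro1 : RelOpen (HB z₁ (R / 8)) := cStart_relOpen_HB z₁ (R / 8)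
  have hsubt : HB z₁ (R / 8) ⊆ tg n q := hsub1.trans hRt
  have hsol1 : Sol (P.loc q) (tg n q) (lu (𝓡∂ n) q u₁) := hHarm n N M P f u₁ hPu q
  have hsol2 : Sol (Q.loc q) (tg n q) (lu (𝓡∂ n) q u₂) := hHarm n N M Q f u₂ hQu q
  -- a point with nonzero normal derivative
  obtain ⟨z, hz, hz0, hzne⟩ : ∃ z ∈ HB z₁ (R / 8), z 0 = 0 ∧ pd 0 (lu (𝓡∂ n) q u₁) z ≠ 0 := by
    by_contra hcon
    push Not at hcon
    have h1 := hLin n N (P.loc q) z₁ (R / 8) (by (clear * - hR; positivity)) hz₁0 (cStart_Ok_mono (hOk P q) hsubt)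
      (lu (𝓡∂ n) q u₁) (cStart_Sol_mono hsol1 hsubt) (fun x hx hx0 => by
        refine ⟨hzero u₁ hPu.boundary x hx hx0, ?_⟩
        rw [cStart_flux hro1 (hsol1.1.mono hsubt) (hzero u₁ hPu.boundary) hx hx0, hcon x hx hx0,
          smul_zero])
    have hU : IsOpen ((xc n q).source ∩ (xc n q) ⁻¹' Metric.ball z₁ (R / 8)) :=
      (continuousOn_extChartAt q).isOpen_inter_preimage (isOpen_extChartAt_source q)
        Metric.isOpen_ball
    have hz₁m : z₁ ∈ HB z₁ (R / 8) :=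
      ⟨Metric.mem_ball_self (by (clear * - hR; positivity)), by show 0 ≤ z₁ 0; rw [hz₁0]⟩
    have h2 := hUcp n N M P f u₁ hPu _ hU
      ⟨(xc n q).symm z₁, (xc n q).map_target (hsubt hz₁m), by
        show xc n q ((xc n q).symm z₁) ∈ Metric.ball z₁ (R / 8)
        rw [(xc n q).right_inv (hsubt hz₁m)]
        exact hz₁m.1⟩ (fun x hx => by
        have h3 : xc n q x ∈ HB z₁ (R / 8) :=
          ⟨hx.2, (hRO q).subset ((xc n q).map_source hx.1)⟩
        have h4 := h1 _ h3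
        have h5 : lu (𝓡∂ n) q u₁ (xc n q x) = u₁ x := by
          show u₁ ((xc n q).symm (xc n q x)) = u₁ x
          rw [(xc n q).left_inv hx.1]
        rw [← h5]
        exact h4) q
    exact hfq ((hPu.boundary q hqb).symm.trans h2)
  -- the component and the factor
  obtain ⟨j0, hj0⟩ : ∃ j0, (pd 0 (lu (𝓡∂ n) q u₁) z) j0 ≠ 0 := by
    by_contra hcon
    push Not at hcon
    exact hzne (by ext j; simpa using hcon j)
  set a : ℂ := (starRingEnd ℂ) ((pd 0 (lu (𝓡∂ n) q u₁) z) j0) with ha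
  have hPa : P.Harm (a • f) (a • u₁) := by
    have := (hUniq n N M P hbne).2.1 f f u₁ u₁ a 0 hPu hPu
    simpa using this
  have hQa : Q.Harm (a • f) (a • u₂) := by
    have := (hUniq n N M Q hbne).2.1 f f u₂ u₂ a 0 hQu hQu
    simpa only [zero_smul, add_zero] using this
  have hbda : IsBdryData (𝓡∂ n) Γ (a • f) := by
    refine ⟨?_, ?_⟩
    · have h1 : ContDiff ℝ ∞ (fun v : Fib N => a • v) :=
        ((a • ContinuousLinearMap.id ℂ (Fib N)).restrictScalars ℝ).contDiff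
      exact h1.contMDiff.comp hf.smooth
    · refine (closure_mono ?_).trans hf.supp
      rintro x ⟨hx, hx'⟩
      refine ⟨hx, fun h0 => hx' ?_⟩
      show a • f x = 0
      rw [h0, smul_zero]
  have hPP : ((a • u₁, a • u₂) : (M → Fib N) × (M → Fib N)) ∈ PP P Q Γ := ⟨a • f, hbda, hPa, hQa⟩
  -- the normal derivative of the first section
  have hzt : z ∈ tg n q := hsubt hz
  have hlu : ∀ u : M → Fib N, lu (𝓡∂ n) q (a • u) = fun y => a • lu (𝓡∂ n) q u y := fun u => rfl
  have hd1 : pd 0 (lu (𝓡∂ n) q (a • u₁)) z = a • pd 0 (lu (𝓡∂ n) q u₁) z := by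
    rw [hlu]
    exact cStart_pd_csmul (hRO q) hsol1.1 hzt a 0
  have hre1 : 0 < (pd 0 (lu (𝓡∂ n) q (a • u₁)) z j0).re := by
    rw [hd1]
    have h1 : (a • pd 0 (lu (𝓡∂ n) q u₁) z) j0 = a * (pd 0 (lu (𝓡∂ n) q u₁) z) j0 := rfl
    rw [h1, ha, mul_comm, Complex.mul_conj, Complex.ofReal_re]
    exact Complex.normSq_pos.2 hj0
  -- the radius
  obtain ⟨ρ, hρ, hρ1⟩ : ∃ ρ > 0, Metric.closedBall z ρ ⊆ Metric.ball z₁ (R / 8) := by
    obtain ⟨ρ, hρ, h1⟩ := Metric.nhds_basis_closedBall.mem_iff.1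
      (Metric.isOpen_ball.mem_nhds hz.1)
    exact ⟨ρ, hρ, h1⟩
  have hρs : Metric.closedBall z ρ ∩ Hs n ⊆ HB z₁ (R / 8) := fun y hy => ⟨hρ1 hy.1, hy.2⟩
  have hρR : Metric.closedBall z ρ ∩ Hs n ⊆ HB z₀ R := hρs.trans hsub1
  have hHB : HB z ρ ⊆ HB z₁ (R / 8) := fun y hy => hρs ⟨Metric.ball_subset_closedBall hy.1, hy.2⟩
  have hHBt : HB z ρ ⊆ tg n q := hHB.trans hsubt
  have hroρ : RelOpen (HB z ρ) := cStart_relOpen_HB z ρ
  have hzρ : z ∈ HB z ρ := ⟨Metric.mem_ball_self hρ, hz.2⟩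
  have hsa1 : Sol (P.loc q) (tg n q) (lu (𝓡∂ n) q (a • u₁)) := hHarm n N M P _ _ hPa q
  have hsa2 : Sol (Q.loc q) (tg n q) (lu (𝓡∂ n) q (a • u₂)) := hHarm n N M Q _ _ hQa q
  have hza1 : ∀ y ∈ HB z ρ, y 0 = 0 → lu (𝓡∂ n) q (a • u₁) y = 0 := by
    intro y hy hy0
    rw [hlu]
    show a • lu (𝓡∂ n) q u₁ y = 0
    rw [hzero u₁ hPu.boundary y (hHB hy) hy0, smul_zero]
  have hza2 : ∀ y ∈ HB z ρ, y 0 = 0 → lu (𝓡∂ n) q (a • u₂) y = 0 := by
    intro y hy hy0
    rw [hlu]
    show a • lu (𝓡∂ n) q u₂ y = 0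
    rw [hzero u₂ hQu.boundary y (hHB hy) hy0, smul_zero]
  have hre2 : 0 < (pd 0 (lu (𝓡∂ n) q (a • u₂)) z j0).re := by
    have hfl := hFlux n N (P.loc q) (Q.loc q) z ρ hρ hz0 (cStart_Ok_mono (hOk P q) hHBt)
      (cStart_Ok_mono (hOk Q q) hHBt) (fun _ _ _ => rfl) _ _ (cStart_Sol_mono hsa1 hHBt)
      (cStart_Sol_mono hsa2 hHBt) (fun c hc => by
        obtain ⟨hc1, hc2, hc3⟩ := hc
        have hK : IsCompact (tsupport c ∩ Hs n) := IsCompact.inter_right hc2 isClosed_Hs
        obtain ⟨w, hw, hwD, hw0, hws⟩ := hExt n N M q c (HB z ρ) (tsupport c ∩ Hs n) hroρ hHBt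
          hc1.contDiffOn hK (fun y hy => ⟨hc3 hy.1, hy.2⟩) (fun y hy hyK => by
            by_contra hne'
            exact hyK ⟨subset_tsupport _ hne', hy.2⟩)
        have hwsD : tsupport w ⊆ (xc n q).symm '' (HB z ρ) :=
          hws.trans (image_mono fun y hy => ⟨hc3 hy.1, hy.2⟩)
        have hcl : IsClosed ((𝓡∂ n).boundary M) :=
          ModelWithCorners.isClosed_boundary (n := ∞) (I := 𝓡∂ n) (M := M) (by simp)
        have hwsupp : closure {x ∈ (𝓡∂ n).boundary M | w x ≠ 0} ⊆ Γ := by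
          intro x hx
          have h1 : x ∈ (𝓡∂ n).boundary M := by
            have : closure {x ∈ (𝓡∂ n).boundary M | w x ≠ 0} ⊆ closure ((𝓡∂ n).boundary M) :=
              closure_mono fun y hy => hy.1
            rw [hcl.closure_eq] at this
            exact this hx
          have h2 : x ∈ tsupport w := by
            have : closure {x ∈ (𝓡∂ n).boundary M | w x ≠ 0} ⊆ closure (Function.support w) :=
              closure_mono fun y hy => hy.2
            exact this hx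
          obtain ⟨y, hy, rfl⟩ := hwsD h2
          rw [hΓO]
          exact ⟨hRO' y (hsub1 (hHB hy)), h1⟩
        have e1 := (hData n N M P Q Γ hΓ hne hS).2 _ hPP w w hw hw (fun _ _ => rfl) hwsupp
        have e2 := (hEn n N M P q (HB z ρ) hroρ hHBt).1 w (a • u₁) hw hPa.smooth (Or.inl hwsD)
        have e3 := (hEn n N M Q q (HB z ρ) hroρ hHBt).1 w (a • u₂) hw hQa.smooth (Or.inl hwsD)
        have e4 : En (P.loc q) (HB z ρ) c (lu (𝓡∂ n) q (a • u₁)) =
            En (P.loc q) (HB z ρ) (lu (𝓡∂ n) q w) (lu (𝓡∂ n) q (a • u₁)) :=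
          cStart_En_congr hroρ fun y hy => (hwD y hy).symm
        have e5 : En (Q.loc q) (HB z ρ) c (lu (𝓡∂ n) q (a • u₂)) =
            En (Q.loc q) (HB z ρ) (lu (𝓡∂ n) q w) (lu (𝓡∂ n) q (a • u₂)) :=
          cStart_En_congr hroρ fun y hy => (hwD y hy).symm
        rw [e4, e5, ← e2, ← e3]
        exact e1) z hzρ hz0
    rw [cStart_flux hroρ (hsa1.1.mono hHBt) hza1 hzρ hz0,
      cStart_flux hroρ (hsa2.1.mono hHBt) hza2 hzρ hz0] at hfl
    have hg1 : 0 < gg (P.loc q).g 0 0 z := cStart_gg_pos ((hOk P q).g_pos z hzt)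
    have hg2 : 0 < gg (Q.loc q).g 0 0 z := cStart_gg_pos ((hOk Q q).g_pos z hzt)
    have h5 := congrArg (fun v : Fib N => (v j0).re) hfl
    have h6 : ∀ (b : ℝ) (v : Fib N), ((b • v) j0).re = b * (v j0).re := by
      intro b v
      show (b • v j0).re = _
      rw [Complex.real_smul, Complex.re_ofReal_mul]
    simp only [h6] at h5
    have h7 : 0 < gg (Q.loc q).g 0 0 z * (pd 0 (lu (𝓡∂ n) q (a • u₂)) z j0).re := by
      rw [← h5]
      exact mul_pos hg1 hre1
    exact (mul_pos_iff_of_pos_left hg2).1 h7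
  -- the frame
  have hex : ∀ c : E n → Fib N, ContDiff ℝ ∞ c → ∃ t ∈ PP P Q Γ, ∀ y ∈ HB z (ρ / 2), y 0 = 0 →
      t.1 ((xc n q).symm y) = c y ∧ t.2 ((xc n q).symm y) = c y := by
    intro c hc
    obtain ⟨f', hf', hf'1, -⟩ := cStart_data hExt hΓO hroR hRt hRO' hρ hρR hc
    obtain ⟨v₁, -, v₂, -, hv₁, -, hv₂, -, -⟩ := hS f' f' hf' hf'
    refine ⟨(v₁, v₂), ⟨f', hf', hv₁, hv₂⟩, fun y hy hy0 => ?_⟩
    have hyb : (xc n q).symm y ∈ (𝓡∂ n).boundary M := by
      refine hbdy y (hρR ⟨?_, hy.2⟩) hy0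
      exact Metric.mem_closedBall.2 ((Metric.mem_ball.1 hy.1).le.trans (by linarith only [hρ]))
    exact ⟨(hv₁.boundary _ hyb).trans (hf'1 y hy), (hv₂.boundary _ hyb).trans (hf'1 y hy)⟩
  choose s hs1 hs2 using fun j : Fin N =>
    hex (fun _ => (EuclideanSpace.single j (1 : ℂ) : Fib N)) contDiff_const
  have hcoord : ∀ i : Fin n, ContDiff ℝ ∞
      (fun y : E n => (EuclideanSpace.single j0 ((y i : ℝ) : ℂ) : Fib N)) := by
    intro i
    have h1 : ContDiff ℝ ∞ (fun y : E n => ((y i : ℝ) : ℂ)) :=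
      Complex.ofRealCLM.contDiff.comp (EuclideanSpace.proj (𝕜 := ℝ) i).contDiff
    have h2 : (fun y : E n => (EuclideanSpace.single j0 ((y i : ℝ) : ℂ) : Fib N)) =
        fun y : E n => ((y i : ℝ) : ℂ) • (EuclideanSpace.single j0 (1 : ℂ) : Fib N) := by
      funext y
      ext k
      by_cases hk : k = j0
      · subst hk; simp
      · simp only [ne_eq, hk, not_false_eq_true, PiLp.single_eq_of_ne, Complex.coe_smul, PiLp.smul_apply, smul_zero]
    rw [h2]
    exact h1.smul contDiff_const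
  choose t' ht1 ht2 using fun i : Fin n => hex _ (hcoord i)
  classical
  refine ⟨j0, q, z, ρ / 2, s, fun i => if i = 0 then (a • u₁, a • u₂) else t' i, hz0,
    by (clear * - hρ; positivity), ?_, ?_, hs1, ?_, ?_, ?_, ?_⟩
  · intro y hy
    exact hHBt ⟨Metric.ball_subset_ball (by linarith only [hρ]) hy.1, hy.2⟩
  · intro y hy hy0
    have hy' : y ∈ HB z₀ R := hsub1 (hHB ⟨Metric.ball_subset_ball (by linarith only [hρ]) hy.1, hy.2⟩)
    rw [hΓO]
    exact ⟨hRO' y hy', hbdy y hy' hy0⟩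
  · intro i
    by_cases hi : i = 0
    · simp only [hi, if_true]
      exact hPP
    · simp only [hi, if_false]
      exact ht1 i
  · intro y hy hy0
    refine ⟨fun j => hs2 j y hy hy0, fun i => ?_⟩
    by_cases hi : i = 0
    · have hyρ : y ∈ HB z ρ := ⟨Metric.ball_subset_ball (by linarith only [hρ]) hy.1, hy.2⟩
      have h1 : (EuclideanSpace.single j0 ((y 0 : ℝ) : ℂ) : Fib N) = 0 := by
        rw [hy0]
        simp
      simp only [hi, if_true]
      rw [h1]
      exact ⟨hza1 y hyρ hy0, hza2 y hyρ hy0⟩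
    · simp only [hi, if_false]
      exact ht2 i y hy hy0
  · simp only [if_true]
    exact hre1
  · simp only [if_true]
    exact hre2

end Vale.Agent.P088.EYM
end
end
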