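import Vale.Agent.P088.MathlibUsed
import Vale.Agent.P088.Bdl.B3
import Vale.Agent.P088.Bdl.B1
import Vale.Agent.P088.Bdl.B5
import Vale.Agent.P088.Bdl.B6

set_option linter.all false

section

open Bundle Manifold MeasureTheory Set Filter
open scoped ContDiff Topology ENNReal

noncomputable section

namespace Vale.Agent.P088

set_option linter.unusedSectionVars false

variable {n N : ℕ} {H : Type*} [TopologicalSpace H]
  {I : ModelWithCorners ℝ (EuclideanSpace ℝ (Fin n)) H}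
  {M : Type*} [TopologicalSpace M] [ChartedSpace H M] [IsManifold I ∞ M]
variable {F G : Type*} [NormedAddCommGroup F] [NormedSpace ℝ F] [NormedAddCommGroup G] [NormedSpace ℝ G]
variable [T2Space M] [ConnectedSpace M] [CompactSpace M] [MeasurableSpace M] [BorelSpace M]

end Vale.Agent.P088
end
end

section

/-!
# P088-EYM, block D: the residual estimate for oscillating functions
-/

open MeasureTheory Set Filter Topology
open scoped ContDiff

noncomputable section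

namespace Vale.Agent.P088.EYM

set_option linter.unusedSectionVars false

variable {n : ℕ} [NeZero n] {N : ℕ}
variable {D : Set (E n)}

theorem dr_smooth_eik (hD : RelOpen D) {G : E n → Matrix (Fin n) (Fin n) ℝ} (hG : GOk D G)
    {ψ : E n → ℂ} (hψ : ContDiffOn ℝ ∞ ψ D) : ContDiffOn ℝ ∞ (eik G ψ) D := by
  unfold eik
  refine dc_smooth_sum _ fun j _ => dc_smooth_sum _ fun k _ => ?_
  refine dc_smooth_bil dc_bil_mulC (dc_smooth_bil dc_bil_mulC ?_ (hD.pd_smooth hψ j))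
    (hD.pd_smooth hψ k)
  exact dc_smooth_clm Complex.ofRealCLM (hG.smG j k)

theorem dr_smooth_lop (hD : RelOpen D) {G : E n → Matrix (Fin n) (Fin n) ℝ} (hG : GOk D G)
    {B : Fin n → E n → EndF N} (hB : ∀ j, ContDiffOn ℝ ∞ (B j) D) {a : E n → Fib N}
    (ha : ContDiffOn ℝ ∞ a D) : ContDiffOn ℝ ∞ (LopR G B a) D := by
  unfold LopR
  refine ContDiffOn.add ?_ (ContDiffOn.const_smul (2 : ℝ) ?_)
  · refine dc_smooth_sum _ fun j _ => hD.pd_smooth ?_ j
    exact dc_smooth_sum _ fun k _ =>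
      dc_smooth_bil dc_bil_smul (hG.smG j k) (hD.pd_smooth ha k)
  · refine dc_smooth_sum _ fun j _ => dc_smooth_sum _ fun k _ => ?_
    exact dc_smooth_bil dc_bil_smul (hG.smG j k)
      (dc_smooth_bil dc_bil_app (hB j) (hD.pd_smooth ha k))

theorem dr_lop_supp {G : E n → Matrix (Fin n) (Fin n) ℝ} {B : Fin n → E n → EndF N}
    {c : E n → Fib N} {K : Set (E n)} (hK : IsClosed K)
    (h : ∀ x ∈ Hs n, x ∉ K → c x = 0) : ∀ x ∈ Hs n, x ∉ K → LopR G B c x = 0 := by
  intro x hx hxK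
  have h1 : ∀ k, ∀ x ∈ Hs n, x ∉ K → pd k c x = 0 := fun k => dc_pd_supp hK h k
  have h2 : ∀ j, pd j (fun y => ∑ k, G y j k • pd k c y) x = 0 := by
    intro j
    refine dc_pd_supp hK (fun y hy hyK => ?_) j x hx hxK
    exact Finset.sum_eq_zero fun k _ => by rw [h1 k y hy hyK, smul_zero]
  unfold LopR
  simp [h2, h1 _ x hx hxK]

theorem dr_bdd {f : E n → Fib N} {K : Set (E n)} (hK : IsCompact K)
    (hf : ContinuousOn f K) : ∃ C : ℝ, 0 ≤ C ∧ ∀ x ∈ K, ‖f x‖ ≤ C := by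
  obtain ⟨C, hC⟩ := (hK.image_of_continuousOn hf.norm).bddAbove
  exact ⟨max C 0, le_max_right _ _, fun x hx =>
    (hC ⟨x, hx, rfl⟩).trans (le_max_left _ _)⟩

theorem dr_int3 {K : Set (E n)} {f₁ f₂ f₃ : E n → ℝ} (h₁ : IntegrableOn f₁ K)
    (h₂ : IntegrableOn f₂ K) (h₃ : IntegrableOn f₃ K) (a b c : ℝ) :
    ∫ x in K, (a * f₁ x + b * f₂ x + c * f₃ x) =
      a * (∫ x in K, f₁ x) + b * (∫ x in K, f₂ x) + c * ∫ x in K, f₃ x := by
  have e₁ : Integrable (fun x => a * f₁ x) (volume.restrict K) := h₁.const_mul a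
  have e₂ : Integrable (fun x => b * f₂ x) (volume.restrict K) := h₂.const_mul b
  have e₃ : Integrable (fun x => c * f₃ x) (volume.restrict K) := h₃.const_mul c
  have e₁₂ : Integrable (fun x => a * f₁ x + b * f₂ x) (volume.restrict K) := e₁.add e₂
  rw [integral_add e₁₂ e₃, integral_add e₁ e₂, integral_const_mul, integral_const_mul,
    integral_const_mul]

theorem dr_resid (hD : RelOpen D) {G : E n → Matrix (Fin n) (Fin n) ℝ} (hG : GOk D G)
    {B : Fin n → E n → EndF N} (hB : ∀ j, ContDiffOn ℝ ∞ (B j) D) {ψ : E n → ℂ}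
    (hψ : ContDiffOn ℝ ∞ ψ D) {a : E n → Fib N} (ha : ContDiffOn ℝ ∞ a D) {K : Set (E n)}
    (hK : IsCompact K) (hKD : K ⊆ D) (ha0 : ∀ x ∈ Hs n, x ∉ K → a x = 0) {δ : ℝ} (hδ : 0 < δ)
    (hre : ∀ x ∈ K, (ψ x).re ≤ -(δ * x 0)) {m : ℕ} (hm : m ≤ 1) (he : Van D (m + 1) (eik G ψ))
    (hM : Van D m (Mop G B ψ a)) :
    ∃ C : ℝ, 0 ≤ C ∧ ∀ t : ℝ, 1 ≤ t → RsqD D G B (osc ψ a t) ≤ C / t ^ (2 * m + 1) := by
  obtain ⟨U, hU, hDU⟩ := hD
  have hD : RelOpen D := ⟨U, hU, hDU⟩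
  have hDH : D ⊆ Hs n := by rw [hDU]; exact Set.inter_subset_right
  obtain ⟨C1, hC1, b1⟩ := dy_van_bound hD (dr_smooth_eik hD hG hψ) he hK hKD
  obtain ⟨C2, hC2, b2⟩ := dy_van_bound hD (da_smooth_Mop hD hG hB hψ ha) hM hK hKD
  obtain ⟨A, hA, bA⟩ := dr_bdd hK ((ha.continuousOn).mono hKD)
  obtain ⟨C3, hC3, b3⟩ := dr_bdd hK (((dr_smooth_lop hD hG hB ha).continuousOn).mono hKD)
  have h2δ : 0 < 2 * δ := by positivity
  obtain ⟨I1, hI1, i1⟩ := ds_pow_exp_bound hK (hKD.trans hDH) h2δ (2 * m + 4)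
  obtain ⟨I2, hI2, i2⟩ := ds_pow_exp_bound hK (hKD.trans hDH) h2δ (2 * m + 2)
  obtain ⟨I3, hI3, i3⟩ := ds_pow_exp_bound hK (hKD.trans hDH) h2δ 2
  refine ⟨3 * ((C1 * A) ^ 2 * I1 + C2 ^ 2 * I2 + C3 ^ 2 * I3), by positivity, fun t ht => ?_⟩
  have ht0 : 0 < t := by linarith
  have e1 : RsqD D G B (osc ψ a t) = ∫ x in K, (x 0) ^ 2 * ‖LopR G B (osc ψ a t) x‖ ^ 2 := by
    unfold RsqD
    refine setIntegral_eq_of_subset_of_forall_sdiff_eq_zero (dc_meas hD) hKD fun x hx => ?_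
    have : LopR G B (osc ψ a t) x = 0 :=
      dr_lop_supp hK.isClosed (fun y hy hyK => by unfold osc; rw [ha0 y hy hyK, smul_zero])
        x (hDH hx.1) hx.2
    rw [this]; simp
  have hcont : ∀ p : ℕ, IntegrableOn (fun x : E n => (x 0) ^ p *
      Real.exp (-(2 * δ * t * x 0))) K := by
    intro p
    refine ContinuousOn.integrableOn_compact hK (Continuous.continuousOn ?_)
    fun_prop
  have e2 : ∫ x in K, (x 0) ^ 2 * ‖LopR G B (osc ψ a t) x‖ ^ 2 ≤
      ∫ x in K, (3 * (C1 * A) ^ 2 * t ^ 4 * ((x 0) ^ (2 * m + 4) *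
          Real.exp (-(2 * δ * t * x 0))) +
        3 * C2 ^ 2 * t ^ 2 * ((x 0) ^ (2 * m + 2) * Real.exp (-(2 * δ * t * x 0))) +
        3 * C3 ^ 2 * ((x 0) ^ 2 * Real.exp (-(2 * δ * t * x 0)))) := by
    refine integral_mono_of_nonneg (Filter.Eventually.of_forall fun x => by positivity) ?_ ?_
    · exact (((hcont (2 * m + 4)).const_mul _).add ((hcont (2 * m + 2)).const_mul _)).add
        ((hcont 2).const_mul _)
    · refine (ae_restrict_iff' hK.measurableSet).2 (Filter.Eventually.of_forall fun x hx => ?_)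
      have hx0 : 0 ≤ x 0 := hDH (hKD hx)
      have hn : ‖LopR G B (osc ψ a t) x‖ ≤ Real.exp (-(δ * t * x 0)) *
          (t ^ 2 * (C1 * (x 0) ^ (m + 1)) * A + t * (C2 * (x 0) ^ m) + C3) := by
        rw [do_lopR_osc hD hG hB hψ ha t (hKD hx), norm_smul, Complex.norm_exp]
        refine mul_le_mul ?_ ?_ (norm_nonneg _) (Real.exp_nonneg _)
        · refine Real.exp_le_exp.2 ?_
          have : ((t : ℂ) * ψ x).re = t * (ψ x).re := by simp
          rw [this]
          nlinarith [mul_le_mul_of_nonneg_left (hre x hx) ht0.le]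
        · refine (norm_add_le _ _).trans (add_le_add ((norm_add_le _ _).trans
            (add_le_add ?_ ?_)) (b3 x hx))
          · rw [norm_smul, norm_mul, norm_pow, Complex.norm_real, Real.norm_eq_abs,
              abs_of_pos ht0]
            exact mul_le_mul (mul_le_mul_of_nonneg_left (b1 x hx) (by positivity)) (bA x hx)
              (norm_nonneg _) (by positivity)
          · rw [norm_smul, Complex.norm_real, Real.norm_eq_abs, abs_of_pos ht0]
            exact mul_le_mul_of_nonneg_left (b2 x hx) ht0.le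
      have hsq : ‖LopR G B (osc ψ a t) x‖ ^ 2 ≤ Real.exp (-(2 * δ * t * x 0)) *
          (3 * ((t ^ 2 * (C1 * (x 0) ^ (m + 1)) * A) ^ 2 + (t * (C2 * (x 0) ^ m)) ^ 2 +
            C3 ^ 2)) := by
        have h1 := pow_le_pow_left₀ (norm_nonneg _) hn 2
        refine h1.trans ?_
        rw [mul_pow, ← Real.exp_nat_mul]
        have e : ((2 : ℕ) : ℝ) * -(δ * t * x 0) = -(2 * δ * t * x 0) := by push_cast; ring
        rw [e]
        refine mul_le_mul_of_nonneg_left ?_ (Real.exp_nonneg _)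
        nlinarith [sq_nonneg (t ^ 2 * (C1 * (x 0) ^ (m + 1)) * A - t * (C2 * (x 0) ^ m)),
          sq_nonneg (t ^ 2 * (C1 * (x 0) ^ (m + 1)) * A - C3),
          sq_nonneg (t * (C2 * (x 0) ^ m) - C3)]
      refine (mul_le_mul_of_nonneg_left hsq (sq_nonneg (x 0))).trans (le_of_eq ?_)
      ring
  rw [e1]
  refine e2.trans ?_
  rw [dr_int3 (hcont (2 * m + 4)) (hcont (2 * m + 2)) (hcont 2)]
  have j1 : t ^ 4 * (∫ x in K, (x 0) ^ (2 * m + 4) * Real.exp (-(2 * δ * t * x 0))) ≤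
      I1 / t ^ (2 * m + 1) := by
    refine (mul_le_mul_of_nonneg_left (i1 t ht) (by positivity)).trans (le_of_eq ?_)
    have : t ^ (2 * m + 4 + 1) = t ^ (2 * m + 1) * t ^ 4 := by ring
    rw [this]
    field_simp
  have j2 : t ^ 2 * (∫ x in K, (x 0) ^ (2 * m + 2) * Real.exp (-(2 * δ * t * x 0))) ≤
      I2 / t ^ (2 * m + 1) := by
    refine (mul_le_mul_of_nonneg_left (i2 t ht) (by positivity)).trans (le_of_eq ?_)
    have : t ^ (2 * m + 2 + 1) = t ^ (2 * m + 1) * t ^ 2 := by ring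
    rw [this]
    field_simp
  have j3 : (∫ x in K, (x 0) ^ 2 * Real.exp (-(2 * δ * t * x 0))) ≤ I3 / t ^ (2 * m + 1) := by
    refine (i3 t ht).trans ?_
    refine div_le_div_of_nonneg_left hI3 (by positivity) ?_
    exact pow_le_pow_right₀ ht (by omega)
  calc _ = 3 * (C1 * A) ^ 2 * (t ^ 4 *
        (∫ x in K, (x 0) ^ (2 * m + 4) * Real.exp (-(2 * δ * t * x 0)))) +
      3 * C2 ^ 2 * (t ^ 2 * (∫ x in K, (x 0) ^ (2 * m + 2) *
        Real.exp (-(2 * δ * t * x 0)))) +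
      3 * C3 ^ 2 * (∫ x in K, (x 0) ^ 2 * Real.exp (-(2 * δ * t * x 0))) := by ring
    _ ≤ 3 * (C1 * A) ^ 2 * (I1 / t ^ (2 * m + 1)) + 3 * C2 ^ 2 * (I2 / t ^ (2 * m + 1)) +
      3 * C3 ^ 2 * (I3 / t ^ (2 * m + 1)) :=
        add_le_add (add_le_add (mul_le_mul_of_nonneg_left j1 (by positivity))
          (mul_le_mul_of_nonneg_left j2 (by positivity)))
          (mul_le_mul_of_nonneg_left j3 (by positivity))
    _ = _ := by ring

end Vale.Agent.P088.EYM
end
end

section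

/-!
# P088-EYM, block D14: equality of the principal parts on the face (order 0)
-/

open MeasureTheory Set Filter Topology
open scoped ContDiff

noncomputable section

namespace Vale.Agent.P088.EYM

variable {n : ℕ} [NeZero n] {N : ℕ} {D : Set (E n)}
variable {G₁ G₂ : E n → Matrix (Fin n) (Fin n) ℝ} {B₁ B₂ : Fin n → E n → EndF N}
  {h₁ h₂ : E n → EndF N}

/-- the real part of the limit is nonnegative -/
theorem dz_lim_nonneg {u : ℝ → ℂ} {R : ℝ → ℝ} {C C' : ℝ} {L : ℂ}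
    (hu : ∀ t, 0 ≤ (u t).re + C * R t) (hR0 : ∀ t, 0 ≤ R t)
    (hR : ∀ t : ℝ, 1 ≤ t → R t ≤ C' / t ^ 3)
    (hL : Tendsto (fun t : ℝ => (t : ℂ)⁻¹ * u t) atTop (𝓝 L)) : 0 ≤ L.re := by
  have h1 : Tendsto (fun t : ℝ => ((t : ℂ)⁻¹ * u t).re) atTop (𝓝 L.re) :=
    (Complex.continuous_re.tendsto L).comp hL
  have h2 : Tendsto (fun t : ℝ => -(|C| * |C'|) * t⁻¹) atTop (𝓝 0) := by
    simpa using tendsto_inv_atTop_zero.const_mul (-(|C| * |C'|))
  refine le_of_tendsto_of_tendsto h2 h1 ?_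
  filter_upwards [eventually_ge_atTop (1 : ℝ)] with t ht
  have ht0 : 0 < t := by linarith
  have h3 : ((t : ℂ)⁻¹ * u t).re = t⁻¹ * (u t).re := by
    rw [← Complex.ofReal_inv, Complex.re_ofReal_mul]
  have h4 : C * R t ≤ |C| * |C'| := by
    calc C * R t ≤ |C| * R t := mul_le_mul_of_nonneg_right (le_abs_self C) (hR0 t)
      _ ≤ |C| * (C' / t ^ 3) := by gcongr; exact hR t ht
      _ ≤ |C| * (|C'| / t ^ 3) := by gcongr; exact le_abs_self C'
      _ ≤ |C| * |C'| := by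
          gcongr
          exact div_le_self (abs_nonneg _) (one_le_pow₀ ht)
  have h5 : -(|C| * |C'|) ≤ (u t).re := by linarith [hu t]
  show -(|C| * |C'|) * t⁻¹ ≤ ((t : ℂ)⁻¹ * u t).re
  rw [h3, mul_comm]
  exact mul_le_mul_of_nonneg_left h5 (inv_nonneg.2 ht0.le)

/-- the quadratic form `G₁ - G₂` is nonnegative on `ξ_0 = 0` -/
theorem dz_form_nonneg (hN : 0 < N) (hD : RelOpen D) (c₁ : CoefD D G₁ B₁ h₁)
    (c₂ : CoefD D G₂ B₂ h₂)
    (hE : ∃ C : ℝ, ∀ c : E n → Fib N, TstD D c →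
      (EnD D G₂ B₂ h₂ c c).re ≤ (EnD D G₁ B₁ h₁ c c).re + C * RsqD D G₂ B₂ c)
    (hflux : ∀ x ∈ D, x 0 = 0 → ∀ a, G₁ x 0 a = G₂ x 0 a)
    {ξ : Fin n → ℝ} (hξ0 : ξ 0 = 0) {p : E n} (hp : p ∈ D) (hp0 : p 0 = 0) :
    0 ≤ ∑ j, ∑ l, (G₁ p j l - G₂ p j l) * (ξ j * ξ l) := by
  rcases eq_or_ne ξ 0 with rfl | hξ
  · simp
  obtain ⟨ψ, hψ⟩ := dp_exists_phase hD c₂.toGOk hξ0 hξ
  obtain ⟨r, hr, δ, hδ, hrD, hre⟩ := dp_exists_ball hD c₂.toGOk hξ0 hξ hψ hp hp0
  have hfc : ContinuousOn (fun x => ∑ j, ∑ l, (G₁ x j l - G₂ x j l) * (ξ j * ξ l)) D := by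
    refine continuousOn_finsetSum _ fun j _ => continuousOn_finsetSum _ fun l _ => ?_
    exact (((c₁.smG j l).continuousOn).sub ((c₂.smG j l).continuousOn)).mul continuousOn_const
  refine dloc_le hD c₂.toGOk hξ0 hξ (f := fun x => ∑ j, ∑ l, (G₁ x j l - G₂ x j l) * (ξ j * ξ l))
    hfc hp hp0 hr hrD 0 fun χ hχ => ?_
  -- a unit vector
  set e : Fib N := EuclideanSpace.single ⟨0, hN⟩ (1 : ℂ) with he
  have hee : inner ℂ e e = (1 : ℂ) := by
    rw [inner_self_eq_norm_sq_to_K]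
    simp [he]
  obtain ⟨a, ha, ha0, hae, haM⟩ := da_exists_ampl hD c₂.toGOk c₂.smB hξ0 hξ hψ hrD hχ e
  set K : Set (E n) := Metric.closedBall p r ∩ Hs n with hKdef
  have hK : IsCompact K := (isCompact_closedBall p r).inter_right isClosed_Hs
  have k0 : ∀ x ∈ Hs n, x ∉ K → a x = 0 := fun x hx hxK => ha0 x hx fun h => hxK ⟨h, hx⟩
  have lim := dle_lim0 hD c₁ c₂ hψ ha ha hK hrD k0 k0 hδ hre
  obtain ⟨C', _, b⟩ := dr_resid hD c₂.toGOk c₂.smB hψ.sm ha hK hrD k0 hδ hre le_rfl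
    hψ.eik2 haM
  obtain ⟨C, hC⟩ := hE
  have hnn := dz_lim_nonneg (C := C) (C' := C') (R := fun t => RsqD D G₂ B₂ (osc ψ a t))
    (fun t => by
      have := hC _ (de_tstD_osc hψ.sm ha hK hrD k0 t)
      rw [Complex.sub_re]
      linarith)
    (fun t => integral_nonneg fun x => by positivity) (fun t ht => b t ht) lim
  have z1 := de_supp_Q (G := G₁) (B := B₁) (h := h₁) (ψ := ψ) (a := a) (a' := a)
    (Metric.isClosed_closedBall (x := p) (ε := r)) ha0 ha0
  have z2 := de_supp_Q (G := G₂) (B := B₂) (h := h₂) (ψ := ψ) (a := a) (a' := a)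
    (Metric.isClosed_closedBall (x := p) (ε := r)) ha0 ha0
  have hJ : JJ G₂ ξ 0 (fun x => Q2 G₁ h₁ ψ a a x - Q2 G₂ h₂ ψ a a x) =
      JJ G₂ ξ 0 (fun x => (((χ x) ^ 2 * ∑ j, ∑ l, (G₁ x j l - G₂ x j l) * (ξ j * ξ l) : ℝ) : ℂ)) := by
    refine dle_JJ_congr hrD (fun x hx hx0 => ?_)
      (fun x hx hxK => by rw [(z1 x hx hxK).1, (z2 x hx hxK).1, sub_zero])
      (fun x _ hxK => by rw [hχ.2 x hxK]; simp)
    have hin : inner ℂ (a x) (a x) = (((χ x) ^ 2 : ℝ) : ℂ) := by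
      rw [hae x hx hx0, ← Complex.coe_smul (χ x) e, inner_smul_left, inner_smul_right,
        Complex.conj_ofReal, hee]
      push_cast
      ring
    unfold Q2
    rw [c₁.h1 x hx hx0, c₂.h1 x hx hx0, one_apply_eq_self, hin,
      ← Finset.sum_sub_distrib, Complex.ofReal_mul, Complex.ofReal_sum, Finset.mul_sum]
    refine Finset.sum_congr rfl fun j _ => ?_
    rw [← Finset.sum_sub_distrib, Complex.ofReal_sum, Finset.mul_sum]
    refine Finset.sum_congr rfl fun l _ => ?_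
    rw [← sub_mul, ← Complex.ofReal_sub]
    by_cases hj : j = 0
    · subst hj
      rw [hflux x hx hx0 l]
      simp
    by_cases hl : l = 0
    · subst hl
      rw [c₁.symm x hx j 0, c₂.symm x hx j 0, hflux x hx hx0 j]
      simp
    rw [hψ.grad x hx hx0, hψ.grad x hx hx0]
    simp only [zz, hj, hl, if_false, sub_zero, map_mul, Complex.conj_I, Complex.conj_ofReal]
    push_cast
    linear_combination (-(((G₁ x j l : ℂ) - G₂ x j l) * ξ j * ξ l * (χ x : ℂ) ^ 2)) *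
      Complex.I_mul_I
  rw [hJ] at hnn
  exact hnn

/-- a symmetric matrix with vanishing row `0` and vanishing quadratic form on `ξ_0 = 0` -/
theorem dz_polar {M : Fin n → Fin n → ℝ} (hs : ∀ j k, M j k = M k j) (h0 : ∀ k, M 0 k = 0)
    (hq : ∀ ξ : Fin n → ℝ, ξ 0 = 0 → ∑ j, ∑ l, M j l * (ξ j * ξ l) = 0) (j k : Fin n) :
    M j k = 0 := by
  by_cases hj : j = 0
  · subst hj; exact h0 k
  by_cases hk : k = 0
  · subst hk; rw [hs]; exact h0 j
  have hjk := hq (Pi.single j 1 + Pi.single k 1) (by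
    simp [Ne.symm hj, Ne.symm hk])
  have hjj := hq (Pi.single j 1) (by simp [Ne.symm hj])
  have hkk := hq (Pi.single k 1) (by simp [Ne.symm hk])
  simp only [Pi.single_apply, Pi.add_apply, mul_add, Finset.sum_add_distrib,
    mul_ite, mul_one, mul_zero, Finset.sum_ite_eq', Finset.mem_univ, if_true]
    at hjk hjj hkk
  have := hs j k
  linarith

theorem dz_G_eq_face (hN : 0 < N) (hD : RelOpen D) (c₁ : CoefD D G₁ B₁ h₁)
    (c₂ : CoefD D G₂ B₂ h₂)
    (hE : ERelD D G₁ B₁ h₁ G₂ B₂ h₂) (hflux : ∀ x ∈ D, x 0 = 0 → ∀ a, G₁ x 0 a = G₂ x 0 a) :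
    ∀ x ∈ D, x 0 = 0 → ∀ j k, G₁ x j k = G₂ x j k := by
  intro x hx hx0 j k
  have h := dz_polar (M := fun j k => G₁ x j k - G₂ x j k)
    (fun j k => by rw [c₁.symm x hx, c₂.symm x hx]) (fun k => by rw [hflux x hx hx0, sub_self])
    (fun ξ hξ0 => by
      have i1 := dz_form_nonneg hN hD c₁ c₂ hE.le12 hflux hξ0 hx hx0
      have i2 := dz_form_nonneg hN hD c₂ c₁ hE.le21 (fun y hy hy0 a => (hflux y hy hy0 a).symm)
        hξ0 hx hx0
      have i3 : ∑ j, ∑ l, (G₂ x j l - G₁ x j l) * (ξ j * ξ l) =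
          -∑ j, ∑ l, (G₁ x j l - G₂ x j l) * (ξ j * ξ l) := by
        rw [← Finset.sum_neg_distrib]
        refine Finset.sum_congr rfl fun j _ => ?_
        rw [← Finset.sum_neg_distrib]
        refine Finset.sum_congr rfl fun l _ => ?_
        ring
      rw [i3] at i2
      exact le_antisymm (by linarith) i1) j k
  exact sub_eq_zero.1 h

end Vale.Agent.P088.EYM
end
end

section

/-!
# P088-EYM, block D15: limit identity of orders 1 and 2
-/

open MeasureTheory Set Filter Topology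
open scoped ContDiff

noncomputable section

namespace Vale.Agent.P088.EYM

variable {n : ℕ} [NeZero n] {N : ℕ} {D : Set (E n)}
variable {G₁ G₂ : E n → Matrix (Fin n) (Fin n) ℝ} {B₁ B₂ : Fin n → E n → EndF N}
  {h₁ h₂ : E n → EndF N}

/-- the estimate of the difference of energies from the energy relation -/
theorem dmn_to_zero (m : ℕ) {u : ℝ → ℂ} {R₁ R₂ R₁' R₂' : ℝ → ℝ} {C C₁ C₂ C₁' C₂' : ℝ}
    (hu : ∀ t, ‖u t‖ ≤ C * (√(R₁ t) + √(R₂ t)) * (√(R₁' t) + √(R₂' t)))
    (p1 : 0 ≤ C₁) (p2 : 0 ≤ C₂) (p1' : 0 ≤ C₁') (p2' : 0 ≤ C₂')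
    (b1 : ∀ t, 1 ≤ t → R₁ t ≤ C₁ / t ^ (2 * m + 1))
    (b2 : ∀ t, 1 ≤ t → R₂ t ≤ C₂ / t ^ (2 * m + 1))
    (b1' : ∀ t, 1 ≤ t → R₁' t ≤ C₁' / t ^ (2 * m + 1))
    (b2' : ∀ t, 1 ≤ t → R₂' t ≤ C₂' / t ^ (2 * m + 1)) :
    Tendsto (fun t : ℝ => (t : ℂ) ^ m * u t) atTop (𝓝 0) := by
  set A : ℝ := |C| * (√C₁ + √C₂) * (√C₁' + √C₂') with hA
  have hA0 : 0 ≤ A := by positivity
  have key : ∀ t : ℝ, 1 ≤ t → ‖(t : ℂ) ^ m * u t‖ ≤ A * t⁻¹ := by
    intro t ht
    have ht0 : 0 < t := by linarith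
    have hs : ∀ {R : ℝ → ℝ} {c : ℝ}, 0 ≤ c → (∀ t, 1 ≤ t → R t ≤ c / t ^ (2 * m + 1)) →
        √(R t) ≤ √c / √(t ^ (2 * m + 1)) := by
      intro R c hc hR
      rw [← Real.sqrt_div hc]
      exact Real.sqrt_le_sqrt (hR t ht)
    have q1 := hs p1 b1
    have q2 := hs p2 b2
    have q1' := hs p1' b1'
    have q2' := hs p2' b2'
    have hT : 0 < t ^ (2 * m + 1) := by positivity
    set T := √(t ^ (2 * m + 1)) with hTdef
    have hT0 : 0 < T := Real.sqrt_pos.2 hT
    have hTT : T * T = t ^ (2 * m + 1) := Real.mul_self_sqrt hT.le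
    have e1 : √(R₁ t) + √(R₂ t) ≤ (√C₁ + √C₂) / T := by rw [add_div]; exact add_le_add q1 q2
    have e2 : √(R₁' t) + √(R₂' t) ≤ (√C₁' + √C₂') / T := by
      rw [add_div]; exact add_le_add q1' q2'
    have h1 : ‖u t‖ ≤ A / (T * T) := by
      calc ‖u t‖ ≤ C * (√(R₁ t) + √(R₂ t)) * (√(R₁' t) + √(R₂' t)) := hu t
        _ ≤ |C| * (√(R₁ t) + √(R₂ t)) * (√(R₁' t) + √(R₂' t)) := by
            gcongr
            exact le_abs_self C
        _ ≤ |C| * ((√C₁ + √C₂) / T) * ((√C₁' + √C₂') / T) := by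
            gcongr
        _ = A / (T * T) := by rw [hA]; field_simp
    rw [hTT] at h1
    have h2 : ‖(t : ℂ) ^ m‖ = t ^ m := by
      rw [norm_pow, Complex.norm_real, Real.norm_of_nonneg ht0.le]
    rw [norm_mul, h2]
    calc t ^ m * ‖u t‖ ≤ t ^ m * (A / t ^ (2 * m + 1)) := by gcongr
      _ = A * (t⁻¹ * (t ^ m)⁻¹) := by
          have : t ^ (2 * m + 1) = t ^ m * t ^ m * t := by ring
          rw [this]
          field_simp
      _ ≤ A * (t⁻¹ * 1) := by
          gcongr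
          exact inv_le_one_of_one_le₀ (one_le_pow₀ ht)
      _ = A * t⁻¹ := by rw [mul_one]
  have hlim : Tendsto (fun t : ℝ => A * t⁻¹) atTop (𝓝 0) := by
    simpa using tendsto_inv_atTop_zero.const_mul A
  refine squeeze_zero_norm' ?_ hlim
  filter_upwards [eventually_ge_atTop (1 : ℝ)] with t ht using key t ht

theorem dmn_inner_smul (s : ℝ) (e e' : Fib N) :
    inner ℂ (s • e) (s • e') = ((s ^ 2 : ℝ) : ℂ) * inner ℂ e e' := by
  rw [← Complex.coe_smul s e, ← Complex.coe_smul s e', inner_smul_left, inner_smul_right,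
    Complex.conj_ofReal]
  push_cast
  ring

theorem dm_limit_zero (hD : RelOpen D) (c₁ : CoefD D G₁ B₁ h₁) (c₂ : CoefD D G₂ B₂ h₂)
    (hE : ERelD D G₁ B₁ h₁ G₂ B₂ h₂) {m : ℕ} (hm : m ≤ 1)
    (hG : ∀ j l, Van D (m + 1) (fun x => G₁ x j l - G₂ x j l))
    (hB : ∀ j, Van D m (fun x => B₁ j x - B₂ j x))
    (hh : Van D (m + 2) (fun x => h₁ x - h₂ x)) {ξ : Fin n → ℝ} (hξ0 : ξ 0 = 0) (hξ : ξ ≠ 0)
    {p : E n} (hp : p ∈ D) (hp0 : p 0 = 0) :
    ∃ r > 0, Metric.closedBall p r ∩ Hs n ⊆ D ∧ ∀ χ, Bump p r χ → ∀ e e' : Fib N,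
      (((m + 1).factorial : ℕ) : ℂ)⁻¹ * JJ G₂ ξ (m + 1) (fun x => ((χ x) ^ 2 : ℝ) *
        ∑ j, ∑ l, (((pd (0 : Fin n))^[m + 1] (fun y => G₁ y j l - G₂ y j l) x : ℝ) : ℂ) *
          ((starRingEnd ℂ) (zz (G₂ x) ξ j) * zz (G₂ x) ξ l * inner ℂ e e')) +
      ((m.factorial : ℕ) : ℂ)⁻¹ * JJ G₂ ξ m (fun x => ((χ x) ^ 2 : ℝ) *
        ∑ j, ∑ l, (G₂ x j l : ℂ) * ((starRingEnd ℂ) (zz (G₂ x) ξ j) *
          inner ℂ e ((pd (0 : Fin n))^[m] (fun y => B₁ l y - B₂ l y) x e') +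
          zz (G₂ x) ξ l * inner ℂ ((pd (0 : Fin n))^[m] (fun y => B₁ j y - B₂ j y) x e) e')) = 0 := by
  obtain ⟨ψ, hψ⟩ := dp_exists_phase hD c₂.toGOk hξ0 hξ
  obtain ⟨r, hr, δ, hδ, hrD, hre⟩ := dp_exists_ball hD c₂.toGOk hξ0 hξ hψ hp hp0
  refine ⟨r, hr, hrD, fun χ hχ e e' => ?_⟩
  obtain ⟨a, ha, ha0, hae, haM⟩ := da_exists_ampl hD c₂.toGOk c₂.smB hξ0 hξ hψ hrD hχ e
  obtain ⟨a', ha', ha0', hae', haM'⟩ := da_exists_ampl hD c₂.toGOk c₂.smB hξ0 hξ hψ hrD hχ e'
  set K : Set (E n) := Metric.closedBall p r ∩ Hs n with hKdef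
  have hK : IsCompact K := (isCompact_closedBall p r).inter_right isClosed_Hs
  have k0 : ∀ x ∈ Hs n, x ∉ K → a x = 0 := fun x hx hxK => ha0 x hx fun h => hxK ⟨h, hx⟩
  have k0' : ∀ x ∈ Hs n, x ∉ K → a' x = 0 := fun x hx hxK => ha0' x hx fun h => hxK ⟨h, hx⟩
  -- orders of vanishing
  have hh1 : Van D (m + 1) (fun x => h₁ x - h₂ x) := hh.mono (by lia)
  have hh0 : Van D m (fun x => h₁ x - h₂ x) := hh.mono (by lia)
  have hG0 : ∀ j l, Van D m (fun x => G₁ x j l - G₂ x j l) := fun j l => (hG j l).mono (by lia)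
  obtain ⟨v2, f2⟩ := dt_top_Q2 hD c₁ c₂ hψ.sm ha ha' hG hh
  obtain ⟨v1, f1⟩ := dt_top_Q1 hD c₁ c₂ hψ.sm ha ha' hG hB hh1
  have v0 := dt_top_Q0 hD c₁ c₂ ha ha' hG0 hB hh0
  have lim1 := dle_lim hD c₁ c₂ hψ ha ha' hK hrD k0 k0' hδ hre v2 v1 v0
  -- residuals
  have he2 : Van D (m + 1) (eik G₂ ψ) := hψ.eik2.mono (by lia)
  have he1 : Van D (m + 1) (eik G₁ ψ) := dk_eik_other hD c₁.toGOk c₂.toGOk hψ hm hG
  have hM1 := dk_Mop_other hD c₁.toGOk c₂.toGOk c₁.smB c₂.smB hψ.sm ha hm hG hB haM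
  have hM1' := dk_Mop_other hD c₁.toGOk c₂.toGOk c₁.smB c₂.smB hψ.sm ha' hm hG hB haM'
  obtain ⟨C₁, p1, b1⟩ := dr_resid hD c₁.toGOk c₁.smB hψ.sm ha hK hrD k0 hδ hre hm he1 hM1
  obtain ⟨C₂, p2, b2⟩ := dr_resid hD c₂.toGOk c₂.smB hψ.sm ha hK hrD k0 hδ hre hm he2
    (haM.mono hm)
  obtain ⟨C₁', p1', b1'⟩ := dr_resid hD c₁.toGOk c₁.smB hψ.sm ha' hK hrD k0' hδ hre hm he1 hM1'
  obtain ⟨C₂', p2', b2'⟩ := dr_resid hD c₂.toGOk c₂.smB hψ.sm ha' hK hrD k0' hδ hre hm he2
    (haM'.mono hm)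
  obtain ⟨C, hC⟩ := hE.rel
  have lim0 := dmn_to_zero m
    (u := fun t => EnD D G₁ B₁ h₁ (osc ψ a t) (osc ψ a' t) -
      EnD D G₂ B₂ h₂ (osc ψ a t) (osc ψ a' t))
    (fun t => hC _ _ (de_tstD_osc hψ.sm ha hK hrD k0 t) (de_tstD_osc hψ.sm ha' hK hrD k0' t))
    p1 p2 p1' p2' b1 b2 b1' b2'
  have hfin := tendsto_nhds_unique lim1 lim0
  -- supports
  have z1 := de_supp_Q (G := G₁) (B := B₁) (h := h₁) (ψ := ψ) (a := a) (a' := a')
    (Metric.isClosed_closedBall (x := p) (ε := r)) ha0 ha0'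
  have z2 := de_supp_Q (G := G₂) (B := B₂) (h := h₂) (ψ := ψ) (a := a) (a' := a')
    (Metric.isClosed_closedBall (x := p) (ε := r)) ha0 ha0'
  have w2 := dle_iter_supp (f := fun x => Q2 G₁ h₁ ψ a a' x - Q2 G₂ h₂ ψ a a' x)
    (Metric.isClosed_closedBall (x := p) (ε := r))
    (fun x hx hxK => by rw [(z1 x hx hxK).1, (z2 x hx hxK).1, sub_zero]) (m + 1)
  have w1 := dle_iter_supp (f := fun x => Q1 G₁ B₁ h₁ ψ a a' x - Q1 G₂ B₂ h₂ ψ a a' x)
    (Metric.isClosed_closedBall (x := p) (ε := r))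
    (fun x hx hxK => by rw [(z1 x hx hxK).2.1, (z2 x hx hxK).2.1, sub_zero]) m
  rw [← hfin]
  congr 1
  · congr 1
    refine dle_JJ_congr hrD (fun x hx hx0 => ?_) (fun x _ hxK => ?_) w2
    · rw [f2 x hx hx0, Finset.mul_sum]
      refine Finset.sum_congr rfl fun j _ => ?_
      rw [Finset.mul_sum]
      refine Finset.sum_congr rfl fun l _ => ?_
      rw [hψ.grad x hx hx0, hψ.grad x hx hx0, hae x hx hx0, hae' x hx hx0, dmn_inner_smul]
      ring
    · rw [hχ.2 x hxK]; simp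
  · congr 1
    refine dle_JJ_congr hrD (fun x hx hx0 => ?_) (fun x _ hxK => ?_) w1
    · rw [f1 x hx hx0, Finset.mul_sum]
      refine Finset.sum_congr rfl fun j _ => ?_
      rw [Finset.mul_sum]
      refine Finset.sum_congr rfl fun l _ => ?_
      rw [hψ.grad x hx hx0, hψ.grad x hx hx0, hae x hx hx0, hae' x hx hx0]
      have s1 : ∀ T : EndF N, inner ℂ (χ x • e) (T (χ x • e')) =
          (((χ x) ^ 2 : ℝ) : ℂ) * inner ℂ e (T e') := by
        intro T
        rw [ContinuousLinearMap.map_smul_of_tower, dmn_inner_smul]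
      have s2 : ∀ T : EndF N, inner ℂ (T (χ x • e)) (χ x • e') =
          (((χ x) ^ 2 : ℝ) : ℂ) * inner ℂ (T e) e' := by
        intro T
        rw [ContinuousLinearMap.map_smul_of_tower, dmn_inner_smul]
      rw [s1, s2]
      ring
    · rw [hχ.2 x hxK]; simp

end Vale.Agent.P088.EYM
end
end

section

set_option linter.all false

/-!
# P088-EYM, block D, module DAlg: parity in `ξ` and localization
-/

open MeasureTheory Set Filter Topology
open scoped ContDiff

noncomputable section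

namespace Vale.Agent.P088.EYM

variable {n : ℕ} [NeZero n] {N : ℕ}
variable {D : Set (E n)}

theorem dalg_sc_coord (x : E n) : (sc 0 x) 0 = 0 := by
  simp [sc]

theorem dalg_JJ_congr {G : E n → Matrix (Fin n) (Fin n) ℝ} {ξ : Fin n → ℝ} {k : ℕ}
    {f f' : E n → ℂ} (h : ∀ w : E n, w 0 = 0 → f w = f' w) : JJ G ξ k f = JJ G ξ k f' := by
  unfold JJ
  congr 1
  funext x
  rw [h _ (dalg_sc_coord x)]

theorem dalg_JJ_mul {G : E n → Matrix (Fin n) (Fin n) ℝ} {ξ : Fin n → ℝ} {k : ℕ}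
    (c : ℂ) (f : E n → ℂ) : JJ G ξ k (fun x => c * f x) = c * JJ G ξ k f := by
  unfold JJ
  rw [← integral_const_mul]
  congr 1
  funext x
  ring

theorem dalg_JJ_neg_xi {G : E n → Matrix (Fin n) (Fin n) ℝ} {ξ : Fin n → ℝ} {k : ℕ}
    (f : E n → ℂ) : JJ G (-ξ) k f = JJ G ξ k f := by
  simp only [JJ, wt, dp_rho_neg]

theorem dalg_cont_zz (hD : RelOpen D) {G : E n → Matrix (Fin n) (Fin n) ℝ} (hG : GOk D G)
    {ξ : Fin n → ℝ} (hξ0 : ξ 0 = 0) (hξ : ξ ≠ 0) (j : Fin n) :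
    ContinuousOn (fun x => zz (G x) ξ j) D := by
  unfold zz
  by_cases hj : j = 0
  · simp only [hj, if_true]
    refine continuousOn_const.sub (ContinuousOn.add ?_ (continuousOn_const.mul ?_))
    · exact Complex.continuous_ofReal.comp_continuousOn (dp_smooth_rho hD hG hξ0 hξ).continuousOn
    · refine Complex.continuous_ofReal.comp_continuousOn ?_
      unfold bet
      refine ContinuousOn.div ?_ (hG.smG 0 0).continuousOn fun x hx => ?_
      · exact continuousOn_finsetSum _ fun k _ => (hG.smG 0 k).continuousOn.mul continuousOn_const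
      · exact ne_of_gt ((hG.pos x hx).diag_pos)
  · simp only [hj, if_false]
    exact continuousOn_const

theorem dalg_conj_sub (A : Matrix (Fin n) (Fin n) ℝ) (ξ : Fin n → ℝ) (j : Fin n) :
    (starRingEnd ℂ) (zz A ξ j) - zz A ξ j =
      -2 * Complex.I * ξ j + (if j = 0 then 2 * Complex.I * bet A ξ else 0) := by
  unfold zz
  by_cases hj : j = 0
  · simp only [hj, if_true, map_sub, map_mul, map_add, Complex.conj_I, Complex.conj_ofReal]
    ring
  · simp only [hj, if_false, map_sub, map_mul, Complex.conj_I, Complex.conj_ofReal, map_zero]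
    ring

theorem dalg_algebra {G : Matrix (Fin n) (Fin n) ℝ} (hs : ∀ j l, G j l = G l j)
    {A : Fin n → EndF N} (hA : ∀ j, ContinuousLinearMap.adjoint (A j) = -A j)
    (hr : ∑ l, G 0 l • A l = 0) (ξ : Fin n → ℝ) (e e' : Fib N) :
    ∑ j, ∑ l, (G j l : ℂ) * ((starRingEnd ℂ) (zz G ξ j) * inner ℂ e (A l e') +
      zz G ξ l * inner ℂ (A j e) e') =
      (-2 * Complex.I) * ∑ j, ∑ l, ((G j l * ξ j : ℝ) : ℂ) * inner ℂ e (A l e') := by
  have h1 : ∀ j, (inner ℂ (A j e) e' : ℂ) = -inner ℂ e (A j e') := by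
    intro j
    rw [← ContinuousLinearMap.adjoint_inner_right, hA j]
    simp
  have h2 : ∑ j, ∑ l, (G j l : ℂ) * (zz G ξ l * inner ℂ (A j e) e') =
      -∑ j, ∑ l, (G j l : ℂ) * (zz G ξ j * inner ℂ e (A l e')) := by
    rw [Finset.sum_comm, ← Finset.sum_neg_distrib]
    refine Finset.sum_congr rfl fun j _ => ?_
    rw [← Finset.sum_neg_distrib]
    refine Finset.sum_congr rfl fun l _ => ?_
    rw [h1, hs l j]
    ring
  have h3 : ∑ l, (G 0 l : ℂ) * inner ℂ e (A l e') = 0 := by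
    have : (inner ℂ e ((∑ l, G 0 l • A l) e') : ℂ) = 0 := by rw [hr]; simp
    rw [sum_apply, inner_sum] at this
    rw [← this]
    refine Finset.sum_congr rfl fun l _ => ?_
    rw [smul_apply, ← Complex.coe_smul, inner_smul_right]
  have h4 : ∑ j, ∑ l, (G j l : ℂ) * ((starRingEnd ℂ) (zz G ξ j) * inner ℂ e (A l e') +
      zz G ξ l * inner ℂ (A j e) e') = ∑ j, ∑ l, (G j l : ℂ) *
        (((starRingEnd ℂ) (zz G ξ j) - zz G ξ j) * inner ℂ e (A l e')) := by
    simp only [mul_add, Finset.sum_add_distrib]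
    rw [h2, ← sub_eq_add_neg, ← Finset.sum_sub_distrib]
    refine Finset.sum_congr rfl fun j _ => ?_
    rw [← Finset.sum_sub_distrib]
    refine Finset.sum_congr rfl fun l _ => ?_
    ring
  rw [h4]
  have h5 : ∀ j, ∑ l, (G j l : ℂ) * (((starRingEnd ℂ) (zz G ξ j) - zz G ξ j) *
      inner ℂ e (A l e')) = (-2 * Complex.I) * ∑ l, ((G j l * ξ j : ℝ) : ℂ) * inner ℂ e (A l e') +
        (if j = 0 then 2 * Complex.I * bet G ξ * ∑ l, (G 0 l : ℂ) * inner ℂ e (A l e') else 0) := by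
    intro j
    by_cases hj : j = 0
    · subst hj
      rw [if_pos rfl, Finset.mul_sum, Finset.mul_sum, ← Finset.sum_add_distrib]
      refine Finset.sum_congr rfl fun l _ => ?_
      rw [dalg_conj_sub, if_pos rfl]
      push_cast
      ring
    · rw [if_neg hj, Finset.mul_sum, add_zero]
      refine Finset.sum_congr rfl fun l _ => ?_
      rw [dalg_conj_sub, if_neg hj]
      push_cast
      ring
  simp only [h5, h3, mul_zero, ite_self, add_zero]
  rw [Finset.mul_sum]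

theorem dalg_sym {Γ : Fin n → Fin n → ℝ} (hs : ∀ j l, Γ j l = Γ l j) (G : Matrix (Fin n) (Fin n) ℝ)
    (ξ : Fin n → ℝ) (c : ℂ) :
    ∑ j, ∑ l, (Γ j l : ℂ) * ((starRingEnd ℂ) (zz G (-ξ) j) * zz G (-ξ) l * c) =
      ∑ j, ∑ l, (Γ j l : ℂ) * ((starRingEnd ℂ) (zz G ξ j) * zz G ξ l * c) := by
  rw [Finset.sum_comm]
  refine Finset.sum_congr rfl fun j _ => Finset.sum_congr rfl fun l _ => ?_
  rw [dp_zz_neg, dp_zz_neg, Complex.conj_conj, hs l j]
  ring


variable {G₁ G₂ : E n → Matrix (Fin n) (Fin n) ℝ} {B₁ B₂ : Fin n → E n → EndF N}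
  {h₁ h₂ : E n → EndF N}

theorem dalg_pointwise (hN : 0 < N) (hD : RelOpen D) (c₁ : CoefD D G₁ B₁ h₁)
    (c₂ : CoefD D G₂ B₂ h₂)
    (hE : ERelD D G₁ B₁ h₁ G₂ B₂ h₂) {m : ℕ} (hm : m ≤ 1)
    (hG : ∀ j l, Van D (m + 1) (fun x => G₁ x j l - G₂ x j l))
    (hB : ∀ j, Van D m (fun x => B₁ j x - B₂ j x))
    (hh : Van D (m + 2) (fun x => h₁ x - h₂ x))
    (hskew : ∀ x ∈ D, x 0 = 0 → ∀ j, ContinuousLinearMap.adjoint
      ((pd (0 : Fin n))^[m] (fun y => B₁ j y - B₂ j y) x) =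
        -((pd (0 : Fin n))^[m] (fun y => B₁ j y - B₂ j y) x))
    (hrow : ∀ x ∈ D, x 0 = 0 → ∑ l, G₂ x 0 l •
      (pd (0 : Fin n))^[m] (fun y => B₁ l y - B₂ l y) x = 0)
    {ξ : Fin n → ℝ} (hξ0 : ξ 0 = 0) {x : E n} (hx : x ∈ D) (hx0 : x 0 = 0) :
    (∑ j, ∑ l, (G₂ x j l * ξ j) • (pd (0 : Fin n))^[m] (fun y => B₁ l y - B₂ l y) x = 0) ∧
      ∑ j, ∑ l, (((pd (0 : Fin n))^[m + 1] (fun y => G₁ y j l - G₂ y j l) x : ℝ) : ℂ) *
          ((starRingEnd ℂ) (zz (G₂ x) ξ j) * zz (G₂ x) ξ l) = 0 := by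
  by_cases hξ : ξ = 0
  · subst hξ
    have hz : ∀ j, zz (G₂ x) 0 j = 0 := by
      intro j
      simp [zz, rho, bet]
    constructor
    · refine Finset.sum_eq_zero fun j _ => Finset.sum_eq_zero fun l _ => ?_
      rw [Pi.zero_apply, mul_zero]
      exact zero_smul ℝ (_ : EndF N)
    · simp [hz]
  have hξ' : -ξ ≠ 0 := neg_ne_zero.2 hξ
  have hξ0' : (-ξ) 0 = 0 := by simp [hξ0]
  -- abbreviations
  obtain ⟨A, hA⟩ : ∃ A : Fin n → E n → EndF N, A = fun l y =>
    (pd (0 : Fin n))^[m] (fun y => B₁ l y - B₂ l y) y := ⟨_, rfl⟩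
  obtain ⟨Γ, hΓ⟩ : ∃ Γ : Fin n → Fin n → E n → ℝ, Γ = fun j l y =>
    (pd (0 : Fin n))^[m + 1] (fun y => G₁ y j l - G₂ y j l) y := ⟨_, rfl⟩
  have hA' : ∀ l y, (pd (0 : Fin n))^[m] (fun y => B₁ l y - B₂ l y) y = A l y := by
    intro l y; rw [hA]
  have hΓ' : ∀ j l y, (pd (0 : Fin n))^[m + 1] (fun y => G₁ y j l - G₂ y j l) y = Γ j l y := by
    intro j l y; rw [hΓ]
  have hAs : ∀ l, ContinuousOn (A l) D := by
    intro l
    rw [hA]
    exact (dv_smooth_iter hD ((c₁.smB l).sub (c₂.smB l)) m).continuousOn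
  have hΓs : ∀ j l, ContinuousOn (Γ j l) D := by
    intro j l
    rw [hΓ]
    exact (dv_smooth_iter hD ((c₁.smG j l).sub (c₂.smG j l)) (m + 1)).continuousOn
  have hΓsym : ∀ y ∈ D, ∀ j l, Γ j l y = Γ l j y := by
    intro y hy j l
    rw [hΓ]
    refine dv_iter_congr hD (fun z hz => ?_) (m + 1) hy
    rw [c₁.symm z hz j l, c₂.symm z hz j l]
  obtain ⟨r₁, hr₁, hb₁, H₁⟩ := dm_limit_zero hD c₁ c₂ hE hm hG hB hh hξ0 hξ hx hx0
  obtain ⟨r₂, hr₂, hb₂, H₂⟩ := dm_limit_zero hD c₁ c₂ hE hm hG hB hh hξ0' hξ' hx hx0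
  simp only [hA', hΓ'] at H₁ H₂ hskew hrow ⊢
  clear hA' hΓ'
  have hr : 0 < min r₁ r₂ := lt_min hr₁ hr₂
  have hbr : Metric.closedBall x (min r₁ r₂) ∩ Hs n ⊆ D := fun y hy =>
    hb₁ ⟨Metric.closedBall_subset_closedBall (min_le_left _ _) hy.1, hy.2⟩
  have hf1 : (((m + 1).factorial : ℕ) : ℂ)⁻¹ ≠ 0 :=
    inv_ne_zero (Nat.cast_ne_zero.2 (Nat.factorial_ne_zero _))
  have hf0 : ((m.factorial : ℕ) : ℂ)⁻¹ ≠ 0 :=
    inv_ne_zero (Nat.cast_ne_zero.2 (Nat.factorial_ne_zero _))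
  -- the two families of integrals vanish
  have key : ∀ χ, Bump x (min r₁ r₂) χ → ∀ e e' : Fib N,
      JJ G₂ ξ (m + 1) (fun x => ((χ x) ^ 2 : ℝ) * ∑ j, ∑ l, ((Γ j l x : ℝ) : ℂ) *
        ((starRingEnd ℂ) (zz (G₂ x) ξ j) * zz (G₂ x) ξ l * inner ℂ e e')) = 0 ∧
      JJ G₂ ξ m (fun x => ((χ x) ^ 2 : ℝ) * ∑ j, ∑ l, ((G₂ x j l * ξ j : ℝ) : ℂ) *
        inner ℂ e (A l x e')) = 0 := by
    intro χ hχ e e'
    have hχ1 : Bump x r₁ χ := ⟨hχ.1, fun y hy => hχ.2 y fun h =>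
      hy (Metric.closedBall_subset_closedBall (min_le_left _ _) h)⟩
    have hχ2 : Bump x r₂ χ := ⟨hχ.1, fun y hy => hχ.2 y fun h =>
      hy (Metric.closedBall_subset_closedBall (min_le_right _ _) h)⟩
    have K₁ := H₁ χ hχ1 e e'
    have K₂ := H₂ χ hχ2 e e'
    rw [dalg_JJ_neg_xi, dalg_JJ_neg_xi] at K₂
    -- membership
    have hmem : ∀ w : E n, w 0 = 0 → χ w ≠ 0 → w ∈ D := by
      intro w hw hne
      refine hbr ⟨?_, ?_⟩
      · by_contra h
        exact hne (hχ.2 w h)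
      · show 0 ≤ w 0
        rw [hw]
    -- first integrand
    have e1 : JJ G₂ ξ (m + 1) (fun x => ((χ x) ^ 2 : ℝ) * ∑ j, ∑ l, ((Γ j l x : ℝ) : ℂ) *
        ((starRingEnd ℂ) (zz (G₂ x) (-ξ) j) * zz (G₂ x) (-ξ) l * inner ℂ e e')) =
        JJ G₂ ξ (m + 1) (fun x => ((χ x) ^ 2 : ℝ) * ∑ j, ∑ l, ((Γ j l x : ℝ) : ℂ) *
        ((starRingEnd ℂ) (zz (G₂ x) ξ j) * zz (G₂ x) ξ l * inner ℂ e e')) := by
      refine dalg_JJ_congr fun w hw => ?_
      by_cases h0 : χ w = 0
      · simp [h0]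
      · rw [dalg_sym (Γ := fun j l => Γ j l w) (hΓsym w (hmem w hw h0))]
    -- second integrand
    have e2 : ∀ η : Fin n → ℝ, JJ G₂ ξ m (fun x => ((χ x) ^ 2 : ℝ) *
        ∑ j, ∑ l, (G₂ x j l : ℂ) * ((starRingEnd ℂ) (zz (G₂ x) η j) *
          inner ℂ e (A l x e') + zz (G₂ x) η l * inner ℂ (A j x e) e')) =
        (-2 * Complex.I) * JJ G₂ ξ m (fun x => ((χ x) ^ 2 : ℝ) *
          ∑ j, ∑ l, ((G₂ x j l * η j : ℝ) : ℂ) * inner ℂ e (A l x e')) := by
      intro η
      rw [← dalg_JJ_mul]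
      refine dalg_JJ_congr fun w hw => ?_
      by_cases h0 : χ w = 0
      · simp [h0]
      · have hwD := hmem w hw h0
        rw [dalg_algebra (c₂.symm w hwD) (hskew w hwD hw) (hrow w hwD hw)]
        ring
    have e3 : JJ G₂ ξ m (fun x => ((χ x) ^ 2 : ℝ) *
          ∑ j, ∑ l, ((G₂ x j l * (-ξ) j : ℝ) : ℂ) * inner ℂ e (A l x e')) =
        (-1) * JJ G₂ ξ m (fun x => ((χ x) ^ 2 : ℝ) *
          ∑ j, ∑ l, ((G₂ x j l * ξ j : ℝ) : ℂ) * inner ℂ e (A l x e')) := by
      rw [← dalg_JJ_mul]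
      refine dalg_JJ_congr fun w hw => ?_
      have : ∑ j, ∑ l, ((G₂ w j l * (-ξ) j : ℝ) : ℂ) * inner ℂ e (A l w e') =
          -∑ j, ∑ l, ((G₂ w j l * ξ j : ℝ) : ℂ) * inner ℂ e (A l w e') := by
        rw [← Finset.sum_neg_distrib]
        refine Finset.sum_congr rfl fun j _ => ?_
        rw [← Finset.sum_neg_distrib]
        refine Finset.sum_congr rfl fun l _ => ?_
        rw [Pi.neg_apply]
        push_cast
        ring
      rw [this]
      ring
    rw [e1, e2, e3] at K₂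
    rw [e2] at K₁
    set J₁ := JJ G₂ ξ (m + 1) (fun x => ((χ x) ^ 2 : ℝ) * ∑ j, ∑ l, ((Γ j l x : ℝ) : ℂ) *
        ((starRingEnd ℂ) (zz (G₂ x) ξ j) * zz (G₂ x) ξ l * inner ℂ e e'))
    set J₂ := JJ G₂ ξ m (fun x => ((χ x) ^ 2 : ℝ) *
          ∑ j, ∑ l, ((G₂ x j l * ξ j : ℝ) : ℂ) * inner ℂ e (A l x e'))
    constructor
    · have : (((m + 1).factorial : ℕ) : ℂ)⁻¹ * J₁ = 0 := by
        linear_combination (K₁ + K₂) / 2
      exact (mul_eq_zero.1 this).resolve_left hf1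
    · have : ((m.factorial : ℕ) : ℂ)⁻¹ * J₂ = 0 := by
        linear_combination (Complex.I / 4) * (K₁ - K₂) + (((m.factorial : ℕ) : ℂ)⁻¹ * J₂) *
          Complex.I_mul_I
      exact (mul_eq_zero.1 this).resolve_left hf0
  constructor
  · -- localisation of the second family
    have hloc : ∀ e e' : Fib N, ∑ j, ∑ l, ((G₂ x j l * ξ j : ℝ) : ℂ) * inner ℂ e (A l x e') = 0 := by
      intro e e'
      refine dloc_eq hD c₂.toGOk hξ0 hξ (f := fun x => ∑ j, ∑ l, ((G₂ x j l * ξ j : ℝ) : ℂ) *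
        inner ℂ e (A l x e')) ?_ hx hx0 hr hbr m fun χ hχ => (key χ hχ e e').2
      refine continuousOn_finsetSum _ fun j _ => continuousOn_finsetSum _ fun l _ => ?_
      refine ContinuousOn.mul ?_ ?_
      · exact Complex.continuous_ofReal.comp_continuousOn
          ((c₂.smG j l).continuousOn.mul continuousOn_const)
      · exact ContinuousOn.inner (𝕜 := ℂ) continuousOn_const ((hAs l).clm_apply continuousOn_const)
    refine ContinuousLinearMap.ext fun e' => ?_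
    refine ext_inner_left ℂ fun e => ?_
    rw [sum_apply, inner_sum, zero_apply, inner_zero_right, ← hloc e e']
    refine Finset.sum_congr rfl fun j _ => ?_
    rw [sum_apply, inner_sum]
    refine Finset.sum_congr rfl fun l _ => ?_
    rw [smul_apply, ← Complex.coe_smul, inner_smul_right]
  · -- localisation of the first family
    let e : Fib N := EuclideanSpace.single ⟨0, hN⟩ (1 : ℂ)
    have he : (inner ℂ e e : ℂ) = 1 := by
      simp [e]
    refine dloc_eq hD c₂.toGOk hξ0 hξ (f := fun x => ∑ j, ∑ l, ((Γ j l x : ℝ) : ℂ) *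
      ((starRingEnd ℂ) (zz (G₂ x) ξ j) * zz (G₂ x) ξ l)) ?_ hx hx0 hr hbr (m + 1) fun χ hχ => ?_
    · refine continuousOn_finsetSum _ fun j _ => continuousOn_finsetSum _ fun l _ => ?_
      refine ContinuousOn.mul (Complex.continuous_ofReal.comp_continuousOn (hΓs j l)) ?_
      exact (Complex.continuous_conj.comp_continuousOn
        (dalg_cont_zz hD c₂.toGOk hξ0 hξ j)).mul (dalg_cont_zz hD c₂.toGOk hξ0 hξ l)
    · have := (key χ hχ e e).1
      simpa only [he, mul_one] using this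

end Vale.Agent.P088.EYM
end
end

section

/-!
# P088-EYM, block D: level step and equality of the jets in terms of `Van`
-/

open MeasureTheory Set Filter Topology
open scoped ContDiff

noncomputable section

namespace Vale.Agent.P088.EYM

set_option linter.unusedSectionVars false

variable {n : ℕ} [NeZero n] {N : ℕ}
variable {F : Type*} [NormedAddCommGroup F] [NormedSpace ℝ F]
variable {D : Set (E n)}

theorem df_van_snoc {k : ℕ} {f : E n → F} (h : Van D k f)
    (h' : ∀ x ∈ D, x 0 = 0 → (pd (0 : Fin n))^[k] f x = 0) : Van D (k + 1) f := by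
  intro i hi x hx hx0
  rcases Nat.lt_succ_iff_lt_or_eq.1 hi with h1 | h1
  · exact h i h1 x hx hx0
  · rw [h1]; exact h' x hx hx0

/-- a vector annihilated by a positive definite matrix vanishes -/
theorem df_solve {A : Matrix (Fin n) (Fin n) ℝ} (hA : A.PosDef) (α : Fin n → F)
    (h : ∀ j, ∑ l, A j l • α l = 0) (l : Fin n) : α l = 0 := by
  have hu : A⁻¹ * A = 1 := Matrix.nonsing_inv_mul A hA.det_pos.ne'.isUnit
  have h1 : ∑ j, A⁻¹ l j • ∑ i, A j i • α i = α l := by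
    simp only [Finset.smul_sum, smul_smul]
    rw [Finset.sum_comm]
    have h2 : ∀ i, ∑ j, (A⁻¹ l j * A j i) • α i = (A⁻¹ * A) l i • α i := by
      intro i
      rw [← Finset.sum_smul, Matrix.mul_apply]
    simp only [h2, hu, Matrix.one_apply, ite_smul, one_smul, zero_smul, Finset.sum_ite_eq,
      Finset.mem_univ, if_true]
  rw [← h1]
  simp only [h, smul_zero, Finset.sum_const_zero]

theorem df_pick (A : Matrix (Fin n) (Fin n) ℝ) (α : Fin n → F) {i : Fin n}
    (h : ∑ j, ∑ l, (A j l * (Pi.single i (1 : ℝ) : Fin n → ℝ) j) • α l = 0) :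
    ∑ l, A i l • α l = 0 := by
  have h2 : ∀ j' : Fin n, ∑ l, (A j' l * (Pi.single i (1 : ℝ) : Fin n → ℝ) j') • α l =
      if j' = i then ∑ l, A j' l • α l else 0 := by
    intro j'
    by_cases hj : j' = i
    · subst hj; simp
    · rw [if_neg hj]
      refine Finset.sum_eq_zero fun l _ => ?_
      rw [Pi.single_eq_of_ne hj, mul_zero, zero_smul]
  simp only [h2, Finset.sum_ite_eq', Finset.mem_univ, if_true] at h
  exact h

/-- polarization -/
theorem df_polar {κ : Fin n → Fin n → ℝ} (hs : ∀ j l, κ j l = κ l j) (h0 : ∀ a, κ 0 a = 0)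
    (h : ∀ ξ : Fin n → ℝ, ξ 0 = 0 → ∑ j, ∑ l, κ j l * (ξ j * ξ l) = 0) (j l : Fin n) :
    κ j l = 0 := by
  by_cases hj : j = 0
  · rw [hj]; exact h0 l
  by_cases hl : l = 0
  · rw [hl, hs]; exact h0 j
  have hd : ∀ a : Fin n, a ≠ 0 → κ a a = 0 := by
    intro a ha
    have h1 := h (Pi.single a 1) (by simp [Ne.symm ha])
    have h2 : ∀ i k : Fin n, κ i k * ((Pi.single a (1 : ℝ) : Fin n → ℝ) i *
        (Pi.single a (1 : ℝ) : Fin n → ℝ) k) = if i = a then (if k = a then κ i k else 0) else 0 := by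
      intro i k
      by_cases hi : i = a <;> by_cases hk : k = a <;> simp [hi, hk]
    simp only [h2, Finset.sum_ite_eq', Finset.mem_univ, if_true,
      Finset.sum_ite_irrel, Finset.sum_const_zero] at h1
    simpa using h1
  by_cases hjl : j = l
  · rw [hjl]; exact hd l hl
  have h1 := h (fun i => (if i = j then 1 else 0) + if i = l then 1 else 0)
    (by simp [Ne.symm hj, Ne.symm hl])
  have h2 : ∀ i k : Fin n, κ i k * (((if i = j then (1 : ℝ) else 0) + if i = l then 1 else 0) *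
      ((if k = j then 1 else 0) + if k = l then 1 else 0)) =
      (if i = j then (if k = j then κ i k else 0) else 0) +
      (if i = j then (if k = l then κ i k else 0) else 0) +
      (if i = l then (if k = j then κ i k else 0) else 0) +
      (if i = l then (if k = l then κ i k else 0) else 0) := by
    intro i k
    split_ifs <;> ring
  simp only [h2, Finset.sum_add_distrib, Finset.sum_ite_irrel, Finset.sum_const_zero,
    Finset.sum_ite_eq', Finset.mem_univ, if_true] at h1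
  have h3 := hd j hj
  have h4 := hd l hl
  have h5 := hs j l
  have h6 : κ j j + κ j l + κ l j + κ l l = 0 := by
    simpa using h1
  linarith

variable {G₁ G₂ : E n → Matrix (Fin n) (Fin n) ℝ} {B₁ B₂ : Fin n → E n → EndF N}
  {h₁ h₂ : E n → EndF N} {c₁ c₂ : Fin n → E n → Fib N} {j0 : Fin N}

theorem df_level_step (hD : RelOpen D) (k₁ : CoefD D G₁ B₁ h₁) (k₂ : CoefD D G₂ B₂ h₂)
    (hE : ERelD D G₁ B₁ h₁ G₂ B₂ h₂)
    (hfluxB : ∀ x ∈ D, x 0 = 0 → ∑ k, G₁ x 0 k • B₁ k x = ∑ k, G₂ x 0 k • B₂ k x)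
    (s₁ : SolD D G₁ B₁ c₁ j0) (s₂ : SolD D G₂ B₂ c₂ j0) {m : ℕ} (hm : m ≤ 1)
    (hG : ∀ j l, Van D (m + 1) (fun x => G₁ x j l - G₂ x j l))
    (hB : ∀ j, Van D m (fun x => B₁ j x - B₂ j x))
    (hc : ∀ a, Van D (m + 2) (fun x => c₁ a x - c₂ a x)) :
    (∀ j l, Van D (m + 2) (fun x => G₁ x j l - G₂ x j l)) ∧
      ∀ j, Van D (m + 1) (fun x => B₁ j x - B₂ j x) := by
  obtain ⟨hh, hskew, hrow⟩ := dst_struct_step hD k₁ k₂ hfluxB hm hG hB
  have hN : 0 < N := Fin.pos j0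
  have hpw := fun (ξ : Fin n → ℝ) (hξ0 : ξ 0 = 0) (x : E n) (hx : x ∈ D) (hx0 : x 0 = 0) =>
    dalg_pointwise hN hD k₁ k₂ hE hm hG hB hh hskew hrow hξ0 hx hx0
  have hB' : ∀ j, Van D (m + 1) (fun x => B₁ j x - B₂ j x) := by
    intro j
    refine df_van_snoc (hB j) fun x hx hx0 => ?_
    refine df_solve (k₂.pos x hx) (fun l => (pd (0 : Fin n))^[m] (fun y => B₁ l y - B₂ l y) x)
      (fun i => ?_) j
    by_cases hi : i = 0
    · rw [hi]; exact hrow x hx hx0
    · exact df_pick (G₂ x) (fun l => (pd (0 : Fin n))^[m] (fun y => B₁ l y - B₂ l y) x)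
        (hpw (Pi.single i 1) (by simp [Ne.symm hi]) x hx hx0).1
  refine ⟨?_, hB'⟩
  have hrow2 := dco_coord_row hD k₁.toGOk k₂.toGOk k₁.smB k₂.smB s₁ s₂ hG hB' hc
  intro j l
  refine df_van_snoc (hG j l) fun x hx hx0 => ?_
  have hsym : ∀ j l, (pd (0 : Fin n))^[m + 1] (fun y => G₁ y j l - G₂ y j l) x =
      (pd (0 : Fin n))^[m + 1] (fun y => G₁ y l j - G₂ y l j) x := by
    intro j l
    refine dv_iter_congr hD (fun y hy => ?_) (m + 1) hx
    show G₁ y j l - G₂ y j l = G₁ y l j - G₂ y l j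
    rw [k₁.symm y hy, k₂.symm y hy]
  have hz : ∀ a, (pd (0 : Fin n))^[m + 1] (fun y => G₁ y 0 a - G₂ y 0 a) x = 0 := fun a =>
    hrow2 a (m + 1) (by omega) x hx hx0
  refine df_polar (κ := fun j l => (pd (0 : Fin n))^[m + 1] (fun y => G₁ y j l - G₂ y j l) x)
    hsym hz (fun ξ hξ0 => ?_) j l
  have h1 := (hpw ξ hξ0 x hx hx0).2
  have h2 : ∀ j l, (((pd (0 : Fin n))^[m + 1] (fun y => G₁ y j l - G₂ y j l) x : ℝ) : ℂ) *
      ((starRingEnd ℂ) (zz (G₂ x) ξ j) * zz (G₂ x) ξ l) =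
      (((pd (0 : Fin n))^[m + 1] (fun y => G₁ y j l - G₂ y j l) x * (ξ j * ξ l) : ℝ) : ℂ) := by
    intro j l
    by_cases hj : j = 0
    · subst hj; rw [hz l]; simp
    by_cases hl : l = 0
    · subst hl; rw [hsym j 0, hz j]; simp
    have e1 : (starRingEnd ℂ) (zz (G₂ x) ξ j) * zz (G₂ x) ξ l = ((ξ j * ξ l : ℝ) : ℂ) := by
      unfold zz
      rw [if_neg hj, if_neg hl, sub_zero, sub_zero, map_mul, Complex.conj_I, Complex.conj_ofReal]
      push_cast
      linear_combination (-(ξ j : ℂ) * ξ l) * Complex.I_mul_I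
    rw [e1]
    push_cast
    ring
  simp only [h2] at h1
  exact_mod_cast h1

/-- all data agree to the required order at the face -/
theorem df_boundary_van (hD : RelOpen D) (k₁ : CoefD D G₁ B₁ h₁) (k₂ : CoefD D G₂ B₂ h₂)
    (hE : ERelD D G₁ B₁ h₁ G₂ B₂ h₂)
    (hfluxG : ∀ x ∈ D, x 0 = 0 → ∀ a, G₁ x 0 a = G₂ x 0 a)
    (hfluxB : ∀ x ∈ D, x 0 = 0 → ∑ k, G₁ x 0 k • B₁ k x = ∑ k, G₂ x 0 k • B₂ k x)
    (s₁ : SolD D G₁ B₁ c₁ j0) (s₂ : SolD D G₂ B₂ c₂ j0)
    (hc0 : ∀ x ∈ D, x 0 = 0 → ∀ a, c₁ a x = c₂ a x)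
    (hc1 : ∀ x ∈ D, x 0 = 0 → ∀ a, pd 0 (c₁ a) x = pd 0 (c₂ a) x) :
    (∀ j l, Van D 3 (fun x => G₁ x j l - G₂ x j l)) ∧
      (∀ j, Van D 2 (fun x => B₁ j x - B₂ j x)) ∧
      (∀ a, Van D 3 (fun x => c₁ a x - c₂ a x)) ∧ Van D 3 (fun x => h₁ x - h₂ x) := by
  have hN : 0 < N := Fin.pos j0
  have hG1 : ∀ j l, Van D 1 (fun x => G₁ x j l - G₂ x j l) := fun j l =>
    van_one.2 fun x hx hx0 => sub_eq_zero.2 (dz_G_eq_face hN hD k₁ k₂ hE hfluxG x hx hx0 j l)
  have hc2 : ∀ a, Van D 2 (fun x => c₁ a x - c₂ a x) := by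
    intro a
    refine van_succ.2 ⟨fun x hx hx0 => sub_eq_zero.2 (hc0 x hx hx0 a), van_one.2 ?_⟩
    intro x hx hx0
    rw [hD.pd_sub (s₁.sm a) (s₂.sm a) hx]
    exact sub_eq_zero.2 (hc1 x hx hx0 a)
  obtain ⟨hG2, hB1⟩ := df_level_step hD k₁ k₂ hE hfluxB s₁ s₂ (m := 0) (by norm_num) hG1
    (fun j => van_zero _) hc2
  have hc3 : ∀ a, Van D 3 (fun x => c₁ a x - c₂ a x) :=
    dco_coord_third hD k₁.toGOk k₂.toGOk k₁.smB k₂.smB s₁ s₂ hG2 hB1 hc2
  obtain ⟨hG3, hB2⟩ := df_level_step hD k₁ k₂ hE hfluxB s₁ s₂ (m := 1) le_rfl hG2 hB1 hc3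
  exact ⟨hG3, hB2, hc3, (dst_struct_step hD k₁ k₂ hfluxB (m := 1) le_rfl hG2 hB1).1⟩

end Vale.Agent.P088.EYM
end
end

section

/-!
# P088-EYM, block C: Runge approximation, arbitrary 1-jets at two interior points
-/

open Bundle Manifold MeasureTheory Set Filter Topology
open scoped ContDiff

noncomputable section

namespace Vale.Agent.P088.EYM

set_option linter.unusedSectionVars false

universe u

/-! ### Analysis on a ball -/

theorem cRunge_opNorm {n : ℕ} {F : Type*} [NormedAddCommGroup F] [NormedSpace ℝ F]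
    (L : E n →L[ℝ] F) : ‖L‖ ≤ ∑ j, ‖L (ev j)‖ := by
  refine L.opNorm_le_bound (Finset.sum_nonneg fun _ _ => norm_nonneg _) fun v => ?_
  have h : L v = ∑ j, v j • L (ev j) := by
    conv_lhs => rw [show v = ∑ i, v i • ev i from by
      ext k
      simp [Finset.sum_apply, Pi.single_apply]]
    simp [map_sum]
  rw [h, Finset.sum_mul]
  refine (norm_sum_le _ _).trans (Finset.sum_le_sum fun j _ => ?_)
  rw [norm_smul, mul_comm]
  exact mul_le_mul_of_nonneg_left (PiLp.norm_apply_le v j) (norm_nonneg _)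

theorem cRunge_pd {n : ℕ} [NeZero n] {F : Type*} [NormedAddCommGroup F] [NormedSpace ℝ F]
    {f : E n → F} {y : E n} (hy : 0 < y 0) (j : Fin n) : pd j f y = fderiv ℝ f y (ev j) := by
  have h : Hs n ∈ 𝓝 y := mem_interior_iff_mem_nhds.1 (open_pos_subset hy)
  rw [pd, fderivWithin_of_mem_nhds h]

/-- A sequence with small integrals on a ball, uniformly Cauchy on a smaller ball, tends to zero
uniformly on the smaller ball. -/
theorem cRunge_unif {n : ℕ} {F : Type*} [NormedAddCommGroup F]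
    (z : E n) (r : ℝ) (f : ℕ → E n → F)
    (hf : ∀ k, ContinuousOn (f k) (Metric.ball z r))
    (hi : ∀ k, IntegrableOn (fun y => ‖f k y‖ ^ 2) (Metric.ball z r))
    (h0 : Tendsto (fun k => ∫ y in Metric.ball z r, ‖f k y‖ ^ 2) atTop (𝓝 0))
    (hc : ∀ ε > 0, ∃ k₀, ∀ k ≥ k₀, ∀ l ≥ k₀, ∀ y ∈ Metric.ball z r, ‖f k y - f l y‖ ≤ ε) :
    ∀ y ∈ Metric.ball z r, Tendsto (fun k => f k y) atTop (𝓝 0) := by
  intro y hy
  rw [Metric.tendsto_atTop]
  intro ε hε
  obtain ⟨k₀, hk₀⟩ := hc (ε / 3) (by positivity)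
  refine ⟨k₀, fun k hk => ?_⟩
  by_contra hcon
  rw [dist_zero_right, not_lt] at hcon
  set O : Set (E n) := Metric.ball z r ∩ (fun y => ‖f k y‖) ⁻¹' Ioi (2 * ε / 3) with hO
  have hOo : IsOpen O := (hf k).norm.isOpen_inter_preimage Metric.isOpen_ball isOpen_Ioi
  have hyO : y ∈ O := ⟨hy, by
    show 2 * ε / 3 < ‖f k y‖
    linarith⟩
  have hpos : 0 < volume O := hOo.measure_pos volume ⟨y, hyO⟩
  have hfin : volume O < ⊤ := lt_of_le_of_lt (measure_mono inter_subset_left)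
    Metric.isBounded_ball.measure_lt_top
  have hlow : ∀ l ≥ k₀, (ε / 3) ^ 2 * (volume O).toReal ≤
      ∫ y in Metric.ball z r, ‖f l y‖ ^ 2 := by
    intro l hl
    have h1 : ∫ y in O, (ε / 3) ^ 2 ≤ ∫ y in O, ‖f l y‖ ^ 2 := by
      refine setIntegral_mono_on (integrableOn_const hfin.ne) ((hi l).mono_set inter_subset_left)
        hOo.measurableSet fun w hw => ?_
      have h2 : ‖f k w - f l w‖ ≤ ε / 3 := hk₀ k hk l hl w hw.1
      have h3 : 2 * ε / 3 < ‖f k w‖ := hw.2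
      have h4 : ‖f k w‖ ≤ ‖f l w‖ + ‖f k w - f l w‖ := by
        calc ‖f k w‖ = ‖f l w + (f k w - f l w)‖ := by congr 1; abel
          _ ≤ _ := norm_add_le _ _
      have h5 : ε / 3 ≤ ‖f l w‖ := by linarith
      exact pow_le_pow_left₀ (by positivity) h5 2
    have h2 : ∫ y in O, ‖f l y‖ ^ 2 ≤ ∫ y in Metric.ball z r, ‖f l y‖ ^ 2 :=
      setIntegral_mono_set (hi l) (Eventually.of_forall fun _ => by positivity)
        (inter_subset_left.eventuallyLE)
    rw [setIntegral_const, smul_eq_mul, mul_comm] at h1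
    exact h1.trans h2
  have hp : 0 < (ε / 3) ^ 2 * (volume O).toReal :=
    mul_pos (by positivity) (ENNReal.toReal_pos hpos.ne' hfin.ne)
  obtain ⟨l₀, hl₀⟩ := (Metric.tendsto_atTop.1 h0) _ hp
  have h1 := hl₀ (max l₀ k₀) (le_max_left _ _)
  rw [Real.dist_eq, sub_zero] at h1
  have h2 := hlow (max l₀ k₀) (le_max_right _ _)
  exact absurd (lt_of_le_of_lt (le_abs_self _) h1) (not_lt.2 h2)

theorem cRunge_an {n N : ℕ} [NeZero n] (z : E n) (r R C : ℝ) (hr : 0 < r) (hrR : r < R)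
    (hB : Metric.ball z R ⊆ {y | 0 < y 0}) (f : ℕ → E n → Fib N) (v : E n → Fib N)
    (hf : ∀ k, ContDiffOn ℝ 1 (f k) (Metric.ball z R)) (hv : ContDiffOn ℝ 1 v (Metric.ball z R))
    (hC : ∀ k l, ∀ y ∈ Metric.ball z (r / 2),
      (‖f k y - f l y‖ + ∑ j, ‖pd j (f k) y - pd j (f l) y‖) ^ 2 ≤
        C * ∫ y in Metric.ball z r, ‖f k y - f l y‖ ^ 2)
    (h0 : Tendsto (fun k => ∫ y in Metric.ball z r, ‖f k y - v y‖ ^ 2) atTop (𝓝 0)) :
    Tendsto (fun k => f k z) atTop (𝓝 (v z)) ∧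
      ∀ j, Tendsto (fun k => pd j (f k) z) atTop (𝓝 (pd j v z)) := by
  have hsub : Metric.closedBall z r ⊆ Metric.ball z R := Metric.closedBall_subset_ball hrR
  have hsub2 : Metric.ball z (r / 2) ⊆ Metric.ball z r := Metric.ball_subset_ball (by linarith)
  have hsub3 : Metric.ball z (r / 2) ⊆ Metric.ball z R :=
    hsub2.trans (Metric.ball_subset_ball hrR.le)
  have hint : ∀ {a b : E n → Fib N}, ContinuousOn a (Metric.ball z R) →
      ContinuousOn b (Metric.ball z R) →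
      IntegrableOn (fun y => ‖a y - b y‖ ^ 2) (Metric.ball z r) := by
    intro a b ha hb
    refine IntegrableOn.mono_set ?_ Metric.ball_subset_closedBall
    exact (((ha.mono hsub).sub (hb.mono hsub)).norm.pow 2).integrableOn_compact
      (isCompact_closedBall z r)
  set I : ℕ → ℝ := fun k => ∫ y in Metric.ball z r, ‖f k y - v y‖ ^ 2 with hI
  have hJ : ∀ k l, ∫ y in Metric.ball z r, ‖f k y - f l y‖ ^ 2 ≤ 2 * I k + 2 * I l := by
    intro k l
    have h1 : ∫ y in Metric.ball z r, ‖f k y - f l y‖ ^ 2 ≤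
        ∫ y in Metric.ball z r, (2 * ‖f k y - v y‖ ^ 2 + 2 * ‖f l y - v y‖ ^ 2) := by
      refine setIntegral_mono_on (hint (hf k).continuousOn (hf l).continuousOn)
        (((hint (hf k).continuousOn hv.continuousOn).const_mul 2).add
          ((hint (hf l).continuousOn hv.continuousOn).const_mul 2)) measurableSet_ball fun y _ => ?_
      have h2 : ‖f k y - f l y‖ ≤ ‖f k y - v y‖ + ‖f l y - v y‖ := by
        calc ‖f k y - f l y‖ = ‖(f k y - v y) - (f l y - v y)‖ := by congr 1; abel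
          _ ≤ _ := norm_sub_le _ _
      nlinarith [norm_nonneg (f k y - f l y), norm_nonneg (f k y - v y),
        norm_nonneg (f l y - v y), sq_nonneg (‖f k y - v y‖ - ‖f l y - v y‖)]
    rw [integral_add ((hint (hf k).continuousOn hv.continuousOn).const_mul 2)
      ((hint (hf l).continuousOn hv.continuousOn).const_mul 2), integral_const_mul,
      integral_const_mul] at h1
    exact h1
  have hI0 : ∀ k, 0 ≤ I k := fun k => integral_nonneg fun _ => by positivity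
  have hcau : ∀ ε > 0, ∃ k₀, ∀ k ≥ k₀, ∀ l ≥ k₀, ∀ y ∈ Metric.ball z (r / 2),
      ‖f k y - f l y‖ + ∑ j, ‖pd j (f k) y - pd j (f l) y‖ ≤ ε := by
    intro ε hε
    have hδ : 0 < ε ^ 2 / (4 * (|C| + 1)) := by positivity
    obtain ⟨k₀, hk₀⟩ := (Metric.tendsto_atTop.1 h0) _ hδ
    refine ⟨k₀, fun k hk l hl y hy => ?_⟩
    have h1 : I k < ε ^ 2 / (4 * (|C| + 1)) := by
      have := hk₀ k hk
      rw [Real.dist_eq, sub_zero] at this
      exact lt_of_le_of_lt (le_abs_self _) this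
    have h2 : I l < ε ^ 2 / (4 * (|C| + 1)) := by
      have := hk₀ l hl
      rw [Real.dist_eq, sub_zero] at this
      exact lt_of_le_of_lt (le_abs_self _) this
    have h3 := hC k l y hy
    have h4 : C * ∫ y in Metric.ball z r, ‖f k y - f l y‖ ^ 2 ≤ |C| * (2 * I k + 2 * I l) := by
      refine (mul_le_mul_of_nonneg_right (le_abs_self C)
        (integral_nonneg fun _ => by positivity)).trans ?_
      exact mul_le_mul_of_nonneg_left (hJ k l) (abs_nonneg C)
    have h5 : |C| * (2 * I k + 2 * I l) ≤ ε ^ 2 := by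
      have h6 : 2 * I k + 2 * I l ≤ ε ^ 2 / (|C| + 1) := by
        have : ε ^ 2 / (|C| + 1) = 4 * (ε ^ 2 / (4 * (|C| + 1))) := by
          field_simp
        rw [this]
        linarith
      calc |C| * (2 * I k + 2 * I l) ≤ |C| * (ε ^ 2 / (|C| + 1)) :=
            mul_le_mul_of_nonneg_left h6 (abs_nonneg C)
        _ ≤ (|C| + 1) * (ε ^ 2 / (|C| + 1)) :=
            mul_le_mul_of_nonneg_right (by linarith) (by positivity)
        _ = ε ^ 2 := by field_simp
    have h6 : 0 ≤ ‖f k y - f l y‖ + ∑ j, ‖pd j (f k) y - pd j (f l) y‖ :=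
      add_nonneg (norm_nonneg _) (Finset.sum_nonneg fun _ _ => norm_nonneg _)
    exact (pow_le_pow_iff_left₀ h6 hε.le two_ne_zero).1 (h3.trans (h4.trans h5))
  have hz : z ∈ Metric.ball z (r / 2) := Metric.mem_ball_self (by linarith)
  -- pointwise convergence to `v`
  have hpt : ∀ y ∈ Metric.ball z (r / 2), Tendsto (fun k => f k y) atTop (𝓝 (v y)) := by
    intro y hy
    have h1 := cRunge_unif z (r / 2) (fun k y => f k y - v y)
      (fun k => ((hf k).continuousOn.mono hsub3).sub (hv.continuousOn.mono hsub3))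
      (fun k => (hint (hf k).continuousOn hv.continuousOn).mono_set hsub2) ?_ ?_ y hy
    · have h2 := h1.add_const (v y)
      simpa using h2
    · refine squeeze_zero (fun k => integral_nonneg fun _ => by positivity) (fun k => ?_) h0
      exact setIntegral_mono_set (hint (hf k).continuousOn hv.continuousOn)
        (Eventually.of_forall fun _ => by positivity) hsub2.eventuallyLE
    · intro ε hε
      obtain ⟨k₀, hk₀⟩ := hcau ε hε
      refine ⟨k₀, fun k hk l hl y hy => ?_⟩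
      have h2 := hk₀ k hk l hl y hy
      have h3 : 0 ≤ ∑ j, ‖pd j (f k) y - pd j (f l) y‖ :=
        Finset.sum_nonneg fun _ _ => norm_nonneg _
      have h4 : (f k y - v y) - (f l y - v y) = f k y - f l y := by abel
      rw [h4]
      linarith
  refine ⟨hpt z hz, ?_⟩
  -- derivatives
  have hcauD : ∀ ε > 0, ∃ k₀, ∀ k ≥ k₀, ∀ l ≥ k₀, ∀ y ∈ Metric.ball z (r / 2),
      ‖fderiv ℝ (f k) y - fderiv ℝ (f l) y‖ ≤ ε := by
    intro ε hε
    obtain ⟨k₀, hk₀⟩ := hcau ε hε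
    refine ⟨k₀, fun k hk l hl y hy => ?_⟩
    have h2 := hk₀ k hk l hl y hy
    refine (cRunge_opNorm _).trans (le_trans ?_ h2)
    refine le_add_of_nonneg_of_le (norm_nonneg _) (le_of_eq ?_)
    refine Finset.sum_congr rfl fun j _ => ?_
    rw [cRunge_pd (hB (hsub3 hy)), cRunge_pd (hB (hsub3 hy)), sub_apply]
  have hUC : UniformCauchySeqOn (fun k y => fderiv ℝ (f k) y) atTop (Metric.ball z (r / 2)) := by
    rw [Metric.uniformCauchySeqOn_iff]
    intro ε hε
    obtain ⟨k₀, hk₀⟩ := hcauD (ε / 2) (by positivity)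
    refine ⟨k₀, fun k hk l hl y hy => ?_⟩
    rw [dist_eq_norm]
    exact lt_of_le_of_lt (hk₀ k hk l hl y hy) (by linarith)
  have hlim : ∀ y, ∃ G : E n →L[ℝ] Fib N, y ∈ Metric.ball z (r / 2) →
      Tendsto (fun k => fderiv ℝ (f k) y) atTop (𝓝 G) := by
    intro y
    by_cases hy : y ∈ Metric.ball z (r / 2)
    · obtain ⟨G, hG⟩ := cauchySeq_tendsto_of_complete (hUC.cauchySeq hy)
      exact ⟨G, fun _ => hG⟩
    · exact ⟨0, fun h => absurd h hy⟩
  choose G hG using hlim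
  have hTU := hUC.tendstoUniformlyOn_of_tendsto hG
  have hfd : ∀ k, ∀ y ∈ Metric.ball z (r / 2), HasFDerivAt (f k) (fderiv ℝ (f k) y) y := by
    intro k y hy
    have h1 : ContDiffAt ℝ 1 (f k) y :=
      (hf k).contDiffAt (Metric.isOpen_ball.mem_nhds (hsub3 hy))
    exact (h1.differentiableAt one_ne_zero).hasFDerivAt
  have hder := hasFDerivAt_of_tendstoUniformlyOn Metric.isOpen_ball hTU hfd hpt hz
  intro j
  rw [cRunge_pd (hB (hsub3 hz)), hder.fderiv]
  have h1 : ∀ k, pd j (f k) z = fderiv ℝ (f k) z (ev j) := fun k => cRunge_pd (hB (hsub3 hz)) j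
  simp only [h1]
  have h2 := hG z hz
  exact ((ContinuousLinearMap.apply ℝ (Fib N) (ev j : E n)).continuous.tendsto _).comp h2

/-! ### One coordinate ball -/

section Ball

variable {n N : ℕ} [NeZero n] {M : Type u} [TopologicalSpace M]
  [ChartedSpace (EuclideanHalfSpace n) M] [IsManifold (𝓡∂ n) ∞ M] [T2Space M] [CompactSpace M]
  [ConnectedSpace M] [MeasurableSpace M] [BorelSpace M]

theorem cRunge_okmono {L : LD n N} {D D' : Set (E n)} (h : L.Ok D) (hs : D' ⊆ D) : L.Ok D' where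
  g_smooth := fun i j => (h.g_smooth i j).mono hs
  g_pos := fun x hx => h.g_pos x (hs hx)
  B_smooth := fun i => (h.B_smooth i).mono hs
  h_smooth := h.h_smooth.mono hs
  h_adj := fun x hx => h.h_adj x (hs hx)
  h_pos := fun x hx => h.h_pos x (hs hx)
  compat := fun x hx => h.compat x (hs hx)

omit [T2Space M] [CompactSpace M] [ConnectedSpace M] [MeasurableSpace M] [BorelSpace M] in
theorem cRunge_cbcompact (x : M) {R : ℝ} (hR : IsCB n x R) {ρ : ℝ} (hρR : ρ ≤ R) :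
    IsCompact (cb n x ρ) := by
  refine (isCompact_closedBall _ _).image_of_continuousOn ?_
  exact (continuousOn_extChartAt_symm x).mono
    ((Metric.closedBall_subset_closedBall hρR).trans (hR.2.trans inter_subset_left))

omit [T2Space M] [CompactSpace M] [ConnectedSpace M] [MeasurableSpace M] [BorelSpace M] in
theorem cRunge_cbsource (x : M) {R : ℝ} (hR : IsCB n x R) {ρ : ℝ} (hρR : ρ ≤ R) :
    cb n x ρ ⊆ (xc n x).source ∩ (xc n x) ⁻¹' Metric.closedBall (xc n x x) ρ := by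
  rintro m ⟨y, hy, rfl⟩
  have hyt : y ∈ (xc n x).target :=
    (hR.2 (Metric.closedBall_subset_closedBall hρR hy)).1
  refine ⟨(xc n x).map_target hyt, ?_⟩
  rw [mem_preimage, (xc n x).right_inv hyt]
  exact hy

omit [T2Space M] [CompactSpace M] [ConnectedSpace M] [MeasurableSpace M] [BorelSpace M] in
theorem cRunge_vcont (x : M) {R ρ : ℝ} (hR : IsCB n x R) (hρR : ρ < R) {v : E n → Fib N}
    (hv : ContinuousOn v (Metric.ball (xc n x x) R)) :
    ContinuousOn (fun m => v (xc n x m)) (cb n x ρ) := by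
  have h1 := cRunge_cbsource x hR hρR.le
  refine (hv.mono (Metric.closedBall_subset_ball hρR)).comp
    ((continuousOn_extChartAt x).mono (h1.trans inter_subset_left)) fun m hm => ?_
  exact (h1 hm).2

theorem cRunge_local (hInt : CInt_statement.{u}) (hA : AInt_statement)
    (hLoc : CLoc_statement.{u}) (hHarm : CHarm_statement.{u}) (hUniq : CUniq_statement.{u})
    (P : One n N M) (hbd : ((𝓡∂ n).boundary M).Nonempty) (Γ : Set M) (x : M) (R ρ : ℝ)
    (hR : IsCB n x R) (hρ : 0 < ρ) (hρR : ρ < R) (u : ℕ → M → Fib N) (hu : ∀ k, u k ∈ P.U Γ)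
    (v : E n → Fib N) (hv : ContDiffOn ℝ 2 v (Metric.ball (xc n x x) R))
    (h0 : Tendsto (fun k => ∫ m in cb n x ρ, ‖u k m - v (xc n x m)‖ ^ 2 ∂P.μ) atTop (𝓝 0)) :
    Tendsto (fun k => u k x) atTop (𝓝 (v (xc n x x))) ∧
      ∀ j, Tendsto (fun k => pd j (lu (𝓡∂ n) x (u k)) (xc n x x)) atTop
        (𝓝 (pd j v (xc n x x))) := by
  obtain ⟨hrel, hok, -, hsm⟩ := hLoc n N M
  obtain ⟨hfin, -, hint⟩ := hInt n N M P
  set z : E n := xc n x x with hz
  have hcbt : Metric.closedBall z ρ ⊆ tg n x :=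
    (Metric.closedBall_subset_closedBall hρR.le).trans (hR.2.trans inter_subset_left)
  have hbt : Metric.ball z R ⊆ tg n x :=
    Metric.ball_subset_closedBall.trans (hR.2.trans inter_subset_left)
  have hpos : Metric.ball z R ⊆ {y | 0 < y 0} :=
    Metric.ball_subset_closedBall.trans (hR.2.trans inter_subset_right)
  have husm : ∀ k, SmS n (u k) := fun k => by
    obtain ⟨f, -, hf⟩ := hu k
    exact hf.smooth
  have hlu : ∀ k, ContDiffOn ℝ ∞ (lu (𝓡∂ n) x (u k)) (tg n x) := fun k => hsm (u k) (husm k) x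
  have hx : (xc n x).symm z = x := extChartAt_to_inv x
  -- the interior estimate
  set D : Set (E n) := tg n x ∩ {y | 0 < y 0} with hD
  have hDo : IsOpen D := by
    obtain ⟨O, hO, hOD⟩ := hrel x
    have : D = O ∩ {y | 0 < y 0} := by
      rw [hD, hOD]
      ext y
      constructor
      · rintro ⟨⟨h1, -⟩, h2⟩
        exact ⟨h1, h2⟩
      · rintro ⟨h1, h2⟩
        exact ⟨⟨h1, le_of_lt (show 0 < y 0 from h2)⟩, h2⟩
    rw [this]
    exact hO.inter (isOpen_lt continuous_const (continuous_coord 0))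
  have hDH : D ⊆ Hs n := fun y hy => le_of_lt (show 0 < y 0 from hy.2)
  have hokD : (P.loc x).Ok D := cRunge_okmono (hok P x) inter_subset_left
  obtain ⟨C, hC⟩ := hA n N (P.loc x) D hDo hDH hokD z ρ hρ
    ((Metric.closedBall_subset_closedBall hρR.le).trans hR.2)
  have hsol : ∀ k l, Sol (P.loc x) D (fun y => lu (𝓡∂ n) x (u k) y - lu (𝓡∂ n) x (u l) y) := by
    intro k l
    obtain ⟨f, -, hf⟩ := hu k
    obtain ⟨g, -, hg⟩ := hu l
    have h1 := (hUniq n N M P hbd).2.1 f g (u k) (u l) 1 (-1) hf hg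
    have h2 := hHarm n N M P _ _ h1 x
    have h3 : lu (𝓡∂ n) x ((1 : ℂ) • u k + (-1 : ℂ) • u l) =
        fun y => lu (𝓡∂ n) x (u k) y - lu (𝓡∂ n) x (u l) y := by
      funext y
      simp [lu, sub_eq_add_neg]
    rw [h3] at h2
    exact ⟨h2.1.mono inter_subset_left, fun y hy => h2.2 y hy.1⟩
  -- the density
  have hdet : ContinuousOn (fun y => Real.sqrt ((P.loc x).g y).det) (Metric.closedBall z ρ) := by
    refine Real.continuous_sqrt.comp_continuousOn ?_
    have h1 : ContinuousOn (fun y => (P.loc x).g y) (Metric.closedBall z ρ) := by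
      refine continuousOn_pi.2 fun i => continuousOn_pi.2 fun j => ?_
      exact ((hok P x).g_smooth i j).continuousOn.mono hcbt
    exact (continuous_id.matrix_det).comp_continuousOn h1
  obtain ⟨y₀, hy₀, hmin⟩ := (isCompact_closedBall z ρ).exists_isMinOn
    ⟨z, Metric.mem_closedBall_self hρ.le⟩ hdet
  set c : ℝ := Real.sqrt ((P.loc x).g y₀).det with hc
  have hcpos : 0 < c := Real.sqrt_pos.2 ((hok P x).g_pos y₀ (hcbt hy₀)).det_pos
  have hcb : MeasurableSet (cb n x ρ) := (hint x _ Metric.isClosed_closedBall.measurableSet hcbt).1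
  have hkey : ∀ k, c * ∫ y in Metric.ball z ρ, ‖lu (𝓡∂ n) x (u k) y - v y‖ ^ 2 ≤
      ∫ m in cb n x ρ, ‖u k m - v (xc n x m)‖ ^ 2 ∂P.μ := by
    intro k
    have hcont : ContinuousOn (fun m => ‖u k m - v (xc n x m)‖ ^ 2) (cb n x ρ) :=
      (((husm k).continuous.continuousOn).sub
        (cRunge_vcont x hR hρR hv.continuousOn)).norm.pow 2
    have h1 := (hint x _ Metric.isClosed_closedBall.measurableSet hcbt).2
      (fun m => ((‖u k m - v (xc n x m)‖ ^ 2 : ℝ) : ℂ))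
      ((Complex.continuous_ofReal.comp_continuousOn hcont).aestronglyMeasurable hcb)
    have h2 : ∫ m in cb n x ρ, ‖u k m - v (xc n x m)‖ ^ 2 ∂P.μ =
        ∫ y in Metric.closedBall z ρ, Real.sqrt ((P.loc x).g y).det *
          ‖lu (𝓡∂ n) x (u k) y - v y‖ ^ 2 := by
      have h3 : ((∫ m in cb n x ρ, ‖u k m - v (xc n x m)‖ ^ 2 ∂P.μ : ℝ) : ℂ) =
          ((∫ y in Metric.closedBall z ρ, Real.sqrt ((P.loc x).g y).det *
            ‖lu (𝓡∂ n) x (u k) y - v y‖ ^ 2 : ℝ) : ℂ) := by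
        rw [← integral_complex_ofReal, ← integral_complex_ofReal]
        refine h1.trans (setIntegral_congr_fun Metric.isClosed_closedBall.measurableSet
          fun y hy => ?_)
        have h4 : xc n x ((xc n x).symm y) = y := (xc n x).right_inv (hcbt hy)
        simp only [h4, lu]
        push_cast
        rfl
      exact_mod_cast h3
    have hi1 : IntegrableOn (fun y => ‖lu (𝓡∂ n) x (u k) y - v y‖ ^ 2)
        (Metric.closedBall z ρ) :=
      ((((hlu k).continuousOn.mono hcbt).sub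
        (hv.continuousOn.mono (Metric.closedBall_subset_ball hρR))).norm.pow 2).integrableOn_compact
        (isCompact_closedBall z ρ)
    have hi2 : IntegrableOn (fun y => Real.sqrt ((P.loc x).g y).det *
        ‖lu (𝓡∂ n) x (u k) y - v y‖ ^ 2) (Metric.closedBall z ρ) :=
      (hdet.mul ((((hlu k).continuousOn.mono hcbt).sub
        (hv.continuousOn.mono
          (Metric.closedBall_subset_ball hρR))).norm.pow 2)).integrableOn_compact
        (isCompact_closedBall z ρ)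
    rw [h2]
    calc c * ∫ y in Metric.ball z ρ, ‖lu (𝓡∂ n) x (u k) y - v y‖ ^ 2
        ≤ c * ∫ y in Metric.closedBall z ρ, ‖lu (𝓡∂ n) x (u k) y - v y‖ ^ 2 :=
          mul_le_mul_of_nonneg_left (setIntegral_mono_set hi1
            (Eventually.of_forall fun _ => by positivity)
            Metric.ball_subset_closedBall.eventuallyLE) hcpos.le
      _ = ∫ y in Metric.closedBall z ρ, c * ‖lu (𝓡∂ n) x (u k) y - v y‖ ^ 2 :=
          (integral_const_mul _ _).symm
      _ ≤ _ := setIntegral_mono_on (hi1.const_mul c) hi2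
          Metric.isClosed_closedBall.measurableSet fun y hy =>
            mul_le_mul_of_nonneg_right (hmin hy) (by positivity)
  have h0' : Tendsto (fun k => ∫ y in Metric.ball z ρ, ‖lu (𝓡∂ n) x (u k) y - v y‖ ^ 2)
      atTop (𝓝 0) := by
    have h1 := h0.const_mul c⁻¹
    rw [mul_zero] at h1
    refine squeeze_zero (fun k => integral_nonneg fun _ => by positivity) (fun k => ?_) h1
    rw [← div_eq_inv_mul, le_div_iff₀ hcpos, mul_comm]
    exact hkey k
  have hfin := cRunge_an z ρ R C hρ hρR hpos (fun k => lu (𝓡∂ n) x (u k)) v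
    (fun k => ((hlu k).of_le (by simp)).mono hbt) (hv.of_le (by norm_num)) ?_ h0'
  · refine ⟨?_, hfin.2⟩
    have h1 := hfin.1
    simp only [lu, hx] at h1
    exact h1
  · intro k l y hy
    have h1 := hC _ (hsol k l) y hy
    have hyt : y ∈ tg n x := hbt (Metric.ball_subset_ball (by linarith) hy)
    have h2 : ∀ j, pd j (fun y => lu (𝓡∂ n) x (u k) y - lu (𝓡∂ n) x (u l) y) y =
        pd j (lu (𝓡∂ n) x (u k)) y - pd j (lu (𝓡∂ n) x (u l)) y := fun j =>
      (hrel x).pd_sub (hlu k) (hlu l) hyt j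
    simp only [h2] at h1
    exact h1

end Ball

/-! ### Approximation in `L²` -/

theorem cRunge_approx {X : Type*} [MeasurableSpace X] {N : ℕ} (μ : Measure X)
    (𝒰 : Submodule ℂ (X → Fib N)) (hmem : ∀ u ∈ 𝒰, MemLp u 2 μ) (w : X → Fib N)
    (hw : MemLp w 2 μ)
    (horth : ∀ h : X → Fib N, MemLp h 2 μ → (∀ u ∈ 𝒰, ∫ x, inner ℂ (h x) (u x) ∂μ = 0) →
      ∫ x, inner ℂ (h x) (w x) ∂μ = 0) :
    ∃ u : ℕ → X → Fib N, (∀ k, u k ∈ 𝒰) ∧
      Tendsto (fun k => ∫ x, ‖u k x - w x‖ ^ 2 ∂μ) atTop (𝓝 0) := by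
  let ι : 𝒰 →ₗ[ℂ] Lp (Fib N) 2 μ :=
    { toFun := fun u => (hmem u.1 u.2).toLp u.1
      map_add' := fun u v => MemLp.toLp_add (hmem u.1 u.2) (hmem v.1 v.2)
      map_smul' := fun c u => MemLp.toLp_const_smul c (hmem u.1 u.2) }
  have hcl : hw.toLp w ∈ closure ((LinearMap.range ι : Submodule ℂ (Lp (Fib N) 2 μ)) :
      Set (Lp (Fib N) 2 μ)) := by
    have h1 : hw.toLp w ∈ (LinearMap.range ι : Submodule ℂ (Lp (Fib N) 2 μ)).topologicalClosure := by
      rw [← Submodule.orthogonal_orthogonal_eq_closure]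
      intro h hh
      rw [L2.inner_def]
      have h2 := horth (fun x => h x) (Lp.memLp h) (fun u hu => by
        have h3 := (Submodule.mem_orthogonal' _ _).1 hh (ι ⟨u, hu⟩) (LinearMap.mem_range_self _ _)
        rw [L2.inner_def] at h3
        rw [← h3]
        refine integral_congr_ae ?_
        filter_upwards [(hmem u hu).coeFn_toLp] with x hx
        show inner ℂ (h x) (u x) = inner ℂ (h x) (((hmem u hu).toLp u : X → Fib N) x)
        rw [hx])
      rw [← h2]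
      refine integral_congr_ae ?_
      filter_upwards [hw.coeFn_toLp] with x hx
      rw [hx]
    exact h1
  obtain ⟨s, hs, hlim⟩ := mem_closure_iff_seq_limit.1 hcl
  choose t ht using hs
  refine ⟨fun k => (t k : X → Fib N), fun k => (t k).2, ?_⟩
  have hnorm : ∀ k, ∫ x, ‖(t k : X → Fib N) x - w x‖ ^ 2 ∂μ = ‖s k - hw.toLp w‖ ^ 2 := by
    intro k
    have h1 : ((‖s k - hw.toLp w‖ ^ 2 : ℝ) : ℂ) =
        ((∫ x, ‖(t k : X → Fib N) x - w x‖ ^ 2 ∂μ : ℝ) : ℂ) := by
      have h2 := inner_self_eq_norm_sq_to_K (𝕜 := ℂ) (s k - hw.toLp w)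
      rw [L2.inner_def] at h2
      push_cast
      rw [show ((‖s k - hw.toLp w‖ : ℝ) : ℂ) ^ 2 = ((‖s k - hw.toLp w‖ : ℝ) : ℂ) ^ 2 from rfl]
      refine h2.symm.trans ?_
      rw [← integral_complex_ofReal]
      refine integral_congr_ae ?_
      have h3 : s k = (hmem (t k).1 (t k).2).toLp (t k).1 := (ht k).symm
      have h4 : s k - hw.toLp w = ((hmem (t k).1 (t k).2).sub hw).toLp _ := by
        rw [h3]
        exact (MemLp.toLp_sub _ _).symm
      rw [h4]
      filter_upwards [((hmem (t k).1 (t k).2).sub hw).coeFn_toLp] with x hx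
      rw [hx, inner_self_eq_norm_sq_to_K]
      simp
    exact_mod_cast h1.symm
  simp only [hnorm]
  have h1 : Tendsto (fun k => ‖s k - hw.toLp w‖) atTop (𝓝 0) := by
    have := (tendsto_iff_norm_sub_tendsto_zero.1 hlim)
    exact this
  have h2 := h1.pow 2
  simpa using h2

/-! ### The assembly -/

section Main

variable {n N : ℕ} [NeZero n] {M : Type u} [TopologicalSpace M]
  [ChartedSpace (EuclideanHalfSpace n) M] [IsManifold (𝓡∂ n) ∞ M]

theorem cRunge_comb {Γ : Set M} {f f' : M → Fib N} (a b : ℂ) (hf : IsBdryData (𝓡∂ n) Γ f)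
    (hf' : IsBdryData (𝓡∂ n) Γ f') : IsBdryData (𝓡∂ n) Γ (a • f + b • f') where
  smooth := by
    have h1 : ∀ (c : ℂ) (g : M → Fib N), ContMDiff (𝓡∂ n) 𝓘(ℝ, Fib N) ∞ g →
        ContMDiff (𝓡∂ n) 𝓘(ℝ, Fib N) ∞ (c • g) := by
      intro c g hg
      have h2 : ContDiff ℝ ∞ (fun v : Fib N => c • v) := contDiff_const_smul c
      exact h2.contMDiff.comp hg
    exact (h1 a f hf.smooth).add (h1 b f' hf'.smooth)
  supp := by
    have h1 : {x ∈ (𝓡∂ n).boundary M | (a • f + b • f') x ≠ 0} ⊆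
        {x ∈ (𝓡∂ n).boundary M | f x ≠ 0} ∪ {x ∈ (𝓡∂ n).boundary M | f' x ≠ 0} := by
      rintro x ⟨hx, hne⟩
      by_cases h : f x = 0
      · right
        refine ⟨hx, fun h' => hne ?_⟩
        simp [h, h']
      · left
        exact ⟨hx, h⟩
    refine (closure_mono h1).trans ?_
    rw [closure_union]
    exact union_subset hf.supp hf'.supp

theorem cRunge_jet (hrel : ∀ p : M, RelOpen (tg n p))
    (hsm : ∀ u : M → Fib N, SmS n u → ∀ p : M, ContDiffOn ℝ ∞ (lu (𝓡∂ n) p u) (tg n p))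
    (x : M) {u u' : M → Fib N} (hu : SmS n u) (hu' : SmS n u') (a b : ℂ) (j : Fin n) :
    pd j (lu (𝓡∂ n) x (a • u + b • u')) (xc n x x) =
      a • pd j (lu (𝓡∂ n) x u) (xc n x x) + b • pd j (lu (𝓡∂ n) x u') (xc n x x) := by
  have hz : xc n x x ∈ tg n x := mem_extChartAt_target x
  have h1 := (hrel x).hasD hz (hsm u hu x) (by simp)
  have h2 := (hrel x).hasD hz (hsm u' hu' x) (by simp)
  have h3 : HasFDerivWithinAt (lu (𝓡∂ n) x (a • u + b • u')) _ (Hs n) (xc n x x) :=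
    (h1.const_smul a).add (h2.const_smul b)
  rw [pd_of_has ((hrel x).subset hz) h3 j]
  rfl

theorem cRunge_solve (hrel : ∀ p : M, RelOpen (tg n p)) [MeasurableSpace M]
    (hok : ∀ (P : One n N M) (p : M), (P.loc p).Ok (tg n p))
    (hbdy : ∀ p x : M, x ∈ (xc n p).source → (x ∈ (𝓡∂ n).boundary M ↔ xc n p x 0 = 0))
    (hA : ASolve_statement) (P : One n N M) (x : M) (hx : x ∈ Mi n M) (a : Fib N)
    (b : Fin n → Fib N) (O : Set M) (hO : IsOpen O) (hxO : x ∈ O) :
    ∃ R, IsCB n x R ∧ cb n x R ⊆ O ∧ ∃ v : E n → Fib N,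
      ContDiffOn ℝ 2 v (Metric.ball (xc n x x) R) ∧
      (∀ y ∈ Metric.ball (xc n x x) R, Lop (P.loc x) v y = 0) ∧ v (xc n x x) = a ∧
      ∀ j, pd j v (xc n x x) = b j := by
  set z : E n := xc n x x with hz
  have hzt : z ∈ tg n x := mem_extChartAt_target x
  have hz0 : 0 < z 0 := by
    have h1 : 0 ≤ z 0 := (hrel x).subset hzt
    have h2 : x ∉ (𝓡∂ n).boundary M := by
      rw [← ModelWithCorners.compl_interior]
      exact fun h => h hx
    have h3 : z 0 ≠ 0 := fun h => h2 ((hbdy x x (mem_extChartAt_source x)).2 h)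
    exact lt_of_le_of_ne h1 (Ne.symm h3)
  set D : Set (E n) := tg n x ∩ {y | 0 < y 0} with hD
  have hDo : IsOpen D := by
    obtain ⟨O, hO, hOD⟩ := hrel x
    have : D = O ∩ {y | 0 < y 0} := by
      rw [hD, hOD]
      ext y
      constructor
      · rintro ⟨⟨h1, -⟩, h2⟩
        exact ⟨h1, h2⟩
      · rintro ⟨h1, h2⟩
        exact ⟨⟨h1, le_of_lt (show 0 < y 0 from h2)⟩, h2⟩
    rw [this]
    exact hO.inter (isOpen_lt continuous_const (continuous_coord 0))
  have hDH : D ⊆ Hs n := fun y hy => le_of_lt (show 0 < y 0 from hy.2)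
  have hokD : (P.loc x).Ok D := cRunge_okmono (hok P x) inter_subset_left
  obtain ⟨r, hr, hrD, v, hv2, hvL, hva, hvb⟩ := hA n N (P.loc x) D hDo hDH hokD z ⟨hzt, hz0⟩ a b
  have hsymm : ContinuousAt (xc n x).symm z :=
    (continuousOn_extChartAt_symm x).continuousAt
      (mem_of_superset (hDo.mem_nhds ⟨hzt, hz0⟩) inter_subset_left)
  have hzx : (xc n x).symm z = x := extChartAt_to_inv x
  have hO' : (xc n x).symm ⁻¹' O ∈ 𝓝 z := hsymm.preimage_mem_nhds (by
    rw [hzx]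
    exact hO.mem_nhds hxO)
  obtain ⟨δ, hδ, hδO⟩ := Metric.nhds_basis_closedBall.mem_iff.1 hO'
  refine ⟨min δ (r / 2), ⟨lt_min hδ (by linarith), ?_⟩, ?_, v, ?_, ?_, hva, hvb⟩
  · refine Subset.trans ?_ hrD
    refine Metric.closedBall_subset_ball (lt_of_le_of_lt (min_le_right _ _) (by linarith))
  · rintro m ⟨y, hy, rfl⟩
    exact hδO (Metric.closedBall_subset_closedBall (min_le_left _ _) hy)
  · exact hv2.mono (Metric.ball_subset_ball ((min_le_right _ _).trans (by linarith)))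
  · intro y hy
    exact hvL y (Metric.ball_subset_ball ((min_le_right _ _).trans (by linarith)) hy)

theorem cRunge_memLp {X : Type*} [TopologicalSpace X] [MeasurableSpace X] [BorelSpace X]
    [T2Space X] {μ ν : Measure X} [IsFiniteMeasure μ] {s : Set X} (hs : IsCompact s)
    {f : X → Fib N} (hf : ContinuousOn f s) (hν : ν ≤ μ) : MemLp (s.indicator f) 2 ν := by
  have h1 : MemLp (s.indicator f) 2 μ := by
    rw [memLp_indicator_iff_restrict hs.measurableSet]
    obtain ⟨C, hC⟩ := hs.exists_bound_of_continuousOn hf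
    exact MemLp.of_bound (hf.aestronglyMeasurable hs.measurableSet) C
      ((ae_restrict_iff' hs.measurableSet).2 (Eventually.of_forall hC))
  exact h1.mono_measure hν

end Main

/-- Runge: arbitrary 1-jets at two interior points. -/
theorem cRunge : CRungeC_statement.{u} → AInt_statement → ASolve_statement →
    CUniq_statement.{u} → CInt_statement.{u} → CHarm_statement.{u} → CLoc_statement.{u} →
    CRunge_statement.{u} := by
  intro hRC hAI hAS hUniq hInt hHarm hLoc n N _ M _ _ _ _ _ _ _ _ P Γ x x' a a' b b' hn hΓ hne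
    hsol hx hx' hxx'
  obtain ⟨hrel, hok, hbdy, hsm⟩ := hLoc n N M
  obtain ⟨hfinm, -, hint⟩ := hInt n N M P
  have hbd : ((𝓡∂ n).boundary M).Nonempty := by
    obtain ⟨O, -, hO⟩ := hΓ
    obtain ⟨m, hm⟩ := hne
    rw [hO] at hm
    exact ⟨m, hm.2⟩
  obtain ⟨O, O', hOo, hOo', hxO, hxO', hdis⟩ := t2_separation hxx'
  obtain ⟨R, hR, hRO, v, hv, hvL, hva, hvb⟩ :=
    cRunge_solve hrel hok hbdy hAS P x hx a b O hOo hxO
  obtain ⟨R', hR', hRO', v', hv', hvL', hva', hvb'⟩ :=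
    cRunge_solve hrel hok hbdy hAS P x' hx' a' b' O' hOo' hxO'
  have hRp : 0 < R := hR.1
  have hRp' : 0 < R' := hR'.1
  have hdisR : Disjoint (cb n x R) (cb n x' R') := hdis.mono hRO hRO'
  have hcbR : cb n x (R / 2) ⊆ cb n x R :=
    image_mono (Metric.closedBall_subset_closedBall (by linarith))
  have hcbR' : cb n x' (R' / 2) ⊆ cb n x' R' :=
    image_mono (Metric.closedBall_subset_closedBall (by linarith))
  have hdisr : Disjoint (cb n x (R / 2)) (cb n x' (R' / 2)) := hdisR.mono hcbR hcbR'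
  have hcc : IsCompact (cb n x (R / 2)) := cRunge_cbcompact x hR (by linarith)
  have hcc' : IsCompact (cb n x' (R' / 2)) := cRunge_cbcompact x' hR' (by linarith)
  set K : Set M := cb n x (R / 2) ∪ cb n x' (R' / 2) with hK
  have hKc : IsCompact K := hcc.union hcc'
  have hvc : ContinuousOn (fun m => v (xc n x m)) (cb n x (R / 2)) :=
    cRunge_vcont x hR (by linarith) hv.continuousOn
  have hvc' : ContinuousOn (fun m => v' (xc n x' m)) (cb n x' (R' / 2)) :=
    cRunge_vcont x' hR' (by linarith) hv'.continuousOn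
  -- the target function
  set w : M → Fib N := (cb n x (R / 2)).indicator (fun m => v (xc n x m)) +
    (cb n x' (R' / 2)).indicator (fun m => v' (xc n x' m)) with hw
  have hw1 : ∀ m ∈ cb n x (R / 2), w m = v (xc n x m) := by
    intro m hm
    have h1 : m ∉ cb n x' (R' / 2) := fun h => (Set.disjoint_left.1 hdisr) hm h
    simp [hw, indicator_of_mem hm, indicator_of_notMem h1]
  have hw2 : ∀ m ∈ cb n x' (R' / 2), w m = v' (xc n x' m) := by
    intro m hm
    have h1 : m ∉ cb n x (R / 2) := fun h => (Set.disjoint_left.1 hdisr) h hm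
    simp [hw, indicator_of_mem hm, indicator_of_notMem h1]
  have hwL : MemLp w 2 (P.μ.restrict K) :=
    (cRunge_memLp hcc hvc Measure.restrict_le_self).add
      (cRunge_memLp hcc' hvc' Measure.restrict_le_self)
  -- the space of solutions
  have hUsm : ∀ u ∈ P.U Γ, SmS n u := by
    rintro u ⟨f, -, hf⟩
    exact hf.smooth
  have hUcomb : ∀ u ∈ P.U Γ, ∀ u' ∈ P.U Γ, ∀ c c' : ℂ, c • u + c' • u' ∈ P.U Γ := by
    rintro u ⟨f, hf1, hf2⟩ u' ⟨f', hf1', hf2'⟩ c c'
    exact ⟨c • f + c' • f', cRunge_comb c c' hf1 hf1',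
      (hUniq n N M P hbd).2.1 f f' u u' c c' hf2 hf2'⟩
  have hU0 : (0 : M → Fib N) ∈ P.U Γ := by
    have h1 : IsBdryData (𝓡∂ n) Γ (0 : M → Fib N) :=
      { smooth := contMDiff_const
        supp := by simp }
    obtain ⟨u, hu⟩ := hsol _ h1
    have h2 := hUcomb u ⟨_, h1, hu⟩ u ⟨_, h1, hu⟩ 0 0
    simpa using h2
  let 𝒰 : Submodule ℂ (M → Fib N) :=
    { carrier := P.U Γ
      zero_mem' := hU0
      add_mem' := fun {u u'} hu hu' => by
        have := hUcomb u hu u' hu' 1 1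
        simpa using this
      smul_mem' := fun c u hu => by
        have := hUcomb u hu u hu c 0
        simpa using this }
  have h𝒰 : ∀ u, u ∈ 𝒰 ↔ u ∈ P.U Γ := fun u => Iff.rfl
  have hUL : ∀ u ∈ 𝒰, MemLp u 2 (P.μ.restrict K) := by
    intro u hu
    have h1 : Continuous u := (hUsm u hu).continuous
    have h2 := cRunge_memLp (μ := P.μ) (ν := P.μ.restrict K) isCompact_univ h1.continuousOn
      Measure.restrict_le_self
    simpa using h2
  obtain ⟨u, hu, hlim⟩ := cRunge_approx (P.μ.restrict K) 𝒰 hUL w hwL (by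
    intro h hh horth
    have h1 := hRC n N M P Γ x x' R R' (R / 2) (R' / 2) h hn hΓ hne hsol hR hR' (by linarith)
      (by linarith) (by linarith) (by linarith) hdisR hh (fun u hu => horth u hu) v v' hv hv'
      hvL hvL'
    have hint0 : IntegrableOn (fun m => (inner ℂ (h m) (w m) : ℂ)) K P.μ := by
      have h2 := L2.integrable_inner (𝕜 := ℂ) (hh.toLp h) (hwL.toLp w)
      refine h2.congr ?_
      filter_upwards [hh.coeFn_toLp, hwL.coeFn_toLp] with m h3 h4
      rw [h3, h4]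
    rw [hK, setIntegral_union hdisr hcc'.measurableSet
      (hint0.mono_set subset_union_left) (hint0.mono_set subset_union_right)]
    rw [← h1]
    congr 1
    · exact setIntegral_congr_fun hcc.measurableSet fun m hm => by
        simp only [hw1 m hm]
    · exact setIntegral_congr_fun hcc'.measurableSet fun m hm => by
        simp only [hw2 m hm])
  have hiK : ∀ k, IntegrableOn (fun m => ‖u k m - w m‖ ^ 2) K P.μ := by
    intro k
    have h1 : Integrable (fun m => ‖u k m - w m‖ ^ 2) (P.μ.restrict K) := by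
      have h2 := ((hUL (u k) (hu k)).sub hwL).integrable_norm_pow (by norm_num)
      simpa using h2
    exact h1
  have hl1 : Tendsto (fun k => ∫ m in cb n x (R / 2), ‖u k m - v (xc n x m)‖ ^ 2 ∂P.μ) atTop
      (𝓝 0) := by
    refine squeeze_zero (fun k => integral_nonneg fun _ => by positivity) (fun k => ?_) hlim
    have h1 : ∫ m in cb n x (R / 2), ‖u k m - v (xc n x m)‖ ^ 2 ∂P.μ =
        ∫ m in cb n x (R / 2), ‖u k m - w m‖ ^ 2 ∂P.μ :=
      setIntegral_congr_fun hcc.measurableSet fun m hm => by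
        simp only [hw1 m hm]
    rw [h1]
    exact setIntegral_mono_set (hiK k) (Eventually.of_forall fun _ => by positivity)
      subset_union_left.eventuallyLE
  have hl2 : Tendsto (fun k => ∫ m in cb n x' (R' / 2), ‖u k m - v' (xc n x' m)‖ ^ 2 ∂P.μ)
      atTop (𝓝 0) := by
    refine squeeze_zero (fun k => integral_nonneg fun _ => by positivity) (fun k => ?_) hlim
    have h1 : ∫ m in cb n x' (R' / 2), ‖u k m - v' (xc n x' m)‖ ^ 2 ∂P.μ =
        ∫ m in cb n x' (R' / 2), ‖u k m - w m‖ ^ 2 ∂P.μ :=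
      setIntegral_congr_fun hcc'.measurableSet fun m hm => by
        simp only [hw2 m hm]
    rw [h1]
    exact setIntegral_mono_set (hiK k) (Eventually.of_forall fun _ => by positivity)
      subset_union_right.eventuallyLE
  obtain ⟨hj1, hj2⟩ := cRunge_local hInt hAI hLoc hHarm hUniq P hbd Γ x R (R / 2) hR
    (by linarith) (by linarith) u hu v hv hl1
  obtain ⟨hj1', hj2'⟩ := cRunge_local hInt hAI hLoc hHarm hUniq P hbd Γ x' R' (R' / 2) hR'
    (by linarith) (by linarith) u hu v' hv' hl2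
  -- the jet map
  let J : 𝒰 →ₗ[ℂ] (Fib N × (Fin n → Fib N)) × (Fib N × (Fin n → Fib N)) :=
    { toFun := fun u => ((u.1 x, fun j => pd j (lu (𝓡∂ n) x u.1) (xc n x x)),
        (u.1 x', fun j => pd j (lu (𝓡∂ n) x' u.1) (xc n x' x')))
      map_add' := fun u u' => by
        have h1 : ∀ (p : M) (j : Fin n), pd j (lu (𝓡∂ n) p (u.1 + u'.1)) (xc n p p) =
            pd j (lu (𝓡∂ n) p u.1) (xc n p p) + pd j (lu (𝓡∂ n) p u'.1) (xc n p p) := by
          intro p j
          have h2 := cRunge_jet hrel hsm p (hUsm _ u.2) (hUsm _ u'.2) 1 1 j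
          simpa using h2
        simp only [Submodule.coe_add, Pi.add_apply, h1]
        rfl
      map_smul' := fun c u => by
        have h1 : ∀ (p : M) (j : Fin n), pd j (lu (𝓡∂ n) p (c • u.1)) (xc n p p) =
            c • pd j (lu (𝓡∂ n) p u.1) (xc n p p) := by
          intro p j
          have h2 := cRunge_jet hrel hsm p (hUsm _ u.2) (hUsm _ u.2) c 0 j
          simpa using h2
        simp only [Submodule.coe_smul, Pi.smul_apply, h1, RingHom.id_apply]
        rfl }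
  have hclosed : IsClosed ((LinearMap.range J : Submodule ℂ _) :
      Set ((Fib N × (Fin n → Fib N)) × (Fib N × (Fin n → Fib N)))) :=
    Submodule.closed_of_finiteDimensional _
  have hmem : ((a, b), (a', b')) ∈ (LinearMap.range J : Submodule ℂ _) := by
    refine hclosed.mem_of_tendsto (b := atTop) (f := fun k => J ⟨u k, hu k⟩) ?_
      (Eventually.of_forall fun k => LinearMap.mem_range_self _ _)
    refine Tendsto.prodMk_nhds (Tendsto.prodMk_nhds ?_ ?_) (Tendsto.prodMk_nhds ?_ ?_)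
    · rw [← hva]
      exact hj1
    · refine tendsto_pi_nhds.2 fun j => ?_
      rw [← hvb j]
      exact hj2 j
    · rw [← hva']
      exact hj1'
    · refine tendsto_pi_nhds.2 fun j => ?_
      rw [← hvb' j]
      exact hj2' j
  obtain ⟨u₀, hu₀⟩ := hmem
  refine ⟨u₀.1, u₀.2, ⟨congrArg (fun q => q.1.1) hu₀, fun j => ?_⟩,
    ⟨congrArg (fun q => q.2.1) hu₀, fun j => ?_⟩⟩
  · exact congrArg (fun q => q.1.2 j) hu₀
  · exact congrArg (fun q => q.2.2 j) hu₀

end Vale.Agent.P088.EYM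
end
end

section

/-!
# P088-EYM, block C: limits of good points, part 1
-/

open Bundle Manifold MeasureTheory Set Filter Topology
open scoped ContDiff

noncomputable section

namespace Vale.Agent.P088.EYM

universe u

/-- Moving a point a little in a coordinate direction inside an open set. -/
theorem cLim_move {n : ℕ} [NeZero n] {M : Type u} [TopologicalSpace M]
    [ChartedSpace (EuclideanHalfSpace n) M] [IsManifold (𝓡∂ n) ∞ M] (p : M)
    (hrel : RelOpen (tg n p)) {U : Set M} (hU : IsOpen U) (hp : p ∈ U) (i : Fin n) :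
    ∃ m : M, ∃ t > (0 : ℝ), m ∈ U ∧ m ∈ (xc n p).source ∧ xc n p m = xc n p p + t • ev i ∧
      m ≠ p := by
  obtain ⟨O, hO, hOeq⟩ := hrel
  have hpt : xc n p p ∈ tg n p := mem_extChartAt_target p
  have hp0 : 0 ≤ xc n p p 0 := by
    have h1 := hpt
    rw [hOeq] at h1
    exact h1.2
  have hcont : ContinuousAt (fun t : ℝ => xc n p p + t • ev i) 0 := by fun_prop
  have hcoord : ∀ t : ℝ, 0 ≤ t → 0 ≤ (xc n p p + t • ev i : E n) 0 := by
    intro t ht
    have : (xc n p p + t • ev i : E n) 0 = xc n p p 0 + t * (ev i : E n) 0 := by simp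
    rw [this]
    have h2 : 0 ≤ (ev i : E n) 0 := by
      simp only [ev, PiLp.single_apply]
      split_ifs <;> norm_num
    positivity
  -- eventually in target
  have hev1 : ∀ᶠ t in 𝓝[>] (0 : ℝ), xc n p p + t • ev i ∈ tg n p := by
    have hO1 : xc n p p ∈ O := by
      have h1 := hpt
      rw [hOeq] at h1
      exact h1.1
    have h3 : ∀ᶠ t in 𝓝 (0 : ℝ), xc n p p + t • ev i ∈ O := by
      apply hcont.eventually_mem
      have hz : xc n p p + (0 : ℝ) • ev i = xc n p p := by simp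
      rw [hz]
      exact hO.mem_nhds hO1
    have h4 : ∀ᶠ t in 𝓝[>] (0 : ℝ), xc n p p + t • ev i ∈ O := nhdsWithin_le_nhds h3
    filter_upwards [h4, self_mem_nhdsWithin] with t ht ht0
    rw [hOeq]
    exact ⟨ht, hcoord t (le_of_lt ht0)⟩
  have htend : Tendsto (fun t : ℝ => xc n p p + t • ev i) (𝓝[>] (0 : ℝ)) (𝓝[tg n p] (xc n p p)) := by
    rw [tendsto_nhdsWithin_iff]
    refine ⟨?_, hev1⟩
    have h5 : Tendsto (fun t : ℝ => xc n p p + t • ev i) (𝓝 (0 : ℝ)) (𝓝 (xc n p p)) := by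
      have h6 := hcont.tendsto
      have hz : xc n p p + (0 : ℝ) • ev i = xc n p p := by simp
      rwa [hz] at h6
    exact h5.mono_left nhdsWithin_le_nhds
  have hsymm : Tendsto (xc n p).symm (𝓝[tg n p] (xc n p p)) (𝓝 p) := by
    have h7 := (continuousOn_extChartAt_symm (I := 𝓡∂ n) p).continuousWithinAt hpt
    have h8 : Tendsto (xc n p).symm (𝓝[tg n p] (xc n p p)) (𝓝 ((xc n p).symm (xc n p p))) := h7
    rwa [extChartAt_to_inv] at h8
  have hev2 : ∀ᶠ t in 𝓝[>] (0 : ℝ), (xc n p).symm (xc n p p + t • ev i) ∈ U :=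
    (hsymm.comp htend).eventually (hU.mem_nhds hp)
  obtain ⟨t, ⟨ht1, ht2⟩, ht0⟩ := ((hev1.and hev2).and self_mem_nhdsWithin).exists
  refine ⟨(xc n p).symm (xc n p p + t • ev i), t, ht0, ht2, (xc n p).map_target ht1,
    (xc n p).right_inv ht1, ?_⟩
  intro hEq
  have h9 : xc n p p + t • ev i = xc n p p := by
    have h10 := (xc n p).right_inv ht1
    rw [hEq] at h10
    exact h10.symm
  have h11 : t • ev i = (0 : E n) := by
    have := h9
    simpa using this
  have h12 : (t • ev i : E n) i = 0 := by rw [h11]; simp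
  have h13 : (t • ev i : E n) i = t := by simp [ev]
  rw [h13] at h12
  exact absurd h12 (ne_of_gt ht0)

/-- The unitary group of `ℂ^N` is compact. -/
theorem cLim_compact (N : ℕ) (hN : 0 < N) : IsCompact (unitary (EndF N) : Set (EndF N)) := by
  have : ProperSpace (EndF N) := FiniteDimensional.proper ℂ (EndF N)
  have : Nonempty (Fin N) := ⟨⟨0, hN⟩⟩
  have : ContinuousStar (EndF N) :=
    ⟨(ContinuousLinearMap.adjoint : EndF N ≃ₗᵢ⋆[ℂ] EndF N).continuous⟩
  apply Metric.isCompact_of_isClosed_isBounded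
  · exact isClosed_unitary
  · rw [isBounded_iff_forall_norm_le]
    refine ⟨1, fun U hU => ?_⟩
    exact le_of_eq (CStarRing.norm_of_mem_unitary hU)

theorem cLim : CRunge_statement.{u} → CData_statement.{u} → CLoc_statement.{u} →
    CConn_statement.{u} → CLim_statement.{u} := by
  intro hRunge hData hLoc hConn n N _ M _ _ _ _ _ _ _ _ P Q Γ hn hN hΓ hΓne hSame x₀ hx₀ hcl
  have : SecondCountableTopology (EuclideanHalfSpace n) := by
    unfold EuclideanHalfSpace
    infer_instance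
  have : SecondCountableTopology M :=
    ChartedSpace.secondCountable_of_sigmaCompact (EuclideanHalfSpace n) M
  obtain ⟨hIopen, -, -⟩ := hConn n M
  obtain ⟨⟨hPsol, hQsol, -⟩, -⟩ := hData n N M P Q Γ hΓ hΓne hSame
  obtain ⟨hRel, -, hBd, -⟩ := hLoc n N M
  -- the sequence
  obtain ⟨x, hxG, hxt⟩ := mem_closure_iff_seq_limit.1 hcl
  choose O φ V hLM using hxG
  have hcomp : IsCompact ((univ : Set M) ×ˢ (unitary (EndF N) : Set (EndF N))) :=
    isCompact_univ.prod (cLim_compact N hN)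
  obtain ⟨a, haM, ψ, hψ, hlim⟩ := hcomp.tendsto_subseq
    (x := fun k => (φ k (x k), V k (x k)))
    (fun k => ⟨mem_univ _, (hLM k).1.unit _ (hLM k).2⟩)
  obtain ⟨x₀', V₀⟩ := a
  have hlim1 : Tendsto (fun k => φ (ψ k) (x (ψ k))) atTop (𝓝 x₀') :=
    (continuous_fst.tendsto _).comp hlim
  have hlim2 : Tendsto (fun k => V (ψ k) (x (ψ k))) atTop (𝓝 V₀) :=
    (continuous_snd.tendsto _).comp hlim
  have hxt' : Tendsto (fun k => x (ψ k)) atTop (𝓝 x₀) := hxt.comp hψ.tendsto_atTop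
  have hrel : ∀ u ∈ PP P Q Γ, u.2 x₀ = V₀ (u.1 x₀') := by
    intro u hu
    obtain ⟨f, hf, hPf, hQf⟩ := id hu
    have hc1 : Continuous u.1 := hPf.smooth.continuous
    have hc2 : Continuous u.2 := hQf.smooth.continuous
    have hl : Tendsto (fun k => u.2 (x (ψ k))) atTop (𝓝 (u.2 x₀)) :=
      (hc2.tendsto _).comp hxt'
    have hr : Tendsto (fun k => V (ψ k) (x (ψ k)) (u.1 (φ (ψ k) (x (ψ k))))) atTop
        (𝓝 (V₀ (u.1 x₀'))) := by
      have h1 : Tendsto (fun k => u.1 (φ (ψ k) (x (ψ k)))) atTop (𝓝 (u.1 x₀')) :=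
        (hc1.tendsto _).comp hlim1
      have h2 : Continuous fun q : EndF N × Fib N => q.1 q.2 :=
        isBoundedBilinearMap_apply.continuous
      exact (h2.tendsto (V₀, u.1 x₀')).comp (hlim2.prodMk_nhds h1)
    refine tendsto_nhds_unique hl (hr.congr fun k => ?_)
    exact ((hLM (ψ k)).1.sol u hu _ (hLM (ψ k)).2).symm
  have hint : x₀' ∈ Mi n M := by
    by_contra hnot
    have hbdx : x₀' ∈ (𝓡∂ n).boundary M := by
      rw [← ModelWithCorners.compl_interior]
      exact hnot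
    obtain ⟨O', hO', hΓeq⟩ := id hΓ
    have hΓ'rel : RelBd n (Γ \ {x₀'}) := by
      refine ⟨O' \ {x₀'}, hO'.sdiff isClosed_singleton, ?_⟩
      rw [hΓeq]
      ext y
      simp only [Set.mem_sdiff, mem_inter_iff, mem_singleton_iff]
      tauto
    have hΓ'ne : (Γ \ {x₀'}).Nonempty := by
      obtain ⟨p, hp⟩ := hΓne
      by_cases hpx : p = x₀'
      · have hpO : p ∈ O' := by rw [hΓeq] at hp; exact hp.1
        have hpB : p ∈ (𝓡∂ n).boundary M := by rw [hΓeq] at hp; exact hp.2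
        have h1n : 1 < n := by omega
        obtain ⟨m, t, ht, hmO, hms, hmx, hmp⟩ := cLim_move p (hRel p) hO' hpO (⟨1, h1n⟩ : Fin n)
        have hp00 : xc n p p 0 = 0 := (hBd p p (mem_extChartAt_source p)).1 hpB
        have hm00 : xc n p m 0 = 0 := by
          rw [hmx]
          have hne : (⟨1, h1n⟩ : Fin n) ≠ 0 := by
            intro h
            have := congrArg Fin.val h
            simp at this
          have h14 : (xc n p p + t • ev (⟨1, h1n⟩ : Fin n) : E n) 0 =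
              xc n p p 0 + t * (ev (⟨1, h1n⟩ : Fin n) : E n) 0 := by simp only [PiLp.add_apply,
            PiLp.smul_apply, smul_eq_mul]
          rw [h14, hp00]
          simp [ev, hne.symm]
        have hmB : m ∈ (𝓡∂ n).boundary M := (hBd p m hms).2 hm00
        refine ⟨m, ?_, ?_⟩
        · rw [hΓeq]; exact ⟨hmO, hmB⟩
        · rw [mem_singleton_iff, ← hpx]; exact hmp
      · exact ⟨p, hp, by simpa using hpx⟩
    have hsub : ∀ f : M → Fib N, IsBdryData (𝓡∂ n) (Γ \ {x₀'}) f → IsBdryData (𝓡∂ n) Γ f :=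
      fun f hf => ⟨hf.smooth, hf.supp.trans sdiff_subset⟩
    have hQ' : Q.HasSol (Γ \ {x₀'}) := fun f hf => hQsol f (hsub f hf)
    obtain ⟨x₁, _, _, hx₁I, _, _, hx₁ne⟩ := cLim_move x₀ (hRel x₀) hIopen hx₀ (0 : Fin n)
    obtain ⟨u₂, ⟨f, hf, hQf⟩, ⟨hu₂, -⟩, -⟩ := hRunge n N M Q (Γ \ {x₀'}) x₀ x₁
      (EuclideanSpace.single (⟨0, hN⟩ : Fin N) (1 : ℂ)) 0 0 0 (by omega) hΓ'rel hΓ'ne hQ' hx₀ hx₁I
      (Ne.symm hx₁ne)
    obtain ⟨u₁, hPf⟩ := hPsol f (hsub f hf)
    have hpair : (u₁, u₂) ∈ PP P Q Γ := ⟨f, hsub f hf, hPf, hQf⟩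
    have h1 := hrel _ hpair
    have hfz : f x₀' = 0 := by
      by_contra hfne
      have : x₀' ∈ Γ \ {x₀'} := hf.supp (subset_closure ⟨hbdx, hfne⟩)
      exact this.2 rfl
    have h2 : u₁ x₀' = 0 := by rw [hPf.boundary x₀' hbdx, hfz]
    simp only [hu₂, h2, map_zero] at h1
    have h3 := congrArg (fun v : Fib N => v ⟨0, hN⟩) h1
    simp at h3
  exact ⟨x₀', V₀, fun k => x (ψ k), fun k => O (ψ k), fun k => φ (ψ k), fun k => V (ψ k), hint,
    haM.2, fun k => hLM (ψ k), hxt', hlim1, hlim2, hrel⟩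

end Vale.Agent.P088.EYM
end
end

section

/-!
# P088-EYM-C42: smooth extension of the match to the boundary, local
-/

set_option linter.all false

open Bundle Manifold MeasureTheory Set Filter Topology
open scoped ContDiff

noncomputable section

namespace Vale.Agent.P088.EYM

universe u

section cRegLocal

variable {n N : ℕ} [NeZero n]

/-- a lower bound for a family of positive definite matrices on a compact set -/
theorem cReg_lower {g : E n → Matrix (Fin n) (Fin n) ℝ} {C : Set (E n)}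
    (hg : ∀ i j, ContinuousOn (fun x => g x i j) C) (hC : IsCompact C)
    (hp : ∀ x ∈ C, (g x).PosDef) :
    ∃ a : ℝ, 0 < a ∧ ∀ x ∈ C, ∀ v : Fin n → ℝ,
      a * ∑ j, v j ^ 2 ≤ ∑ j, ∑ k, g x j k * v j * v k := by
  set q : E n × E n → ℝ := fun p => ∑ j, ∑ k, g p.1 j k * p.2 j * p.2 k with hq
  have hqc : ContinuousOn q (C ×ˢ (univ : Set (E n))) := by
    refine continuousOn_finsetSum _ fun j _ => continuousOn_finsetSum _ fun k _ => ?_
    have h1 : ContinuousOn (fun p : E n × E n => g p.1 j k) (C ×ˢ (univ : Set (E n))) :=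
      (hg j k).comp continuousOn_fst fun p hp => hp.1
    exact (h1.mul ((continuous_coord j).comp continuous_snd).continuousOn).mul
      ((continuous_coord k).comp continuous_snd).continuousOn
  have hquad : ∀ {A : Matrix (Fin n) (Fin n) ℝ}, A.PosDef → ∀ {v : Fin n → ℝ}, v ≠ 0 →
      0 < ∑ j, ∑ k, A j k * v j * v k := by
    intro A hA v hv
    have h := hA.dotProduct_mulVec_pos hv
    have h2 : star v ⬝ᵥ (A.mulVec v) = ∑ j, ∑ k, A j k * v j * v k := by
      simp only [dotProduct, Matrix.mulVec, Finset.mul_sum, Pi.star_apply, star_trivial]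
      refine Finset.sum_congr rfl fun j _ => Finset.sum_congr rfl fun k _ => ?_
      ring
    rw [← h2]
    exact h
  rcases C.eq_empty_or_nonempty with h0 | hne
  · refine ⟨1, one_pos, fun x hx => ?_⟩
    rw [h0] at hx
    exact absurd hx (notMem_empty x)
  have hSne : (C ×ˢ Metric.sphere (0 : E n) 1).Nonempty := by
    refine hne.prod ⟨ev 0, ?_⟩
    rw [mem_sphere_zero_iff_norm, PiLp.norm_single, norm_one]
  obtain ⟨p0, hp0, hmin⟩ := (hC.prod (isCompact_sphere (0 : E n) 1)).exists_isMinOn hSne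
    (hqc.mono (Set.prod_mono subset_rfl (subset_univ _)))
  obtain ⟨hp1, hp2⟩ := Set.mem_prod.1 hp0
  have hv0 : p0.2 ≠ 0 := by
    intro h
    rw [h, mem_sphere_zero_iff_norm, norm_zero] at hp2
    exact zero_ne_one hp2
  have hpos : 0 < q p0 := by
    refine hquad (hp _ hp1) (v := fun i => p0.2 i) fun h0 => hv0 ?_
    ext i
    exact congrFun h0 i
  refine ⟨q p0, hpos, fun x hx v => ?_⟩
  set w : E n := WithLp.toLp 2 v with hw
  have hs : ∑ j, v j ^ 2 = ‖w‖ ^ 2 := by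
    rw [EuclideanSpace.norm_sq_eq]
    refine Finset.sum_congr rfl fun j _ => ?_
    rw [Real.norm_eq_abs, sq_abs]
  by_cases h0 : w = 0
  · have hv : v = 0 := by
      funext i
      have : w i = 0 := by rw [h0]; rfl
      exact this
    simp [hv]
  have hn : 0 < ‖w‖ := norm_pos_iff.2 h0
  have h2 := isMinOn_iff.1 hmin (x, ((‖w‖⁻¹ : ℝ) • w)) (Set.mk_mem_prod hx (by
    rw [mem_sphere_zero_iff_norm, norm_smul, norm_inv, norm_norm, inv_mul_cancel₀ hn.ne']))
  have h3 : q (x, (‖w‖⁻¹ : ℝ) • w) = ‖w‖⁻¹ ^ 2 * ∑ j, ∑ k, g x j k * v j * v k := by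
    simp only [hq]
    rw [Finset.mul_sum]
    refine Finset.sum_congr rfl fun j _ => ?_
    rw [Finset.mul_sum]
    refine Finset.sum_congr rfl fun k _ => ?_
    simp only [PiLp.smul_apply, smul_eq_mul, hw]
    ring
  rw [h3] at h2
  rw [hs]
  have h4 : 0 < ‖w‖ ^ 2 := by positivity
  calc q p0 * ‖w‖ ^ 2 ≤ (‖w‖⁻¹ ^ 2 * ∑ j, ∑ k, g x j k * v j * v k) * ‖w‖ ^ 2 :=
        mul_le_mul_of_nonneg_right h2 h4.le
    _ = ∑ j, ∑ k, g x j k * v j * v k := by field_simp

/-- the space of the Jacobians and of the gauge -/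
abbrev cReg_G (n N : ℕ) : Type := (Fin n → Fin n → ℝ) × EndF N

instance cReg_inst1 : NormedAddCommGroup (E n →L[ℝ] (E n × cReg_G n N)) :=
  ContinuousLinearMap.toNormedAddCommGroup

instance cReg_inst2 : NormedSpace ℝ (E n →L[ℝ] (E n × cReg_G n N)) :=
  ContinuousLinearMap.toNormedSpace

/-- the first derivatives of the unknowns -/
def cReg_vec (ΓQ ΓP : Fin n → Fin n → Fin n → E n → ℝ) (BQ BP : Fin n → E n → EndF N)
    (j : Fin n) (p : E n × E n × cReg_G n N) : E n × cReg_G n N :=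
  (WithLp.toLp 2 (fun k => p.2.2.1 k j),
    (fun k a => ∑ l, ΓQ l j a p.1 * p.2.2.1 k l -
      ∑ b, ∑ c, ΓP k b c p.2.1 * p.2.2.1 b j * p.2.2.1 c a,
    p.2.2.2 * (∑ k, p.2.2.1 k j • BP k p.2.1) - BQ j p.1 * p.2.2.2))

/-- the right hand side of the total differential system -/
def cReg_sys (ΓQ ΓP : Fin n → Fin n → Fin n → E n → ℝ) (BQ BP : Fin n → E n → EndF N)
    (p : E n × E n × cReg_G n N) : E n →L[ℝ] E n × cReg_G n N :=
  ∑ j, (EuclideanSpace.proj (𝕜 := ℝ) j : E n →L[ℝ] ℝ).smulRight (cReg_vec ΓQ ΓP BQ BP j p)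

theorem cReg_vec_smooth {ΓQ ΓP : Fin n → Fin n → Fin n → E n → ℝ} {BQ BP : Fin n → E n → EndF N}
    {D D' : Set (E n)} (h1 : ∀ k i j, ContDiffOn ℝ ∞ (ΓQ k i j) D)
    (h2 : ∀ k i j, ContDiffOn ℝ ∞ (ΓP k i j) D') (h3 : ∀ j, ContDiffOn ℝ ∞ (BQ j) D)
    (h4 : ∀ j, ContDiffOn ℝ ∞ (BP j) D') (j : Fin n) :
    ContDiffOn ℝ ∞ (cReg_vec ΓQ ΓP BQ BP j) (D ×ˢ D' ×ˢ (univ : Set (cReg_G n N))) := by
  have f1 : ∀ {F : Type} [NormedAddCommGroup F] [NormedSpace ℝ F] {f : E n → F},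
      ContDiffOn ℝ ∞ f D → ContDiffOn ℝ ∞ (fun p : E n × E n × cReg_G n N => f p.1)
        (D ×ˢ D' ×ˢ (univ : Set (cReg_G n N))) := fun hf =>
    hf.comp contDiff_fst.contDiffOn fun p hp => hp.1
  have f2 : ∀ {F : Type} [NormedAddCommGroup F] [NormedSpace ℝ F] {f : E n → F},
      ContDiffOn ℝ ∞ f D' → ContDiffOn ℝ ∞ (fun p : E n × E n × cReg_G n N => f p.2.1)
        (D ×ˢ D' ×ˢ (univ : Set (cReg_G n N))) := fun hf =>
    hf.comp (contDiff_fst.comp contDiff_snd).contDiffOn fun p hp => hp.2.1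
  have f3 : ContDiff ℝ ∞ (fun p : E n × E n × cReg_G n N => p.2.2.1) :=
    contDiff_fst.comp (contDiff_snd.comp contDiff_snd)
  have f4 : ContDiff ℝ ∞ (fun p : E n × E n × cReg_G n N => p.2.2.2) :=
    contDiff_snd.comp (contDiff_snd.comp contDiff_snd)
  have f5 : ∀ a b : Fin n, ContDiffOn ℝ ∞ (fun p : E n × E n × cReg_G n N => p.2.2.1 a b)
      (D ×ˢ D' ×ˢ (univ : Set (cReg_G n N))) := fun a b =>
    (contDiff_pi.1 (contDiff_pi.1 f3 a) b).contDiffOn
  unfold cReg_vec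
  refine ContDiffOn.prodMk ?_ (ContDiffOn.prodMk ?_ ?_)
  · rw [contDiffOn_euclidean]
    exact fun k => f5 k j
  · refine contDiffOn_pi.2 fun k => contDiffOn_pi.2 fun a => ?_
    refine (ContDiffOn.sum fun l _ => (f1 (h1 l j a)).mul (f5 k l)).sub
      (ContDiffOn.sum fun b _ => ContDiffOn.sum fun c _ => ?_)
    exact ((f2 (h2 k b c)).mul (f5 b j)).mul (f5 c a)
  · have m1 : ∀ {f g : E n × E n × cReg_G n N → EndF N} {S : Set (E n × E n × cReg_G n N)},
        ContDiffOn ℝ ∞ f S → ContDiffOn ℝ ∞ g S → ContDiffOn ℝ ∞ (fun p => f p * g p) S := by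
      intro f g S hf hg
      let _ := algOf (EndF N)
      exact hf.mul hg
    refine (m1 f4.contDiffOn (ContDiffOn.sum fun k _ => (f5 k j).smul (f2 (h4 k)))).sub
      (m1 (f1 (h3 j)) f4.contDiffOn)

theorem cReg_sys_smooth {ΓQ ΓP : Fin n → Fin n → Fin n → E n → ℝ} {BQ BP : Fin n → E n → EndF N}
    {D D' : Set (E n)} (h1 : ∀ k i j, ContDiffOn ℝ ∞ (ΓQ k i j) D)
    (h2 : ∀ k i j, ContDiffOn ℝ ∞ (ΓP k i j) D') (h3 : ∀ j, ContDiffOn ℝ ∞ (BQ j) D)
    (h4 : ∀ j, ContDiffOn ℝ ∞ (BP j) D') :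
    ContDiffOn ℝ ∞ (cReg_sys ΓQ ΓP BQ BP) (D ×ˢ D' ×ˢ (univ : Set (cReg_G n N))) := by
  unfold cReg_sys
  refine ContDiffOn.sum fun j _ => ?_
  exact (ContinuousLinearMap.smulRightL ℝ (E n) (E n × cReg_G n N)
    (EuclideanSpace.proj (𝕜 := ℝ) j)).contDiff.comp_contDiffOn (cReg_vec_smooth h1 h2 h3 h4 j)

/-- a map with the right first derivatives solves the system -/
theorem cReg_deriv {ΓQ ΓP : Fin n → Fin n → Fin n → E n → ℝ} {BQ BP : Fin n → E n → EndF N}
    {D : Set (E n)} (hD : IsOpen D) (hs : D ⊆ Hs n) {τ : E n → E n} {W : E n → EndF N}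
    (hτ : ContDiffOn ℝ ∞ τ D) (hW : ContDiffOn ℝ ∞ W D)
    (e1 : ∀ y ∈ D, ∀ i j k, pd i (fun y => Jac τ y k j) y = ∑ l, ΓQ l i j y * Jac τ y k l -
      ∑ a, ∑ b, ΓP k a b (τ y) * Jac τ y a i * Jac τ y b j)
    (e2 : ∀ y ∈ D, ∀ j, pd j W y + BQ j y * W y = W y * ∑ k, Jac τ y k j • BP k (τ y)) :
    ∀ y ∈ D, HasFDerivAt (fun y => ((τ y, (fun k a => Jac τ y k a, W y)) : E n × cReg_G n N))
      (cReg_sys ΓQ ΓP BQ BP (y, (τ y, (fun k a => Jac τ y k a, W y)))) y := by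
  intro y hy
  have hR : RelOpen D := ⟨D, hD, (inter_eq_left.2 hs).symm⟩
  have hJ : ∀ k a, ContDiffOn ℝ ∞ (fun y => Jac τ y k a) D := fun k a =>
    hR.pd_smooth (coord_smooth hτ k) a
  have hJ' : ContDiffOn ℝ ∞ (fun y => fun k a => Jac τ y k a : E n → Fin n → Fin n → ℝ) D :=
    contDiffOn_pi.2 fun k => contDiffOn_pi.2 fun a => hJ k a
  set s : E n → E n × cReg_G n N := fun y => (τ y, (fun k a => Jac τ y k a, W y)) with hsd
  have hsm : ContDiffOn ℝ ∞ s D := hτ.prodMk (hJ'.prodMk hW)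
  have hd : DifferentiableAt ℝ s y :=
    (hsm.contDiffAt (hD.mem_nhds hy)).differentiableAt (by simp)
  have hpd : ∀ j, pd j s y = cReg_vec ΓQ ΓP BQ BP j (y, s y) := by
    intro j
    refine Prod.ext ?_ (Prod.ext ?_ ?_)
    · have h0 := hR.pd_clm (ContinuousLinearMap.fst ℝ (E n) (cReg_G n N)) hsm hy j
      refine h0.symm.trans ?_
      ext k
      exact (hR.pd_clm (EuclideanSpace.proj (𝕜 := ℝ) k) hτ hy j).symm
    · have h0 := hR.pd_clm ((ContinuousLinearMap.fst ℝ (Fin n → Fin n → ℝ) (EndF N)).comp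
        (ContinuousLinearMap.snd ℝ (E n) (cReg_G n N))) hsm hy j
      refine h0.symm.trans ?_
      funext k a
      have h1 := hR.pd_clm ((ContinuousLinearMap.proj (R := ℝ) (φ := fun _ : Fin n => ℝ) a).comp
        (ContinuousLinearMap.proj (R := ℝ) (φ := fun _ : Fin n => Fin n → ℝ) k)) hJ' hy j
      refine h1.symm.trans ?_
      exact e1 y hy j a k
    · have h0 := hR.pd_clm ((ContinuousLinearMap.snd ℝ (Fin n → Fin n → ℝ) (EndF N)).comp
        (ContinuousLinearMap.snd ℝ (E n) (cReg_G n N))) hsm hy j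
      refine h0.symm.trans ?_
      have h1 := e2 y hy j
      exact eq_sub_of_add_eq h1
  have hfd : fderiv ℝ s y = cReg_sys ΓQ ΓP BQ BP (y, s y) := by
    ext1 v
    have h1 : fderivWithin ℝ s (Hs n) y = fderiv ℝ s y :=
      fderivWithin_of_mem_nhds (mem_of_superset (hD.mem_nhds hy) hs)
    rw [← h1, fderivWithin_eq_sum]
    unfold cReg_sys
    rw [_root_.sum_apply]
    refine Finset.sum_congr rfl fun j _ => ?_
    rw [hpd j]
    rfl
  rw [← hfd]
  exact hd.hasFDerivAt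

theorem cReg_unitary_norm {V : EndF N} (hV : V ∈ unitary (EndF N)) : ‖V‖ ≤ 1 := by
  refine ContinuousLinearMap.opNorm_le_bound _ zero_le_one fun v => ?_
  rw [one_mul]
  have h1 : ContinuousLinearMap.adjoint V * V = 1 := (Unitary.mem_iff.1 hV).1
  have h2 : ‖V v‖ ^ 2 = ‖v‖ ^ 2 := by
    have h3 : (inner ℂ (V v) (V v) : ℂ) = inner ℂ v v := by
      rw [← ContinuousLinearMap.adjoint_inner_left]
      have h4 : ContinuousLinearMap.adjoint V (V v) = (ContinuousLinearMap.adjoint V * V) v := rfl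
      rw [h4, h1]
      rfl
    rw [inner_self_eq_norm_sq_to_K, inner_self_eq_norm_sq_to_K] at h3
    exact_mod_cast h3
  exact le_of_eq ((pow_left_inj₀ (norm_nonneg _) (norm_nonneg _) two_ne_zero).1 h2)

/-- bound for the Jacobian of an isometry -/
theorem cReg_jac_bound {g g' : E n → Matrix (Fin n) (Fin n) ℝ} {C C' : Set (E n)}
    (hg : ∀ i j, ContinuousOn (fun x => g x i j) C) (hC : IsCompact C)
    (hg' : ∀ i j, ContinuousOn (fun x => g' x i j) C') (hC' : IsCompact C')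
    (hp : ∀ x ∈ C', (g' x).PosDef) :
    ∃ R : ℝ, 0 ≤ R ∧ ∀ (τ : E n → E n), ∀ y ∈ C, τ y ∈ C' →
      g y = (Jac τ y).transpose * g' (τ y) * Jac τ y → ∀ k j, |Jac τ y k j| ≤ R := by
  obtain ⟨a, ha, hlow⟩ := cReg_lower hg' hC' hp
  have hM : ∀ j : Fin n, ∃ M : ℝ, ∀ y ∈ C, ‖g y j j‖ ≤ M := fun j =>
    hC.exists_bound_of_continuousOn (hg j j)
  choose M hM using hM
  refine ⟨Real.sqrt ((∑ j, |M j|) / a), Real.sqrt_nonneg _, ?_⟩
  intro τ y hy hτ he k j
  refine Real.abs_le_sqrt ?_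
  rw [le_div_iff₀ ha]
  have h1 := hlow (τ y) hτ (fun k => Jac τ y k j)
  have h2 : ∑ k, ∑ l, g' (τ y) k l * Jac τ y k j * Jac τ y l j = g y j j := by
    rw [he]
    simp only [Matrix.mul_apply, Matrix.transpose_apply, Finset.sum_mul]
    rw [Finset.sum_comm]
    refine Finset.sum_congr rfl fun l _ => Finset.sum_congr rfl fun k _ => ?_
    ring
  rw [h2] at h1
  have h3 : Jac τ y k j ^ 2 ≤ ∑ i, Jac τ y i j ^ 2 :=
    Finset.single_le_sum (f := fun i => Jac τ y i j ^ 2) (fun i _ => sq_nonneg _)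
      (Finset.mem_univ k)
  have h4 : g y j j ≤ ∑ j, |M j| := by
    refine (le_abs_self _).trans (((hM j y hy).trans (le_abs_self _)).trans ?_)
    exact Finset.single_le_sum (f := fun j => |M j|) (fun i _ => abs_nonneg _)
      (Finset.mem_univ j)
  calc Jac τ y k j ^ 2 * a ≤ (∑ i, Jac τ y i j ^ 2) * a :=
        mul_le_mul_of_nonneg_right h3 ha.le
    _ = a * ∑ i, Jac τ y i j ^ 2 := mul_comm _ _
    _ ≤ g y j j := h1
    _ ≤ _ := h4

theorem cReg_cb_compact (z : E n) (r : ℝ) : IsCompact (Metric.closedBall z r ∩ Hs n) :=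
  (isCompact_closedBall z r).inter_right isClosed_Hs

/-- the local extension theorem -/
theorem cReg_local (hA : AExtSys_statement) (hB : BChr_statement) {z z' : E n} {r r' r'' : ℝ}
    (hr : 0 < r) (hr'' : r'' < r') (hz : z ∈ Hs n) {LQ LP : LD n N} {DQ DP : Set (E n)}
    (hDQ : RelOpen DQ) (hDP : RelOpen DP) (okQ : LQ.Ok DQ) (okP : LP.Ok DP)
    (hcQ : Metric.closedBall z r ∩ Hs n ⊆ DQ) (hcP : Metric.closedBall z' r' ∩ Hs n ⊆ DP)
    {τ : E n → E n} {W : E n → EndF N}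
    (hτ : ContDiffOn ℝ ∞ τ (Metric.ball z r ∩ {y | 0 < y 0}))
    (hW : ContDiffOn ℝ ∞ W (Metric.ball z r ∩ {y | 0 < y 0}))
    (hm : ∀ y ∈ Metric.ball z r ∩ {y | 0 < y 0}, τ y ∈ Metric.closedBall z' r'' ∧ 0 < τ y 0)
    (hu : ∀ y ∈ Metric.ball z r ∩ {y | 0 < y 0}, W y ∈ unitary (EndF N))
    (e1 : ∀ y ∈ Metric.ball z r ∩ {y | 0 < y 0},
      LQ.g y = (Jac τ y).transpose * LP.g (τ y) * Jac τ y)
    (e2 : ∀ y ∈ Metric.ball z r ∩ {y | 0 < y 0}, ∀ j,
      pd j W y + LQ.B j y * W y = W y * ∑ k, Jac τ y k j • LP.B k (τ y)) :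
    ∃ s' : E n → E n × EndF N, ContDiffOn ℝ ∞ s' (HB z r) ∧
      (∀ y ∈ HB z r, 0 < y 0 → s' y = (τ y, W y)) ∧
      ∀ y ∈ HB z r, (s' y).1 ∈ Metric.closedBall z' r'' ∩ Hs n := by
  set D : Set (E n) := Metric.ball z r ∩ {y | 0 < y 0} with hD
  have hDo : IsOpen D := Metric.isOpen_ball.inter (isOpen_lt continuous_const (continuous_coord 0))
  have hDs : D ⊆ Hs n := fun y hy => le_of_lt (show 0 < y 0 from hy.2)
  have hDQ' : D ⊆ DQ := fun y hy => hcQ ⟨Metric.ball_subset_closedBall hy.1, hDs hy⟩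
  set D' : Set (E n) := DP ∩ {y | 0 < y 0} with hD'
  have hD'o : IsOpen D' := by
    obtain ⟨O, hO, rfl⟩ := hDP
    have : (O ∩ Hs n) ∩ {x : E n | 0 < x 0} = O ∩ {x : E n | 0 < x 0} := by
      ext x
      constructor
      · rintro ⟨⟨h1, _⟩, h2⟩; exact ⟨h1, h2⟩
      · rintro ⟨h1, h2⟩; exact ⟨⟨h1, le_of_lt (show 0 < x 0 from h2)⟩, h2⟩
    rw [hD', this]
    exact hO.inter (isOpen_lt continuous_const (continuous_coord 0))
  have hD's : D' ⊆ Hs n := fun y hy => le_of_lt (show 0 < y 0 from hy.2)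
  have hrr : Metric.closedBall z' r'' ⊆ Metric.closedBall z' r' :=
    Metric.closedBall_subset_closedBall hr''.le
  have hcP'' : Metric.closedBall z' r'' ∩ Hs n ⊆ DP := fun y hy => hcP ⟨hrr hy.1, hy.2⟩
  have hmaps : MapsTo τ D D' := fun y hy =>
    ⟨hcP'' ⟨(hm y hy).1, le_of_lt (hm y hy).2⟩, (hm y hy).2⟩
  have hchr := hB n LQ.g LP.g D D' τ hDo hDs hD'o hD's hmaps hτ
    (fun i j => (okQ.g_smooth i j).mono hDQ')
    (fun i j => (okP.g_smooth i j).mono inter_subset_left)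
    (fun x hx => okQ.g_pos x (hDQ' hx)) (fun x hx => okP.g_pos x hx.1) e1
  set Λ : E n × E n × cReg_G n N → E n →L[ℝ] E n × cReg_G n N :=
    cReg_sys (fun k i j => chr LQ.g k i j) (fun k i j => chr LP.g k i j) LQ.B LP.B with hΛ
  have hΛs : ContDiffOn ℝ ∞ Λ (DQ ×ˢ DP ×ˢ (univ : Set (cReg_G n N))) :=
    cReg_sys_smooth (fun k i j => Ric_chr_smooth hDQ okQ.g_smooth okQ.g_pos k i j)
      (fun k i j => Ric_chr_smooth hDP okP.g_smooth okP.g_pos k i j) okQ.B_smooth okP.B_smooth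
  set s : E n → E n × cReg_G n N := fun y => (τ y, (fun k a => Jac τ y k a, W y)) with hs
  have hder : ∀ y ∈ D, HasFDerivAt s (Λ (y, s y)) y :=
    cReg_deriv hDo hDs hτ hW hchr e2
  -- the bound
  obtain ⟨R, hR0, hR⟩ := cReg_jac_bound (g := LQ.g) (g' := LP.g)
    (C := Metric.closedBall z r ∩ Hs n) (C' := Metric.closedBall z' r'' ∩ Hs n)
    (fun i j => ((okQ.g_smooth i j).continuousOn.mono hcQ)) (cReg_cb_compact z r)
    (fun i j => ((okP.g_smooth i j).continuousOn.mono hcP'')) (cReg_cb_compact z' r'')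
    (fun x hx => okP.g_pos x (hcP'' hx))
  have hbd : ∃ C : ℝ, ∀ y ∈ HB z r, 0 < y 0 → ‖Λ (y, s y)‖ ≤ C := by
    have hK : IsCompact ((Metric.closedBall z r ∩ Hs n) ×ˢ (Metric.closedBall z' r'' ∩ Hs n) ×ˢ
        ((Metric.closedBall (0 : Fin n → Fin n → ℝ) (max R 1)) ×ˢ
          (Metric.closedBall (0 : EndF N) (max R 1)))) := by
      have : ProperSpace (EndF N) := FiniteDimensional.proper ℂ (EndF N)
      exact (cReg_cb_compact z r).prod ((cReg_cb_compact z' r'').prod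
        ((isCompact_closedBall _ _).prod (isCompact_closedBall _ _)))
    obtain ⟨C, hC⟩ := hK.exists_bound_of_continuousOn (f := Λ)
      (hΛs.continuousOn.mono (Set.prod_mono hcQ (Set.prod_mono hcP'' (subset_univ _))))
    refine ⟨C, fun y hy h0 => hC _ ?_⟩
    have hyD : y ∈ D := ⟨hy.1, h0⟩
    have hyc : y ∈ Metric.closedBall z r ∩ Hs n := ⟨Metric.ball_subset_closedBall hy.1, hy.2⟩
    have hτc : τ y ∈ Metric.closedBall z' r'' ∩ Hs n := ⟨(hm y hyD).1, le_of_lt (hm y hyD).2⟩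
    refine ⟨hyc, hτc, ?_, ?_⟩
    · rw [mem_closedBall_zero_iff]
      refine (pi_norm_le_iff_of_nonneg (le_max_of_le_left hR0)).2 fun k =>
        (pi_norm_le_iff_of_nonneg (le_max_of_le_left hR0)).2 fun j => ?_
      rw [Real.norm_eq_abs]
      exact (hR τ y hyc hτc (e1 y hyD) k j).trans (le_max_left _ _)
    · rw [mem_closedBall_zero_iff]
      exact (cReg_unitary_norm (hu y hyD)).trans (le_max_right _ _)
  obtain ⟨s', h1, h2, h3⟩ := hA n (cReg_G n N) z z' r r' r'' hr hr'' hz Λ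
    (hΛs.mono (Set.prod_mono (fun y hy => hcQ ⟨Metric.ball_subset_closedBall hy.1, hy.2⟩)
      (Set.prod_mono (fun y hy => hcP ⟨Metric.ball_subset_closedBall hy.1, hy.2⟩) subset_rfl)))
    s (fun y hy h0 => hder y ⟨hy.1, h0⟩)
    (fun y hy h0 => ⟨(hm y ⟨hy.1, h0⟩).1, le_of_lt (hm y ⟨hy.1, h0⟩).2⟩) hbd
  refine ⟨fun y => ((s' y).1, (s' y).2.2), ?_, ?_, h3⟩
  · exact (contDiff_fst.comp_contDiffOn h1).prodMk
      ((contDiff_snd.comp contDiff_snd).comp_contDiffOn h1)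
  · intro y hy h0
    show ((s' y).1, (s' y).2.2) = (τ y, W y)
    rw [h2 y hy h0]

end cRegLocal

theorem cReg : AExtSys_statement → BChr_statement → CUnm_statement.{u} → CLoc_statement.{u} →
    CConn_statement.{u} → CReg_statement.{u} := by
  intro hA hB hUnm hLoc _hConn
  intro n N _ M _ _ _ _ _ _ _ _ P Q Γ Φ V hmatch x x' hT
  obtain ⟨hrel, hok, hbd, -⟩ := hLoc n N M
  have hint : ∀ (p m : M), m ∈ (xc n p).source → 0 < xc n p m 0 → m ∈ Mi n M := by
    intro p m hm h0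
    have : m ∉ (𝓡∂ n).boundary M := fun hb => h0.ne' ((hbd p m hm).1 hb)
    rcases (𝓡∂ n).isInteriorPoint_or_isBoundaryPoint m with h | h
    · exact h
    · exact absurd h this
  have hpos : ∀ (p m : M), m ∈ (xc n p).source → m ∈ Mi n M → 0 < xc n p m 0 := by
    intro p m hm hi
    have hmem : xc n p m ∈ tg n p := (xc n p).map_source hm
    have h0 : (0 : ℝ) ≤ xc n p m 0 := (hrel p).subset hmem
    refine lt_of_le_of_ne h0 fun h => ?_
    have hb : m ∈ (𝓡∂ n).boundary M := (hbd p m hm).2 h.symm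
    have hd := (ModelWithCorners.disjoint_interior_boundary (I := 𝓡∂ n) (M := M))
    exact Set.disjoint_left.1 hd hi hb
  -- radii
  have hxs : x ∈ (xc n x).source := mem_extChartAt_source x
  have hxs' : x' ∈ (xc n x').source := mem_extChartAt_source x'
  set z : E n := xc n x x with hz
  set z' : E n := xc n x' x' with hz'
  have hzt : z ∈ tg n x := (xc n x).map_source hxs
  have hzt' : z' ∈ tg n x' := (xc n x').map_source hxs'
  obtain ⟨O₂, hO₂, hO₂e⟩ := hrel x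
  obtain ⟨O₁, hO₁, hO₁e⟩ := hrel x'
  obtain ⟨ε', hε', hb'⟩ := Metric.isOpen_iff.1 hO₁ z' (by rw [hO₁e] at hzt'; exact hzt'.1)
  set r' : ℝ := ε' / 2 with hr'
  set r'' : ℝ := ε' / 4 with hr''
  have hN' : (xc n x').source ∩ (xc n x') ⁻¹' (Metric.ball z' r'') ∈ 𝓝 x' := by
    refine ((continuousOn_extChartAt x').isOpen_inter_preimage (isOpen_extChartAt_source x')
      Metric.isOpen_ball).mem_nhds ⟨hxs', ?_⟩
    exact Metric.mem_ball_self (by positivity)
  have hU : ∀ᶠ m in 𝓝 x, m ∈ Mi n M → Φ m ∈ (xc n x').source ∩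
      (xc n x') ⁻¹' (Metric.ball z' r'') := eventually_nhdsWithin_iff.1 (hT hN')
  have hsz : (xc n x).symm z = x := (xc n x).left_inv hxs
  have hU' : ∀ᶠ y in 𝓝 z, (xc n x).symm y ∈ Mi n M → Φ ((xc n x).symm y) ∈ (xc n x').source ∩
      (xc n x') ⁻¹' (Metric.ball z' r'') := by
    have hc : ContinuousAt (xc n x).symm z := continuousAt_extChartAt_symm x
    have hc' : Tendsto (xc n x).symm (𝓝 z) (𝓝 x) := by
      have := hc.tendsto
      rwa [hsz] at this
    exact hc'.eventually hU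
  obtain ⟨ε, hε, hb⟩ := Metric.mem_nhds_iff.1
    (Filter.inter_mem (hO₂.mem_nhds (by rw [hO₂e] at hzt; exact hzt.1)) hU')
  set r : ℝ := ε / 2 with hr
  have hr0 : 0 < r := by positivity
  have hcb : Metric.closedBall z r ⊆ Metric.ball z ε :=
    Metric.closedBall_subset_ball (by rw [hr]; linarith)
  have hcQ : Metric.closedBall z r ∩ Hs n ⊆ tg n x := by
    intro y hy
    rw [hO₂e]
    exact ⟨(hb (hcb hy.1)).1, hy.2⟩
  have hcP : Metric.closedBall z' r' ∩ Hs n ⊆ tg n x' := by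
    intro y hy
    rw [hO₁e]
    exact ⟨hb' (Metric.closedBall_subset_ball (by rw [hr']; linarith) hy.1), hy.2⟩
  have hHB : HB z r ⊆ tg n x := fun y hy => hcQ ⟨Metric.ball_subset_closedBall hy.1, hy.2⟩
  set D : Set (E n) := Metric.ball z r ∩ {y | 0 < y 0} with hD
  have hDt : D ⊆ tg n x := fun y hy =>
    hHB ⟨hy.1, le_of_lt (show 0 < y 0 from hy.2)⟩
  have hDo : IsOpen D := Metric.isOpen_ball.inter (isOpen_lt continuous_const (continuous_coord 0))
  have hDi : ∀ y ∈ D, (xc n x).symm y ∈ Mi n M := fun y hy =>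
    hint x _ ((xc n x).map_target (hDt hy)) (by rw [(xc n x).right_inv (hDt hy)]; exact hy.2)
  have hDN : ∀ y ∈ D, Φ ((xc n x).symm y) ∈ (xc n x').source ∩
      (xc n x') ⁻¹' (Metric.ball z' r'') := fun y hy =>
    (hb (hcb (Metric.ball_subset_closedBall hy.1))).2 (hDi y hy)
  set τ : E n → E n := fun y => xc n x' (Φ ((xc n x).symm y)) with hτ
  set W : E n → EndF N := fun y => V ((xc n x).symm y) with hW
  have hloc : ∀ y ∈ D, ∃ ρ > 0, 0 < τ y 0 ∧ W y ∈ unitary (EndF N) ∧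
      ContDiffOn ℝ ∞ τ (Metric.ball y ρ) ∧ ContDiffOn ℝ ∞ W (Metric.ball y ρ) ∧
      ((Q.loc x).g y = (Jac τ y).transpose * (P.loc x').g (τ y) * Jac τ y) ∧
      ∀ j, pd j W y + (Q.loc x).B j y * W y = W y * ∑ k, Jac τ y k j • (P.loc x').B k (τ y) := by
    intro y hy
    obtain ⟨O, hxO, hL⟩ := hmatch _ (hDi y hy)
    obtain ⟨ρ, hρ, -, h2, h3, h4, h5, h6⟩ := hUnm n N M P Q Γ O Φ V hL x' x _ hxO
      ((xc n x).map_target (hDt hy)) (hDN y hy).1
    rw [(xc n x).right_inv (hDt hy)] at h2 h3 h4 h5 h6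
    have hy0 : y ∈ Metric.ball y ρ := Metric.mem_ball_self hρ
    exact ⟨ρ, hρ, (h2 y hy0).2.2, hL.unit _ hxO, h3, h4, h5 y hy0, h6 y hy0⟩
  have hτs : ContDiffOn ℝ ∞ τ D := by
    intro y hy
    obtain ⟨ρ, hρ, -, -, h3, -⟩ := hloc y hy
    exact (h3.contDiffAt (Metric.ball_mem_nhds y hρ)).contDiffWithinAt
  have hWs : ContDiffOn ℝ ∞ W D := by
    intro y hy
    obtain ⟨ρ, hρ, -, -, -, h4, -⟩ := hloc y hy
    exact (h4.contDiffAt (Metric.ball_mem_nhds y hρ)).contDiffWithinAt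
  obtain ⟨s', s1, s2, s3⟩ := cReg_local hA hB (z := z) (z' := z') (r := r) (r' := r') (r'' := r'')
    hr0 (by rw [hr', hr'']; linarith) ((hrel x).subset hzt) (hrel x) (hrel x') (hok Q x)
    (hok P x') hcQ hcP hτs hWs
    (fun y hy => ⟨Metric.ball_subset_closedBall (hDN y hy).2, by
      obtain ⟨ρ, hρ, h1, -⟩ := hloc y hy
      exact h1⟩)
    (fun y hy => by
      obtain ⟨ρ, hρ, -, h1, -⟩ := hloc y hy
      exact h1)
    (fun y hy => by
      obtain ⟨ρ, hρ, -, -, -, -, h1, -⟩ := hloc y hy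
      exact h1)
    (fun y hy => by
      obtain ⟨ρ, hρ, -, -, -, -, -, h1⟩ := hloc y hy
      exact h1)
  have hs't : ∀ y ∈ HB z r, (s' y).1 ∈ tg n x' := fun y hy => by
    have h := s3 y hy
    refine hcP ⟨Metric.closedBall_subset_closedBall ?_ h.1, h.2⟩
    rw [hr', hr'']
    linarith
  set O : Set M := (xc n x).symm '' (HB z r) with hO
  have hOeq : O = (xc n x).source ∩ (xc n x) ⁻¹' (Metric.ball z r) := by
    rw [hO, (xc n x).symm_image_eq_source_inter_preimage hHB]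
    ext m
    constructor
    · rintro ⟨h1, h2⟩
      exact ⟨h1, h2.1⟩
    · rintro ⟨h1, h2⟩
      exact ⟨h1, h2, (hrel x).subset ((xc n x).map_source h1)⟩
  have hOm : ∀ m ∈ O, m ∈ (xc n x).source ∧ xc n x m ∈ HB z r := by
    intro m hm
    rw [hOeq] at hm
    exact ⟨hm.1, hm.2, (hrel x).subset ((xc n x).map_source hm.1)⟩
  have hxc : ContMDiffOn (𝓡∂ n) 𝓘(ℝ, E n) ∞ (xc n x) O :=
    (contMDiffOn_extChartAt (I := 𝓡∂ n) (x := x) (n := ∞)).mono (fun m hm => by
      rw [← extChartAt_source (𝓡∂ n)]; exact (hOm m hm).1)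
  refine ⟨O, fun m => (xc n x').symm (s' (xc n x m)).1, fun m => (s' (xc n x m)).2, ?_, ?_, ?_,
    ?_, ?_⟩
  · rw [hOeq]
    exact (continuousOn_extChartAt x).isOpen_inter_preimage (isOpen_extChartAt_source x)
      Metric.isOpen_ball
  · rw [hOeq]
    exact ⟨hxs, Metric.mem_ball_self hr0⟩
  · have f1 : ContDiffOn ℝ ∞ (fun y => (s' y).1) (HB z r) := contDiff_fst.comp_contDiffOn s1
    have e1 : ContMDiffOn (𝓡∂ n) 𝓘(ℝ, E n) ∞ (fun m => (s' (xc n x m)).1) O :=
      (contMDiffOn_iff_contDiffOn.2 f1).comp hxc (fun m hm => (hOm m hm).2)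
    exact (contMDiffOn_extChartAt_symm x').comp e1 (fun m hm => hs't _ (hOm m hm).2)
  · have f1 : ContDiffOn ℝ ∞ (fun y => (s' y).2) (HB z r) := contDiff_snd.comp_contDiffOn s1
    exact (contMDiffOn_iff_contDiffOn.2 f1).comp hxc (fun m hm => (hOm m hm).2)
  · rintro m ⟨hm, hmi⟩
    obtain ⟨hms, hmB⟩ := hOm m hm
    have h0 := hpos x m hms hmi
    have hyD : xc n x m ∈ D := ⟨hmB.1, h0⟩
    have h1 := s2 _ hmB h0
    have h2 : (xc n x).symm (xc n x m) = m := (xc n x).left_inv hms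
    have h3 := (hDN _ hyD).1
    rw [h2] at h3
    refine ⟨?_, ?_⟩
    · show (xc n x').symm (s' (xc n x m)).1 = Φ m
      rw [h1]
      show (xc n x').symm (xc n x' (Φ ((xc n x).symm (xc n x m)))) = Φ m
      rw [h2]
      exact (xc n x').left_inv h3
    · show (s' (xc n x m)).2 = V m
      rw [h1]
      show V ((xc n x).symm (xc n x m)) = V m
      rw [h2]

end Vale.Agent.P088.EYM
end
end

section

/-!
# P088-EYM-C44: the relations of the global match hold up to the boundary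
-/

open Bundle Manifold MeasureTheory Set Filter Topology
open scoped ContDiff

noncomputable section

namespace Vale.Agent.P088.EYM

universe u

set_option linter.unusedSectionVars false

theorem cTensor_lim {M X : Type*} [TopologicalSpace M] [TopologicalSpace X] [T2Space X]
    {S O : Set M} {x : M} (hx : x ∈ closure S) (hO : O ∈ 𝓝 x) {f g : M → X}
    (hf : ContinuousAt f x) (hg : ContinuousAt g x) (h : ∀ m ∈ O, m ∈ S → f m = g m) :
    f x = g x := by
  haveI : (𝓝[S] x).NeBot := mem_closure_iff_nhdsWithin_neBot.1 hx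
  have h1 : Tendsto f (𝓝[S] x) (𝓝 (f x)) := hf.tendsto.mono_left nhdsWithin_le_nhds
  have h2 : Tendsto g (𝓝[S] x) (𝓝 (g x)) := hg.tendsto.mono_left nhdsWithin_le_nhds
  refine tendsto_nhds_unique_of_eventuallyEq h1 h2 ?_
  filter_upwards [self_mem_nhdsWithin, mem_nhdsWithin_of_mem_nhds hO] with m hm hm'
  exact h m hm' hm

section cTensorAux

variable {n N : ℕ} [NeZero n] {M : Type u} [TopologicalSpace M]
  [ChartedSpace (EuclideanHalfSpace n) M] [IsManifold (𝓡∂ n) ∞ M]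

theorem cTensor_jac (hrel : ∀ p : M, RelOpen (tg n p)) {F : M → M}
    (hF : ContMDiff (𝓡∂ n) (𝓡∂ n) ∞ F) (q₁ q₂ x : M) (hx2 : x ∈ (xc n q₂).source)
    (hx1 : F x ∈ (xc n q₁).source) (k j : Fin n) :
    ContinuousAt (fun m => Jac (fun y => xc n q₁ (F ((xc n q₂).symm y))) (xc n q₂ m) k j) x := by
  -- the open neighbourhood of `x`
  set O' : Set M := (xc n q₂).source ∩ F ⁻¹' (xc n q₁).source with hO'
  have hO'o : IsOpen O' :=
    (isOpen_extChartAt_source q₂).inter ((isOpen_extChartAt_source q₁).preimage hF.continuous)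
  obtain ⟨Oq, hOq, hOqe⟩ := hrel q₂
  obtain ⟨Ou, hOu, hOue⟩ := (continuousOn_iff'.1 (continuousOn_extChartAt_symm (I := 𝓡∂ n) q₂))
    O' hO'o
  set D : Set (E n) := (xc n q₂).symm ⁻¹' O' ∩ tg n q₂ with hD
  have hDrel : RelOpen D := by
    refine ⟨Ou ∩ Oq, hOu.inter hOq, ?_⟩
    have hOqe' : (extChartAt (𝓡∂ n) q₂).target = Oq ∩ Hs n := hOqe
    refine hOue.trans ?_
    rw [hOqe', inter_assoc]
  have hDt : ∀ y ∈ D, y ∈ tg n q₂ := fun y hy => hy.2
  have hτ : ContDiffOn ℝ ∞ (fun y => xc n q₁ (F ((xc n q₂).symm y))) D := by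
    rw [← contMDiffOn_iff_contDiffOn]
    have ha : ContMDiffOn 𝓘(ℝ, E n) (𝓡∂ n) ∞ (xc n q₂).symm D :=
      (contMDiffOn_extChartAt_symm q₂).mono hDt
    have hb : ContMDiffOn 𝓘(ℝ, E n) (𝓡∂ n) ∞ (fun y => F ((xc n q₂).symm y)) D :=
      hF.comp_contMDiffOn ha
    have hcc : ContMDiffOn (𝓡∂ n) 𝓘(ℝ, E n) ∞ (xc n q₁)
        (chartAt (EuclideanHalfSpace n) q₁).source := contMDiffOn_extChartAt
    refine hcc.comp hb ?_
    intro y hy
    have := hy.1.2
    rw [mem_preimage, extChartAt_source] at this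
    exact this
  have hpd : ContinuousOn (pd j fun y => xc n q₁ (F ((xc n q₂).symm y)) k) D :=
    (hDrel.pd_smooth (coord_smooth hτ k) j).continuousOn
  have hmaps : MapsTo (xc n q₂) O' D := by
    intro m hm
    refine ⟨?_, (xc n q₂).map_source hm.1⟩
    rw [mem_preimage, (xc n q₂).left_inv hm.1]
    exact hm
  have hcont : ContinuousOn (fun m => (pd j fun y => xc n q₁ (F ((xc n q₂).symm y)) k)
      (xc n q₂ m)) O' :=
    hpd.comp ((continuousOn_extChartAt q₂).mono inter_subset_left) hmaps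
  exact hcont.continuousAt (hO'o.mem_nhds ⟨hx2, hx1⟩)

theorem cTensor_expand [MeasurableSpace M] (P : One n N M) (q m : M)
    (a b : Fin n → ℝ) :
    P.g.inner m (∑ k, a k • coordVec (𝓡∂ n) q m k) (∑ l, b l • coordVec (𝓡∂ n) q m l) =
      ∑ l, (∑ k, a k * gram P.g q m k l) * b l := by
  have h1 : P.g.inner m (∑ k, a k • coordVec (𝓡∂ n) q m k) =
      ∑ k, a k • P.g.inner m (coordVec (𝓡∂ n) q m k) :=
    (map_sum (P.g.inner m) _ _).trans
      (Finset.sum_congr rfl fun i _ => map_smul (P.g.inner m) _ _)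
  have h2 : ∀ T : TangentSpace (𝓡∂ n) m →L[ℝ] ℝ,
      T (∑ l, b l • coordVec (𝓡∂ n) q m l) = ∑ l, b l * T (coordVec (𝓡∂ n) q m l) := fun T =>
    (map_sum T _ _).trans (Finset.sum_congr rfl fun i _ => map_smul T _ _)
  rw [h2, h1]
  refine Finset.sum_congr rfl fun l _ => ?_
  rw [mul_comm]
  congr 1
  rw [_root_.sum_apply]
  refine Finset.sum_congr rfl fun k _ => ?_
  rfl

end cTensorAux

theorem cTensor : CChart_statement.{u} → CConn_statement.{u} → CLoc_statement.{u} →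
    CTensor_statement.{u} := by
  intro hChart hConn hLoc n N _ M _ _ _ _ _ _ _ _ P Q Γ F G hG hL
  obtain ⟨h1, -, -, -⟩ := hLoc n N M
  obtain ⟨-, -, hd⟩ := hConn n M
  have hFs : ContMDiff (𝓡∂ n) (𝓡∂ n) ∞ F := F.contMDiff
  have hFc : Continuous F := hFs.continuous
  -- continuity facts at `x` in the charts at `x` and `F x`
  have hsrc : ∀ x : M, x ∈ (xc n x).source := fun x => mem_extChartAt_source x
  have hgood : ∀ x : M, (xc n x).source ∩ F ⁻¹' (xc n (F x)).source ∈ 𝓝 x := fun x =>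
    ((isOpen_extChartAt_source x).inter
      ((isOpen_extChartAt_source (F x)).preimage hFc)).mem_nhds ⟨hsrc x, hsrc (F x)⟩
  have hder : ∀ x m : M, m ∈ (xc n x).source ∩ F ⁻¹' (xc n (F x)).source → ∀ j,
      mfderiv (𝓡∂ n) (𝓡∂ n) F m (coordVec (𝓡∂ n) x m j) =
      ∑ k, Jac (fun y => xc n (F x) (F ((xc n x).symm y))) (xc n x m) k j •
        coordVec (𝓡∂ n) (F x) (F m) k := fun x m hm =>
    (hChart n M univ F isOpen_univ hFs.contMDiffOn (F x) x m (mem_univ _) hm.1 hm.2).1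
  have hspan : ∀ (x : M) (v : TangentSpace (𝓡∂ n) x), ∃ c : Fin n → ℝ,
      v = ∑ j, c j • coordVec (𝓡∂ n) x x j := fun x =>
    (hChart n M univ F isOpen_univ hFs.contMDiffOn (F x) x x (mem_univ _) (hsrc x)
      (hsrc (F x))).2
  have hJ : ∀ (x : M) (k j : Fin n), ContinuousAt
      (fun m => Jac (fun y => xc n (F x) (F ((xc n x).symm y))) (xc n x m) k j) x :=
    fun x k j => cTensor_jac h1 hFs (F x) x x (hsrc x) (hsrc (F x)) k j
  refine ⟨?_, ?_, ?_, ?_⟩
  · -- metric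
    intro x v w
    have key : ∀ i j : Fin n, Q.g.inner x (coordVec (𝓡∂ n) x x i) (coordVec (𝓡∂ n) x x j) =
        P.g.inner (F x) (mfderiv (𝓡∂ n) (𝓡∂ n) F x (coordVec (𝓡∂ n) x x i))
          (mfderiv (𝓡∂ n) (𝓡∂ n) F x (coordVec (𝓡∂ n) x x j)) := by
      intro i j
      have hr : ∀ m : M, m ∈ (xc n x).source ∩ F ⁻¹' (xc n (F x)).source →
          P.g.inner (F m) (mfderiv (𝓡∂ n) (𝓡∂ n) F m (coordVec (𝓡∂ n) x m i))
            (mfderiv (𝓡∂ n) (𝓡∂ n) F m (coordVec (𝓡∂ n) x m j)) =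
          ∑ l, (∑ k, Jac (fun y => xc n (F x) (F ((xc n x).symm y))) (xc n x m) k i *
            gram P.g (F x) (F m) k l) *
            Jac (fun y => xc n (F x) (F ((xc n x).symm y))) (xc n x m) l j := by
        intro m hm
        rw [hder x m hm i, hder x m hm j, cTensor_expand]
      rw [hr x ⟨hsrc x, hsrc (F x)⟩]
      refine cTensor_lim (f := fun m => Q.g.inner m (coordVec (𝓡∂ n) x m i)
        (coordVec (𝓡∂ n) x m j)) (g := fun m => ∑ l, (∑ k,
          Jac (fun y => xc n (F x) (F ((xc n x).symm y))) (xc n x m) k i *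
            gram P.g (F x) (F m) k l) *
            Jac (fun y => xc n (F x) (F ((xc n x).symm y))) (xc n x m) l j)
        (hd x) (hgood x) ?_ ?_ ?_
      · exact (Q.g.smooth x i j).continuousOn.continuousAt
          ((isOpen_extChartAt_source x).mem_nhds (hsrc x))
      · have hgr : ∀ k l : Fin n, ContinuousAt (fun m => gram P.g (F x) (F m) k l) x := by
          intro k l
          have h2 : ContinuousAt (fun m => gram P.g (F x) m k l) (F x) :=
            (P.g.smooth (F x) k l).continuousOn.continuousAt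
              ((isOpen_extChartAt_source (F x)).mem_nhds (hsrc (F x)))
          exact h2.comp_of_eq hFc.continuousAt rfl
        have : ContinuousAt (fun m => ∑ l : Fin n, (∑ k : Fin n,
            Jac (fun y => xc n (F x) (F ((xc n x).symm y))) (xc n x m) k i *
            gram P.g (F x) (F m) k l) *
            Jac (fun y => xc n (F x) (F ((xc n x).symm y))) (xc n x m) l j) x := by
          refine tendsto_finsetSum _ fun l _ => ?_
          refine Tendsto.mul (tendsto_finsetSum _ fun k _ => ?_) (hJ x l j)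
          exact (hJ x k i).mul (hgr k l)
        exact this
      · intro m hm hmi
        obtain ⟨O, hmO, hO⟩ := hL m hmi
        rw [← hr m hm]
        exact hO.met m hmO _ _
    obtain ⟨a, rfl⟩ := hspan x v
    obtain ⟨b, rfl⟩ := hspan x w
    have e1 : ∀ (c : Fin n → ℝ), mfderiv (𝓡∂ n) (𝓡∂ n) F x
        (∑ j, c j • coordVec (𝓡∂ n) x x j) =
        ∑ j, c j • mfderiv (𝓡∂ n) (𝓡∂ n) F x (coordVec (𝓡∂ n) x x j) := fun c =>
      (map_sum (mfderiv (𝓡∂ n) (𝓡∂ n) F x) _ _).trans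
        (Finset.sum_congr rfl fun i _ => map_smul (mfderiv (𝓡∂ n) (𝓡∂ n) F x) _ _)
    rw [e1 a, e1 b]
    have e2 : ∀ (m : M) (R : One n N M) (X Y : Fin n → TangentSpace (𝓡∂ n) m),
        R.g.inner m (∑ i, a i • X i) (∑ j, b j • Y j) =
          ∑ j, b j * ∑ i, a i * R.g.inner m (X i) (Y j) := by
      intro m R X Y
      have h1' : R.g.inner m (∑ k, a k • X k) = ∑ k, a k • R.g.inner m (X k) :=
        (map_sum (R.g.inner m) _ _).trans
          (Finset.sum_congr rfl fun i _ => map_smul (R.g.inner m) _ _)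
      have h2' : ∀ T : TangentSpace (𝓡∂ n) m →L[ℝ] ℝ,
          T (∑ l, b l • Y l) = ∑ l, b l * T (Y l) := fun T =>
        (map_sum T _ _).trans (Finset.sum_congr rfl fun i _ => map_smul T _ _)
      rw [h2', h1']
      refine Finset.sum_congr rfl fun l _ => ?_
      congr 1
      rw [_root_.sum_apply]
      refine Finset.sum_congr rfl fun k _ => ?_
      rfl
    rw [e2, e2]
    refine Finset.sum_congr rfl fun j _ => ?_
    congr 1
    refine Finset.sum_congr rfl fun i _ => ?_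
    rw [key i j]
  · -- connection
    intro x v
    have key : ∀ j : Fin n,
        dmap (𝓡∂ n) G x (coordVec (𝓡∂ n) x x j) +
          Q.A.form x (coordVec (𝓡∂ n) x x j) * G x =
        G x * P.A.form (F x) (mfderiv (𝓡∂ n) (𝓡∂ n) F x (coordVec (𝓡∂ n) x x j)) := by
      intro j
      have hr : ∀ m : M, m ∈ (xc n x).source ∩ F ⁻¹' (xc n (F x)).source →
          P.A.form (F m) (mfderiv (𝓡∂ n) (𝓡∂ n) F m (coordVec (𝓡∂ n) x m j)) =
          ∑ k, Jac (fun y => xc n (F x) (F ((xc n x).symm y))) (xc n x m) k j •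
            P.A.form (F m) (coordVec (𝓡∂ n) (F x) (F m) k) := by
        intro m hm
        rw [hder x m hm j]
        exact (map_sum (P.A.form (F m)) _ _).trans
          (Finset.sum_congr rfl fun k _ => map_smul (P.A.form (F m)) _ _)
      rw [hr x ⟨hsrc x, hsrc (F x)⟩]
      refine cTensor_lim (f := fun m => dmap (𝓡∂ n) G m (coordVec (𝓡∂ n) x m j) +
          Q.A.form m (coordVec (𝓡∂ n) x m j) * G m)
        (g := fun m => G m * ∑ k,
          Jac (fun y => xc n (F x) (F ((xc n x).symm y))) (xc n x m) k j •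
            P.A.form (F m) (coordVec (𝓡∂ n) (F x) (F m) k))
        (hd x) (hgood x) ?_ ?_ ?_
      · have c1 : ContinuousAt (fun m => dmap (𝓡∂ n) G m (coordVec (𝓡∂ n) x m j)) x :=
          (contMDiffOn_dmap_coordVec hG x j).continuousOn.continuousAt
            ((isOpen_extChartAt_source x).mem_nhds (hsrc x))
        have c2 : ContinuousAt (fun m => Q.A.form m (coordVec (𝓡∂ n) x m j)) x :=
          (Q.A.smooth x j).continuousOn.continuousAt
            ((isOpen_extChartAt_source x).mem_nhds (hsrc x))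
        exact c1.add (c2.mul hG.continuous.continuousAt)
      · have hA : ∀ k : Fin n, ContinuousAt
            (fun m => P.A.form (F m) (coordVec (𝓡∂ n) (F x) (F m) k)) x := by
          intro k
          have h2 : ContinuousAt (fun m => P.A.form m (coordVec (𝓡∂ n) (F x) m k)) (F x) :=
            (P.A.smooth (F x) k).continuousOn.continuousAt
              ((isOpen_extChartAt_source (F x)).mem_nhds (hsrc (F x)))
          exact h2.comp_of_eq hFc.continuousAt rfl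
        refine hG.continuous.continuousAt.mul ?_
        refine tendsto_finsetSum _ fun k _ => ?_
        exact (hJ x k j).smul (hA k)
      · intro m hm hmi
        obtain ⟨O, hmO, hO⟩ := hL m hmi
        show _ = G m * ∑ k, _
        rw [← hr m hm]
        exact hO.con m hmO _
    obtain ⟨a, rfl⟩ := hspan x v
    have e1 : ∀ (c : Fin n → ℝ), mfderiv (𝓡∂ n) (𝓡∂ n) F x
        (∑ j, c j • coordVec (𝓡∂ n) x x j) =
        ∑ j, c j • mfderiv (𝓡∂ n) (𝓡∂ n) F x (coordVec (𝓡∂ n) x x j) := fun c =>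
      (map_sum (mfderiv (𝓡∂ n) (𝓡∂ n) F x) _ _).trans
        (Finset.sum_congr rfl fun i _ => map_smul (mfderiv (𝓡∂ n) (𝓡∂ n) F x) _ _)
    rw [e1 a]
    have e2 : ∀ (m : M) (T : TangentSpace (𝓡∂ n) m →L[ℝ] EndF N)
        (X : Fin n → TangentSpace (𝓡∂ n) m),
        T (∑ i, a i • X i) = ∑ i, a i • T (X i) := fun m T X =>
      (map_sum T _ _).trans (Finset.sum_congr rfl fun i _ => map_smul T _ _)
    have e3 : dmap (𝓡∂ n) G x (∑ j, a j • coordVec (𝓡∂ n) x x j) =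
        ∑ j, a j • dmap (𝓡∂ n) G x (coordVec (𝓡∂ n) x x j) := e2 x _ _
    have e4 : Q.A.form x (∑ j, a j • coordVec (𝓡∂ n) x x j) =
        ∑ j, a j • Q.A.form x (coordVec (𝓡∂ n) x x j) := e2 x _ _
    have e5 : P.A.form (F x) (∑ j, a j • mfderiv (𝓡∂ n) (𝓡∂ n) F x (coordVec (𝓡∂ n) x x j)) =
        ∑ j, a j • P.A.form (F x) (mfderiv (𝓡∂ n) (𝓡∂ n) F x (coordVec (𝓡∂ n) x x j)) :=
      e2 (F x) _ _
    rw [e3, e4, e5]
    show _ + (∑ j, a j • Q.A.form x (coordVec (𝓡∂ n) x x j)) * G x = G x * ∑ j, _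
    rw [Finset.sum_mul, Finset.mul_sum, ← Finset.sum_add_distrib]
    refine Finset.sum_congr rfl fun j _ => ?_
    rw [smul_mul_assoc, mul_smul_comm]
    exact (smul_add (a j) (dmap (𝓡∂ n) G x (coordVec (𝓡∂ n) x x j) : EndF N)
      (Q.A.form x (coordVec (𝓡∂ n) x x j) * G x : EndF N)).symm.trans
      (congrArg (fun T : EndF N => a j • T) (key j))
  · -- unitarity
    intro x
    have hadj : Continuous (fun T : EndF N => ContinuousLinearMap.adjoint T) :=
      ContinuousLinearMap.adjoint.continuous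
    have hcl : IsClosed (unitary (EndF N) : Set (EndF N)) :=
      (isClosed_eq (hadj.mul continuous_id) continuous_const).inter
        (isClosed_eq (continuous_id.mul hadj) continuous_const)
    have hx : G x ∈ closure (unitary (EndF N) : Set (EndF N)) := by
      have h2 : G x ∈ closure (G '' Mi n M) :=
        image_closure_subset_closure_image hG.continuous ⟨x, hd x, rfl⟩
      refine closure_mono ?_ h2
      rintro _ ⟨m, hm, rfl⟩
      obtain ⟨O, hmO, hO⟩ := hL m hm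
      exact hO.unit m hmO
    rw [hcl.closure_eq] at hx
    exact hx
  · -- solutions
    intro u hu x
    obtain ⟨f, hf, hu1, hu2⟩ := hu
    have c1 : Continuous u.1 := hu1.smooth.continuous
    have c2 : Continuous u.2 := hu2.smooth.continuous
    refine cTensor_lim (f := fun m => u.2 m) (g := fun m => G m (u.1 (F m))) (hd x)
      (univ_mem) c2.continuousAt
      ((hG.continuous.clm_apply (c1.comp hFc)).continuousAt) ?_
    intro m _ hm
    obtain ⟨O, hmO, hO⟩ := hL m hm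
    exact hO.sol u ⟨f, hf, hu1, hu2⟩ m hmO

end Vale.Agent.P088.EYM
end
end
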