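import Vale.Agent.P088.MathlibUsed
import Vale.Agent.P088.Bdl.B4
import Vale.Agent.P088.Bdl.B1
import Vale.Agent.P088.Bdl.B5
import Vale.Agent.P088.Bdl.B9
import Vale.Agent.P088.Bdl.B3
import Vale.Agent.P088.Bdl.B10
import Vale.Agent.P088.Bdl.B7
import Vale.Agent.P088.Bdl.B8
import Vale.Agent.P088.Bdl.B11
import Vale.Agent.P088.Bdl.B6

set_option linter.all false

section

/-!
# P088-EYM, task A11: the prolonged system
-/

set_option linter.all false

open MeasureTheory Set Filter Topology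
open scoped ContDiff

noncomputable section

namespace Vale.Agent.P088.EYM

variable {n N : ℕ} [NeZero n]

open Classical in
/-- The prolonged system, for the unknown `(u, ∂u)`. -/
def AIProl_sys {ι : Type} (S : RSys n ι) : RSys n (Option (Fin n) × ι) where
  a := S.a
  M j p q := match p.1, q.1 with
    | none, none => S.M j p.2 q.2
    | none, some _ => fun _ => 0
    | some _, none => fun _ => 0
    | some i, some k => fun x => (if q.2 = p.2 then -pd i (S.a j k) x else 0) +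
        (if k = i then S.M j p.2 q.2 x else 0)
  Z p q := match p.1, q.1 with
    | none, none => S.Z p.2 q.2
    | none, some _ => fun _ => 0
    | some i, none => fun x => pd i (S.Z p.2 q.2) x
    | some i, some j => fun x => pd i (S.M j p.2 q.2) x + (if j = i then S.Z p.2 q.2 x else 0)

theorem AIProl_ok {ι : Type} {S : RSys n ι} {O : Set (E n)} (hO : RelOpen O) (hS : S.Ok O) :
    (AIProl_sys S).Ok O where
  a_smooth := hS.a_smooth
  a_pos := hS.a_pos
  M_smooth j p q := by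
    obtain ⟨p1, b⟩ := p
    obtain ⟨q1, c⟩ := q
    cases p1 with
    | none =>
      cases q1 with
      | none => exact hS.M_smooth j b c
      | some k => exact contDiffOn_const
    | some i =>
      cases q1 with
      | none => exact contDiffOn_const
      | some k =>
        refine ContDiffOn.add ?_ ?_
        · by_cases h : c = b
          · simp only [h, if_true]
            exact (hO.pd_smooth (hS.a_smooth j k) i).neg
          · simp only [h, if_false]
            exact contDiffOn_const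
        · by_cases h : k = i
          · simp only [h, if_true]
            exact hS.M_smooth j b c
          · simp only [h, if_false]
            exact contDiffOn_const
  Z_smooth p q := by
    obtain ⟨p1, b⟩ := p
    obtain ⟨q1, c⟩ := q
    cases p1 with
    | none =>
      cases q1 with
      | none => exact hS.Z_smooth b c
      | some k => exact contDiffOn_const
    | some i =>
      cases q1 with
      | none => exact hO.pd_smooth (hS.Z_smooth b c) i
      | some k =>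
        refine ContDiffOn.add (hO.pd_smooth (hS.M_smooth k b c) i) ?_
        by_cases h : k = i
        · simp only [h, if_true]
          exact hS.Z_smooth b c
        · simp only [h, if_false]
          exact contDiffOn_const

theorem AIProl_sum {ι : Type} [Fintype ι] (f : Option (Fin n) × ι → ℝ) :
    ∑ q, f q = ∑ c, f (none, c) + ∑ k, ∑ c, f (some k, c) := by
  rw [Fintype.sum_prod_type, Fintype.sum_option]

theorem AIProl_diff {ι : Type} [Fintype ι] {S : RSys n ι} {O : Set (E n)} (hO : RelOpen O)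
    (hS : S.Ok O) {u : ι → E n → ℝ} (hu : S.IsSol O u) {x : E n} (hx : x ∈ O) (i : Fin n) (b : ι) :
    ∑ j, ∑ k, S.a j k x * pd j (pd k (pd i (u b))) x =
      ∑ j, ∑ k, -pd i (S.a j k) x * pd j (pd k (u b)) x +
        ∑ j, ∑ c, S.M j b c x * pd j (pd i (u c)) x +
        (∑ c, pd i (S.Z b c) x * u c x +
          (∑ j, ∑ c, pd i (S.M j b c) x * pd j (u c) x + ∑ c, S.Z b c x * pd i (u c) x)) := by
  have hsm : ∀ c, ContDiffOn ℝ ∞ (u c) O := hu.1
  have h1 : ∀ c k, ContDiffOn ℝ ∞ (pd k (u c)) O := fun c k => hO.pd_smooth (hsm c) k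
  have h2 : ∀ c j k, ContDiffOn ℝ ∞ (pd j (pd k (u c))) O := fun c j k =>
    hO.pd_smooth (h1 c k) j
  have h3 := hO.pd_congr (f := fun y => ∑ j, ∑ k, S.a j k y * pd j (pd k (u b)) y)
    (g := fun y => ∑ j, ∑ c, S.M j b c y * pd j (u c) y + ∑ c, S.Z b c y * u c y)
    (fun y hy => hu.2 y hy b) hx i
  have h4 : pd i (fun y => ∑ j, ∑ k, S.a j k y * pd j (pd k (u b)) y) x =
      ∑ j, ∑ k, (S.a j k x * pd j (pd k (pd i (u b))) x +
        pd i (S.a j k) x * pd j (pd k (u b)) x) := by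
    have e1 : pd i (fun y => ∑ j, ∑ k, S.a j k y * pd j (pd k (u b)) y) x =
        ∑ j, pd i (fun y => ∑ k, S.a j k y * pd j (pd k (u b)) y) x :=
      hO.pd_sum Finset.univ (fun j _ => ContDiffOn.sum fun k _ =>
        (hS.a_smooth j k).mul (h2 b j k)) hx i
    rw [e1]
    refine Finset.sum_congr rfl fun j _ => ?_
    have e2 : pd i (fun y => ∑ k, S.a j k y * pd j (pd k (u b)) y) x =
        ∑ k, pd i (fun y => S.a j k y * pd j (pd k (u b)) y) x :=
      hO.pd_sum Finset.univ (fun k _ => (hS.a_smooth j k).mul (h2 b j k)) hx i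
    rw [e2]
    refine Finset.sum_congr rfl fun k _ => ?_
    rw [hO.pd_mul (hS.a_smooth j k) (h2 b j k) hx i, hO.pd_comm (h1 b k) hx i j]
    rw [hO.pd_congr (f := pd i (pd k (u b))) (g := pd k (pd i (u b)))
      (fun y hy => hO.pd_comm (hsm b) hy i k) hx j]
  have h5 : pd i (fun y => ∑ j, ∑ c, S.M j b c y * pd j (u c) y + ∑ c, S.Z b c y * u c y) x =
      ∑ j, ∑ c, (S.M j b c x * pd j (pd i (u c)) x + pd i (S.M j b c) x * pd j (u c) x) +
        ∑ c, (S.Z b c x * pd i (u c) x + pd i (S.Z b c) x * u c x) := by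
    have e1 : pd i (fun y => ∑ j, ∑ c, S.M j b c y * pd j (u c) y + ∑ c, S.Z b c y * u c y) x =
        pd i (fun y => ∑ j, ∑ c, S.M j b c y * pd j (u c) y) x +
          pd i (fun y => ∑ c, S.Z b c y * u c y) x :=
      hO.pd_add (ContDiffOn.sum fun j _ => ContDiffOn.sum fun c _ =>
        (hS.M_smooth j b c).mul (h1 c j)) (ContDiffOn.sum fun c _ =>
        (hS.Z_smooth b c).mul (hsm c)) hx i
    have e2 : pd i (fun y => ∑ j, ∑ c, S.M j b c y * pd j (u c) y) x =
        ∑ j, pd i (fun y => ∑ c, S.M j b c y * pd j (u c) y) x :=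
      hO.pd_sum Finset.univ (fun j _ => ContDiffOn.sum fun c _ =>
        (hS.M_smooth j b c).mul (h1 c j)) hx i
    have e3 : pd i (fun y => ∑ c, S.Z b c y * u c y) x =
        ∑ c, pd i (fun y => S.Z b c y * u c y) x :=
      hO.pd_sum Finset.univ (fun c _ => (hS.Z_smooth b c).mul (hsm c)) hx i
    rw [e1, e2, e3]
    congr 1
    · refine Finset.sum_congr rfl fun j _ => ?_
      have e4 : pd i (fun y => ∑ c, S.M j b c y * pd j (u c) y) x =
          ∑ c, pd i (fun y => S.M j b c y * pd j (u c) y) x :=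
        hO.pd_sum Finset.univ (fun c _ => (hS.M_smooth j b c).mul (h1 c j)) hx i
      rw [e4]
      refine Finset.sum_congr rfl fun c _ => ?_
      rw [hO.pd_mul (hS.M_smooth j b c) (h1 c j) hx i, hO.pd_comm (hsm c) hx i j]
    · refine Finset.sum_congr rfl fun c _ => ?_
      rw [hO.pd_mul (hS.Z_smooth b c) (hsm c) hx i]
  rw [h4, h5] at h3
  simp only [Finset.sum_add_distrib] at h3
  simp only [neg_mul, Finset.sum_neg_distrib]
  (clear O hO hS hu hx hsm h1 h2 h4 h5; linarith)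

theorem aIProl : AIProl_statement := by
  classical
  intro n _ ι _ S O hO hOH hS
  have hR : RelOpen O := ⟨O, hO, (inter_eq_left.2 hOH).symm⟩
  refine ⟨AIProl_sys S, AIProl_ok hR hS, fun u hu => ⟨?_, ?_⟩⟩
  · rintro ⟨p1, b⟩
    cases p1 with
    | none => exact hu.1 b
    | some i => exact hR.pd_smooth (hu.1 b) i
  · rintro x hx ⟨p1, b⟩
    cases p1 with
    | none =>
      have h1 := hu.2 x hx b
      have h2 : ∀ j, ∑ q, (AIProl_sys S).M j (none, b) q x * pd j (prol u q) x =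
          ∑ c, S.M j b c x * pd j (u c) x := by
        intro j
        rw [AIProl_sum]
        have : ∀ k c, (AIProl_sys S).M j (none, b) (some k, c) x *
            pd j (prol u (some k, c)) x = 0 := fun k c => by
          show (0 : ℝ) * _ = 0
          rw [zero_mul]
        simp only [this, Finset.sum_const_zero, add_zero]
        rfl
      have h3 : ∑ q, (AIProl_sys S).Z (none, b) q x * prol u q x = ∑ c, S.Z b c x * u c x := by
        rw [AIProl_sum]
        have : ∀ k c, (AIProl_sys S).Z (none, b) (some k, c) x * prol u (some k, c) x = 0 :=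
          fun k c => by
            show (0 : ℝ) * _ = 0
            rw [zero_mul]
        simp only [this, Finset.sum_const_zero, add_zero]
        rfl
      simp only [h2, h3]
      exact h1
    | some i =>
      have h1 := AIProl_diff hR hS hu hx i b
      have h2 : ∀ j, ∑ q, (AIProl_sys S).M j (some i, b) q x * pd j (prol u q) x =
          ∑ k, -pd i (S.a j k) x * pd j (pd k (u b)) x +
            ∑ c, S.M j b c x * pd j (pd i (u c)) x := by
        intro j
        rw [AIProl_sum]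
        have e0 : ∀ c, (AIProl_sys S).M j (some i, b) (none, c) x *
            pd j (prol u (none, c)) x = 0 := fun c => by
          show (0 : ℝ) * _ = 0
          rw [zero_mul]
        have e1 : ∀ k c, (AIProl_sys S).M j (some i, b) (some k, c) x *
            pd j (prol u (some k, c)) x =
            (if c = b then -pd i (S.a j k) x * pd j (pd k (u c)) x else 0) +
              (if k = i then S.M j b c x * pd j (pd k (u c)) x else 0) := fun k c => by
          show ((if c = b then -pd i (S.a j k) x else 0) +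
            (if k = i then S.M j b c x else 0)) * pd j (pd k (u c)) x = _
          rw [add_mul, ite_mul, ite_mul, zero_mul]
        simp only [e0, Finset.sum_const_zero, e1, Finset.sum_add_distrib, Finset.sum_ite_eq', Finset.mem_univ, if_true, zero_add]
        congr 1
        rw [Finset.sum_comm]
        simp only [Finset.sum_ite_eq', Finset.mem_univ, if_true]
      have h3 : ∑ q, (AIProl_sys S).Z (some i, b) q x * prol u q x =
          ∑ c, pd i (S.Z b c) x * u c x +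
          (∑ j, ∑ c, pd i (S.M j b c) x * pd j (u c) x + ∑ c, S.Z b c x * pd i (u c) x) := by
        rw [AIProl_sum]
        have e0 : ∀ c, (AIProl_sys S).Z (some i, b) (none, c) x * prol u (none, c) x =
            pd i (S.Z b c) x * u c x := fun c => rfl
        have e1 : ∀ k c, (AIProl_sys S).Z (some i, b) (some k, c) x * prol u (some k, c) x =
            pd i (S.M k b c) x * pd k (u c) x +
              (if k = i then S.Z b c x * pd k (u c) x else 0) := fun k c => by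
          show (pd i (S.M k b c) x + (if k = i then S.Z b c x else 0)) * pd k (u c) x = _
          rw [add_mul, ite_mul, zero_mul]
        simp only [e0, e1, Finset.sum_add_distrib]
        congr 2
        rw [Finset.sum_comm]
        simp only [Finset.sum_ite_eq', Finset.mem_univ, if_true]
      simp only [h2, h3, Finset.sum_add_distrib]
      exact h1

end Vale.Agent.P088.EYM
end
end

section

/-! Diffeomorphisms of relatively open subsets of the half space send interior points to interior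
points. -/

namespace Vale.Agent.P088.EYM

open Set Filter Topology
open scoped ContDiff

theorem BIntr_pos_of_interior {n : ℕ} [NeZero n] {y : E n} (hy : y ∈ interior (Hs n)) :
    0 < y 0 := by
  rw [mem_interior_iff_mem_nhds] at hy
  have hc : Continuous (fun t : ℝ => y + t • (ev 0 : E n)) := by fun_prop
  have h1 : ∀ᶠ t in 𝓝 (0 : ℝ), y + t • (ev 0 : E n) ∈ Hs n := by
    have h5 : Tendsto (fun t : ℝ => y + t • (ev 0 : E n)) (𝓝 0) (𝓝 y) := by
      have := hc.tendsto (0 : ℝ)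
      simpa using this
    exact h5 hy
  obtain ⟨ε, hε, hb⟩ := Metric.eventually_nhds_iff.1 h1
  have h2 := hb (y := -(ε / 2)) (by
    rw [Real.dist_eq, sub_zero, abs_neg, abs_of_pos (by positivity)]; linarith only [hε])
  have h3 : (0 : ℝ) ≤ (y + (-(ε / 2)) • (ev 0 : E n)) 0 := h2
  have h4 : (y + (-(ε / 2)) • (ev 0 : E n)) 0 = y 0 - ε / 2 := by
    simp only [neg_smul, PiLp.add_apply, PiLp.neg_apply, PiLp.smul_apply, PiLp.single_eq_same, smul_eq_mul, mul_one, sub_eq_add_neg]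
  rw [h4] at h3
  (clear hy hc h1 hb h2 h4; linarith)

theorem bIntr : BIntr_statement := by
  intro n _ D D' X Y hD hD' h x hx hpos
  have hDx : D ∈ 𝓝 x := by
    obtain ⟨O, hO, rfl⟩ := hD
    refine inter_mem (hO.mem_nhds hx.1) ?_
    have : {y : E n | 0 < y 0} ∈ 𝓝 x :=
      (isOpen_lt continuous_const (continuous_coord 0)).mem_nhds hpos
    exact mem_of_superset this fun y hy => (le_of_lt hy : (0 : ℝ) ≤ y 0)
  have hXc : ContDiffAt ℝ ∞ X x := (h.smX x hx).contDiffAt hDx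
  have hstrict : HasStrictFDerivAt X (fderiv ℝ X x) x :=
    hXc.hasStrictFDerivAt (by simp)
  have hXx : X x ∈ D' := h.mapsX hx
  have hY : HasFDerivWithinAt Y (fderivWithin ℝ Y D' (X x)) D' (X x) :=
    ((h.smY (X x) hXx).differentiableWithinAt (by simp)).hasFDerivWithinAt
  have hcomp : HasFDerivWithinAt (Y ∘ X) ((fderivWithin ℝ Y D' (X x)).comp (fderiv ℝ X x)) D x :=
    hY.comp x hstrict.hasFDerivAt.hasFDerivWithinAt h.mapsX
  have hcomp' : HasFDerivAt (Y ∘ X) ((fderivWithin ℝ Y D' (X x)).comp (fderiv ℝ X x)) x :=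
    hcomp.hasFDerivAt hDx
  have hid : HasFDerivAt (Y ∘ X) (ContinuousLinearMap.id ℝ (E n)) x := by
    refine (hasFDerivAt_id x).congr_of_eventuallyEq ?_
    filter_upwards [hDx] with y hy
    exact h.inv1 y hy
  have huniq := hcomp'.unique hid
  have hinj : Function.Injective (fderiv ℝ X x) := by
    intro u v huv
    have hu := congrArg (fun T : E n →L[ℝ] E n => T u) huniq
    have hv := congrArg (fun T : E n →L[ℝ] E n => T v) huniq
    simp only [ContinuousLinearMap.comp_apply, ContinuousLinearMap.id_apply] at hu hv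
    rw [← hu, ← hv, huv]
  have hsurj : Function.Surjective (fderiv ℝ X x) :=
    LinearMap.surjective_of_injective (f := (fderiv ℝ X x : E n →ₗ[ℝ] E n)) hinj
  have hmap : Filter.map X (𝓝 x) = 𝓝 (X x) :=
    hstrict.map_nhds_eq_of_surj (LinearMap.range_eq_top.2 hsurj)
  have himg : X '' D ∈ 𝓝 (X x) := by
    rw [← hmap]
    exact image_mem_map hDx
  refine BIntr_pos_of_interior (mem_interior_iff_mem_nhds.2 (mem_of_superset himg ?_))
  rintro _ ⟨y, hy, rfl⟩
  exact hD'.subset (h.mapsX hy)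

end Vale.Agent.P088.EYM
end

section

/-!
# P088-EYM, block D, section D23: from the interface to block D
-/

open MeasureTheory Set Filter Topology
open scoped ContDiff

noncomputable section

namespace Vale.Agent.P088.EYM

set_option linter.unusedSectionVars false

variable {n : ℕ} [NeZero n] {N : ℕ}
variable {D : Set (E n)}

theorem dcv_smooth_det {g : E n → Matrix (Fin n) (Fin n) ℝ}
    (hg : ∀ i j, ContDiffOn ℝ ∞ (fun x => g x i j) D) :
    ContDiffOn ℝ ∞ (fun x => (g x).det) D := by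
  have : (fun x => (g x).det) = fun x => ∑ σ : Equiv.Perm (Fin n),
      ((Equiv.Perm.sign σ : ℤ) : ℝ) * ∏ i, g x (σ i) i := by
    funext x
    rw [Matrix.det_apply']
  rw [this]
  refine ContDiffOn.sum fun σ _ => contDiffOn_const.mul ?_
  exact contDiffOn_prod fun i _ => hg (σ i) i

theorem dcv_smooth_inv {g : E n → Matrix (Fin n) (Fin n) ℝ}
    (hg : ∀ i j, ContDiffOn ℝ ∞ (fun x => g x i j) D) (hp : ∀ x ∈ D, (g x).PosDef)
    (j k : Fin n) : ContDiffOn ℝ ∞ (fun x => (g x)⁻¹ j k) D := by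
  have h1 : ContDiffOn ℝ ∞ (fun x => ((g x).det)⁻¹) D :=
    (dcv_smooth_det hg).inv fun x hx => (hp x hx).det_pos.ne'
  have h2 : ContDiffOn ℝ ∞ (fun x => ((g x).updateRow k (Pi.single j 1)).det) D := by
    refine dcv_smooth_det fun a b => ?_
    by_cases ha : a = k
    · subst ha
      simp only [Matrix.updateRow_self]
      exact contDiffOn_const
    · simp only [Matrix.updateRow_ne ha]
      exact hg a b
  refine (h1.mul h2).congr fun x _ => ?_
  rw [Matrix.inv_def, Matrix.smul_apply, Matrix.adjugate_apply, smul_eq_mul,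
    Ring.inverse_eq_inv']

theorem dcv_gok (hD : RelOpen D) {g : E n → Matrix (Fin n) (Fin n) ℝ}
    (hg : ∀ i j, ContDiffOn ℝ ∞ (fun x => g x i j) D) (hp : ∀ x ∈ D, (g x).PosDef) :
    GOk D (GM g) where
  smG := fun j k => by
    have h1 : ContDiffOn ℝ ∞ (fun x => Real.sqrt (g x).det) D :=
      (dcv_smooth_det hg).sqrt fun x hx => (hp x hx).det_pos.ne'
    have h2 := dcv_smooth_inv hg hp j k
    exact h1.mul h2
  symm := fun x hx j k => by
    have h := (hp x hx).inv.isHermitian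
    have h1 := congrFun (congrFun h k) j
    simp only [Matrix.conjTranspose_apply, star_trivial] at h1
    simp only [GM, Matrix.of_apply, gg, h1]
  pos := fun x hx => by
    have h : GM g x = Real.sqrt (g x).det • (g x)⁻¹ := by
      ext i j
      simp only [GM, gg, Matrix.of_apply, Matrix.smul_apply, smul_eq_mul]
    rw [h]
    exact (hp x hx).inv.smul (Real.sqrt_pos.2 (hp x hx).det_pos)


/-- the matrix `∑_k G^{jk} B_k` -/
def dcvW (L : LD n N) (j : Fin n) (x : E n) : EndF N := ∑ k, GM L.g x j k • L.B k x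

theorem dcvW_smooth (hD : RelOpen D) {L : LD n N} (ok : L.Ok D) (j : Fin n) :
    ContDiffOn ℝ ∞ (dcvW L j) D :=
  dc_smooth_sum _ fun k _ => ((dcv_gok hD ok.g_smooth ok.g_pos).smG j k).smul (ok.B_smooth k)

/-- the part of the flux with the derivatives -/
def dcvF (L : LD n N) (j : Fin n) (c : E n → Fib N) (x : E n) : Fib N :=
  ∑ k, GM L.g x j k • pd k c x

theorem dcvF_smooth (hD : RelOpen D) {L : LD n N} (ok : L.Ok D) (j : Fin n)
    {c : E n → Fib N} (hc : ContDiffOn ℝ ∞ c D) : ContDiffOn ℝ ∞ (dcvF L j c) D :=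
  dc_smooth_sum _ fun k _ =>
    ((dcv_gok hD ok.g_smooth ok.g_pos).smG j k).smul (hD.pd_smooth hc k)

theorem dcvW_apply (L : LD n N) (j : Fin n) (x : E n) (v : Fib N) :
    dcvW L j x v = ∑ k, GM L.g x j k • L.B k x v := by
  simp only [dcvW, sum_apply, smul_apply]

theorem dcv_flux_eq (L : LD n N) (j : Fin n) (c : E n → Fib N) (x : E n) :
    flux L j c x = dcvF L j c x + dcvW L j x (c x) := by
  rw [dcvW_apply, dcvF, ← Finset.sum_add_distrib]
  simp only [flux, nab, smul_add, GM, Matrix.of_apply]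

/-- the frame identity -/
theorem dcv_frame (hD : RelOpen D) {L : LD n N} (ok : L.Ok D)
    (hfr : ∀ v : Fib N, Sol L D (fun _ => v)) {x : E n} (hx : x ∈ D) :
    ∑ j, (pd j (dcvW L j) x + L.B j x * dcvW L j x) = 0 := by
  ext1 v
  have h := (hfr v).2 x hx
  have hfl : ∀ j, flux L j (fun _ => v) = fun y => dcvW L j y v := by
    intro j
    funext y
    rw [dcv_flux_eq]
    simp [dcvF, pd_const]
  simp only [Lop, hfl] at h
  have hpd : ∀ j, pd j (fun y => dcvW L j y v) x = pd j (dcvW L j) x v := by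
    intro j
    have h1 := hD.pd_eval (m := ∞) (m' := ∞) (dcvW_smooth hD ok j)
      (contDiffOn_const (c := v)) (by simp) (by simp) hx j
    rw [h1, pd_const]
    simp
  simp only [hpd] at h
  simpa only [sum_apply, add_apply, mul_apply_eq_comp, zero_apply] using h

theorem dcv_lop (hD : RelOpen D) {L : LD n N} (ok : L.Ok D) (hfr : ∀ v : Fib N, Sol L D (fun _ => v))
    {c : E n → Fib N} (hc : ContDiffOn ℝ ∞ c D) {x : E n} (hx : x ∈ D) :
    Lop L c x = LopR (GM L.g) L.B c x := by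
  have hG := dcv_gok hD ok.g_smooth ok.g_pos
  have hfl : ∀ j, flux L j c = fun y => dcvF L j c y + dcvW L j y (c y) := by
    intro j
    funext y
    exact dcv_flux_eq L j c y
  have hpd : ∀ j, pd j (flux L j c) x =
      pd j (dcvF L j c) x + (dcvW L j x (pd j c x) + pd j (dcvW L j) x (c x)) := by
    intro j
    rw [hfl, hD.pd_add (dcvF_smooth hD ok j hc) (smooth_eval (dcvW_smooth hD ok j) hc) hx j,
      hD.pd_eval (dcvW_smooth hD ok j) hc (by simp) (by simp) hx j]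
  have hBf : ∀ j, L.B j x (flux L j c x) =
      (∑ k, GM L.g x j k • L.B j x (pd k c x)) + (L.B j x * dcvW L j x) (c x) := by
    intro j
    rw [dcv_flux_eq, map_add]
    congr 1
    rw [dcvF, map_sum]
    refine Finset.sum_congr rfl fun k _ => ?_
    exact ContinuousLinearMap.map_smul_of_tower _ _ _
  have hfr0 := congrArg (fun T : EndF N => T (c x)) (dcv_frame hD ok hfr hx)
  simp only [Finset.sum_add_distrib, add_apply, sum_apply, zero_apply] at hfr0
  have hsw : ∑ j, dcvW L j x (pd j c x) = ∑ j, ∑ k, GM L.g x j k • L.B j x (pd k c x) := by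
    simp only [dcvW_apply]
    rw [Finset.sum_comm]
    refine Finset.sum_congr rfl fun j _ => Finset.sum_congr rfl fun k _ => ?_
    rw [hG.symm x hx k j]
  simp only [Lop, LopR, hpd, hBf, Finset.sum_add_distrib]
  rw [hsw, two_smul]
  have e1 : ∑ j, pd j (dcvF L j c) x =
      ∑ j, pd j (fun y => ∑ k, GM L.g y j k • pd k c y) x := rfl
  rw [e1]
  have e2 : (∑ j, pd j (dcvW L j) x (c x)) + ∑ j, (L.B j x * dcvW L j x) (c x) = 0 := hfr0
  rw [eq_neg_of_add_eq_zero_left e2]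
  abel

theorem dcv_coef (hD : RelOpen D) {L : LD n N} (ok : L.Ok D)
    (hfr : ∀ v : Fib N, Sol L D (fun _ => v)) (h1 : ∀ x ∈ D, x 0 = 0 → L.h x = 1) :
    CoefD D (GM L.g) L.B L.h where
  toGOk := dcv_gok hD ok.g_smooth ok.g_pos
  smB := ok.B_smooth
  smh := ok.h_smooth
  dh := ok.compat
  h1 := h1
  frame := fun x hx => by
    have h := dcv_frame hD ok hfr hx
    rw [Finset.sum_add_distrib] at h
    rw [← h]
    congr 1
    refine Finset.sum_congr rfl fun j _ => ?_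
    rw [dcvW, Finset.mul_sum]
    refine Finset.sum_congr rfl fun k _ => ?_
    rw [mul_smul_comm]


theorem dcv_rsq {L : LD n N} {z : E n} {r : ℝ} (hD : RelOpen (HB z r)) (ok : L.Ok (HB z r))
    (hfr : ∀ v : Fib N, Sol L (HB z r) (fun _ => v)) {c : E n → Fib N}
    (hc : ContDiffOn ℝ ∞ c (HB z r)) :
    RsqD (HB z r) (GM L.g) L.B c = ∫ x in HB z r, (x 0) ^ 2 * ‖Lop L c x‖ ^ 2 := by
  refine setIntegral_congr_fun (dc_meas hD) fun x hx => ?_
  simp only
  rw [dcv_lop hD ok hfr hc hx]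

theorem dcv_rem_sqrt {L : LD n N} {z : E n} {r : ℝ} (hD : RelOpen (HB z r))
    (ok : L.Ok (HB z r)) (hfr : ∀ v : Fib N, Sol L (HB z r) (fun _ => v)) {c : E n → Fib N}
    (hc : ContDiffOn ℝ ∞ c (HB z r)) :
    √(RsqD (HB z r) (GM L.g) L.B c) = Rem L z r c := by
  rw [dcv_rsq hD ok hfr hc, Rem]

theorem dcv_rem_sq {L : LD n N} {z : E n} {r : ℝ} (hD : RelOpen (HB z r))
    (ok : L.Ok (HB z r)) (hfr : ∀ v : Fib N, Sol L (HB z r) (fun _ => v)) {c : E n → Fib N}
    (hc : ContDiffOn ℝ ∞ c (HB z r)) :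
    RsqD (HB z r) (GM L.g) L.B c = Rem L z r c ^ 2 := by
  rw [← dcv_rem_sqrt hD ok hfr hc, Real.sq_sqrt]
  rw [dcv_rsq hD ok hfr hc]
  exact setIntegral_nonneg (dc_meas hD) fun x _ => by (clear hD ok hfr hc; positivity)

theorem dcv_relOpen_HB (z : E n) (r : ℝ) : RelOpen (HB z r) :=
  ⟨Metric.ball z r, Metric.isOpen_ball, rfl⟩

theorem dcv_tst {z : E n} {r : ℝ} {c : E n → Fib N} (h : TstD (HB z r) c) : TstH z r c := by
  obtain ⟨hc, K, hK, hKD, h0⟩ := h
  refine ⟨hc, ?_⟩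
  have h1 : K ⊆ Metric.ball z r := hKD.trans inter_subset_left
  rcases K.eq_empty_or_nonempty with hKe | hKne
  · refine ⟨r - 1, by linarith only [], fun x hx _ => h0 x hx.2 (by simp [hKe])⟩
  · obtain ⟨y, hy, hmax⟩ := hK.exists_isMaxOn hKne
      ((continuous_id.dist continuous_const).continuousOn (s := K) (f := fun x => dist x z))
    have hyr : dist y z < r := h1 hy
    refine ⟨(dist y z + r) / 2, by linarith only [hyr], fun x hx hxn => h0 x hx.2 fun hxK => hxn ?_⟩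
    have h2 : dist x z ≤ dist y z := hmax hxK
    rw [Metric.mem_ball]
    linarith only [hyr, h2]

theorem dcv_erel {L₁ L₂ : LD n N} {z : E n} {r C : ℝ} (ok₁ : L₁.Ok (HB z r))
    (ok₂ : L₂.Ok (HB z r)) (f₁ : ∀ v : Fib N, Sol L₁ (HB z r) (fun _ => v))
    (f₂ : ∀ v : Fib N, Sol L₂ (HB z r) (fun _ => v)) (h : ERel L₁ L₂ z r C) :
    ERelD (HB z r) (GM L₁.g) L₁.B L₁.h (GM L₂.g) L₂.B L₂.h := by
  have hD := dcv_relOpen_HB z r
  refine ⟨⟨C, fun c c' hc hc' => ?_⟩, ⟨C, fun c hc => ?_⟩, ⟨C, fun c hc => ?_⟩⟩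
  · rw [dcv_rem_sqrt hD ok₁ f₁ hc.1, dcv_rem_sqrt hD ok₂ f₂ hc.1, dcv_rem_sqrt hD ok₁ f₁ hc'.1,
      dcv_rem_sqrt hD ok₂ f₂ hc'.1]
    exact h.abs c c' (dcv_tst hc) (dcv_tst hc')
  · rw [dcv_rem_sq hD ok₂ f₂ hc.1]
    have := h.low c (dcv_tst hc)
    have e1 : EnD (HB z r) (GM L₂.g) L₂.B L₂.h c c = En L₂ (HB z r) c c := rfl
    have e2 : EnD (HB z r) (GM L₁.g) L₁.B L₁.h c c = En L₁ (HB z r) c c := rfl
    rw [e1, e2]
    linarith
  · rw [dcv_rem_sq hD ok₁ f₁ hc.1]
    have := h.low' c (dcv_tst hc)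
    have e1 : EnD (HB z r) (GM L₂.g) L₂.B L₂.h c c = En L₂ (HB z r) c c := rfl
    have e2 : EnD (HB z r) (GM L₁.g) L₁.B L₁.h c c = En L₁ (HB z r) c c := rfl
    rw [e1, e2]
    (clear ok₁ ok₂ f₁ f₂ hD e1 e2; linarith)

/-- real part of the component `j0` as a real continuous linear map -/
def dcvRe (j0 : Fin N) : Fib N →L[ℝ] ℝ :=
  Complex.reCLM.comp ((EuclideanSpace.proj (𝕜 := ℂ) j0 : Fib N →L[ℂ] ℂ).restrictScalars ℝ)

theorem dcv_pd_re (hD : RelOpen D) {j0 : Fin N} {c : Fin n → E n → Fib N}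
    (s : ∀ a, ContDiffOn ℝ ∞ (c a) D) (r : ∀ a, ∀ x ∈ D, (c a x j0).re = x a) {x : E n}
    (hx : x ∈ D) (a k : Fin n) : dcvRe j0 (pd k (c a) x) = if k = a then 1 else 0 := by
  rw [← hD.pd_clm (dcvRe j0) (s a) hx k, ← dc_pd_coord (hD.subset hx) k a]
  exact hD.pd_congr (fun y hy => r a y hy) hx k

theorem dcv_flux (hD : RelOpen D) {W₁ W₂ : Model n N} (ok₁ : W₁.toLD.Ok D) (ok₂ : W₂.toLD.Ok D)
    {j0 : Fin N} (s₁ : ∀ a, ContDiffOn ℝ ∞ (W₁.c a) D) (s₂ : ∀ a, ContDiffOn ℝ ∞ (W₂.c a) D)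
    (r₁ : ∀ a, ∀ x ∈ D, (W₁.c a x j0).re = x a) (r₂ : ∀ a, ∀ x ∈ D, (W₂.c a x j0).re = x a)
    (hc : ∀ x ∈ D, x 0 = 0 → ∀ a, W₁.c a x = W₂.c a x)
    (hf : ∀ x ∈ D, x 0 = 0 → ∀ v : Fib N,
      flux W₁.toLD 0 (fun _ => v) x = flux W₂.toLD 0 (fun _ => v) x)
    (hf' : ∀ x ∈ D, x 0 = 0 → ∀ a, flux W₁.toLD 0 (W₁.c a) x = flux W₂.toLD 0 (W₂.c a) x) :
    (∀ x ∈ D, x 0 = 0 → ∀ a, GM W₁.g x 0 a = GM W₂.g x 0 a) ∧
    (∀ x ∈ D, x 0 = 0 → ∑ k, GM W₁.g x 0 k • W₁.B k x = ∑ k, GM W₂.g x 0 k • W₂.B k x) ∧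
    (∀ x ∈ D, x 0 = 0 → ∀ a, pd 0 (W₁.c a) x = pd 0 (W₂.c a) x) := by
  have hB : ∀ x ∈ D, x 0 = 0 → dcvW W₁.toLD 0 x = dcvW W₂.toLD 0 x := by
    intro x hx hx0
    ext1 v
    have h := hf x hx hx0 v
    rw [dcv_flux_eq, dcv_flux_eq] at h
    simpa [dcvF, pd_const] using h
  have hF : ∀ x ∈ D, x 0 = 0 → ∀ a, dcvF W₁.toLD 0 (W₁.c a) x = dcvF W₂.toLD 0 (W₂.c a) x := by
    intro x hx hx0 a
    have h := hf' x hx hx0 a
    rw [dcv_flux_eq, dcv_flux_eq, hB x hx hx0, hc x hx hx0 a] at h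
    exact add_right_cancel h
  have hGr : ∀ x ∈ D, x 0 = 0 → ∀ a, GM W₁.g x 0 a = GM W₂.g x 0 a := by
    intro x hx hx0 a
    have h := congrArg (dcvRe j0) (hF x hx hx0 a)
    simp only [dcvF, map_sum, map_smul, dcv_pd_re hD s₁ r₁ hx, dcv_pd_re hD s₂ r₂ hx,
      smul_eq_mul, mul_ite, mul_one, mul_zero, Finset.sum_ite_eq', Finset.mem_univ,
      if_true] at h
    exact h
  refine ⟨hGr, hB, fun x hx hx0 a => ?_⟩
  have htan : ∀ k : Fin n, k ≠ 0 → pd k (W₁.c a) x = pd k (W₂.c a) x := by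
    intro k hk
    have h := dc_pd_tan hD (f := fun y => W₁.c a y - W₂.c a y) ((s₁ a).sub (s₂ a))
      (fun y hy hy0 => sub_eq_zero.2 (hc y hy hy0 a)) hk x hx hx0
    rw [hD.pd_sub (s₁ a) (s₂ a) hx k] at h
    exact sub_eq_zero.1 h
  have h := hF x hx hx0 a
  simp only [dcvF] at h
  rw [← Finset.add_sum_erase _ _ (Finset.mem_univ (0 : Fin n)),
    ← Finset.add_sum_erase _ _ (Finset.mem_univ (0 : Fin n))] at h
  have hrest : ∑ k ∈ Finset.univ.erase (0 : Fin n), GM W₁.toLD.g x 0 k • pd k (W₁.c a) x =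
      ∑ k ∈ Finset.univ.erase (0 : Fin n), GM W₂.toLD.g x 0 k • pd k (W₂.c a) x := by
    refine Finset.sum_congr rfl fun k hk => ?_
    rw [htan k (Finset.ne_of_mem_erase hk), hGr x hx hx0 k]
  rw [hrest] at h
  have h2 := add_right_cancel h
  rw [hGr x hx hx0 0] at h2
  have hpos : 0 < GM W₂.g x 0 0 := by
    have := ((dcv_gok hD ok₂.g_smooth ok₂.g_pos).pos x hx).diag_pos (i := 0)
    exact this
  exact smul_right_injective _ hpos.ne' h2

end Vale.Agent.P088.EYM
end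
end

section

/-!
# P088-EYM, D24: equality of the jets at the face, and of the Einstein constants
-/

open MeasureTheory Set Filter Topology
open scoped ContDiff

noncomputable section

namespace Vale.Agent.P088.EYM

variable {n : ℕ} [NeZero n] {N : ℕ}
variable {F : Type*} [NormedAddCommGroup F] [NormedSpace ℝ F]
variable {D : Set (E n)}

/-- value at the face -/
theorem djt_val {k : ℕ} {f g : E n → F} (h : Van D (k + 1) (fun x => f x - g x)) {x : E n}
    (hx : x ∈ D) (hx0 : x 0 = 0) : f x = g x :=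
  sub_eq_zero.1 (h 0 (Nat.succ_pos k) x hx hx0)

/-- the difference of the derivatives -/
theorem djt_pd (hD : RelOpen D) {k : ℕ} {f g : E n → F} (hf : ContDiffOn ℝ ∞ f D)
    (hg : ContDiffOn ℝ ∞ g D) (h : Van D (k + 1) (fun x => f x - g x)) (i : Fin n) :
    Van D k (fun x => pd i f x - pd i g x) :=
  (Van.pd_any hD (hf.sub hg) h i).congr hD fun _ hx => hD.pd_sub hf hg hx i

theorem djt_jet (hD : RelOpen D) {W₁ W₂ : Model n N} (ok₁ : W₁.toLD.Ok D) (ok₂ : W₂.toLD.Ok D)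
    (s₁ : ∀ a, ContDiffOn ℝ ∞ (W₁.c a) D) (s₂ : ∀ a, ContDiffOn ℝ ∞ (W₂.c a) D)
    (hg : ∀ j l, Van D 3 (fun x => W₁.g x j l - W₂.g x j l))
    (hB : ∀ j, Van D 2 (fun x => W₁.B j x - W₂.B j x))
    (hc : ∀ a, Van D 3 (fun x => W₁.c a x - W₂.c a x))
    (hh : ∀ x ∈ D, x 0 = 0 → W₁.h x = W₂.h x) :
    ∀ x ∈ D, x 0 = 0 → JetEq W₁ W₂ x := by
  intro x hx hx0
  refine ⟨?_, ?_, ?_, ?_, hh x hx hx0, ?_, ?_, ?_⟩
  · ext i j
    exact djt_val (hg i j) hx hx0
  · intro i j k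
    exact djt_val (djt_pd hD (ok₁.g_smooth i j) (ok₂.g_smooth i j) (hg i j) k) hx hx0
  · intro i
    exact djt_val (hB i) hx hx0
  · intro i k
    exact djt_val (djt_pd hD (ok₁.B_smooth i) (ok₂.B_smooth i) (hB i) k) hx hx0
  · intro a
    exact djt_val (hc a) hx hx0
  · intro a k
    exact djt_val (djt_pd hD (s₁ a) (s₂ a) (hc a) k) hx hx0
  · intro a k l
    exact djt_val (djt_pd hD (hD.pd_smooth (s₁ a) l) (hD.pd_smooth (s₂ a) l)
      (djt_pd hD (s₁ a) (s₂ a) (hc a) l) k) hx hx0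

theorem djt_gok {L : LD n N} (ok : L.Ok D) : GOk D L.g where
  smG := ok.g_smooth
  symm := fun x hx j k => by
    have h := (ok.g_pos x hx).1
    have h2 := congrFun (congrFun h k) j
    simpa [Matrix.conjTranspose_apply] using h2
  pos := ok.g_pos

section chr

variable {g₁ g₂ : E n → Matrix (Fin n) (Fin n) ℝ}

/-- the bracket in the Christoffel symbol -/
theorem djt_brk_smooth (hD : RelOpen D) (h : GOk D g₁) (i j l : Fin n) :
    ContDiffOn ℝ ∞ (fun x => pd i (fun y => g₁ y l j) x + pd j (fun y => g₁ y l i) x -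
      pd l (fun y => g₁ y i j) x) D :=
  ((hD.pd_smooth (h.smG l j) i).add (hD.pd_smooth (h.smG l i) j)).sub
    (hD.pd_smooth (h.smG i j) l)

theorem djt_chr_smooth (hD : RelOpen D) (h : GOk D g₁) (k i j : Fin n) :
    ContDiffOn ℝ ∞ (chr g₁ k i j) D := by
  unfold chr
  refine contDiffOn_const.mul (ContDiffOn.sum fun l _ => ?_)
  exact (dme_smooth_inv h k l).mul (djt_brk_smooth hD h i j l)

theorem djt_chr_van (hD : RelOpen D) (h₁ : GOk D g₁) (h₂ : GOk D g₂)
    (hg : ∀ j l, Van D 3 (fun x => g₁ x j l - g₂ x j l)) (k i j : Fin n) :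
    Van D 2 (fun x => chr g₁ k i j x - chr g₂ k i j x) := by
  have hb : ∀ l, Van D 2 (fun x => (pd i (fun y => g₁ y l j) x + pd j (fun y => g₁ y l i) x -
      pd l (fun y => g₁ y i j) x) - (pd i (fun y => g₂ y l j) x + pd j (fun y => g₂ y l i) x -
      pd l (fun y => g₂ y i j) x)) := by
    intro l
    have a1 := djt_pd hD (h₁.smG l j) (h₂.smG l j) (hg l j) i
    have a2 := djt_pd hD (h₁.smG l i) (h₂.smG l i) (hg l i) j
    have a3 := djt_pd hD (h₁.smG i j) (h₂.smG i j) (hg i j) l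
    have s1 := (hD.pd_smooth (h₁.smG l j) i).sub (hD.pd_smooth (h₂.smG l j) i)
    have s2 := (hD.pd_smooth (h₁.smG l i) j).sub (hD.pd_smooth (h₂.smG l i) j)
    have s3 := (hD.pd_smooth (h₁.smG i j) l).sub (hD.pd_smooth (h₂.smG i j) l)
    refine ((a1.add hD s1 s2 a2).sub hD (s1.add s2) s3 a3).congr hD fun x _ => ?_
    simp only
    ring
  have hi : ∀ l, Van D 2 (fun x => (g₁ x)⁻¹ k l - (g₂ x)⁻¹ k l) := fun l =>
    (dme_inv_van hD h₁ h₂ hg k l).mono (by norm_num)
  have ht : ∀ l, Van D 2 (fun x => ((g₁ x)⁻¹ k l - (g₂ x)⁻¹ k l) *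
      (pd i (fun y => g₁ y l j) x + pd j (fun y => g₁ y l i) x - pd l (fun y => g₁ y i j) x) +
      (g₂ x)⁻¹ k l * ((pd i (fun y => g₁ y l j) x + pd j (fun y => g₁ y l i) x -
      pd l (fun y => g₁ y i j) x) - (pd i (fun y => g₂ y l j) x + pd j (fun y => g₂ y l i) x -
      pd l (fun y => g₂ y i j) x))) := by
    intro l
    have m1 := (dme_smooth_inv h₁ k l).sub (dme_smooth_inv h₂ k l)
    have m2 := djt_brk_smooth hD h₁ i j l
    have m3 := m2.sub (djt_brk_smooth hD h₂ i j l)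
    have b1 := Van.bil hD dc_bil_mulR m1 m2 (hi l) (van_zero _)
    have b2 := Van.bil hD dc_bil_mulR (dme_smooth_inv h₂ k l) m3 (van_zero _) (hb l)
    exact Van.add hD (m1.mul m2) ((dme_smooth_inv h₂ k l).mul m3) b1
      (by simpa only [zero_add] using b2)
  have hs : Van D 2 (fun x => ∑ l, (((g₁ x)⁻¹ k l - (g₂ x)⁻¹ k l) *
      (pd i (fun y => g₁ y l j) x + pd j (fun y => g₁ y l i) x - pd l (fun y => g₁ y i j) x) +
      (g₂ x)⁻¹ k l * ((pd i (fun y => g₁ y l j) x + pd j (fun y => g₁ y l i) x -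
      pd l (fun y => g₁ y i j) x) - (pd i (fun y => g₂ y l j) x + pd j (fun y => g₂ y l i) x -
      pd l (fun y => g₂ y i j) x)))) := by
    refine Van.sum hD Finset.univ (fun l _ => ?_) fun l _ => ht l
    exact (((dme_smooth_inv h₁ k l).sub (dme_smooth_inv h₂ k l)).mul
      (djt_brk_smooth hD h₁ i j l)).add ((dme_smooth_inv h₂ k l).mul
        ((djt_brk_smooth hD h₁ i j l).sub (djt_brk_smooth hD h₂ i j l)))
  have hsm : ContDiffOn ℝ ∞ (fun x => ∑ l, (((g₁ x)⁻¹ k l - (g₂ x)⁻¹ k l) *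
      (pd i (fun y => g₁ y l j) x + pd j (fun y => g₁ y l i) x - pd l (fun y => g₁ y i j) x) +
      (g₂ x)⁻¹ k l * ((pd i (fun y => g₁ y l j) x + pd j (fun y => g₁ y l i) x -
      pd l (fun y => g₁ y i j) x) - (pd i (fun y => g₂ y l j) x + pd j (fun y => g₂ y l i) x -
      pd l (fun y => g₂ y i j) x)))) D := by
    refine ContDiffOn.sum fun l _ => ?_
    exact (((dme_smooth_inv h₁ k l).sub (dme_smooth_inv h₂ k l)).mul
      (djt_brk_smooth hD h₁ i j l)).add ((dme_smooth_inv h₂ k l).mul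
        ((djt_brk_smooth hD h₁ i j l).sub (djt_brk_smooth hD h₂ i j l)))
  refine (hs.clm hD ((1 / 2 : ℝ) • ContinuousLinearMap.id ℝ ℝ) hsm).congr hD fun x _ => ?_
  simp only [smul_apply, ContinuousLinearMap.id_apply, smul_eq_mul, chr]
  rw [← mul_sub, ← Finset.sum_sub_distrib]
  congr 1
  refine Finset.sum_congr rfl fun l _ => ?_
  ring

theorem djt_ric (hD : RelOpen D) (h₁ : GOk D g₁) (h₂ : GOk D g₂)
    (hg : ∀ j l, Van D 3 (fun x => g₁ x j l - g₂ x j l)) {x : E n} (hx : x ∈ D) (hx0 : x 0 = 0)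
    (j k : Fin n) : ric g₁ j k x = ric g₂ j k x := by
  have hv : ∀ a b c : Fin n, chr g₁ a b c x = chr g₂ a b c x := fun a b c =>
    djt_val (djt_chr_van hD h₁ h₂ hg a b c) hx hx0
  have hp : ∀ i a b c : Fin n, pd i (chr g₁ a b c) x = pd i (chr g₂ a b c) x := fun i a b c =>
    djt_val (djt_pd hD (djt_chr_smooth hD h₁ a b c) (djt_chr_smooth hD h₂ a b c)
      (djt_chr_van hD h₁ h₂ hg a b c) i) hx hx0
  simp only [ric, hv, hp]

end chr

theorem djt_kappa (hD : RelOpen D) {W₁ W₂ : Model n N} (ok₁ : W₁.toLD.Ok D)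
    (ok₂ : W₂.toLD.Ok D) {κ₁ κ₂ α β : ℝ} (e₁ : EYMeq κ₁ α β W₁.toLD D)
    (e₂ : EYMeq κ₂ α β W₂.toLD D) (hg : ∀ j l, Van D 3 (fun x => W₁.g x j l - W₂.g x j l))
    (hB : ∀ j, Van D 2 (fun x => W₁.B j x - W₂.B j x)) (hne : ∃ x ∈ D, x 0 = 0) :
    κ₁ = κ₂ := by
  obtain ⟨x, hx, hx0⟩ := hne
  have hgx : W₁.g x = W₂.g x := by
    ext i j
    exact djt_val (hg i j) hx hx0
  have hBx : ∀ i, W₁.B i x = W₂.B i x := fun i => djt_val (hB i) hx hx0
  have hdB : ∀ i k, pd k (W₁.B i) x = pd k (W₂.B i) x := fun i k =>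
    djt_val (djt_pd hD (ok₁.B_smooth i) (ok₂.B_smooth i) (hB i) k) hx hx0
  have hcur : ∀ i j, cur W₁.B i j x = cur W₂.B i j x := fun i j => by
    simp only [cur, hBx, hdB]
  have hT : ∀ j k, Tst W₁.toLD j k x = Tst W₂.toLD j k x := fun j k => by
    simp only [Tst, hcur, hgx]
  have h1 := e₁.ein x hx 0 0
  have h2 := e₂.ein x hx 0 0
  have h3 := djt_ric hD (djt_gok ok₁) (djt_gok ok₂) hg hx hx0 0 0
  have h4 : rhsE κ₁ α β W₁.toLD 0 0 x = rhsE κ₂ α β W₂.toLD 0 0 x := by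
    rw [← h1, ← h2]
    exact h3
  simp only [rhsE, hT, hgx] at h4
  have h5 : 0 < W₂.g x 0 0 := (ok₂.g_pos x hx).diag_pos
  have h6 : κ₁ * W₂.g x 0 0 = κ₂ * W₂.g x 0 0 := by linarith
  exact mul_right_cancel₀ h5.ne' h6

end Vale.Agent.P088.EYM
end
end

section

/-!
# P088-EYM, block D: boundary determination, the interface theorem
-/

open MeasureTheory Set Filter Topology
open scoped ContDiff

noncomputable section

namespace Vale.Agent.P088.EYM

theorem dbd_gok {n : ℕ} {D : Set (E n)} [NeZero n] {g : E n → Matrix (Fin n) (Fin n) ℝ}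
    (hg : ∀ i j, ContDiffOn ℝ ∞ (fun x => g x i j) D) (hp : ∀ x ∈ D, (g x).PosDef) :
    GOk D g where
  smG := hg
  symm := fun x hx j k => by
    have h := (hp x hx).isHermitian.apply k j
    simpa using h
  pos := hp

theorem dbd : DBd_statement := by
  intro n N _ κ₁ κ₂ α β j0 W₁ W₂ z r C hn hr hz m₁ m₂ hh hc hf hf' hE
  have hD : RelOpen (HB z r) := ⟨Metric.ball z r, Metric.isOpen_ball, rfl⟩
  have k₁ := dcv_coef hD m₁.ok m₁.frame (fun x hx hx0 => (hh x hx hx0).1)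
  have k₂ := dcv_coef hD m₂.ok m₂.frame (fun x hx hx0 => (hh x hx hx0).2)
  have hER := dcv_erel m₁.ok m₂.ok m₁.frame m₂.frame hE
  obtain ⟨fG, fB, hc1⟩ := dcv_flux hD m₁.ok m₂.ok (fun a => (m₁.sol a).1)
    (fun a => (m₂.sol a).1) m₁.re m₂.re hc hf hf'
  have s₁ : SolD (HB z r) (GM W₁.g) W₁.B W₁.c j0 :=
    ⟨fun a => (m₁.sol a).1, m₁.re, fun a x hx => by
      rw [← dcv_lop hD m₁.ok m₁.frame (m₁.sol a).1 hx]; exact (m₁.sol a).2 x hx⟩
  have s₂ : SolD (HB z r) (GM W₂.g) W₂.B W₂.c j0 :=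
    ⟨fun a => (m₂.sol a).1, m₂.re, fun a x hx => by
      rw [← dcv_lop hD m₂.ok m₂.frame (m₂.sol a).1 hx]; exact (m₂.sol a).2 x hx⟩
  obtain ⟨hG, hB, hc3, -⟩ := df_boundary_van hD k₁ k₂ hER fG fB s₁ s₂ hc hc1
  have g₁ := dbd_gok m₁.ok.g_smooth m₁.ok.g_pos
  have g₂ := dbd_gok m₂.ok.g_smooth m₂.ok.g_pos
  have hg := dme_metric_van hn hD g₁ g₂ hG
  refine ⟨djt_kappa hD m₁.ok m₂.ok m₁.eqs m₂.eqs hg hB
    ⟨z, ⟨Metric.mem_ball_self hr, hz.ge⟩, hz⟩, ?_⟩
  exact djt_jet hD m₁.ok m₂.ok (fun a => (m₁.sol a).1) (fun a => (m₂.sol a).1) hg hB hc3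
    (fun x hx hx0 => (hh x hx hx0).1.trans (hh x hx hx0).2.symm)

end Vale.Agent.P088.EYM
end
end

section

/-!
# P088-EYM, block C1: elementary facts about charts
-/

open Bundle Manifold MeasureTheory Set Filter Topology
open scoped ContDiff

set_option linter.unusedSectionVars false

noncomputable section

namespace Vale.Agent.P088.EYM

universe u

variable {n N : ℕ} [NeZero n] {M : Type u} [TopologicalSpace M]
  [ChartedSpace (EuclideanHalfSpace n) M] [IsManifold (𝓡∂ n) ∞ M]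

theorem cLoc_range : range (𝓡∂ n) = Hs n := range_modelWithCornersEuclideanHalfSpace n

theorem cLoc_relOpen (p : M) : RelOpen (tg n p) := by
  refine ⟨(𝓡∂ n).symm ⁻¹' (chartAt (EuclideanHalfSpace n) p).target, ?_, ?_⟩
  · exact (chartAt (EuclideanHalfSpace n) p).open_target.preimage (𝓡∂ n).continuous_symm
  · rw [tg, xc, extChartAt_target, cLoc_range]

theorem cLoc_ok [MeasurableSpace M] (P : One n N M) (p : M) : (P.loc p).Ok (tg n p) where
  g_smooth := fun i j => contDiffOn_gram P.g p i j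
  g_pos := fun y hy => gram_posDef P.g ((xc n p).map_target hy)
  B_smooth := fun i => contDiffOn_lu_of_contMDiffOn
    (u := fun x => P.A.form x (coordVec (𝓡∂ n) p x i)) (P.A.smooth p i)
  h_smooth := contDiffOn_const
  h_adj := fun y _ => by
    show ContinuousLinearMap.adjoint (1 : EndF N) = 1
    exact star_one (EndF N)
  h_pos := fun y _ v hv => by
    show 0 < (inner ℂ v ((1 : EndF N) v) : ℂ).re
    have h1 : ((1 : EndF N) v) = v := rfl
    rw [h1, inner_self_eq_norm_sq_to_K]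
    have h2 : 0 < ‖v‖ := norm_pos_iff.2 hv
    have h3 : (((‖v‖ : ℂ)) ^ 2).re = ‖v‖ ^ 2 := by
      rw [← Complex.ofReal_pow, Complex.ofReal_re]
    show 0 < (((‖v‖ : ℂ)) ^ 2).re
    rw [h3]
    positivity
  compat := fun y _ j => by
    have h1 : pd j (P.loc p).h y = 0 := by
      show fderivWithin ℝ (fun _ : E n => (1 : EndF N)) (Hs n) y (ev j) = 0
      rw [fderivWithin_const_apply]
      rfl
    have h2 : ContinuousLinearMap.adjoint ((P.loc p).B j y) = -((P.loc p).B j y) :=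
      P.A.skew _ _
    have h3 : (P.loc p).h y = 1 := rfl
    rw [h1, h2, h3]
    simp

theorem cLoc_bd (p x : M) (hx : x ∈ (xc n p).source) :
    x ∈ (𝓡∂ n).boundary M ↔ xc n p x 0 = 0 := by
  have hx' : x ∈ (chartAt (EuclideanHalfSpace n) p).source := by
    rwa [xc, extChartAt_source] at hx
  have h1 := (𝓡∂ n).isBoundaryPoint_iff_of_mem_atlas (n := ∞) (by simp)
    (chart_mem_atlas (EuclideanHalfSpace n) p) hx'
  have h2 : (x ∈ (𝓡∂ n).boundary M) ↔ (𝓡∂ n).IsBoundaryPoint x := Iff.rfl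
  have hy : xc n p x ∈ tg n p := (xc n p).map_source hx
  have h3 : (𝓡∂ n).IsBoundaryPoint x ↔ xc n p x ∈ frontier (tg n p) := h1
  obtain ⟨O, hO, hD⟩ := cLoc_relOpen (n := n) p
  have h4 : interior (tg n p) = O ∩ {y : E n | 0 < y 0} := by
    rw [hD, interior_inter, hO.interior_eq, ← cLoc_range,
      interior_range_modelWithCornersEuclideanHalfSpace]
  have h5 := mem_interior_iff_notMem_frontier hy
  have hy2 := hy
  rw [hD] at hy2
  have hy3 : (0 : ℝ) ≤ (xc n p x) 0 := hy2.2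
  have h6 : xc n p x ∈ interior (tg n p) ↔ 0 < (xc n p x) 0 := by
    rw [h4]
    exact ⟨fun h => h.2, fun h => ⟨hy2.1, h⟩⟩
  rw [h2, h3]
  constructor
  · intro h
    by_contra h0
    exact h5.1 (h6.2 (lt_of_le_of_ne hy3 (Ne.symm h0))) h
  · intro h
    by_contra h0
    exact absurd (h6.1 (h5.2 h0)) (by rw [h]; exact lt_irrefl 0)

theorem cLoc : CLoc_statement.{u} := by
  intro n N _ M _ _ _ _
  refine ⟨cLoc_relOpen, cLoc_ok, cLoc_bd, ?_⟩
  intro u hu p
  exact contDiffOn_lu_of_contMDiffOn hu.contMDiffOn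

end Vale.Agent.P088.EYM
end
end

section

/-!
# P088-EYM: extension by zero of sections given in a chart
-/

open Bundle Manifold MeasureTheory Set Filter Topology
open scoped ContDiff

noncomputable section

namespace Vale.Agent.P088.EYM

universe u

theorem cExt : CExt_statement.{u} := by
  intro n N _ M _ _ _ _ p c D K hD hDt hc hK hKD hc0
  classical
  obtain ⟨O, hO, rfl⟩ := hD
  have hHs : ∀ x ∈ (xc n p).source, xc n p x ∈ Hs n := by
    intro x hx
    have h1 : xc n p x ∈ range (𝓡∂ n) := extChartAt_target_subset_range p ((xc n p).map_source hx)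
    rw [range_modelWithCornersEuclideanHalfSpace] at h1
    exact h1
  have hS1 : IsOpen ((xc n p).source ∩ (xc n p) ⁻¹' O) :=
    (continuousOn_extChartAt p).isOpen_inter_preimage (isOpen_extChartAt_source p) hO
  have hKc : IsClosed ((xc n p).symm '' K) :=
    (hK.image_of_continuousOn ((continuousOn_extChartAt_symm p).mono (hKD.trans hDt))).isClosed
  set w : M → Fib N := fun x =>
    if x ∈ (xc n p).source ∧ xc n p x ∈ O ∩ Hs n then c (xc n p x) else 0 with hw
  have h0 : ∀ x, x ∉ (xc n p).symm '' K → w x = 0 := by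
    intro x hx
    by_cases h : x ∈ (xc n p).source ∧ xc n p x ∈ O ∩ Hs n
    · rw [hw]
      simp only [if_pos h]
      refine hc0 _ h.2 fun hk => hx ⟨_, hk, (xc n p).left_inv h.1⟩
    · rw [hw]
      simp only [if_neg h]
  refine ⟨w, ?_, ?_, h0, ?_⟩
  · intro x
    by_cases hx : x ∈ (xc n p).source ∩ (xc n p) ⁻¹' O
    · have h1 : ContMDiffOn (𝓡∂ n) 𝓘(ℝ, Fib N) ∞ (fun x => c (xc n p x))
          ((xc n p).source ∩ (xc n p) ⁻¹' O) := by
        have h2 : ContMDiffOn (𝓡∂ n) 𝓘(ℝ, E n) ∞ (xc n p)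
            ((xc n p).source ∩ (xc n p) ⁻¹' O) := by
          refine (contMDiffOn_extChartAt (n := ∞) (x := p)).mono ?_
          rw [← extChartAt_source (I := 𝓡∂ n)]
          exact inter_subset_left
        exact (contMDiffOn_iff_contDiffOn.2 hc).comp h2 fun y hy => ⟨hy.2, hHs y hy.1⟩
      refine (h1.contMDiffAt (hS1.mem_nhds hx)).congr_of_eventuallyEq ?_
      filter_upwards [hS1.mem_nhds hx] with y hy
      rw [hw]
      simp only
      rw [if_pos ⟨hy.1, hy.2, hHs y hy.1⟩]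
    · have hxK : x ∉ (xc n p).symm '' K := by
        rintro ⟨y, hy, rfl⟩
        apply hx
        have hyt := hDt (hKD hy)
        refine ⟨(xc n p).map_target hyt, ?_⟩
        rw [mem_preimage, (xc n p).right_inv hyt]
        exact (hKD hy).1
      have h2 : w =ᶠ[𝓝 x] fun _ => (0 : Fib N) := by
        filter_upwards [hKc.isOpen_compl.mem_nhds hxK] with y hy
        exact h0 y hy
      exact contMDiffAt_const.congr_of_eventuallyEq h2
  · intro y hy
    rw [hw]
    simp only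
    rw [(xc n p).right_inv (hDt hy), if_pos ⟨(xc n p).map_target (hDt hy), hy⟩]
  · refine closure_minimal ?_ hKc
    intro x hx
    by_contra h
    exact hx (h0 x h)

end Vale.Agent.P088.EYM
end
end

section

/-!
# P088-EYM, block C: the Poincaré inequality on a compact connected manifold with boundary
-/

set_option linter.unusedSectionVars false

open Bundle Manifold MeasureTheory Set Filter Topology
open scoped ContDiff

noncomputable section

namespace Vale.Agent.P088.EYM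

universe u

section loc

variable {n N : ℕ} [NeZero n]

theorem CPoinc_okmono {L : LD n N} {D D' : Set (E n)} (h : L.Ok D) (hs : D' ⊆ D) : L.Ok D' :=
  ⟨fun i j => (h.g_smooth i j).mono hs, fun x hx => h.g_pos x (hs hx),
    fun i => (h.B_smooth i).mono hs, h.h_smooth.mono hs, fun x hx => h.h_adj x (hs hx),
    fun x hx => h.h_pos x (hs hx), fun x hx => h.compat x (hs hx)⟩

theorem CPoinc_rel_HB (z : E n) (r : ℝ) : RelOpen (HB z r) :=
  ⟨Metric.ball z r, Metric.isOpen_ball, rfl⟩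

theorem CPoinc_rel_meas {D : Set (E n)} (hD : RelOpen D) : MeasurableSet D := by
  obtain ⟨O, hO, rfl⟩ := hD
  exact hO.measurableSet.inter isClosed_Hs.measurableSet

theorem CPoinc_ball {D : Set (E n)} (hD : RelOpen D) {z : E n} (hz : z ∈ D) :
    ∃ r > 0, HB z r ⊆ D := by
  obtain ⟨O, hO, rfl⟩ := hD
  obtain ⟨r, hr, h⟩ := Metric.isOpen_iff.1 hO z hz.1
  exact ⟨r, hr, inter_subset_inter_left _ h⟩

theorem CPoinc_compact (z : E n) (r : ℝ) : IsCompact (Metric.closedBall z r ∩ Hs n) :=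
  (isCompact_closedBall z r).inter_right isClosed_Hs

theorem CPoinc_cdet {L : LD n N} {D : Set (E n)} (hL : L.Ok D) :
    ContinuousOn (fun y => Real.sqrt (L.g y).det) D := by
  have h1 : ContinuousOn (fun y => L.g y) D :=
    continuousOn_pi.2 fun i => continuousOn_pi.2 fun j => (hL.g_smooth i j).continuousOn
  have h2 : Continuous (fun A : Matrix (Fin n) (Fin n) ℝ => Real.sqrt A.det) :=
    Real.continuous_sqrt.comp (Continuous.matrix_det continuous_id)
  exact h2.comp_continuousOn h1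

theorem CPoinc_dpos {L : LD n N} {D : Set (E n)} (hL : L.Ok D) {y : E n} (hy : y ∈ D) :
    0 < Real.sqrt (L.g y).det := Real.sqrt_pos.2 (hL.g_pos y hy).det_pos

theorem CPoinc_det {L : LD n N} {D K : Set (E n)} (hL : L.Ok D) (hK : IsCompact K)
    (hKD : K ⊆ D) : ∃ b : ℝ, 0 < b ∧ ∀ y ∈ K, Real.sqrt (L.g y).det ≤ b ∧
      1 ≤ b * Real.sqrt (L.g y).det := by
  have hc := (CPoinc_cdet hL).mono hKD
  obtain ⟨b, hb⟩ := hK.exists_bound_of_continuousOn hc
  obtain ⟨a, ha, ha'⟩ := hK.exists_forall_le' hc (a := 0) fun y hy => CPoinc_dpos hL (hKD hy)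
  refine ⟨max |b| a⁻¹, lt_max_of_lt_right (inv_pos.2 ha), fun y hy => ⟨?_, ?_⟩⟩
  · have := hb y hy
    rw [Real.norm_eq_abs] at this
    exact ((le_abs_self _).trans this).trans ((le_abs_self b).trans (le_max_left _ _))
  · calc (1 : ℝ) = a⁻¹ * a := (inv_mul_cancel₀ ha.ne').symm
      _ ≤ max |b| a⁻¹ * Real.sqrt (L.g y).det :=
        mul_le_mul (le_max_right _ _) (ha' y hy) ha.le ((inv_pos.2 ha).le.trans (le_max_right _ _))

theorem CPoinc_inner (v w : Fib N) :
    (inner ℂ v w : ℂ).re = ∑ m, ((v m).re * (w m).re + (v m).im * (w m).im) := by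
  rw [PiLp.inner_apply, Complex.re_sum]
  refine Finset.sum_congr rfl fun m _ => ?_
  simp only [RCLike.inner_apply, Complex.mul_re, Complex.conj_re, mul_comm, Complex.conj_im, neg_mul, sub_neg_eq_add]

theorem CPoinc_comm (F : Fin n → Fin n → Fin N → ℝ) :
    ∑ j, ∑ k, ∑ m, F j k m = ∑ m, ∑ j, ∑ k, F j k m :=
  (Finset.sum_congr rfl fun _ _ => Finset.sum_comm).trans Finset.sum_comm

theorem CPoinc_ed {L : LD n N} {D : Set (E n)} (hL : L.Ok D) (h1 : ∀ x, L.h x = 1)
    (c : E n → Fib N) {x : E n} (hx : x ∈ D) : 0 ≤ (ed L c c x).re := by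
  have hP : ((L.g x)⁻¹).PosSemidef := (hL.g_pos x hx).inv.posSemidef
  have key : ∀ t : Fin n → ℝ, 0 ≤ ∑ j, ∑ k, gg L.g j k x * (t j * t k) := by
    intro t
    have h := hP.dotProduct_mulVec_nonneg t
    have h' : 0 ≤ Real.sqrt (L.g x).det * (star t ⬝ᵥ ((L.g x)⁻¹).mulVec t) :=
      mul_nonneg (Real.sqrt_nonneg _) h
    convert h' using 1
    simp only [dotProduct, Matrix.mulVec, Pi.star_apply, star_trivial, Finset.mul_sum, gg]
    refine Finset.sum_congr rfl fun j _ => Finset.sum_congr rfl fun k _ => ?_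
    ring
  have e : (ed L c c x).re = ∑ m, ((∑ j, ∑ k, gg L.g j k x *
      ((nab L j c x m).re * (nab L k c x m).re)) + ∑ j, ∑ k, gg L.g j k x *
      ((nab L j c x m).im * (nab L k c x m).im)) := by
    unfold ed
    simp only [h1, one_apply_eq_self, Complex.re_sum, Complex.re_ofReal_mul, CPoinc_inner, Finset.sum_add_distrib, mul_add, Finset.mul_sum]
    rw [CPoinc_comm, CPoinc_comm]
  rw [e]
  exact Finset.sum_nonneg fun m _ => add_nonneg (key _) (key _)

theorem CPoinc_En {L : LD n N} {D : Set (E n)} (hL : L.Ok D) (hD : MeasurableSet D)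
    (h1 : ∀ x, L.h x = 1) (c : E n → Fib N) : 0 ≤ (En L D c c).re := by
  unfold En
  by_cases hi : IntegrableOn (ed L c c) D
  · have e : (∫ x in D, ed L c c x).re = ∫ x in D, (ed L c c x).re :=
      (Complex.reCLM.integral_comp_comm hi).symm
    rw [e]
    exact setIntegral_nonneg hD fun x hx => CPoinc_ed hL h1 c hx
  · rw [integral_undef hi]
    simp

end loc

section mani

variable {n N : ℕ} [NeZero n] {M : Type u} [TopologicalSpace M]
  [ChartedSpace (EuclideanHalfSpace n) M] [IsManifold (𝓡∂ n) ∞ M]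

theorem CPoinc_img {p : M} (hR : tg n p ⊆ Hs n) {O : Set (E n)} (hs : O ∩ Hs n ⊆ tg n p) :
    (xc n p).symm '' (O ∩ Hs n) = (xc n p).source ∩ (xc n p) ⁻¹' O := by
  ext x
  constructor
  · rintro ⟨y, hy, rfl⟩
    refine ⟨(xc n p).map_target (hs hy), ?_⟩
    rw [mem_preimage, (xc n p).right_inv (hs hy)]
    exact hy.1
  · rintro ⟨hx, hxO⟩
    exact ⟨xc n p x, ⟨hxO, hR ((xc n p).map_source hx)⟩, (xc n p).left_inv hx⟩

theorem CPoinc_open {p : M} (hR : tg n p ⊆ Hs n) {D : Set (E n)} (hD : RelOpen D)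
    (hs : D ⊆ tg n p) : IsOpen ((xc n p).symm '' D) := by
  obtain ⟨O, hO, rfl⟩ := hD
  rw [CPoinc_img hR hs, extChartAt_source]
  exact isOpen_extChartAt_preimage (I := 𝓡∂ n) p hO

variable [T2Space M] [CompactSpace M] [MeasurableSpace M] [BorelSpace M]

theorem CPoinc_int (hI : CInt_statement.{u}) (P : One n N M) (p : M) {D : Set (E n)}
    (hD : MeasurableSet D) (hs : D ⊆ tg n p) {φ : M → Fib N} (hφ : Continuous φ) :
    ∫ x in (xc n p).symm '' D, ‖φ x‖ ^ 2 ∂P.μ =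
      ∫ y in D, Real.sqrt ((P.loc p).g y).det * ‖lu (𝓡∂ n) p φ y‖ ^ 2 := by
  have hc : Continuous (fun x => ((‖φ x‖ ^ 2 : ℝ) : ℂ)) :=
    Complex.continuous_ofReal.comp (hφ.norm.pow 2)
  have h := ((hI n N M P).2.2 p D hD hs).2 (fun x => ((‖φ x‖ ^ 2 : ℝ) : ℂ))
    hc.aestronglyMeasurable
  rw [integral_complex_ofReal] at h
  have e : (fun y => (Real.sqrt ((P.loc p).g y).det : ℂ) *
      (((‖φ ((xc n p).symm y)‖ ^ 2 : ℝ)) : ℂ)) =
      fun y => ((Real.sqrt ((P.loc p).g y).det * ‖lu (𝓡∂ n) p φ y‖ ^ 2 : ℝ) : ℂ) := by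
    funext y
    rw [Complex.ofReal_mul]
    rfl
  rw [e, integral_complex_ofReal] at h
  exact_mod_cast h

theorem CPoinc_cmp (hL : CLoc_statement.{u}) (hI : CInt_statement.{u}) (P : One n N M) (p : M)
    {D K : Set (E n)} (hD : MeasurableSet D) (hK : IsCompact K) (hDK : D ⊆ K)
    (hKt : K ⊆ tg n p) : ∃ b : ℝ, 0 < b ∧ ∀ φ : M → Fib N, SmS n φ →
      ∫ x in (xc n p).symm '' D, ‖φ x‖ ^ 2 ∂P.μ ≤ b * ∫ y in D, ‖lu (𝓡∂ n) p φ y‖ ^ 2 ∧
      ∫ y in D, ‖lu (𝓡∂ n) p φ y‖ ^ 2 ≤ b * ∫ x in (xc n p).symm '' D, ‖φ x‖ ^ 2 ∂P.μ := by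
  have hOk := (hL n N M).2.1 P p
  obtain ⟨b, hb, hb'⟩ := CPoinc_det hOk hK hKt
  refine ⟨b, hb, fun φ hφ => ?_⟩
  have hc : ContinuousOn (fun y => ‖lu (𝓡∂ n) p φ y‖ ^ 2) K :=
    (((hL n N M).2.2.2 φ hφ p).continuousOn.mono hKt).norm.pow 2
  have hi : IntegrableOn (fun y => ‖lu (𝓡∂ n) p φ y‖ ^ 2) D :=
    (hc.integrableOn_compact hK).mono_set hDK
  have hc2 : ContinuousOn (fun y => Real.sqrt ((P.loc p).g y).det *
      ‖lu (𝓡∂ n) p φ y‖ ^ 2) K := ((CPoinc_cdet hOk).mono hKt).mul hc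
  have hi2 : IntegrableOn (fun y => Real.sqrt ((P.loc p).g y).det *
      ‖lu (𝓡∂ n) p φ y‖ ^ 2) D := (hc2.integrableOn_compact hK).mono_set hDK
  rw [CPoinc_int hI P p hD (hDK.trans hKt) hφ.continuous, ← integral_const_mul,
    ← integral_const_mul]
  refine ⟨setIntegral_mono_on hi2 (hi.const_mul b) hD fun y hy => ?_,
    setIntegral_mono_on hi (hi2.const_mul b) hD fun y hy => ?_⟩
  · exact mul_le_mul_of_nonneg_right (hb' y (hDK hy)).1 (by (clear hL hI P D K hD hK hDK hKt hOk b hb hb' hφ hc hi hc2 hi2 hy; positivity))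
  · have h1 := (hb' y (hDK hy)).2
    have h2 : 0 ≤ ‖lu (𝓡∂ n) p φ y‖ ^ 2 := by (clear hL hI P D K hD hK hDK hKt hOk b hb hb' hφ hc hi hc2 hi2 hy h1; positivity)
    (clear hL hI hD hK hKt hOk hb hφ hc hi hc2 hi2 h2; nlinarith)

/-- The inequality on `S`. -/
def CPoinc_P (P : One n N M) (S : Set M) : Prop :=
  ∃ C : ℝ, 0 ≤ C ∧ ∀ φ : M → Fib N, SmS n φ → (∀ x ∈ (𝓡∂ n).boundary M, φ x = 0) →
    ∫ x in S, ‖φ x‖ ^ 2 ∂P.μ ≤ C * (P.E φ φ).re

theorem CPoinc_E0 (hE : CEnergy_statement.{u}) (P : One n N M) (p : M) {φ : M → Fib N}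
    (hφ : SmS n φ) : 0 ≤ (P.E φ φ).re := by
  have h := ((hE n N M P p ∅ ⟨∅, isOpen_empty, by simp⟩ (empty_subset _)).2 φ hφ).1
  simpa only [ge_iff_le, En, Measure.restrict_empty, integral_zero_measure, Complex.zero_re] using h

theorem CPoinc_integrable (hI : CInt_statement.{u}) (P : One n N M) {φ : M → Fib N}
    (hφ : SmS n φ) : Integrable (fun x => ‖φ x‖ ^ 2) P.μ := by
  have := (hI n N M P).1
  exact (hφ.continuous.norm.pow 2).integrable_of_hasCompactSupport
    (HasCompactSupport.of_compactSpace _)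

theorem CPoinc_closedBall {p : M} {z : E n} {r : ℝ} (hr : 0 < r) (h : HB z r ⊆ tg n p) :
    Metric.closedBall z (r / 2) ∩ Hs n ⊆ tg n p :=
  (inter_subset_inter_left _ (Metric.closedBall_subset_ball (by linarith only [hr]))).trans h

theorem CPoinc_bd (hA : APoincare_statement) (hL : CLoc_statement.{u})
    (hE : CEnergy_statement.{u}) (hI : CInt_statement.{u}) (P : One n N M) {m : M}
    (hm : m ∈ (𝓡∂ n).boundary M) : ∃ O : Set M, IsOpen O ∧ m ∈ O ∧ CPoinc_P P O := by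
  have hR : RelOpen (tg n m) := (hL n N M).1 m
  have hOk := (hL n N M).2.1 P m
  have hz : xc n m m ∈ tg n m := mem_extChartAt_target m
  have hz0 : xc n m m 0 = 0 := ((hL n N M).2.2.1 m m (mem_extChartAt_source m)).1 hm
  obtain ⟨r, hr, hrt⟩ := CPoinc_ball hR hz
  have hD : RelOpen (HB (xc n m m) (r / 2)) := CPoinc_rel_HB _ _
  have hDK : HB (xc n m m) (r / 2) ⊆ Metric.closedBall (xc n m m) (r / 2) ∩ Hs n :=
    inter_subset_inter_left _ Metric.ball_subset_closedBall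
  have hKt := CPoinc_closedBall hr hrt
  obtain ⟨b, hb, hb'⟩ := CPoinc_cmp hL hI P m (CPoinc_rel_meas hD) (CPoinc_compact _ _) hDK hKt
  obtain ⟨C, hC⟩ := (hA n N (P.loc m) (xc n m m) r (r / 2) (by linarith) (by linarith only [hr])
    (hR.subset hz) (CPoinc_okmono hOk hrt)).1 hz0
  refine ⟨(xc n m).symm '' HB (xc n m m) (r / 2), CPoinc_open hR.subset hD (hDK.trans hKt),
    ⟨xc n m m, ⟨Metric.mem_ball_self (by linarith only [hr]), hR.subset hz⟩,
      (xc n m).left_inv (mem_extChartAt_source m)⟩, b * |C|, by (clear * - hb; positivity), fun φ hφ hφ0 => ?_⟩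
  have h1 := (hb' φ hφ).1
  have h2 := hC (lu (𝓡∂ n) m φ) (((hL n N M).2.2.2 φ hφ m).mono hrt) fun y hy hy0 => by
    refine hφ0 _ (((hL n N M).2.2.1 m _ ((xc n m).map_target (hrt hy))).2 ?_)
    rw [(xc n m).right_inv (hrt hy)]
    exact hy0
  have h3 := ((hE n N M P m _ hD (hDK.trans hKt)).2 φ hφ).1
  have h4 := CPoinc_En (CPoinc_okmono hOk (hDK.trans hKt)) (CPoinc_rel_meas hD)
    (fun _ => rfl) (lu (𝓡∂ n) m φ)
  calc ∫ x in (xc n m).symm '' HB (xc n m m) (r / 2), ‖φ x‖ ^ 2 ∂P.μ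
      ≤ b * ∫ y in HB (xc n m m) (r / 2), ‖lu (𝓡∂ n) m φ y‖ ^ 2 := h1
    _ ≤ b * (C * (En (P.loc m) (HB (xc n m m) (r / 2)) (lu (𝓡∂ n) m φ) (lu (𝓡∂ n) m φ)).re) :=
        mul_le_mul_of_nonneg_left h2 hb.le
    _ ≤ b * (|C| * (P.E φ φ).re) := by
        refine mul_le_mul_of_nonneg_left ?_ hb.le
        exact (mul_le_mul_of_nonneg_right (le_abs_self C) h4).trans
          (mul_le_mul_of_nonneg_left h3 (abs_nonneg C))
    _ = b * |C| * (P.E φ φ).re := by ring

theorem CPoinc_step (hA : APoincare_statement) (hL : CLoc_statement.{u})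
    (hE : CEnergy_statement.{u}) (hI : CInt_statement.{u}) (P : One n N M) {m : M}
    (hm : m ∈ closure {m : M | ∃ O : Set M, IsOpen O ∧ m ∈ O ∧ CPoinc_P P O}) :
    ∃ O : Set M, IsOpen O ∧ m ∈ O ∧ CPoinc_P P O := by
  have hR : RelOpen (tg n m) := (hL n N M).1 m
  have hOk := (hL n N M).2.1 P m
  have hz : xc n m m ∈ tg n m := mem_extChartAt_target m
  obtain ⟨r, hr, hrt⟩ := CPoinc_ball hR hz
  have hD : RelOpen (HB (xc n m m) (r / 2)) := CPoinc_rel_HB _ _
  have hDK : HB (xc n m m) (r / 2) ⊆ Metric.closedBall (xc n m m) (r / 2) ∩ Hs n :=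
    inter_subset_inter_left _ Metric.ball_subset_closedBall
  have hKt := CPoinc_closedBall hr hrt
  obtain ⟨b, hb, hb'⟩ := CPoinc_cmp hL hI P m (CPoinc_rel_meas hD) (CPoinc_compact _ _) hDK hKt
  have hO := CPoinc_open (n := n) hR.subset hD (hDK.trans hKt)
  have hmO : m ∈ (xc n m).symm '' HB (xc n m m) (r / 2) :=
    ⟨xc n m m, ⟨Metric.mem_ball_self (by linarith only [hr]), hR.subset hz⟩,
      (xc n m).left_inv (mem_extChartAt_source m)⟩
  obtain ⟨_, ⟨y, hy, rfl⟩, O', hO', hyO', C', hC', hP'⟩ := mem_closure_iff.1 hm _ hO hmO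
  have hyt : y ∈ tg n m := hKt (hDK hy)
  have hn : {x | x ∈ HB (xc n m m) (r / 2) ∧ (xc n m).symm x ∈ O'} ∈ 𝓝[Hs n] y := by
    refine inter_mem (hD.mem_nhds hy) ?_
    rw [← hR.nhdsWithin hyt]
    exact continuousOn_extChartAt_symm m y hyt (hO'.mem_nhds hyO')
  obtain ⟨s, hs, hsb⟩ := Metric.mem_nhdsWithin_iff.1 hn
  have hD' : RelOpen (HB y s) := CPoinc_rel_HB _ _
  have hs1 : HB y s ⊆ HB (xc n m m) (r / 2) := fun x hx => (hsb hx).1
  have hs2 : (xc n m).symm '' HB y s ⊆ O' := by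
    rintro _ ⟨x, hx, rfl⟩
    exact (hsb hx).2
  obtain ⟨b', hb1, hb2⟩ := CPoinc_cmp hL hI P m (CPoinc_rel_meas hD') (CPoinc_compact _ _)
    (hs1.trans hDK) hKt
  obtain ⟨C, hC⟩ := (hA n N (P.loc m) (xc n m m) r (r / 2) (by linarith only [hr]) (by linarith only [hr])
    (hR.subset hz) (CPoinc_okmono hOk hrt)).2 y s hs hs1 (hR.subset hyt)
  refine ⟨_, hO, hmO, b * (|C| * (b' * C' + volume.real (HB y s))), by positivity, fun φ hφ hφ0 => ?_⟩
  have h1 := (hb' φ hφ).1
  have h2 := hC (lu (𝓡∂ n) m φ) (((hL n N M).2.2.2 φ hφ m).mono hrt)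
  have h3 := ((hE n N M P m _ hD (hDK.trans hKt)).2 φ hφ).1
  have h4 := CPoinc_En (CPoinc_okmono hOk (hDK.trans hKt)) (CPoinc_rel_meas hD)
    (fun _ => rfl) (lu (𝓡∂ n) m φ)
  have h5 : ∫ x in (xc n m).symm '' HB y s, ‖φ x‖ ^ 2 ∂P.μ ≤ ∫ x in O', ‖φ x‖ ^ 2 ∂P.μ :=
    setIntegral_mono_set (CPoinc_integrable hI P hφ).integrableOn
      (Eventually.of_forall fun x => by (clear * -; positivity)) (LE.le.eventuallyLE hs2)
  have h6 : ∫ y in HB y s, ‖lu (𝓡∂ n) m φ y‖ ^ 2 ≤ b' * (C' * (P.E φ φ).re) :=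
    (hb2 φ hφ).2.trans (mul_le_mul_of_nonneg_left (h5.trans (hP' φ hφ hφ0)) hb1.le)
  have h7 : 0 ≤ ∫ y in HB y s, ‖lu (𝓡∂ n) m φ y‖ ^ 2 :=
    integral_nonneg fun x => by (clear hA hL hE hI P hm hR hOk hz r hr hrt hD hDK hKt b hb hb' hO hmO y hy O' hO' hyO' C' hC' hP' hyt hn s hs hsb hD' hs1 hs2 b' hb1 hb2 C hC hφ hφ0 h1 h2 h3 h4 h5 h6; positivity)
  refine h1.trans ?_
  rw [mul_assoc]
  refine mul_le_mul_of_nonneg_left (h2.trans ?_) hb.le
  rw [mul_assoc]
  have hfin : volume (HB y s) ≠ ⊤ :=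
    ((measure_mono inter_subset_left).trans_lt measure_ball_lt_top).ne
  have hint : IntegrableOn (fun x => ‖lu (𝓡∂ n) m φ x‖ ^ 2) (HB y s) :=
    (((((hL n N M).2.2.2 φ hφ m).continuousOn.mono hKt).norm.pow 2).integrableOn_compact
      (CPoinc_compact _ _)).mono_set (hs1.trans hDK)
  rw [integral_add hint (integrableOn_const hfin), setIntegral_const, smul_eq_mul]
  have hV : 0 ≤ volume.real (HB y s) := measureReal_nonneg
  refine (mul_le_mul_of_nonneg_right (le_abs_self C) (add_nonneg h7 (mul_nonneg hV h4))).trans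
    (mul_le_mul_of_nonneg_left ?_ (abs_nonneg C))
  have h8 := mul_le_mul_of_nonneg_left h3 hV
  (clear hA hL hm hR hOk hz b hb hb' hO hmO hy hO' hyO' hC' hyt hn hs hD' hs1 C hC h1 h2 h4 h7 hfin hint; linarith)

theorem CPoinc_all [ConnectedSpace M] (hA : APoincare_statement) (hL : CLoc_statement.{u})
    (hE : CEnergy_statement.{u}) (hI : CInt_statement.{u}) (P : One n N M)
    (hne : ((𝓡∂ n).boundary M).Nonempty) (m : M) :
    ∃ O : Set M, IsOpen O ∧ m ∈ O ∧ CPoinc_P P O := by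
  have h : IsClopen {m : M | ∃ O : Set M, IsOpen O ∧ m ∈ O ∧ CPoinc_P P O} := by
    constructor
    · exact isClosed_of_closure_subset fun x hx => CPoinc_step hA hL hE hI P hx
    · refine isOpen_iff_forall_mem_open.2 ?_
      rintro x ⟨O, hO, hx, hP⟩
      exact ⟨O, fun y hy => ⟨O, hO, hy, hP⟩, hO, hx⟩
  obtain ⟨q, hq⟩ := hne
  have := h.eq_univ ⟨q, CPoinc_bd hA hL hE hI P hq⟩
  have hm : m ∈ {m : M | ∃ O : Set M, IsOpen O ∧ m ∈ O ∧ CPoinc_P P O} := by
    rw [this]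
    exact mem_univ m
  exact hm

theorem CPoinc_univ [ConnectedSpace M] (hA : APoincare_statement) (hL : CLoc_statement.{u})
    (hE : CEnergy_statement.{u}) (hI : CInt_statement.{u}) (P : One n N M)
    (hne : ((𝓡∂ n).boundary M).Nonempty) : CPoinc_P P univ := by
  obtain ⟨q, hq⟩ := hne
  refine isCompact_univ.induction_on (p := fun S => CPoinc_P P S) ?_ ?_ ?_ ?_
  · refine ⟨0, le_rfl, fun φ _ _ => ?_⟩
    simp
  · rintro S T hST ⟨C, hC, h⟩
    refine ⟨C, hC, fun φ hφ hφ0 => le_trans ?_ (h φ hφ hφ0)⟩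
    exact setIntegral_mono_set (CPoinc_integrable hI P hφ).integrableOn
      (Eventually.of_forall fun x => by (clear * -; positivity)) (LE.le.eventuallyLE hST)
  · rintro S T ⟨C, hC, h⟩ ⟨C', hC', h'⟩
    refine ⟨C + C', by positivity, fun φ hφ hφ0 => ?_⟩
    have hi := CPoinc_integrable hI P hφ
    have h1 : ∫ x in S ∪ T, ‖φ x‖ ^ 2 ∂P.μ ≤
        ∫ x, ‖φ x‖ ^ 2 ∂(P.μ.restrict S + P.μ.restrict T) :=
      integral_mono_measure (Measure.restrict_union_le S T)
        (Eventually.of_forall fun x => by (clear * -; positivity))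
        (Integrable.add_measure hi.integrableOn hi.integrableOn)
    rw [integral_add_measure hi.integrableOn hi.integrableOn] at h1
    have h2 := h φ hφ hφ0
    have h3 := h' φ hφ hφ0
    linarith
  · rintro x -
    obtain ⟨O, hO, hx, hP⟩ := CPoinc_all hA hL hE hI P ⟨q, hq⟩ x
    exact ⟨O, mem_nhdsWithin_of_mem_nhds (hO.mem_nhds hx), hP⟩

end mani

/-- The Poincaré inequality. -/
theorem cPoinc (hA : APoincare_statement) (hL : CLoc_statement.{u})
    (hE : CEnergy_statement.{u}) (hI : CInt_statement.{u}) : CPoinc_statement.{u} := by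
  intro n N _ M _ _ _ _ _ _ _ _ P hne
  obtain ⟨C, hC, h⟩ := CPoinc_univ hA hL hE hI P hne
  obtain ⟨q, hq⟩ := hne
  refine ⟨C + 1, by positivity, fun φ hφ hφ0 => ?_⟩
  have h1 := h φ hφ hφ0
  have h2 := CPoinc_E0 hE P q hφ
  rw [Measure.restrict_univ] at h1
  (clear hA hL hE hI hC h q hq hφ hφ0; linarith)

end Vale.Agent.P088.EYM
end
end

section

/-!
# P088-EYM, block C: unique continuation on `M`
-/

open Bundle Manifold MeasureTheory Set Filter Topology
open scoped ContDiff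

noncomputable section

namespace Vale.Agent.P088.EYM

universe u

variable {n N : ℕ} [NeZero n]

lemma cUcp_Ok_mono {L : LD n N} {D D' : Set (E n)} (h : L.Ok D) (hD : D' ⊆ D) : L.Ok D' where
  g_smooth i j := (h.g_smooth i j).mono hD
  g_pos x hx := h.g_pos x (hD hx)
  B_smooth i := (h.B_smooth i).mono hD
  h_smooth := h.h_smooth.mono hD
  h_adj x hx := h.h_adj x (hD hx)
  h_pos x hx := h.h_pos x (hD hx)
  compat x hx := h.compat x (hD hx)

lemma cUcp_Sol_mono {L : LD n N} {D D' : Set (E n)} {c : E n → Fib N} (h : Sol L D c)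
    (hD : D' ⊆ D) : Sol L D' c :=
  ⟨h.1.mono hD, fun x hx => h.2 x (hD hx)⟩

lemma cUcp_limit {z : E n} {r : ℝ} {c : E n → Fib N} (hc : ContinuousOn c (HB z r))
    (h0 : ∀ y ∈ Metric.ball z r ∩ {y : E n | 0 < y 0}, c y = 0) : ∀ y ∈ HB z r, c y = 0 := by
  intro y hy
  have hpath : Tendsto (fun t : ℝ => y + t • ev (n := n) 0) (𝓝[>] 0) (𝓝[HB z r] y) := by
    apply tendsto_nhdsWithin_iff.2
    have hc0 : Tendsto (fun t : ℝ => y + t • ev (n := n) 0) (𝓝[>] 0) (𝓝 y) := by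
      have : Continuous (fun t : ℝ => y + t • ev (n := n) 0) := by fun_prop
      have h1 := this.tendsto 0
      simp only [zero_smul, add_zero] at h1
      exact h1.mono_left nhdsWithin_le_nhds
    refine ⟨hc0, ?_⟩
    have h2 : ∀ᶠ t : ℝ in 𝓝[>] 0, y + t • ev (n := n) 0 ∈ Metric.ball z r :=
      hc0.eventually (Metric.isOpen_ball.mem_nhds hy.1)
    filter_upwards [h2, self_mem_nhdsWithin] with t ht ht0
    refine ⟨ht, ?_⟩
    have h3 : 0 ≤ y 0 := hy.2
    have h4 : (0 : ℝ) < t := ht0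
    show 0 ≤ (y + t • ev (n := n) 0) 0
    simp only [PiLp.add_apply, PiLp.smul_apply, PiLp.single_eq_same, smul_eq_mul, mul_one]
    linarith
  have hlim : Tendsto (fun t : ℝ => c (y + t • ev (n := n) 0)) (𝓝[>] 0) (𝓝 (c y)) :=
    (hc y hy).tendsto.comp hpath
  have hzero : ∀ᶠ t : ℝ in 𝓝[>] 0, c (y + t • ev (n := n) 0) = 0 := by
    have h2 := (tendsto_nhdsWithin_iff.1 hpath).2
    filter_upwards [h2, self_mem_nhdsWithin] with t ht ht0
    apply h0
    refine ⟨ht.1, ?_⟩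
    have h3 : 0 ≤ y 0 := hy.2
    have h4 : (0 : ℝ) < t := ht0
    show 0 < (y + t • ev (n := n) 0) 0
    simp only [PiLp.add_apply, PiLp.smul_apply, PiLp.single_eq_same, smul_eq_mul, mul_one]
    linarith
  exact tendsto_nhds_unique hlim (tendsto_const_nhds.congr' (hzero.mono fun t ht => ht.symm))

theorem cUcp : LinInt_statement → CHarm_statement.{u} → CLoc_statement.{u} → CConn_statement.{u} →
    CUcp_statement.{u} := by
  intro hLin hHarm hLoc hConn n N _ M _ _ _ _ _ _ _ _ P f u hu O hO hOn hO0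
  obtain ⟨hRO, hOk, hbd, -⟩ := hLoc n N M
  obtain ⟨-, -, hdense⟩ := hConn n M
  set Z : Set M := interior {x | u x = 0} with hZ
  have hZo : IsOpen Z := isOpen_interior
  have hZ0 : ∀ x ∈ Z, u x = 0 := by
    intro x hx
    have h1 : x ∈ {x | u x = 0} := interior_subset hx
    exact h1
  have hZn : Z.Nonempty := by
    obtain ⟨x, hx⟩ := hOn
    exact ⟨x, mem_interior.2 ⟨O, fun y hy => hO0 y hy, hO, hx⟩⟩
  have hZc : IsClosed Z := by
    apply isClosed_of_closure_subset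
    intro x hx
    set e := xc n x with he
    set z := e x with hz
    have hxs : x ∈ e.source := mem_extChartAt_source x
    have hzt : z ∈ e.target := e.map_source hxs
    obtain ⟨O', hO', htg⟩ := hRO x
    have htg' : e.target = O' ∩ Hs n := htg
    have hzO : z ∈ O' := (htg' ▸ hzt).1
    obtain ⟨r, hr, hball⟩ := Metric.isOpen_iff.1 hO' z hzO
    have hHB : HB z r ⊆ e.target := by
      intro y hy
      rw [htg']
      exact ⟨hball hy.1, hy.2⟩
    have hsol := hHarm n N M P f u hu x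
    set D : Set (E n) := Metric.ball z r ∩ {y : E n | 0 < y 0} with hD
    have hDo : IsOpen D := by
      apply Metric.isOpen_ball.inter
      exact isOpen_lt continuous_const (EuclideanSpace.proj (𝕜 := ℝ) (0 : Fin n)).continuous
    have hDHB : D ⊆ HB z r := by
      intro y hy
      have h1 : (0 : ℝ) < y 0 := hy.2
      exact ⟨hy.1, show (0 : ℝ) ≤ y 0 from h1.le⟩
    have hDt : D ⊆ e.target := hDHB.trans hHB
    have hDHs : D ⊆ Hs n := fun y hy => (hDHB hy).2
    have hDconv : Convex ℝ D := by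
      apply (convex_ball z r).inter
      exact convex_halfSpace_gt (EuclideanSpace.proj (𝕜 := ℝ) (0 : Fin n)).toLinearMap.isLinear 0
    have hcs : ContinuousOn e.symm e.target := continuousOn_extChartAt_symm x
    -- the neighbourhood of `x`
    set W : Set M := e.source ∩ e ⁻¹' Metric.ball z r with hW
    have hWo : IsOpen W :=
      (continuousOn_extChartAt x).isOpen_inter_preimage (isOpen_extChartAt_source x)
        Metric.isOpen_ball
    have hxW : x ∈ W := ⟨hxs, Metric.mem_ball_self hr⟩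
    obtain ⟨m0, hm0W, hm0Z⟩ := mem_closure_iff.1 hx W hWo hxW
    obtain ⟨m, ⟨hmW, hmZ⟩, hmi⟩ := mem_closure_iff.1 (hdense m0) (W ∩ Z) (hWo.inter hZo)
      ⟨hm0W, hm0Z⟩
    have hem : e m ∈ D := by
      refine ⟨hmW.2, ?_⟩
      have h1 : e m ∈ Hs n := (htg' ▸ e.map_source hmW.1 : e m ∈ O' ∩ Hs n).2
      have h2 : (0 : ℝ) ≤ e m 0 := h1
      have h3 : e m 0 ≠ 0 := by
        intro h4
        have h5 := (hbd x m hmW.1).2 h4
        have h6 : m ∉ (𝓡∂ n).boundary M := by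
          intro h7
          exact (ModelWithCorners.disjoint_interior_boundary (I := 𝓡∂ n) (M := M)).le_bot ⟨hmi, h7⟩
        exact h6 h5
      exact lt_of_le_of_ne h2 (Ne.symm h3)
    set U : Set (E n) := D ∩ e.symm ⁻¹' Z with hU
    have hUo : IsOpen U := (hcs.mono hDt).isOpen_inter_preimage hDo hZo
    have hUn : U.Nonempty := ⟨e m, hem, by
      show e.symm (e m) ∈ Z
      rw [e.left_inv hmW.1]; exact hmZ⟩
    have hzeroD := hLin n N (P.loc x) D hDo hDHs (cUcp_Ok_mono (hOk P x) hDt)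
      hDconv.isPreconnected (lu (𝓡∂ n) x u) (cUcp_Sol_mono hsol hDt) U hUo inter_subset_left hUn
      (fun y hy => hZ0 _ hy.2)
    have hzeroHB := cUcp_limit (hsol.1.continuousOn.mono hHB) hzeroD
    apply mem_interior.2
    refine ⟨W, ?_, hWo, hxW⟩
    intro w hw
    have h1 : e w ∈ HB z r := ⟨hw.2, (htg' ▸ e.map_source hw.1 : e w ∈ O' ∩ Hs n).2⟩
    have h2 := hzeroHB _ h1
    have h3 : lu (𝓡∂ n) x u (e w) = u w := by
      show u (e.symm (e w)) = u w
      rw [e.left_inv hw.1]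
    show u w = 0
    rw [← h3]; exact h2
  have huniv : Z = univ := IsClopen.eq_univ ⟨hZc, hZo⟩ hZn
  intro x
  exact hZ0 x (huniv ▸ mem_univ x)

end Vale.Agent.P088.EYM
end
end

section

/-!
# P088-EYM, module CRungeA: the minimising sequence
-/

open Bundle Manifold MeasureTheory Set Filter Topology
open scoped ContDiff

noncomputable section

namespace Vale.Agent.P088.EYM

universe u

section CRungeAMeas

variable {α : Type*} [MeasurableSpace α] {ν : Measure α} {N : ℕ}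

theorem crungea_inner_ae {h φ : α → Fib N} (hh : MemLp h 2 ν) (hφ : MemLp φ 2 ν) :
    (fun x => inner ℂ (hh.toLp h x) (hφ.toLp φ x)) =ᵐ[ν] fun x => inner ℂ (h x) (φ x) := by
  filter_upwards [hh.coeFn_toLp, hφ.coeFn_toLp] with x h1 h2
  rw [h1, h2]

theorem crungea_integrable {h φ : α → Fib N} (hh : MemLp h 2 ν) (hφ : MemLp φ 2 ν) :
    Integrable (fun x => inner ℂ (h x) (φ x)) ν :=
  (L2.integrable_inner (𝕜 := ℂ) (hh.toLp h) (hφ.toLp φ)).congr (crungea_inner_ae hh hφ)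

theorem crungea_inner_eq {h φ : α → Fib N} (hh : MemLp h 2 ν) (hφ : MemLp φ 2 ν) :
    inner ℂ (hh.toLp h) (hφ.toLp φ) = ∫ x, inner ℂ (h x) (φ x) ∂ν := by
  rw [L2.inner_def]
  exact integral_congr_ae (crungea_inner_ae hh hφ)

theorem crungea_norm {φ : α → Fib N} (hφ : MemLp φ 2 ν) :
    ‖hφ.toLp φ‖ ^ 2 = ∫ x, ‖φ x‖ ^ 2 ∂ν := by
  have h1 := crungea_inner_eq hφ hφ
  rw [inner_self_eq_norm_sq_to_K] at h1
  have h2 : ∫ x, inner ℂ (φ x) (φ x) ∂ν = ((∫ x, ‖φ x‖ ^ 2 ∂ν : ℝ) : ℂ) := by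
    rw [← integral_complex_ofReal]
    refine integral_congr_ae (Eventually.of_forall fun x => ?_)
    simp only
    rw [inner_self_eq_norm_sq_to_K]
    push_cast
    rfl
  rw [h2] at h1
  apply Complex.ofReal_injective
  rw [← h1]
  push_cast
  rfl

theorem crungea_cs {h φ : α → Fib N} (hh : MemLp h 2 ν) (hφ : MemLp φ 2 ν) :
    ‖∫ x, inner ℂ (h x) (φ x) ∂ν‖ ^ 2 ≤ (∫ x, ‖h x‖ ^ 2 ∂ν) * ∫ x, ‖φ x‖ ^ 2 ∂ν := by
  rw [← crungea_inner_eq hh hφ, ← crungea_norm hh, ← crungea_norm hφ, ← mul_pow]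
  exact pow_le_pow_left₀ (norm_nonneg _) (norm_inner_le_norm _ _) 2

end CRungeAMeas

section CRungeASm

variable {n N : ℕ} [NeZero n] {M : Type u} [TopologicalSpace M]
  [ChartedSpace (EuclideanHalfSpace n) M] [IsManifold (𝓡∂ n) ∞ M]

theorem crungea_smul {u : M → Fib N} (hu : SmS n u) (a : ℂ) : SmS n (a • u) := by
  have h1 : ContMDiff 𝓘(ℝ, Fib N) 𝓘(ℝ, Fib N) ∞
      ((a • ContinuousLinearMap.id ℂ (Fib N)).restrictScalars ℝ) :=
    ((a • ContinuousLinearMap.id ℂ (Fib N)).restrictScalars ℝ).contMDiff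
  exact h1.comp hu

theorem crungea_add {u v : M → Fib N} (hu : SmS n u) (hv : SmS n v) : SmS n (u + v) :=
  ContMDiff.add hu hv

theorem crungea_sub {u v : M → Fib N} (hu : SmS n u) (hv : SmS n v) : SmS n (u - v) :=
  ContMDiff.sub hu hv

theorem crungea_zero : SmS n (0 : M → Fib N) := contMDiff_const

variable (n N M) in
/-- Smooth sections which vanish on the boundary. -/
def crungeaX : Submodule ℂ (M → Fib N) where
  carrier := {φ | SmS n φ ∧ ∀ x ∈ (𝓡∂ n).boundary M, φ x = 0}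
  add_mem' := fun {a b} ha hb => ⟨crungea_add ha.1 hb.1, fun x hx => by
    rw [Pi.add_apply, ha.2 x hx, hb.2 x hx, add_zero]⟩
  zero_mem' := ⟨crungea_zero, fun _ _ => rfl⟩
  smul_mem' := fun c a ha => ⟨crungea_smul ha.1 c, fun x hx => by
    rw [Pi.smul_apply, ha.2 x hx, smul_zero]⟩

end CRungeASm

theorem cRungeA : CHilb_statement.{u} → CPoinc_statement.{u} → CForm_statement.{u} →
    CUniq_statement.{u} → CInt_statement.{u} → CRungeA_statement.{u} := by
  intro hHilb hPoinc hForm _ hInt n N _ M _ _ _ _ _ _ _ _ P Γ K h hΓ hΓn hsol hK hh horth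
  obtain ⟨f1, f2, f3, f4, f5⟩ := hForm n N M P
  obtain ⟨hfin, -, -⟩ := hInt n N M P
  have hbn : ((𝓡∂ n).boundary M).Nonempty := by
    obtain ⟨O, -, rfl⟩ := hΓ
    exact hΓn.mono inter_subset_right
  obtain ⟨C, hC, hCp⟩ := hPoinc n N M P hbn
  have hmem : ∀ φ : M → Fib N, SmS n φ → MemLp φ 2 P.μ := by
    intro φ hφ
    have hc : Continuous φ := hφ.continuous
    obtain ⟨B, hB⟩ := isCompact_univ.exists_bound_of_continuousOn hc.continuousOn
    exact MemLp.of_bound hc.aestronglyMeasurable B (Eventually.of_forall fun x => hB x trivial)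
  have hint : ∀ φ : M → Fib N, SmS n φ →
      Integrable (fun x => inner ℂ (h x) (φ x)) (P.μ.restrict K) := fun φ hφ =>
    crungea_integrable hh ((hmem φ hφ).restrict K)
  let X := crungeaX n N M
  let l : X →ₗ[ℂ] ℂ :=
    { toFun := fun φ => ∫ x in K, inner ℂ (h x) ((φ : M → Fib N) x) ∂P.μ
      map_add' := fun φ ψ => by
        rw [← integral_add (hint _ φ.2.1) (hint _ ψ.2.1)]
        refine integral_congr_ae (Eventually.of_forall fun x => ?_)
        simp only [Submodule.coe_add, Pi.add_apply, inner_add_right]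
      map_smul' := fun a φ => by
        rw [RingHom.id_apply, smul_eq_mul, ← integral_const_mul]
        refine integral_congr_ae (Eventually.of_forall fun x => ?_)
        simp only [Submodule.coe_smul, Pi.smul_apply, inner_smul_right] }
  have hl : ∀ φ : X, l φ = ∫ x in K, inner ℂ (h x) ((φ : M → Fib N) x) ∂P.μ := fun _ => rfl
  obtain ⟨w, hw1, hw2⟩ := hHilb X (fun u v => P.E (u : M → Fib N) (v : M → Fib N)) l
    ((∫ x in K, ‖h x‖ ^ 2 ∂P.μ) * C) (fun u v w => f1 _ _ _ u.2.1 v.2.1 w.2.1)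
    (fun a u v => f2 a _ _ u.2.1 v.2.1) (fun u v => f3 _ _ u.2.1 v.2.1) (fun u => f4 _ u.2.1)
    (fun u => by
      rw [hl]
      refine (crungea_cs hh ((hmem _ u.2.1).restrict K)).trans ?_
      rw [mul_assoc]
      refine mul_le_mul_of_nonneg_left ?_ (integral_nonneg fun x => by (clear * -; positivity))
      refine le_trans ?_ (hCp _ u.2.1 u.2.2)
      exact setIntegral_le_integral (by
        simpa only using (hmem _ u.2.1).integrable_norm_pow (by norm_num))
        (Eventually.of_forall fun x => by (clear * -; positivity)))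
  refine ⟨fun k => (w k : M → Fib N), fun k => (w k).2.1, fun k => (w k).2.2, ?_, ?_, ?_⟩
  · intro ε hε
    obtain ⟨k₀, hk₀⟩ := hw1 ε hε
    exact ⟨k₀, fun k hk j hj => hk₀ k hk j hj⟩
  · intro ε hε
    obtain ⟨k₀, hk₀⟩ := hw1 (ε / C) (by (clear * - hε hC; positivity))
    refine ⟨k₀, fun k hk j hj => ?_⟩
    have h1 := hk₀ k hk j hj
    have h2 := hCp _ (w k - w j).2.1 (w k - w j).2.2
    have h3 : C * (P.E ((w k - w j : X) : M → Fib N) ((w k - w j : X) : M → Fib N)).re ≤ ε := by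
      calc _ ≤ C * (ε / C) := mul_le_mul_of_nonneg_left h1 hC.le
        _ = ε := by (clear * - hC hε; field_simp)
    exact h2.trans h3
  · intro φ hφ
    obtain ⟨v, hv⟩ := hsol φ hφ
    have hvU : v ∈ P.U Γ := ⟨φ, hφ, hv⟩
    have hvs : SmS n v := hv.smooth
    have hφs : SmS n φ := hφ.smooth
    have hd : φ - v ∈ X := ⟨crungea_sub hφs hvs, fun x hx => by
      rw [Pi.sub_apply, hv.boundary x hx, sub_self]⟩
    have h1 : ∀ k, P.E (w k : M → Fib N) φ = P.E (w k : M → Fib N) (φ - v) := by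
      intro k
      have h2 : P.E (w k : M → Fib N) v = 0 := by
        rw [f3 v _ hvs (w k).2.1]
        have : P.E v (w k : M → Fib N) = 0 := hv.weak _ (w k).2.1 (w k).2.2
        rw [this, map_zero]
      have h3 : φ = v + (φ - v) := by rw [add_sub_cancel]
      conv_lhs => rw [h3]
      rw [f1 _ _ _ (w k).2.1 hvs hd.1, h2, zero_add]
    have h4 := hw2 ⟨φ - v, hd⟩
    have h5 : l ⟨φ - v, hd⟩ = ∫ x in K, inner ℂ (h x) (φ x) ∂P.μ := by
      rw [hl]
      have h6 : ∀ x, inner ℂ (h x) ((φ - v) x) = inner ℂ (h x) (φ x) - inner ℂ (h x) (v x) :=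
        fun x => by rw [Pi.sub_apply, inner_sub_right]
      simp only [h6]
      rw [integral_sub (hint _ hφs) (hint _ hvs), horth v hvU, sub_zero]
    rw [h5] at h4
    simp only [h1]
    exact h4

end Vale.Agent.P088.EYM
end
end

section

/-!
# P088-EYM, block C, Runge B: propagation of the zero set
-/

open Bundle Manifold MeasureTheory Set Filter Topology
open scoped ContDiff

noncomputable section

namespace Vale.Agent.P088.EYM

universe u

set_option linter.unusedSectionVars false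

section prop

variable {n N : ℕ} [NeZero n] {M : Type u} [TopologicalSpace M]
  [ChartedSpace (EuclideanHalfSpace n) M] [IsManifold (𝓡∂ n) ∞ M] [T2Space M] [CompactSpace M]
  [MeasurableSpace M] [BorelSpace M] {P : One n N M} {w : ℕ → M → Fib N}

/-- a small coordinate ball -/
theorem cRungeB_ball (hLoc : CLoc_statement.{u}) (p : M) {V : Set M} (hV : IsOpen V)
    {y : E n} (hy : y ∈ tg n p) (hyV : (xc n p).symm y ∈ V) :
    ∃ r > 0, Metric.closedBall y r ∩ Hs n ⊆ tg n p ∧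
      ∀ y' ∈ Metric.closedBall y r ∩ Hs n, (xc n p).symm y' ∈ V := by
  obtain ⟨O₁, hO₁, ht⟩ := (hLoc n 0 M).1 p
  obtain ⟨O₂, hO₂, ht₂⟩ := continuousOn_iff'.1 (continuousOn_extChartAt_symm (I := 𝓡∂ n) p) V hV
  have h1 : y ∈ O₁ ∩ O₂ := by
    have h2 : y ∈ (xc n p).symm ⁻¹' V ∩ tg n p := ⟨hyV, hy⟩
    rw [ht₂] at h2
    have h3 := hy
    rw [ht] at h3
    exact ⟨h3.1, h2.1⟩
  obtain ⟨r, hr, hsub⟩ := Metric.nhds_basis_closedBall.mem_iff.1
    ((hO₁.inter hO₂).mem_nhds h1)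
  have h4 : Metric.closedBall y r ∩ Hs n ⊆ tg n p := by
    rintro y' ⟨hy', hy''⟩
    rw [ht]
    exact ⟨(hsub hy').1, hy''⟩
  refine ⟨r, hr, h4, fun y' hy' => ?_⟩
  have h5 : y' ∈ O₂ ∩ tg n p := ⟨(hsub hy'.1).2, h4 hy'⟩
  rw [← ht₂] at h5
  exact h5.1

theorem cRungeB_pos_of_mi (hLoc : CLoc_statement.{u}) (p : M) {m : M}
    (hm : m ∈ (xc n p).source) (hmi : m ∈ Mi n M) : 0 < xc n p m 0 := by
  have h1 : xc n p m ∈ Hs n := ((hLoc n 0 M).1 p).subset ((xc n p).map_source hm)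
  have h2 : m ∉ (𝓡∂ n).boundary M := by
    rw [← ModelWithCorners.compl_interior]
    exact fun h => h hmi
  have h3 : xc n p m 0 ≠ 0 := fun h => h2 (((hLoc n 0 M).2.2.1 p m hm).2 h)
  exact lt_of_le_of_ne h1 (Ne.symm h3)

theorem cRungeB_mi_of_pos (hLoc : CLoc_statement.{u}) (p : M) {y : E n} (hy : y ∈ tg n p)
    (h0 : 0 < y 0) : (xc n p).symm y ∈ Mi n M := by
  by_contra h
  have h1 : (xc n p).symm y ∈ (𝓡∂ n).boundary M := by
    rw [← ModelWithCorners.compl_interior]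
    exact h
  have h2 := ((hLoc n 0 M).2.2.1 p _ ((xc n p).map_target hy)).1 h1
  rw [(xc n p).right_inv hy] at h2
  exact h0.ne' h2

theorem cRungeB_ball_pos {y : E n} (hy : 0 < y 0) :
    ∃ r > 0, ∀ r' ≤ r, Metric.closedBall y r' ⊆ {y | 0 < y 0} := by
  have h1 : IsOpen {y : E n | 0 < y 0} := isOpen_lt continuous_const (continuous_coord 0)
  obtain ⟨r, hr, hsub⟩ := Metric.nhds_basis_closedBall.mem_iff.1 (h1.mem_nhds hy)
  exact ⟨r, hr, fun r' hr' => (Metric.closedBall_subset_closedBall hr').trans hsub⟩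

/-- points of the zero set give small balls in a chart -/
theorem cRungeB_small (hInt : CInt_statement.{u}) (hLoc : CLoc_statement.{u})
    (hw : ∀ k, Continuous (w k)) (p : M) {z : E n} {r : ℝ}
    (hsub : Metric.closedBall z r ⊆ tg n p ∩ {y | 0 < y 0}) {y : E n}
    (hy : y ∈ Metric.ball z r) (hyZ : (xc n p).symm y ∈ cRungeB_Z P w) :
    ∃ r' > 0, Metric.closedBall y r' ⊆ Metric.ball z r ∧
      Tendsto (fun k => ∫ x in Metric.ball y r', ‖lu (𝓡∂ n) p (w k) x‖ ^ 2) atTop (𝓝 0) := by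
  obtain ⟨O, hO, hyO, hlim⟩ := hyZ
  obtain ⟨r₁, hr₁, h1, h2⟩ := cRungeB_ball hLoc p hO (hsub (Metric.ball_subset_closedBall hy)).1 hyO
  obtain ⟨r₂, hr₂, h3⟩ := Metric.nhds_basis_closedBall.mem_iff.1 (Metric.isOpen_ball.mem_nhds hy)
  have hle : Metric.closedBall y (min r₁ r₂) ⊆ Metric.ball z r :=
    (Metric.closedBall_subset_closedBall (min_le_right _ _)).trans h3
  have hHs : Metric.closedBall y (min r₁ r₂) ⊆ Hs n := fun x hx =>
    show (0 : ℝ) ≤ x 0 from le_of_lt (hsub (Metric.ball_subset_closedBall (hle hx))).2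
  refine ⟨min r₁ r₂, lt_min hr₁ hr₂, hle, ?_⟩
  refine cRungeB_down hInt hLoc hw p (P := P) (isCompact_closedBall z r)
    (hsub.trans inter_subset_left) measurableSet_ball
    ((Metric.ball_subset_closedBall.trans hle).trans Metric.ball_subset_closedBall) ?_
  refine cRungeB_mono (fun k => cRungeB_integrable P hInt (hw k)) ?_ hlim
  rintro _ ⟨x, hx, rfl⟩
  have hx' := Metric.ball_subset_closedBall hx
  exact h2 x ⟨Metric.closedBall_subset_closedBall (min_le_left _ _) hx', hHs hx'⟩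

/-- propagation in the interior -/
theorem cRungeB_ii (hUI : AUcpInt_statement) (hInt : CInt_statement.{u})
    (hLoc : CLoc_statement.{u}) (hEn : CEnergy_statement.{u}) (hExt : CExt_statement.{u})
    (hbd : IsClosed ((𝓡∂ n).boundary M)) (hw : ∀ k, SmS n (w k))
    (hcE : ∀ ε > 0, ∃ k₀, ∀ k ≥ k₀, ∀ l ≥ k₀, (P.E (w k - w l) (w k - w l)).re ≤ ε)
    (hcL : ∀ ε > 0, ∃ k₀, ∀ k ≥ k₀, ∀ l ≥ k₀, ∫ x, ‖w k x - w l x‖ ^ 2 ∂P.μ ≤ ε)
    {Γ K : Set M} (hK : IsClosed K)
    (hlim : ∀ φ : M → Fib N, IsBdryData (𝓡∂ n) Γ φ → (∀ m ∈ K, φ m = 0) →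
      Tendsto (fun k => P.E (w k) φ) atTop (𝓝 0))
    {m : M} (hm : m ∈ Mi n M) (hmK : m ∉ K) (hmZ : m ∈ closure (cRungeB_Z P w)) :
    m ∈ cRungeB_Z P w := by
  have hwc : ∀ k, Continuous (w k) := fun k => cRungeB_sm_cont (hw k)
  set z := xc n m m with hz
  have hms : m ∈ (xc n m).source := mem_extChartAt_source m
  have hzt : z ∈ tg n m := (xc n m).map_source hms
  have hzm : (xc n m).symm z = m := (xc n m).left_inv hms
  have hz0 : 0 < z 0 := cRungeB_pos_of_mi hLoc m hms hm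
  obtain ⟨r₁, hr₁, h1, h2⟩ := cRungeB_ball hLoc m hK.isOpen_compl hzt (by rw [hzm]; exact hmK)
  obtain ⟨r₂, hr₂, h3⟩ := cRungeB_ball_pos hz0
  obtain ⟨r, hr, hrr₁, hrr₂⟩ : ∃ r > 0, r ≤ r₁ ∧ r ≤ r₂ :=
    ⟨min r₁ r₂, lt_min hr₁ hr₂, min_le_left _ _, min_le_right _ _⟩
  have hpos : Metric.closedBall z r ⊆ {y | 0 < y 0} := h3 r hrr₂
  have hHs : Metric.closedBall z r ⊆ Hs n := fun y hy =>
    show (0 : ℝ) ≤ y 0 from le_of_lt (hpos hy)
  have hin : Metric.closedBall z r ⊆ Metric.closedBall z r₁ ∩ Hs n := fun y hy =>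
    ⟨Metric.closedBall_subset_closedBall hrr₁ hy, hHs hy⟩
  have hct : Metric.closedBall z r ⊆ tg n m := hin.trans h1
  have hbt : Metric.ball z r ⊆ tg n m := Metric.ball_subset_closedBall.trans hct
  have hrel : ∀ (y : E n) (s : ℝ), Metric.ball y s ⊆ Hs n → RelOpen (Metric.ball y s) :=
    fun y s h => ⟨Metric.ball y s, Metric.isOpen_ball, (inter_eq_left.2 h).symm⟩
  have hbHs : Metric.ball z r ⊆ Hs n := Metric.ball_subset_closedBall.trans hHs
  have hD : RelOpen (Metric.ball z r) := hrel z r hbHs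
  -- a point of `Z` in the coordinate ball
  have hV : IsOpen ((xc n m).symm '' Metric.ball z r) := cRungeB_open hLoc m hD hbt
  have hmV : m ∈ (xc n m).symm '' Metric.ball z r := ⟨z, Metric.mem_ball_self hr, hzm⟩
  obtain ⟨_, ⟨y, hy, rfl⟩, hyZ⟩ := mem_closure_iff.1 hmZ _ hV hmV
  obtain ⟨r', hr', hsub, hlim'⟩ := cRungeB_small (P := P) hInt hLoc hwc m
    (fun x hx => ⟨hct hx, hpos hx⟩) hy hyZ
  have key := hUI n N (P.loc m) (Metric.ball z r) Metric.isOpen_ball hbHs
    (cRungeB_ok_mono ((hLoc n N M).2.1 P m) hbt) (convex_ball z r).isPreconnected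
    (fun k => lu (𝓡∂ n) m (w k)) (fun k => ((hLoc n N M).2.2.2 (w k) (hw k) m).mono hbt)
    (fun K' _ hK' => cRungeB_cauchy hInt hLoc hEn hw hcE hcL m hD Metric.ball_subset_closedBall
      (isCompact_closedBall z r) hct hK')
    (fun ψ hψ => cRungeB_test hEn hExt hbd hw hlim m hD hbt
      (fun y hy => h2 y (hin (Metric.ball_subset_closedBall hy)))
      (fun y hy hyb => by
        have h4 := cRungeB_mi_of_pos hLoc m (hbt hy) (hpos (Metric.ball_subset_closedBall hy))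
        rw [← ModelWithCorners.compl_interior] at hyb
        exact absurd h4 hyb)
      hψ.1.contDiffOn hψ.2.1.isCompact hψ.2.2
      (fun y _ hy => image_eq_zero_of_notMem_tsupport hy))
    y r' hr' hsub hlim' (Metric.closedBall z (r / 2)) (isCompact_closedBall _ _)
    (Metric.closedBall_subset_ball (by (clear * - hr; linarith)))
  have hbb : Metric.ball z (r / 2) ⊆ Metric.closedBall z (r / 2) := Metric.ball_subset_closedBall
  have hcc : Metric.closedBall z (r / 2) ⊆ Metric.closedBall z r :=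
    Metric.closedBall_subset_closedBall (by linarith only [hr])
  have key2 := cRungeB_up (P := P) hInt hLoc hwc m (isCompact_closedBall z r) hct
    measurableSet_closedBall hcc key
  refine ⟨(xc n m).symm '' Metric.ball z (r / 2), ?_, ⟨z, Metric.mem_ball_self (by linarith only [hr]), hzm⟩,
    cRungeB_mono (fun k => cRungeB_integrable P hInt (hwc k)) (image_mono hbb) key2⟩
  exact cRungeB_open hLoc m (hrel _ _ (hbb.trans (hcc.trans hHs))) (hbb.trans (hcc.trans hct))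

/-- the sequence tends to zero near `Γ` -/
theorem cRungeB_i (hUB : AUcpBd_statement) (hInt : CInt_statement.{u})
    (hLoc : CLoc_statement.{u}) (hEn : CEnergy_statement.{u}) (hExt : CExt_statement.{u})
    (hbd : IsClosed ((𝓡∂ n).boundary M)) (hw : ∀ k, SmS n (w k))
    (hw0 : ∀ k, ∀ x ∈ (𝓡∂ n).boundary M, w k x = 0)
    (hcE : ∀ ε > 0, ∃ k₀, ∀ k ≥ k₀, ∀ l ≥ k₀, (P.E (w k - w l) (w k - w l)).re ≤ ε)
    (hcL : ∀ ε > 0, ∃ k₀, ∀ k ≥ k₀, ∀ l ≥ k₀, ∫ x, ‖w k x - w l x‖ ^ 2 ∂P.μ ≤ ε)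
    {Γ K : Set M} (hK : IsClosed K) (hKi : K ⊆ Mi n M) (hΓ : RelBd n Γ)
    (hlim : ∀ φ : M → Fib N, IsBdryData (𝓡∂ n) Γ φ → (∀ m ∈ K, φ m = 0) →
      Tendsto (fun k => P.E (w k) φ) atTop (𝓝 0))
    {p : M} (hp : p ∈ Γ) : p ∈ cRungeB_Z P w := by
  have hwc : ∀ k, Continuous (w k) := fun k => cRungeB_sm_cont (hw k)
  obtain ⟨O, hO, hΓO⟩ := hΓ
  have hpO : p ∈ O ∩ (𝓡∂ n).boundary M := hΓO ▸ hp
  have hpK : p ∉ K := by
    intro h
    have h1 := hKi h
    have h2 := hpO.2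
    rw [← ModelWithCorners.compl_interior] at h2
    exact h2 h1
  set z := xc n p p with hz
  have hps : p ∈ (xc n p).source := mem_extChartAt_source p
  have hzt : z ∈ tg n p := (xc n p).map_source hps
  have hzp : (xc n p).symm z = p := (xc n p).left_inv hps
  have hz0 : z 0 = 0 := ((hLoc n 0 M).2.2.1 p p hps).1 hpO.2
  obtain ⟨r, hr, h1, h2⟩ := cRungeB_ball hLoc p (hO.inter hK.isOpen_compl) hzt
    (by rw [hzp]; exact ⟨hpO.1, hpK⟩)
  have hC : IsCompact (Metric.closedBall z r ∩ Hs n) :=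
    (isCompact_closedBall z r).inter_right isClosed_Hs
  have hDC : HB z r ⊆ Metric.closedBall z r ∩ Hs n :=
    inter_subset_inter_left _ Metric.ball_subset_closedBall
  have hD : RelOpen (HB z r) := ⟨Metric.ball z r, Metric.isOpen_ball, rfl⟩
  have hDt : HB z r ⊆ tg n p := hDC.trans h1
  obtain ⟨r', hr', hrr, hlim'⟩ := hUB n N (P.loc p) z r hr hz0
    (cRungeB_ok_mono ((hLoc n N M).2.1 P p) hDt)
    (fun k => lu (𝓡∂ n) p (w k)) (fun k => ((hLoc n N M).2.2.2 (w k) (hw k) p).mono hDt)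
    (fun k y hy hy0 => by
      refine hw0 k _ (((hLoc n 0 M).2.2.1 p _ ((xc n p).map_target (hDt hy))).2 ?_)
      rw [(xc n p).right_inv (hDt hy)]
      exact hy0)
    (cRungeB_cauchy hInt hLoc hEn hw hcE hcL p hD hDC hC h1 subset_rfl)
    (fun k => (((cRungeB_h1_cont hLoc p (hw k)).mono h1).integrableOn_compact hC).mono_set hDC)
    (fun ψ hψ => cRungeB_test hEn hExt hbd hw hlim p hD hDt
      (fun y hy => (h2 y (hDC hy)).2)
      (fun y hy hyb => by
        rw [hΓO]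
        exact ⟨(h2 y (hDC hy)).1, hyb⟩)
      hψ.1.contDiffOn (hψ.2.1.isCompact.inter_right isClosed_Hs)
      (inter_subset_inter_left _ hψ.2.2)
      (fun y hy hy' => image_eq_zero_of_notMem_tsupport fun h => hy' ⟨h, hy.2⟩))
  have hrel : RelOpen (HB z r') := ⟨Metric.ball z r', Metric.isOpen_ball, rfl⟩
  have hsub : HB z r' ⊆ HB z r := inter_subset_inter_left _ (Metric.ball_subset_ball hrr)
  refine ⟨(xc n p).symm '' HB z r', cRungeB_open hLoc p hrel (hsub.trans hDt),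
    ⟨z, ⟨Metric.mem_ball_self hr', le_of_eq hz0.symm⟩, hzp⟩, ?_⟩
  exact cRungeB_up hInt hLoc hwc p hC h1
    (measurableSet_ball.inter isClosed_Hs.measurableSet) (hsub.trans hDC) hlim'

end prop

end Vale.Agent.P088.EYM
end
end

section

/-!
# P088-EYM, block C, Runge B: the sequence tends to zero around the two balls
-/

open Bundle Manifold MeasureTheory Set Filter Topology
open scoped ContDiff

noncomputable section

namespace Vale.Agent.P088.EYM

universe u

set_option linter.unusedSectionVars false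

/-- an annulus is preconnected in dimension at least two -/
theorem cRungeB_annulus {n : ℕ} (hn : 2 ≤ n) (z : E n) {ρ R : ℝ} (hρ : 0 < ρ) :
    IsPreconnected (Metric.ball z R \ Metric.closedBall z ρ) := by
  have hrank : 1 < Module.rank ℝ (E n) := by
    rw [← Module.finrank_eq_rank, finrank_euclideanSpace_fin]
    exact_mod_cast hn
  have hp : IsPreconnected (Ioo ρ R ×ˢ Metric.sphere (0 : E n) 1) :=
    isPreconnected_Ioo.prod (isPreconnected_sphere hrank 0 1)
  have hc : Continuous (fun p : ℝ × E n => z + p.1 • p.2) :=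
    continuous_const.add (continuous_fst.smul continuous_snd)
  have himg : (fun p : ℝ × E n => z + p.1 • p.2) '' (Ioo ρ R ×ˢ Metric.sphere (0 : E n) 1) =
      Metric.ball z R \ Metric.closedBall z ρ := by
    ext y
    constructor
    · rintro ⟨⟨t, v⟩, ⟨⟨ht1, ht2⟩, hv⟩, rfl⟩
      simp only [mem_sphere_zero_iff_norm] at hv ht1 ht2
      have ht0 : 0 < t := hρ.trans ht1
      have hd : dist (z + t • v) z = t := by
        rw [dist_eq_norm, add_sub_cancel_left, norm_smul, hv, mul_one, Real.norm_eq_abs,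
          abs_of_pos ht0]
      refine ⟨?_, ?_⟩
      · rw [Metric.mem_ball]
        exact hd.trans_lt ht2
      · rw [Metric.mem_closedBall, not_le]
        exact ht1.trans_eq hd.symm
    · rintro ⟨h1, h2⟩
      rw [Metric.mem_ball, dist_eq_norm] at h1
      rw [Metric.mem_closedBall, not_le, dist_eq_norm] at h2
      have h0 : 0 < ‖y - z‖ := hρ.trans h2
      refine ⟨(‖y - z‖, (‖y - z‖⁻¹ : ℝ) • (y - z)), ⟨⟨h2, h1⟩, ?_⟩, ?_⟩
      · rw [mem_sphere_zero_iff_norm, norm_smul, norm_inv, norm_norm, inv_mul_cancel₀ h0.ne']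
      · simp only [smul_smul]
        rw [mul_inv_cancel₀ h0.ne', one_smul, add_sub_cancel]
  rw [← himg]
  exact hp.image _ hc.continuousOn

/-- the topological argument -/
theorem cRungeB_top {M : Type u} [TopologicalSpace M] {I Z K₁ K₂ B B' : Set M}
    (hIp : IsPreconnected I) (hIo : IsOpen I) (hId : ∀ x, x ∈ closure I)
    (hZ : IsOpen Z) (hK₁ : IsClosed K₁) (hK₂ : IsClosed K₂) (hB : IsOpen B) (hB' : IsOpen B')
    (hBI : B ⊆ I) (hBI' : B' ⊆ I) (hBB : Disjoint B B') (h₁ : K₁ ⊆ B) (h₂ : K₂ ⊆ B')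
    (hA : IsPreconnected (B \ K₁)) (hA' : IsPreconnected (B' \ K₂))
    (hii : ∀ m ∈ I, m ∉ K₁ ∪ K₂ → m ∈ closure Z → m ∈ Z)
    (hne : ∃ p ∈ Z, p ∉ K₁ ∪ K₂) (hn₁ : K₁.Nonempty) (hn₂ : K₂.Nonempty) :
    B \ K₁ ⊆ Z ∧ B' \ K₂ ⊆ Z := by
  have hnot : ∀ {x}, x ∈ B → x ∈ B' → False := fun hx hx' =>
    disjoint_left.1 hBB hx hx'
  have e1 : ((B \ K₁) ∩ Z).Nonempty → B \ K₁ ⊆ Z := by
    intro h
    refine hA.subset_of_closure_inter_subset hZ h ?_
    rintro m ⟨hm, hmB, hmK⟩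
    exact hii m (hBI hmB) (fun h' => h'.elim hmK fun h'' => hnot hmB (h₂ h'')) hm
  have e2 : ((B' \ K₂) ∩ Z).Nonempty → B' \ K₂ ⊆ Z := by
    intro h
    refine hA'.subset_of_closure_inter_subset hZ h ?_
    rintro m ⟨hm, hmB, hmK⟩
    exact hii m (hBI' hmB) (fun h' => h'.elim (fun h'' => hnot (h₁ h'') hmB) hmK) hm
  set T : Set M := (Z ∩ (I ∩ (K₁ ∪ K₂)ᶜ)) ∪ ({m | m ∈ B ∧ ((B \ K₁) ∩ Z).Nonempty} ∪
    {m | m ∈ B' ∧ ((B' \ K₂) ∩ Z).Nonempty}) with hT
  have hTo : IsOpen T := by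
    refine (hZ.inter (hIo.inter (hK₁.union hK₂).isOpen_compl)).union (IsOpen.union ?_ ?_)
    · exact hB.and isOpen_const
    · exact hB'.and isOpen_const
  have hTne : (I ∩ T).Nonempty := by
    obtain ⟨p, hpZ, hpK⟩ := hne
    obtain ⟨q, ⟨hqZ, hqK⟩, hqI⟩ := mem_closure_iff.1 (hId p) (Z ∩ (K₁ ∪ K₂)ᶜ)
      (hZ.inter (hK₁.union hK₂).isOpen_compl) ⟨hpZ, hpK⟩
    exact ⟨q, hqI, Or.inl ⟨hqZ, hqI, hqK⟩⟩
  have hTc : closure T ∩ I ⊆ T := by
    rintro m ⟨hm, hmI⟩
    by_cases hm1 : m ∈ K₁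
    · obtain ⟨t, htB, ht⟩ := mem_closure_iff.1 hm B hB (h₁ hm1)
      rcases ht with ⟨htZ, htI, htK⟩ | ⟨-, hne'⟩ | ⟨htB', -⟩
      · exact Or.inr (Or.inl ⟨h₁ hm1, t, ⟨htB, fun h => htK (Or.inl h)⟩, htZ⟩)
      · exact Or.inr (Or.inl ⟨h₁ hm1, hne'⟩)
      · exact (hnot htB htB').elim
    by_cases hm2 : m ∈ K₂
    · obtain ⟨t, htB, ht⟩ := mem_closure_iff.1 hm B' hB' (h₂ hm2)
      rcases ht with ⟨htZ, htI, htK⟩ | ⟨htB', -⟩ | ⟨-, hne'⟩
      · exact Or.inr (Or.inr ⟨h₂ hm2, t, ⟨htB, fun h => htK (Or.inr h)⟩, htZ⟩)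
      · exact (hnot htB' htB).elim
      · exact Or.inr (Or.inr ⟨h₂ hm2, hne'⟩)
    have hmK : m ∉ K₁ ∪ K₂ := fun h => h.elim hm1 hm2
    refine Or.inl ⟨hii m hmI hmK ?_, hmI, hmK⟩
    rw [mem_closure_iff]
    intro V hV hmV
    obtain ⟨t, ⟨htV, htK⟩, ht⟩ := mem_closure_iff.1 hm (V ∩ (K₁ ∪ K₂)ᶜ)
      (hV.inter (hK₁.union hK₂).isOpen_compl) ⟨hmV, hmK⟩
    refine ⟨t, htV, ?_⟩
    rcases ht with ⟨htZ, -, -⟩ | ⟨htB, hne'⟩ | ⟨htB', hne'⟩
    · exact htZ
    · exact e1 hne' ⟨htB, fun h => htK (Or.inl h)⟩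
    · exact e2 hne' ⟨htB', fun h => htK (Or.inr h)⟩
  have hIT : I ⊆ T := hIp.subset_of_closure_inter_subset hTo hTne hTc
  constructor
  · obtain ⟨c, hc⟩ := hn₁
    rcases hIT (hBI (h₁ hc)) with ⟨-, -, hcK⟩ | ⟨-, hne'⟩ | ⟨hcB', -⟩
    · exact absurd (Or.inl hc) hcK
    · exact e1 hne'
    · exact (hnot (h₁ hc) hcB').elim
  · obtain ⟨c, hc⟩ := hn₂
    rcases hIT (hBI' (h₂ hc)) with ⟨-, -, hcK⟩ | ⟨hcB, -⟩ | ⟨-, hne'⟩
    · exact absurd (Or.inr hc) hcK
    · exact (hnot hcB (h₂ hc)).elim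
    · exact e2 hne'

section balls

variable {n N : ℕ} [NeZero n] {M : Type u} [TopologicalSpace M]
  [ChartedSpace (EuclideanHalfSpace n) M] [IsManifold (𝓡∂ n) ∞ M] [T2Space M] [CompactSpace M]
  [MeasurableSpace M] [BorelSpace M] {P : One n N M} {w : ℕ → M → Fib N}

theorem cRungeB_cb_closed {x : M} {R ρ : ℝ} (h : IsCB n x R) (hρR : ρ < R) :
    IsClosed (cb n x ρ) := by
  refine IsCompact.isClosed ?_
  refine (isCompact_closedBall _ _).image_of_continuousOn
    ((continuousOn_extChartAt_symm x).mono ?_)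
  exact (Metric.closedBall_subset_closedBall hρR.le).trans (h.2.trans inter_subset_left)

theorem cRungeB_cb_mi (hLoc : CLoc_statement.{u}) {x : M} {R : ℝ} (h : IsCB n x R) :
    cb n x R ⊆ Mi n M := by
  rintro _ ⟨y, hy, rfl⟩
  exact cRungeB_mi_of_pos hLoc x (h.2 hy).1 (h.2 hy).2

theorem cRungeB_B_open (hLoc : CLoc_statement.{u}) {x : M} {R : ℝ} (h : IsCB n x R) :
    IsOpen ((xc n x).symm '' Metric.ball (xc n x x) R) := by
  have h1 : Metric.ball (xc n x x) R ⊆ Hs n := fun y hy =>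
    show (0 : ℝ) ≤ y 0 from le_of_lt (h.2 (Metric.ball_subset_closedBall hy)).2
  exact cRungeB_open hLoc x ⟨_, Metric.isOpen_ball, (inter_eq_left.2 h1).symm⟩
    (Metric.ball_subset_closedBall.trans (h.2.trans inter_subset_left))

theorem cRungeB_A_eq {x : M} {R ρ : ℝ} (h : IsCB n x R) (hρR : ρ < R) :
    (xc n x).symm '' Metric.ball (xc n x x) R \ cb n x ρ =
      (xc n x).symm '' (Metric.ball (xc n x x) R \ Metric.closedBall (xc n x x) ρ) := by
  have hinj : InjOn (xc n x).symm (Metric.ball (xc n x x) R) :=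
    (xc n x).symm.injOn.mono (Metric.ball_subset_closedBall.trans (h.2.trans inter_subset_left))
  rw [hinj.image_sdiff_subset (Metric.closedBall_subset_ball hρR)]
  rfl

theorem cRungeB_A_conn {x : M} {R ρ : ℝ} (hn : 2 ≤ n) (h : IsCB n x R) (hρ : 0 < ρ)
    (hρR : ρ < R) :
    IsPreconnected ((xc n x).symm '' Metric.ball (xc n x x) R \ cb n x ρ) := by
  rw [cRungeB_A_eq h hρR]
  refine (cRungeB_annulus hn _ hρ).image _ ((continuousOn_extChartAt_symm x).mono ?_)
  exact sdiff_subset.trans (Metric.ball_subset_closedBall.trans (h.2.trans inter_subset_left))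

theorem cRungeB_v (hInt : CInt_statement.{u}) (hLoc : CLoc_statement.{u})
    (hw : ∀ k, Continuous (w k)) {x : M} {R ρ : ℝ} (h : IsCB n x R) (hρR : ρ < R)
    (hA : (xc n x).symm '' Metric.ball (xc n x x) R \ cb n x ρ ⊆ cRungeB_Z P w)
    {K : Set (E n)} (hK : IsCompact K)
    (hKs : K ⊆ Metric.ball (xc n x x) R \ Metric.closedBall (xc n x x) ρ) :
    Tendsto (fun k => ∫ y in K, ‖lu (𝓡∂ n) x (w k) y‖ ^ 2) atTop (𝓝 0) := by
  have hKc : K ⊆ Metric.closedBall (xc n x x) R :=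
    (hKs.trans sdiff_subset).trans Metric.ball_subset_closedBall
  have hct : Metric.closedBall (xc n x x) R ⊆ tg n x := h.2.trans inter_subset_left
  refine cRungeB_down (P := P) hInt hLoc hw x (isCompact_closedBall _ _) hct hK.measurableSet
    hKc ?_
  refine cRungeB_cover (fun k => cRungeB_integrable P hInt (hw k))
    (hK.image_of_continuousOn ((continuousOn_extChartAt_symm x).mono (hKc.trans hct))) ?_
  refine (image_mono hKs).trans ?_
  rw [← cRungeB_A_eq h hρR]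
  exact hA

end balls

/-- The sequence tends to zero around the two balls. -/
theorem cRungeB : AUcpInt_statement → AUcpBd_statement → CConn_statement.{u} →
    CLoc_statement.{u} → CEnergy_statement.{u} → CInt_statement.{u} → CExt_statement.{u} →
    CRungeB_statement.{u} := by
  intro hUI hUB hConn hLoc hEn hInt hExt n N _ M _ _ _ _ _ _ _ _ P Γ x x' R R' ρ ρ' hn hΓ hΓne
    hR hR' hρ hρR hρ' hρR' hdisj w hw hw0 hcE hcL hlim K hK
  have hwc : ∀ k, Continuous (w k) := fun k => cRungeB_sm_cont (hw k)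
  obtain ⟨hIo, hIp, hId⟩ := hConn n M
  have hbd : IsClosed ((𝓡∂ n).boundary M) := by
    rw [← ModelWithCorners.compl_interior]
    exact hIo.isClosed_compl
  have hK₁ := cRungeB_cb_closed hR hρR
  have hK₂ := cRungeB_cb_closed hR' hρR'
  have hKc : IsClosed (cb n x ρ ∪ cb n x' ρ') := hK₁.union hK₂
  have hsub₁ : cb n x ρ ⊆ cb n x R := image_mono (Metric.closedBall_subset_closedBall hρR.le)
  have hsub₂ : cb n x' ρ' ⊆ cb n x' R' :=
    image_mono (Metric.closedBall_subset_closedBall hρR'.le)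
  have hKi : cb n x ρ ∪ cb n x' ρ' ⊆ Mi n M :=
    union_subset (hsub₁.trans (cRungeB_cb_mi hLoc hR)) (hsub₂.trans (cRungeB_cb_mi hLoc hR'))
  have hBc : (xc n x).symm '' Metric.ball (xc n x x) R ⊆ cb n x R :=
    image_mono Metric.ball_subset_closedBall
  have hBc' : (xc n x').symm '' Metric.ball (xc n x' x') R' ⊆ cb n x' R' :=
    image_mono Metric.ball_subset_closedBall
  obtain ⟨hA, hA'⟩ := cRungeB_top (Z := cRungeB_Z P w) hIp hIo hId (cRungeB_Z_open P w)
    hK₁ hK₂ (cRungeB_B_open hLoc hR) (cRungeB_B_open hLoc hR')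
    (hBc.trans (cRungeB_cb_mi hLoc hR)) (hBc'.trans (cRungeB_cb_mi hLoc hR'))
    (hdisj.mono hBc hBc') (image_mono (Metric.closedBall_subset_ball hρR))
    (image_mono (Metric.closedBall_subset_ball hρR'))
    (cRungeB_A_conn hn hR hρ hρR) (cRungeB_A_conn hn hR' hρ' hρR')
    (fun m hm hmK hmZ => cRungeB_ii hUI hInt hLoc hEn hExt hbd hw hcE hcL hKc hlim hm hmK hmZ)
    (by
      obtain ⟨p, hp⟩ := hΓne
      refine ⟨p, cRungeB_i hUB hInt hLoc hEn hExt hbd hw hw0 hcE hcL hKc hKi hΓ hlim hp,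
        fun hpK => ?_⟩
      obtain ⟨O, -, hΓO⟩ := hΓ
      rw [hΓO] at hp
      have h2 := hp.2
      rw [← ModelWithCorners.compl_interior] at h2
      exact h2 (hKi hpK))
    ⟨_, _, Metric.mem_closedBall_self hρ.le, rfl⟩ ⟨_, _, Metric.mem_closedBall_self hρ'.le, rfl⟩
  exact ⟨fun hKs => cRungeB_v hInt hLoc hwc hR hρR hA hK hKs,
    fun hKs => cRungeB_v hInt hLoc hwc hR' hρR' hA' hK hKs⟩

end Vale.Agent.P088.EYM
end
end

section

/-!
# P088-EYM, block C: both models near the boundary point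
-/

open Bundle Manifold MeasureTheory Set Filter Topology
open scoped ContDiff

noncomputable section

namespace Vale.Agent.P088.EYM

set_option linter.unusedSectionVars false
set_option linter.all false

universe u

variable {n N : ℕ} [NeZero n]

theorem cSetup_mem_HB {z : E n} {r : ℝ} (hz : z 0 = 0) (hr : 0 < r) : z ∈ HB z r :=
  ⟨Metric.mem_ball_self hr, by show 0 ≤ z 0; rw [hz]⟩

/-- the tangential derivatives of a function which is a coordinate on the flat part -/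
theorem cSetup_pd_flat {f : E n → ℝ} {f' : E n →L[ℝ] ℝ} {z : E n} {r : ℝ} (hr : 0 < r)
    (hz : z 0 = 0) {i j : Fin n} (hj : j ≠ 0) (hf : HasFDerivWithinAt f f' (Hs n) z)
    (h : ∀ y ∈ HB z r, y 0 = 0 → f y = y i) : pd j f z = if i = j then 1 else 0 := by
  have hz' : z ∈ Hs n := by show 0 ≤ z 0; rw [hz]
  rw [pd_of_has hz' hf j]
  have hγ : HasDerivAt (fun t : ℝ => z + t • (ev j : E n)) (ev j) 0 := by
    have h1 : HasDerivAt (fun t : ℝ => t • (ev j : E n)) ((1 : ℝ) • (ev j : E n)) 0 :=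
      (hasDerivAt_id (0 : ℝ)).smul_const _
    rw [one_smul] at h1
    exact h1.const_add z
  have hflat : ∀ t : ℝ, (z + t • (ev j : E n)) 0 = 0 := by
    intro t
    simp only [PiLp.add_apply, hz, PiLp.smul_apply, ne_eq, hj.symm, not_false_eq_true, PiLp.single_eq_of_ne, smul_eq_mul, mul_zero, add_zero]
  have hmem : ∀ t : ℝ, z + t • (ev j : E n) ∈ Hs n := fun t => by
    show 0 ≤ (z + t • (ev j : E n)) 0
    rw [hflat]
  have h1 : HasDerivAt (f ∘ fun t : ℝ => z + t • (ev j : E n)) (f' (ev j)) 0 := by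
    refine HasFDerivWithinAt.comp_hasDerivAt_of_eq (t := Hs n) (y := z) 0 hf hγ
      (Eventually.of_forall hmem) (by simp)
  have h2 : (f ∘ fun t : ℝ => z + t • (ev j : E n)) =ᶠ[𝓝 0]
      fun t : ℝ => z i + t * (if i = j then 1 else 0) := by
    have hc : ContinuousAt (fun t : ℝ => z + t • (ev j : E n)) 0 := hγ.continuousAt
    have hb : ∀ᶠ t : ℝ in 𝓝 0, z + t • (ev j : E n) ∈ Metric.ball z r := by
      refine hc.eventually_mem (Metric.isOpen_ball.mem_nhds ?_)
      simpa using hr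
    filter_upwards [hb] with t ht
    show f (z + t • (ev j : E n)) = _
    rw [h _ ⟨ht, hmem t⟩ (hflat t)]
    simp only [PiLp.add_apply, PiLp.smul_apply, PiLp.single_apply, smul_eq_mul, mul_ite, mul_one, mul_zero]
  have h3 : HasDerivAt (fun t : ℝ => z i + t * (if i = j then (1 : ℝ) else 0))
      (if i = j then 1 else 0) 0 := by
    have := ((hasDerivAt_id (0 : ℝ)).mul_const (if i = j then (1 : ℝ) else 0)).const_add (z i)
    simpa using this
  exact (h1.congr_of_eventuallyEq h2.symm).unique h3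

/-- the determinant of a matrix which is the identity except for the column `0` -/
theorem cSetup_det {A : Matrix (Fin n) (Fin n) ℝ}
    (h : ∀ i j, j ≠ 0 → A i j = if i = j then 1 else 0) : A.det = A 0 0 := by
  have h1 : A = (1 : Matrix (Fin n) (Fin n) ℝ).updateCol 0 (fun i => A i 0) := by
    ext i j
    by_cases hj : j = 0
    · subst hj
      rw [Matrix.updateCol_self]
    · rw [Matrix.updateCol_ne hj, h i j hj, Matrix.one_apply]
  have h2 := Matrix.cramer_apply (1 : Matrix (Fin n) (Fin n) ℝ) (fun i => A i 0) 0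
  rw [Matrix.cramer_one] at h2
  rw [← h1] at h2
  rw [← h2]
  rfl

/-- The solution coordinates near a point of the flat boundary. -/
theorem cSetup_local {j0 : Fin N} {D : Set (E n)} (hD : RelOpen D) {S : E n → EndF N}
    {T : Fin n → E n → Fib N} (hS : ContDiffOn ℝ ∞ S D) (hT : ∀ a, ContDiffOn ℝ ∞ (T a) D)
    {z : E n} {r : ℝ} (hr : 0 < r) (hz : z 0 = 0) (hsub : HB z r ⊆ D)
    (hS1 : ∀ y ∈ HB z r, y 0 = 0 → S y = 1)
    (hT1 : ∀ y ∈ HB z r, y 0 = 0 → ∀ a, T a y = EuclideanSpace.single j0 (y a : ℂ))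
    (hpos : 0 < (pd 0 (T 0) z j0).re) :
    (∀ y ∈ HB z r, y 0 = 0 → Xco j0 S T y = y) ∧ (Jac (Xco j0 S T) z).det ≠ 0 ∧
      0 < pd 0 (fun x => Xco j0 S T x 0) z := by
  have hzm := cSetup_mem_HB hz hr
  have hX : ∀ y ∈ HB z r, y 0 = 0 → Xco j0 S T y = y := by
    intro y hy h0
    ext a
    show ((Ring.inverse (S y)) (T a y) j0).re = y a
    rw [hS1 y hy h0, hT1 y hy h0 a, Ring.inverse_one]
    simp only [one_apply_eq_self, PiLp.single_eq_same, Complex.ofReal_re]
  obtain ⟨U, hU, hDU⟩ := (continuousOn_iff'.1 hS.continuousOn) {T : EndF N | IsUnit T}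
    Units.isOpen
  set D' : Set (E n) := U ∩ D with hD'
  have hD'r : RelOpen D' := hD.univ_inter hU
  have hunit : ∀ x ∈ D', IsUnit (S x) := by
    intro x hx
    have : x ∈ S ⁻¹' {T : EndF N | IsUnit T} ∩ D := by rw [hDU]; exact hx
    exact this.1
  have hD'D : D' ⊆ D := inter_subset_right
  have hzD' : z ∈ D' := by
    rw [← hDU]
    refine ⟨?_, hsub hzm⟩
    show IsUnit (S z)
    rw [hS1 z hzm hz]
    exact isUnit_one
  have hR : ContDiffOn ℝ ∞ (fun x => Ring.inverse (S x)) D' :=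
    smooth_ringInverse (hS.mono hD'D) hunit
  have hG : ∀ a, ContDiffOn ℝ ∞ (fun x => Ring.inverse (S x) (T a x)) D' := fun a =>
    smooth_eval hR ((hT a).mono hD'D)
  set L : Fib N →L[ℝ] ℝ := Complex.reCLM.comp
    ((EuclideanSpace.proj (𝕜 := ℂ) j0 : Fib N →L[ℂ] ℂ).restrictScalars ℝ) with hL
  have hXL : ∀ a, (fun x => Xco j0 S T x a) = fun x => L (Ring.inverse (S x) (T a x)) :=
    fun a => rfl
  have hXs : ∀ a, ContDiffOn ℝ ∞ (fun x => Xco j0 S T x a) D' := fun a => by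
    rw [hXL]
    exact L.contDiff.comp_contDiffOn (hG a)
  have h00 : 0 < pd 0 (fun x => Xco j0 S T x 0) z := by
    rw [hXL, hD'r.pd_clm L (hG 0) hzD' 0,
      hD'r.pd_eval hR ((hT 0).mono hD'D) (by simp) (by simp) hzD' 0]
    have h1 : T 0 z = 0 := by
      rw [hT1 z hzm hz 0, hz]
      simp
    rw [h1, map_zero, add_zero, hS1 z hzm hz, Ring.inverse_one]
    exact hpos
  refine ⟨hX, ?_, h00⟩
  have hdet : (Jac (Xco j0 S T) z).det = Jac (Xco j0 S T) z 0 0 := by
    refine cSetup_det fun i j hj => ?_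
    show pd j (fun y => Xco j0 S T y i) z = _
    refine cSetup_pd_flat hr hz hj (hD'r.hasD hzD' (hXs i) (by simp)) fun y hy h0 => ?_
    show Xco j0 S T y i = y i
    rw [hX y hy h0]
  rw [hdet]
  exact ne_of_gt h00

section Manifold

variable {M : Type u} [TopologicalSpace M] [ChartedSpace (EuclideanHalfSpace n) M]
  [IsManifold (𝓡∂ n) ∞ M]

/-- linear combinations of harmonic extensions -/
theorem cSetup_harm_sum [MeasurableSpace M] (P : One n N M)
    (hlin : ∀ (f f' u u' : M → Fib N) (a b : ℂ), P.Harm f u → P.Harm f' u' →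
      P.Harm (a • f + b • f') (a • u + b • u'))
    {s : Fin N → M → Fib N} (h : ∀ j, ∃ f, P.Harm f (s j)) (v : Fib N) (j0 : Fin N)
    (F : Finset (Fin N)) : ∃ g, P.Harm g (∑ j ∈ F, v j • s j) := by
  induction F using Finset.induction_on with
  | empty =>
    obtain ⟨f, hf⟩ := h j0
    have h1 := hlin f f (s j0) (s j0) 0 0 hf hf
    have h2 : (0 : ℂ) • s j0 + (0 : ℂ) • s j0 = ∑ j ∈ (∅ : Finset (Fin N)), v j • s j := by
      simp
    rw [h2] at h1
    exact ⟨_, h1⟩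
  | insert a F ha ih =>
    obtain ⟨g, hg⟩ := ih
    obtain ⟨f, hf⟩ := h a
    have h1 := hlin f g (s a) (∑ j ∈ F, v j • s j) (v a) 1 hf hg
    have h2 : (v a) • s a + (1 : ℂ) • (∑ j ∈ F, v j • s j) = ∑ j ∈ insert a F, v j • s j := by
      rw [Finset.sum_insert ha, one_smul]
    rw [h2] at h1
    exact ⟨_, h1⟩

theorem cSetup_frm_apply (q : M) (s : Fin N → M → Fib N) (y : E n) (v : Fib N) :
    frm n q s y v = ∑ j, v j • lu (𝓡∂ n) q (s j) y := by
  unfold frm fr
  rw [_root_.sum_apply]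
  simp only [rk_apply, inner_eN]
  rfl

theorem cSetup_frm_one (q : M) (s : Fin N → M → Fib N) (y : E n)
    (h : ∀ j, s j ((xc n q).symm y) = EuclideanSpace.single j 1) : frm n q s y = 1 := by
  refine endF_ext fun i => ?_
  rw [cSetup_frm_apply]
  have h1 : ∀ j, lu (𝓡∂ n) q (s j) y = eN N j := fun j => h j
  simp only [h1]
  exact (eN_expand _).symm

theorem cSetup_frm_smooth {q : M} {s : Fin N → M → Fib N} {D : Set (E n)}
    (h : ∀ j, ContDiffOn ℝ ∞ (lu (𝓡∂ n) q (s j)) D) : ContDiffOn ℝ ∞ (frm n q s) D := by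
  have h1 : frm n q s = fun y => ∑ j, rk (eN N j) (lu (𝓡∂ n) q (s j) y) := by
    funext y
    rfl
  rw [h1]
  exact ContDiffOn.sum fun j _ => (rk (eN N j)).contDiff.comp_contDiffOn (h j)

variable [T2Space M] [CompactSpace M] [ConnectedSpace M] [MeasurableSpace M] [BorelSpace M]

/-- One model near a boundary point. -/
theorem cSetup_one (hB : BModel_statement) (hH : CHarm_statement.{u})
    (hU : CUniq_statement.{u}) (hL : CLoc_statement.{u})
    (P : One n N M) (Γ : Set M) (κ α β : ℝ) (hbd : ((𝓡∂ n).boundary M).Nonempty) (j0 : Fin N)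
    (q : M) (z : E n) (r : ℝ) (s : Fin N → M → Fib N) (t : Fin n → M → Fib N) (hz : z 0 = 0)
    (hr : 0 < r) (hsub : HB z r ⊆ tg n q) (hΓ : ∀ y ∈ HB z r, y 0 = 0 → (xc n q).symm y ∈ Γ)
    (hs : ∀ j, ∃ f, P.Harm f (s j)) (ht : ∀ a, ∃ f, P.Harm f (t a))
    (hvs : ∀ y ∈ HB z r, y 0 = 0 → ∀ j, s j ((xc n q).symm y) = EuclideanSpace.single j 1)
    (hvt : ∀ y ∈ HB z r, y 0 = 0 → ∀ a,
      t a ((xc n q).symm y) = EuclideanSpace.single j0 (y a : ℂ))
    (hpos : 0 < (pd 0 (lu (𝓡∂ n) q (t 0)) z j0).re) (hE : EYMm κ α β P.g P.A) :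
    ∃ (W : Model n N) (X Y : E n → E n) (S : E n → EndF N) (r₀ : ℝ), 0 < r₀ ∧
      ∀ r, 0 < r → r ≤ r₀ → ∃ D : Set (E n), BdM P Γ q z r κ α β j0 W D X Y S s t := by
  obtain ⟨hRel, hOk, -, hSm⟩ := hL n N M
  have hD : RelOpen (tg n q) := hRel q
  have hlok : (P.loc q).Ok (tg n q) := hOk P q
  have hsS : ∀ j, ContDiffOn ℝ ∞ (lu (𝓡∂ n) q (s j)) (tg n q) := fun j => by
    obtain ⟨f, hf⟩ := hs j
    exact hSm (s j) hf.smooth q
  have hS : ContDiffOn ℝ ∞ (frm n q s) (tg n q) := cSetup_frm_smooth hsS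
  have hSv : ∀ v : Fib N, Sol (P.loc q) (tg n q) (fun x => frm n q s x v) := by
    intro v
    obtain ⟨g, hg⟩ := cSetup_harm_sum P (hU n N M P hbd).2.1 hs v j0 Finset.univ
    have h1 := hH n N M P g _ hg q
    have h2 : lu (𝓡∂ n) q (∑ j, v j • s j) = fun x => frm n q s x v := by
      funext x
      rw [cSetup_frm_apply]
      unfold lu
      rw [Finset.sum_apply]
      rfl
    rw [h2] at h1
    exact h1
  have hTs : ∀ a, Sol (P.loc q) (tg n q) (lu (𝓡∂ n) q (t a)) := fun a => by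
    obtain ⟨f, hf⟩ := ht a
    exact hH n N M P f _ hf q
  have hzm := cSetup_mem_HB hz hr
  have hS1 : ∀ y ∈ HB z r, y 0 = 0 → frm n q s y = 1 := fun y hy h0 =>
    cSetup_frm_one q s y (hvs y hy h0)
  obtain ⟨hX, hdet, h00⟩ := cSetup_local (j0 := j0) (T := fun a => lu (𝓡∂ n) q (t a)) hD hS
    (fun a => (hTs a).1) hr hz hsub hS1 (fun y hy h0 a => hvt y hy h0 a) hpos
  set X : E n → E n := Xco j0 (frm n q s) (fun a => lu (𝓡∂ n) q (t a)) with hXdef
  have hXz : X z = z := hX z hzm hz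
  obtain ⟨Y, W, r₁, hr₁, hmod⟩ := hB n N (P.loc q) (tg n q) κ α β j0 hD hlok (hE q) (frm n q s)
    (fun a => lu (𝓡∂ n) q (t a)) hS hSv hTs z (hsub hzm)
    (by rw [hS1 z hzm hz]; exact isUnit_one) hdet
    (Or.inr ⟨hz, h00, r, hr, fun x hx h0 => by
      show X x 0 = 0
      rw [hX x hx h0, h0]⟩)
  rw [← hXdef, hXz] at hmod
  obtain ⟨D1, hD1D, hD1r, hzD1, hpull1, -, -⟩ := hmod r₁ hr₁ le_rfl
  obtain ⟨O, hO, hDO⟩ := hD1r
  have hzO : z ∈ O := by
    have : z ∈ O ∩ Hs n := by rw [← hDO]; exact hzD1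
    exact this.1
  obtain ⟨ε, hε, hεO⟩ := Metric.isOpen_iff.1 hO z hzO
  have hεD : HB z ε ⊆ D1 := by
    rw [hDO]
    exact inter_subset_inter_left _ hεO
  have hYflat : ∀ y, y ∈ HB z ε → y ∈ HB z r → y 0 = 0 → Y y = y := by
    intro y hy hy' h0
    have h1 := hpull1.diffeo.inv1 y (hεD hy)
    rw [hX y hy' h0] at h1
    exact h1
  have hYz : Y z = z := hYflat z (cSetup_mem_HB hz hε) hzm hz
  have hYc : ContinuousWithinAt Y (HB z r₁) z :=
    hpull1.diffeo.smY.continuousOn z (cSetup_mem_HB hz hr₁)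
  have hev : ∀ᶠ y in 𝓝[HB z r₁] z, Y y ∈ Metric.ball z r := by
    have h1 : Metric.ball z r ∈ 𝓝 (Y z) := by
      rw [hYz]
      exact Metric.ball_mem_nhds z hr
    exact hYc.eventually h1
  obtain ⟨δ, hδ, hδY⟩ := Metric.mem_nhdsWithin_iff.1 hev
  refine ⟨W, X, Y, frm n q s, min (min r r₁) (min ε δ), by (clear * - hr hr₁ hε hδ; positivity), ?_⟩
  intro ρ hρ hρle
  have hρr : ρ ≤ r := hρle.trans ((min_le_left _ _).trans (min_le_left _ _))
  have hρ1 : ρ ≤ r₁ := hρle.trans ((min_le_left _ _).trans (min_le_right _ _))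
  have hρε : ρ ≤ ε := hρle.trans ((min_le_right _ _).trans (min_le_left _ _))
  have hρδ : ρ ≤ δ := hρle.trans ((min_le_right _ _).trans (min_le_right _ _))
  obtain ⟨D, hDD, hDr, hzD, hpull, hmodel, hcoord⟩ := hmod ρ hρ hρ1
  have hmono : ∀ {a b : ℝ}, a ≤ b → HB z a ⊆ HB z b := fun hab =>
    inter_subset_inter_left _ (Metric.ball_subset_ball hab)
  refine ⟨D, ?_⟩
  refine
    { rel := hDr
      sub := hDD
      z0 := hz
      rpos := hρ
      pull := hpull
      model := hmodel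
      bd := ?_
      bdD := ?_
      frame := fun x _ v => cSetup_frm_apply q s x v
      coord := hcoord }
  · intro y hy h0
    have hyr := hmono hρr hy
    have hyY : Y y = y := hYflat y (hmono hρε hy) hyr h0
    refine ⟨?_, hX y hyr h0, hyY, hS1 y hyr h0, hΓ y hyr h0⟩
    have h1 := hpull.diffeo.mapsY hy
    rw [hyY] at h1
    exact h1
  · intro x hx h0
    have hXx : X x ∈ HB z ρ := hpull.diffeo.mapsX hx
    have hYX : Y (X x) = x := hpull.diffeo.inv1 x hx
    have hxb : x ∈ Metric.ball z r := by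
      have h1 : X x ∈ Metric.ball z δ ∩ HB z r₁ :=
        ⟨Metric.ball_subset_ball hρδ hXx.1, hmono hρ1 hXx⟩
      have h2 : Y (X x) ∈ Metric.ball z r := hδY h1
      rw [hYX] at h2
      exact h2
    have hxr : x ∈ HB z r := ⟨hxb, hDr.subset hx⟩
    rw [hX x hxr h0] at hXx
    exact hXx

end Manifold

/-- Both models near the boundary point. -/
theorem cSetup : CStart_statement.{u} → BModel_statement → CHarm_statement.{u} →
    CUniq_statement.{u} → CLoc_statement.{u} → CSetup_statement.{u} := by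
  intro hC hB hH hU hL n N _ M _ _ _ _ _ _ _ _ P Q Γ κ₁ κ₂ α β hn hN hΓ hΓne hSD hE₁ hE₂
  obtain ⟨j0, q, z, r, s, t, hz, hr, hsub, hsym, hs, ht, hval, hp₁, hp₂⟩ :=
    hC n N M P Q Γ hn hN hΓ hΓne hSD
  have hbd : ((𝓡∂ n).boundary M).Nonempty := by
    obtain ⟨O, -, rfl⟩ := hΓ
    exact hΓne.mono inter_subset_right
  obtain ⟨W₁, X₁, Y₁, S₁, r₁, hr₁, h₁⟩ := cSetup_one hB hH hU hL P Γ κ₁ α β hbd j0 q z r
    (fun j => (s j).1) (fun a => (t a).1) hz hr hsub hsym
    (fun j => by obtain ⟨f, -, h, -⟩ := hs j; exact ⟨f, h⟩)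
    (fun a => by obtain ⟨f, -, h, -⟩ := ht a; exact ⟨f, h⟩)
    (fun y hy h0 j => ((hval y hy h0).1 j).1) (fun y hy h0 a => ((hval y hy h0).2 a).1) hp₁ hE₁
  obtain ⟨W₂, X₂, Y₂, S₂, r₂, hr₂, h₂⟩ := cSetup_one hB hH hU hL Q Γ κ₂ α β hbd j0 q z r
    (fun j => (s j).2) (fun a => (t a).2) hz hr hsub hsym
    (fun j => by obtain ⟨f, -, -, h⟩ := hs j; exact ⟨f, h⟩)
    (fun a => by obtain ⟨f, -, -, h⟩ := ht a; exact ⟨f, h⟩)
    (fun y hy h0 j => ((hval y hy h0).1 j).2) (fun y hy h0 a => ((hval y hy h0).2 a).2) hp₂ hE₂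
  refine ⟨j0, q, z, min r₁ r₂, s, t, W₁, W₂, X₁, Y₁, X₂, Y₂, S₁, S₂, lt_min hr₁ hr₂, hs, ht, ?_⟩
  intro ρ hρ hle
  obtain ⟨D₁, hD₁⟩ := h₁ ρ hρ (hle.trans (min_le_left _ _))
  obtain ⟨D₂, hD₂⟩ := h₂ ρ hρ (hle.trans (min_le_right _ _))
  exact ⟨D₁, D₂, hD₁, hD₂⟩

end Vale.Agent.P088.EYM
end
end

section

/-!
# P088-EYM-C23: the relation of a local match in charts
-/

open Bundle Manifold MeasureTheory Set Filter Topology
open scoped ContDiff

noncomputable section

namespace Vale.Agent.P088.EYM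

universe u

set_option linter.unusedSectionVars false

section cUnmAux

variable {n N : ℕ} [NeZero n] {M : Type u} [TopologicalSpace M]
  [ChartedSpace (EuclideanHalfSpace n) M] [IsManifold (𝓡∂ n) ∞ M]

theorem cUnm_range : range (𝓡∂ n) = Hs n := range_modelWithCornersEuclideanHalfSpace n

/-- The coordinate `0` is positive at interior points. -/
theorem cUnm_pos (h1 : ∀ p : M, RelOpen (tg n p))
    (h3 : ∀ p x : M, x ∈ (xc n p).source → (x ∈ (𝓡∂ n).boundary M ↔ xc n p x 0 = 0))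
    {p x : M} (hx : x ∈ (xc n p).source) (hi : x ∈ Mi n M) : 0 < xc n p x 0 := by
  have hmem : xc n p x ∈ tg n p := (xc n p).map_source hx
  have h0 : (0 : ℝ) ≤ xc n p x 0 := (h1 p).subset hmem
  refine lt_of_le_of_ne h0 fun h => ?_
  have hb : x ∈ (𝓡∂ n).boundary M := (h3 p x hx).2 h.symm
  have hd := (ModelWithCorners.disjoint_interior_boundary (I := 𝓡∂ n) (M := M))
  exact Set.disjoint_left.1 hd hi hb

theorem cUnm_jac_expand [MeasurableSpace M] (P : One n N M) (q m : M)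
    (a b : Fin n → ℝ) :
    P.g.inner m (∑ k, a k • coordVec (𝓡∂ n) q m k) (∑ l, b l • coordVec (𝓡∂ n) q m l) =
      ∑ l, (∑ k, a k * gram P.g q m k l) * b l := by
  have h1 : P.g.inner m (∑ k, a k • coordVec (𝓡∂ n) q m k) =
      ∑ k, a k • P.g.inner m (coordVec (𝓡∂ n) q m k) :=
    (map_sum (P.g.inner m) _ _).trans
      (Finset.sum_congr rfl fun i _ => map_smul (P.g.inner m) _ _)
  have h2 : ∀ T : TangentSpace (𝓡∂ n) m →L[ℝ] ℝ,
      T (∑ l, b l • coordVec (𝓡∂ n) q m l) = ∑ l, b l * T (coordVec (𝓡∂ n) q m l) := fun T =>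
    (map_sum T _ _).trans (Finset.sum_congr rfl fun i _ => map_smul T _ _)
  rw [h2, h1]
  refine Finset.sum_congr rfl fun l _ => ?_
  rw [mul_comm]
  congr 1
  rw [_root_.sum_apply]
  refine Finset.sum_congr rfl fun k _ => ?_
  rfl

end cUnmAux

theorem cUnm : CChart_statement.{u} → CLoc_statement.{u} → CUnm_statement.{u} := by
  intro hChart hLoc n N _ M _ _ _ _ _ _ P Q Γ O φ V hL q₁ q₂ x hxO hx2 hx1
  obtain ⟨h1, -, h3, -⟩ := hLoc n N M
  obtain ⟨Oq, hOq, hOqe⟩ := h1 q₂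
  set y₀ : E n := xc n q₂ x with hy₀
  have hy₀t : y₀ ∈ tg n q₂ := (xc n q₂).map_source hx2
  have hy₀p : 0 < y₀ 0 := cUnm_pos h1 h3 hx2 (hL.sub hxO)
  -- the open set of good coordinates
  have hO' : IsOpen (O ∩ φ ⁻¹' (xc n q₁).source) :=
    hL.smφ.continuousOn.isOpen_inter_preimage hL.isOpen (isOpen_extChartAt_source q₁)
  have hT : IsOpen (Oq ∩ {y : E n | 0 < y 0}) :=
    hOq.inter (isOpen_lt continuous_const (continuous_coord 0))
  have hTs : (Oq ∩ {y : E n | 0 < y 0}) ⊆ tg n q₂ := by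
    intro y hy
    rw [hOqe]
    exact ⟨hy.1, interior_subset (open_pos_subset hy.2)⟩
  have hc : ContinuousOn (xc n q₂).symm (Oq ∩ {y : E n | 0 < y 0}) :=
    (continuousOn_extChartAt_symm q₂).mono hTs
  have hU : IsOpen ((Oq ∩ {y : E n | 0 < y 0}) ∩
      (xc n q₂).symm ⁻¹' (O ∩ φ ⁻¹' (xc n q₁).source)) :=
    hc.isOpen_inter_preimage hT hO'
  have hyU : y₀ ∈ ((Oq ∩ {y : E n | 0 < y 0}) ∩
      (xc n q₂).symm ⁻¹' (O ∩ φ ⁻¹' (xc n q₁).source)) := by
    have hs : (xc n q₂).symm y₀ = x := (xc n q₂).left_inv hx2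
    refine ⟨⟨?_, hy₀p⟩, ?_⟩
    · rw [hOqe] at hy₀t
      exact hy₀t.1
    · rw [mem_preimage, hs]
      exact ⟨hxO, hx1⟩
  obtain ⟨r, hr, hball⟩ := Metric.isOpen_iff.1 hU y₀ hyU
  have hbt : ∀ y ∈ Metric.ball y₀ r, y ∈ tg n q₂ := fun y hy => hTs (hball hy).1
  have hbO : ∀ y ∈ Metric.ball y₀ r, (xc n q₂).symm y ∈ O := fun y hy => (hball hy).2.1
  have hbφ : ∀ y ∈ Metric.ball y₀ r, φ ((xc n q₂).symm y) ∈ (xc n q₁).source :=
    fun y hy => (hball hy).2.2
  have hbs : ∀ y ∈ Metric.ball y₀ r, (xc n q₂).symm y ∈ (xc n q₂).source :=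
    fun y hy => (xc n q₂).map_target (hbt y hy)
  have hbr : ∀ y ∈ Metric.ball y₀ r, xc n q₂ ((xc n q₂).symm y) = y :=
    fun y hy => (xc n q₂).right_inv (hbt y hy)
  have hbl : ∀ y ∈ Metric.ball y₀ r, (xc n q₁).symm (xc n q₁ (φ ((xc n q₂).symm y))) =
      φ ((xc n q₂).symm y) := fun y hy => (xc n q₁).left_inv (hbφ y hy)
  refine ⟨r, hr, ?_, ?_, ?_, ?_, ?_, ?_⟩
  · intro y hy
    exact ⟨hbt y hy, (hball hy).1.2⟩
  · intro y hy
    exact ⟨hbO y hy, hbφ y hy, cUnm_pos h1 h3 (hbφ y hy) (hL.maps (hbO y hy))⟩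
  · rw [← contMDiffOn_iff_contDiffOn]
    have ha : ContMDiffOn 𝓘(ℝ, E n) (𝓡∂ n) ∞ (xc n q₂).symm (Metric.ball y₀ r) :=
      (contMDiffOn_extChartAt_symm q₂).mono hbt
    have hb : ContMDiffOn 𝓘(ℝ, E n) (𝓡∂ n) ∞ (fun y => φ ((xc n q₂).symm y))
        (Metric.ball y₀ r) := hL.smφ.comp ha hbO
    have hcc : ContMDiffOn (𝓡∂ n) 𝓘(ℝ, E n) ∞ (xc n q₁)
        (chartAt (EuclideanHalfSpace n) q₁).source := contMDiffOn_extChartAt
    refine hcc.comp hb ?_
    intro y hy
    have := hbφ y hy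
    rwa [extChartAt_source] at this
  · rw [← contMDiffOn_iff_contDiffOn]
    have ha : ContMDiffOn 𝓘(ℝ, E n) (𝓡∂ n) ∞ (xc n q₂).symm (Metric.ball y₀ r) :=
      (contMDiffOn_extChartAt_symm q₂).mono hbt
    exact hL.smV.comp ha hbO
  · intro y hy
    obtain ⟨hder, -⟩ := hChart n M O φ hL.isOpen hL.smφ q₁ q₂ ((xc n q₂).symm y) (hbO y hy)
      (hbs y hy) (hbφ y hy)
    rw [hbr y hy] at hder
    have hg : (P.loc q₁).g (xc n q₁ (φ ((xc n q₂).symm y))) =
        gram P.g q₁ (φ ((xc n q₂).symm y)) := by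
      change gram P.g q₁ ((xc n q₁).symm (xc n q₁ (φ ((xc n q₂).symm y)))) = _
      rw [hbl y hy]
    rw [hg]
    change gram Q.g q₂ ((xc n q₂).symm y) = _
    ext i j
    have hm := hL.met _ (hbO y hy) (coordVec (𝓡∂ n) q₂ ((xc n q₂).symm y) i)
      (coordVec (𝓡∂ n) q₂ ((xc n q₂).symm y) j)
    rw [hder i, hder j, cUnm_jac_expand] at hm
    change Q.g.inner ((xc n q₂).symm y) (coordVec (𝓡∂ n) q₂ ((xc n q₂).symm y) i)
      (coordVec (𝓡∂ n) q₂ ((xc n q₂).symm y) j) = _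
    rw [hm, Matrix.mul_apply]
    refine Finset.sum_congr rfl fun l _ => ?_
    rw [Matrix.mul_apply]
    rfl
  · intro y hy j
    obtain ⟨hder, -⟩ := hChart n M O φ hL.isOpen hL.smφ q₁ q₂ ((xc n q₂).symm y) (hbO y hy)
      (hbs y hy) (hbφ y hy)
    rw [hbr y hy] at hder
    have hV : MDifferentiableAt (𝓡∂ n) 𝓘(ℝ, EndF N) V ((xc n q₂).symm y) :=
      ((hL.smV.contMDiffAt (hL.isOpen.mem_nhds (hbO y hy))).mdifferentiableAt (by simp))
    have hd := dmap_coordVec (𝓡∂ n) (hbs y hy) hV j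
    rw [hbr y hy, cUnm_range] at hd
    have hm := hL.con _ (hbO y hy) (coordVec (𝓡∂ n) q₂ ((xc n q₂).symm y) j)
    rw [hd, hder j] at hm
    have hs : P.A.form (φ ((xc n q₂).symm y))
        (∑ k, Jac (fun y => xc n q₁ (φ ((xc n q₂).symm y))) y k j •
          coordVec (𝓡∂ n) q₁ (φ ((xc n q₂).symm y)) k) =
        ∑ k, Jac (fun y => xc n q₁ (φ ((xc n q₂).symm y))) y k j •
          (P.loc q₁).B k (xc n q₁ (φ ((xc n q₂).symm y))) := by
      refine (map_sum (P.A.form (φ ((xc n q₂).symm y))) _ _).trans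
        (Finset.sum_congr rfl fun k _ => ?_)
      refine (map_smul (P.A.form (φ ((xc n q₂).symm y))) _ _).trans ?_
      congr 1
      change _ = P.A.form ((xc n q₁).symm (xc n q₁ (φ ((xc n q₂).symm y))))
        (coordVec (𝓡∂ n) q₁ ((xc n q₁).symm (xc n q₁ (φ ((xc n q₂).symm y)))) k)
      rw [hbl y hy]
    rw [hs] at hm
    exact hm

end Vale.Agent.P088.EYM
end
end

section

/-!
# P088-EYM, C26: equality of the models near a matched point
-/

open Bundle Manifold MeasureTheory Set Filter Topology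
open scoped ContDiff

noncomputable section

namespace Vale.Agent.P088.EYM

universe u

variable {n N : ℕ} [NeZero n]

/-- restriction of a pull back -/
theorem cModEq_restrict {L L' : LD n N} {D D' Ds Ds' : Set (E n)} {X Y : E n → E n}
    {S : E n → EndF N} (h : IsPull L L' D D' X Y S) (h1 : Ds ⊆ D) (h2 : Ds' ⊆ D')
    (hX : MapsTo X Ds Ds') (hY : MapsTo Y Ds' Ds) : IsPull L L' Ds Ds' X Y S where
  diffeo := ⟨hX, hY, fun x hx => h.diffeo.inv1 x (h1 hx), fun y hy => h.diffeo.inv2 y (h2 hy),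
    h.diffeo.smX.mono h1, h.diffeo.smY.mono h2⟩
  smS := h.smS.mono h1
  unit := fun x hx => h.unit x (h1 hx)
  g_eq := fun x hx => h.g_eq x (h1 hx)
  B_eq := fun x hx => h.B_eq x (h1 hx)
  h_eq := fun x hx => h.h_eq x (h1 hx)

/-- two pull backs by the same map and the same frame -/
theorem cModEq_unique {L L' L'' : LD n N} {D D' : Set (E n)} {X X' Y Y' : E n → E n}
    {S S' : E n → EndF N} (hD : RelOpen D) (h : IsPull L L'' D D' X Y S)
    (h' : IsPull L' L'' D D' X' Y' S') (hX : EqOn X X' D) (hS : EqOn S S' D) :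
    ∀ x ∈ D, L.g x = L'.g x ∧ (∀ j, L.B j x = L'.B j x) ∧ L.h x = L'.h x := by
  intro x hx
  have hJ : Jac X x = Jac X' x := by
    ext i j
    simp only [Jac, Matrix.of_apply]
    exact hD.pd_congr (fun y hy => by simp only [hX hy]) hx j
  have hu := h'.unit x hx
  refine ⟨?_, fun j => ?_, ?_⟩
  · rw [h.g_eq x hx, h'.g_eq x hx, hJ, hX hx]
  · have e1 := h.B_eq x hx j
    have e2 := h'.B_eq x hx j
    rw [hD.pd_congr hS hx j, hS hx, hJ, hX hx, ← e2] at e1
    exact hu.mul_left_injective (add_left_cancel e1)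
  · have e1 := h.h_eq x hx
    have e2 := h'.h_eq x hx
    rw [hX hx, hS hx, ← e2] at e1
    have e3 := hu.mul_left_injective e1
    have e4 : ContinuousLinearMap.adjoint (Ring.inverse (S' x)) *
        ContinuousLinearMap.adjoint (S' x) = 1 := by
      rw [← adj_mulE, Ring.mul_inverse_cancel _ hu]
      exact ContinuousLinearMap.adjoint_id
    have e5 := congrArg (fun T => ContinuousLinearMap.adjoint (Ring.inverse (S' x)) * T) e3
    simpa only [← mul_assoc, e4, one_mul] using e5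

theorem cModEq_cancel {v S₁ S₂ : EndF N} (h : S₂ = v * S₁) (h1 : IsUnit S₁) (h2 : IsUnit S₂)
    (w : Fib N) : Ring.inverse S₂ (v w) = Ring.inverse S₁ w := by
  have e1 : v w = S₂ (Ring.inverse S₁ w) := by
    rw [h]
    show v w = v ((S₁ * Ring.inverse S₁) w)
    rw [Ring.mul_inverse_cancel _ h1]
    rfl
  rw [e1]
  show (Ring.inverse S₂ * S₂) (Ring.inverse S₁ w) = _
  rw [Ring.inverse_mul_cancel _ h2]
  rfl

theorem cModEq : CUnm_statement.{u} → BIntr_statement → BSymm_statement → BComp_statement →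
    CModEq_statement.{u} := by
  intro hUnm hIntr hSymm hComp n N _ M _ _ _ _ _ _ _ _ P Q Γ j0 s t q₁ q₂ z r W₁ W₂ D₁ D₂ Y₁ Y₂
    hs ht hD₁ hD₂ hD₁t hD₂t hp₁ hp₂ hc₁ hc₂ O φ V hM x hxO hxs hxD₂ hφs hφD₁
  obtain ⟨ρ, hρ, hsub, hmap, hτs, hvs, hg, hB⟩ := hUnm n N M P Q Γ O φ V hM q₁ q₂ x hxO hxs hφs
  set S₁ : E n → EndF N := frm n q₁ fun j => (s j).1 with hS₁
  set S₂ : E n → EndF N := frm n q₂ fun j => (s j).2 with hS₂
  set X₁ : E n → E n := Xco j0 S₁ (fun a => lu (𝓡∂ n) q₁ (t a).1) with hX₁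
  set X₂ : E n → E n := Xco j0 S₂ (fun a => lu (𝓡∂ n) q₂ (t a).2) with hX₂
  set τ : E n → E n := fun y => xc n q₁ (φ ((xc n q₂).symm y)) with hτ
  set v : E n → EndF N := fun y => V ((xc n q₂).symm y) with hv
  have hHB : RelOpen (HB z r) := ⟨Metric.ball z r, Metric.isOpen_ball, rfl⟩
  set B : Set (E n) := Metric.ball (xc n q₂ x) ρ with hBdef
  have hBo : IsOpen B := Metric.isOpen_ball
  -- sections in charts
  have hlu : ∀ u ∈ PP P Q Γ, ∀ y ∈ B, lu (𝓡∂ n) q₂ u.2 y = v y (lu (𝓡∂ n) q₁ u.1 (τ y)) := by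
    intro u hu y hy
    obtain ⟨h1, h2, -⟩ := hmap y hy
    show u.2 ((xc n q₂).symm y) = V ((xc n q₂).symm y) (u.1 ((xc n q₁).symm (τ y)))
    rw [hM.sol u hu _ h1]
    rw [show (xc n q₁).symm (τ y) = φ ((xc n q₂).symm y) from (xc n q₁).left_inv h2]
  have hSS : ∀ y ∈ B, S₂ y = v y * S₁ (τ y) := by
    intro y hy
    refine endF_ext fun i => ?_
    show fr (fun j => (s j).2) ((xc n q₂).symm y) (eN N i) =
      v y (fr (fun j => (s j).1) ((xc n q₁).symm (τ y)) (eN N i))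
    rw [fr_eN, fr_eN]
    exact hlu (s i) (hs i) y hy
  -- the open set in the chart at q₂
  obtain ⟨O₂, hO₂, hD₂e⟩ := hD₂
  obtain ⟨O₁, hO₁, hD₁e⟩ := hD₁
  have hD₂ : RelOpen D₂ := ⟨O₂, hO₂, hD₂e⟩
  have hD₁ : RelOpen D₁ := ⟨O₁, hO₁, hD₁e⟩
  set Nn : Set (E n) := (B ∩ τ ⁻¹' O₁) ∩ O₂ with hNn
  have hNo : IsOpen Nn := (hτs.continuousOn.isOpen_inter_preimage hBo hO₁).inter hO₂
  have hNB : Nn ⊆ B := fun y hy => hy.1.1
  have hNpos : ∀ y ∈ Nn, 0 < y 0 := fun y hy => (hsub (hNB hy)).2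
  have hND₂ : Nn ⊆ D₂ := by
    intro y hy
    rw [hD₂e]
    exact ⟨hy.2, (hNpos y hy).le⟩
  have hNτ : ∀ y ∈ Nn, τ y ∈ D₁ := by
    intro y hy
    rw [hD₁e]
    exact ⟨hy.1.2, (hmap y (hNB hy)).2.2.le⟩
  have hxB : xc n q₂ x ∈ B := Metric.mem_ball_self hρ
  have hxN : xc n q₂ x ∈ Nn := by
    refine ⟨⟨hxB, ?_⟩, ?_⟩
    · show τ (xc n q₂ x) ∈ O₁
      have : τ (xc n q₂ x) = xc n q₁ (φ x) := by
        show xc n q₁ (φ ((xc n q₂).symm (xc n q₂ x))) = _
        rw [(xc n q₂).left_inv hxs]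
      rw [this]
      rw [hD₁e] at hφD₁
      exact hφD₁.1
    · rw [hD₂e] at hxD₂
      exact hxD₂.1
  have hNrel : RelOpen Nn := ⟨Nn, hNo, (inter_eq_left.mpr fun y hy => (hNpos y hy).le).symm⟩
  -- the solution coordinates agree
  have hX : ∀ y ∈ Nn, X₁ (τ y) = X₂ y := by
    intro y hy
    have h1 := hp₁.unit _ (hNτ y hy)
    have h2 := hp₂.unit _ (hND₂ hy)
    ext a
    show ((Ring.inverse (S₁ (τ y))) (lu (𝓡∂ n) q₁ (t a).1 (τ y)) j0).re =
      ((Ring.inverse (S₂ y)) (lu (𝓡∂ n) q₂ (t a).2 y) j0).re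
    rw [hlu (t a) (ht a) y (hNB hy), cModEq_cancel (hSS y (hNB hy)) h1 h2]
  -- the open set in the coordinates
  set Hp : Set (E n) := Metric.ball z r ∩ {y | 0 < y 0} with hHp
  have hHpo : IsOpen Hp :=
    Metric.isOpen_ball.inter (isOpen_lt continuous_const (continuous_coord 0))
  have hHpHB : Hp ⊆ HB z r := fun y hy => ⟨hy.1, le_of_lt (show 0 < y 0 from hy.2)⟩
  set U : Set (E n) := Hp ∩ Y₂ ⁻¹' Nn with hU
  have hUo : IsOpen U :=
    (hp₂.diffeo.smY.continuousOn.mono hHpHB).isOpen_inter_preimage hHpo hNo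
  have hUHB : U ⊆ HB z r := fun y hy => hHpHB hy.1
  have hUrel : RelOpen U :=
    ⟨U, hUo, (inter_eq_left.mpr (fun y (hy : y ∈ U) => (hUHB hy).2)).symm⟩
  have hXU : MapsTo X₂ Nn U := by
    intro y hy
    have h1 := hp₂.diffeo.mapsX (hND₂ hy)
    refine ⟨⟨h1.1, hIntr n D₂ (HB z r) X₂ Y₂ hD₂ hHB hp₂.diffeo y (hND₂ hy) (hNpos y hy)⟩, ?_⟩
    show Y₂ (X₂ y) ∈ Nn
    rw [hp₂.diffeo.inv1 y (hND₂ hy)]
    exact hy
  have hYN : MapsTo Y₂ U Nn := fun y hy => hy.2
  -- the set in the chart at q₁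
  obtain ⟨O₃, hO₃, hO₃e⟩ := (continuousOn_iff'.1 hp₁.diffeo.smX.continuousOn) U hUo
  set Dm : Set (E n) := X₁ ⁻¹' U ∩ D₁ with hDm
  have hDmrel : RelOpen Dm := by
    rw [hO₃e]
    exact hD₁.univ_inter hO₃
  have hXm : MapsTo X₁ Dm U := fun y hy => hy.1
  have hYm : MapsTo Y₁ U Dm := by
    intro y hy
    refine ⟨?_, hp₁.diffeo.mapsY (hUHB hy)⟩
    show X₁ (Y₁ y) ∈ U
    rw [hp₁.diffeo.inv2 y (hUHB hy)]
    exact hy
  have k1 : IsPull (P.loc q₁) W₁.toLD Dm U X₁ Y₁ S₁ :=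
    cModEq_restrict hp₁ inter_subset_right hUHB hXm hYm
  have k2 : IsPull (Q.loc q₂) W₂.toLD Nn U X₂ Y₂ S₂ :=
    cModEq_restrict hp₂ hND₂ hUHB hXU hYN
  have hYτ : ∀ y ∈ U, τ (Y₂ y) = Y₁ y := by
    intro y hy
    have h1 := hX _ (hYN hy)
    rw [hp₂.diffeo.inv2 y (hUHB hy)] at h1
    have h2 := congrArg Y₁ h1
    rwa [hp₁.diffeo.inv1 _ (hNτ _ (hYN hy))] at h2
  have k3d : IsDiffeo Nn Dm τ (fun y => Y₂ (X₁ y)) := by
    refine ⟨fun y hy => ?_, fun y hy => hYN (hXm hy), fun y hy => ?_, fun y hy => ?_,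
      hτs.mono hNB, k2.diffeo.smY.comp k1.diffeo.smX hXm⟩
    · refine ⟨?_, hNτ y hy⟩
      show X₁ (τ y) ∈ U
      rw [hX y hy]
      exact hXU hy
    · show Y₂ (X₁ (τ y)) = y
      rw [hX y hy, hp₂.diffeo.inv1 y (hND₂ hy)]
    · show τ (Y₂ (X₁ y)) = y
      rw [hYτ _ (hXm hy), hp₁.diffeo.inv1 y hy.2]
  have k3 : IsPull (Q.loc q₂) (P.loc q₁) Nn Dm τ (fun y => Y₂ (X₁ y)) v := by
    refine ⟨k3d, hvs.mono hNB, fun y hy => ?_, fun y hy => hg y (hNB hy),
      fun y hy => hB y (hNB hy), fun y hy => ?_⟩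
    · have h1 := hM.unit _ (hmap y (hNB hy)).1
      exact (Unitary.toUnits ⟨_, h1⟩).isUnit
    · have h1 := hM.unit _ (hmap y (hNB hy)).1
      show ContinuousLinearMap.adjoint (v y) * 1 * v y = 1
      rw [mul_one]
      exact (Unitary.mem_iff.1 h1).1
  have k4 := hComp n N _ _ _ Nn Dm U τ (fun y => Y₂ (X₁ y)) X₁ Y₁ v S₁ hNrel hDmrel hUrel k3 k1
  have k5 := hSymm n N _ _ Nn U _ _ _ hNrel hUrel k4
  have k6 := hSymm n N _ _ Nn U _ _ _ hNrel hUrel k2
  have hYY : EqOn ((fun y => Y₂ (X₁ y)) ∘ Y₁) Y₂ U := by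
    intro y hy
    show Y₂ (X₁ (Y₁ y)) = Y₂ y
    rw [hp₁.diffeo.inv2 y (hUHB hy)]
  have key := cModEq_unique hUrel k5 k6 hYY (fun y hy => by
    show Ring.inverse (v (((fun y => Y₂ (X₁ y)) ∘ Y₁) y) * S₁ (τ (((fun y => Y₂ (X₁ y)) ∘ Y₁) y))) =
      Ring.inverse (S₂ (Y₂ y))
    rw [hYY hy, hSS _ (hNB (hYN hy))])
  refine ⟨U, hUo, hUHB, ⟨X₂ (xc n q₂ x), hXU hxN⟩, ⟨fun y hy => (key y hy).1,
    fun y hy => (key y hy).2.1, fun y hy => (key y hy).2.2, fun y hy a => ?_⟩, fun u hu y hy => ?_⟩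
  · have hyN := hYN hy
    have h1 := hc₁ _ (hNτ _ hyN) a
    have h2 := hc₂ _ (hND₂ hyN) a
    have u1 := hp₁.unit _ (hNτ _ hyN)
    have u2 := hp₂.unit _ (hND₂ hyN)
    have e1 : Ring.inverse (S₂ (Y₂ y)) (lu (𝓡∂ n) q₂ (t a).2 (Y₂ y)) =
        Ring.inverse (S₁ (τ (Y₂ y))) (lu (𝓡∂ n) q₁ (t a).1 (τ (Y₂ y))) := by
      rw [hlu (t a) (ht a) _ (hNB hyN), cModEq_cancel (hSS _ (hNB hyN)) u1 u2]
    rw [h1, h2, hX _ hyN, hp₂.diffeo.inv2 y (hUHB hy)] at e1
    have e2 : ∀ (S : EndF N), IsUnit S → ∀ w : Fib N, Ring.inverse S (S w) = w := by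
      intro S hS w
      show (Ring.inverse S * S) w = w
      rw [Ring.inverse_mul_cancel _ hS]
      rfl
    rw [e2 _ u2, e2 _ u1] at e1
    exact e1.symm
  · have hyN := hYN hy
    have u1 := hp₁.unit _ (hNτ _ hyN)
    have u2 := hp₂.unit _ (hND₂ hyN)
    rw [hlu u hu _ (hNB hyN), cModEq_cancel (hSS _ (hNB hyN)) u1 u2, hYτ y hy]

end Vale.Agent.P088.EYM
end
end

section

/-!
# P088-EYM, local solvability: the statement `ASolve_statement`
-/

open MeasureTheory Set Filter Topology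
open scoped ContDiff Real

noncomputable section

namespace Vale.Agent.P088.EYM.ES

theorem smain_gg_posDef {n : ℕ} {g : E n → Matrix (Fin n) (Fin n) ℝ} {z : E n}
    (hg : (g z).PosDef) : (Matrix.of fun i j => gg g i j z).PosDef := by
  have h1 : (Matrix.of fun i j => gg g i j z) = Real.sqrt (g z).det • (g z)⁻¹ := by
    ext i j
    simp only [gg, Matrix.of_apply, Matrix.smul_apply, smul_eq_mul]
  rw [h1]
  exact hg.inv.smul (Real.sqrt_pos.2 hg.det_pos)

theorem aSolve : ASolve_statement := by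
  intro n N _ L D hD hDH hL z hz a b
  obtain ⟨M, M0, hM, hM0, hP⟩ := as_lop hD hDH hL
  have hR : RelOpen D := SLop_rel hD hDH
  have hgg : ∀ j k, ContDiffOn ℝ ∞ (gg L.g j k) D := fun j k =>
    hR.gg_smooth hL.g_smooth hL.g_pos j k
  obtain ⟨r, hr, hrD, v, hv, hve, hvz, hvb⟩ :=
    as_local hD hz hgg hM hM0 (smain_gg_posDef (hL.g_pos z hz)) a b
  refine ⟨r, hr, hrD, v, hv.contDiffOn, ?_, hvz, ?_⟩
  · intro x hx
    rw [hP v x (hrD hx) hv.contDiffAt]
    exact hve x hx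
  · intro j
    rw [SLop_pd hD hDH hz v j]
    exact hvb j

end Vale.Agent.P088.EYM.ES
end
end

section

/-!
# P088-EYM: unique continuation for vector valued functions, proofs (adapters)
-/

open MeasureTheory Set Filter Topology
open scoped ContDiff

noncomputable section

namespace Vale.Agent.P088.EYM

theorem ucpvp_two : (2 : WithTop ℕ∞) ≤ ∞ := by
  norm_cast

section

variable {n : ℕ} {V : Type} [NormedAddCommGroup V] [NormedSpace ℝ V] [FiniteDimensional ℝ V]

/-- The coordinate functionals of a finite dimensional space. -/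
def ucpvp_co (V : Type) [NormedAddCommGroup V] [NormedSpace ℝ V] [FiniteDimensional ℝ V]
    (i : Fin (Module.finrank ℝ V)) : V →L[ℝ] ℝ :=
  LinearMap.toContinuousLinearMap ((Module.finBasis ℝ V).coord i)

theorem ucpvp_norm_le (v : V) :
    ‖v‖ ≤ (∑ i, ‖Module.finBasis ℝ V i‖) * ∑ i, |ucpvp_co V i v| := by
  have h1 : v = ∑ i, ucpvp_co V i v • Module.finBasis ℝ V i :=
    ((Module.finBasis ℝ V).sum_repr v).symm
  calc ‖v‖ = ‖∑ i, ucpvp_co V i v • Module.finBasis ℝ V i‖ := by rw [← h1]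
    _ ≤ ∑ i, ‖ucpvp_co V i v • Module.finBasis ℝ V i‖ := norm_sum_le _ _
    _ = ∑ i, |ucpvp_co V i v| * ‖Module.finBasis ℝ V i‖ := by
        simp only [norm_smul, Real.norm_eq_abs]
    _ ≤ ∑ i, |ucpvp_co V i v| * ∑ j, ‖Module.finBasis ℝ V j‖ := by
        refine Finset.sum_le_sum fun i _ => mul_le_mul_of_nonneg_left ?_ (abs_nonneg _)
        exact Finset.single_le_sum (f := fun j => ‖Module.finBasis ℝ V j‖)
          (fun j _ => norm_nonneg _) (Finset.mem_univ i)
    _ = _ := by rw [← Finset.sum_mul, mul_comm]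

theorem ucpvp_zero {v : V} (h : ∀ i, ucpvp_co V i v = 0) : v = 0 := by
  have h1 := ucpvp_norm_le v
  simp only [h, abs_zero, Finset.sum_const_zero, mul_zero] at h1
  exact norm_le_zero_iff.1 h1

theorem ucpvp_co_le (i : Fin (Module.finrank ℝ V)) (v : V) :
    |ucpvp_co V i v| ≤ (∑ j, ‖ucpvp_co V j‖) * ‖v‖ := by
  have h1 : |ucpvp_co V i v| ≤ ‖ucpvp_co V i‖ * ‖v‖ := (ucpvp_co V i).le_opNorm v
  refine h1.trans (mul_le_mul_of_nonneg_right ?_ (norm_nonneg _))
  exact Finset.single_le_sum (f := fun j => ‖ucpvp_co V j‖)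
    (fun j _ => norm_nonneg _) (Finset.mem_univ i)

variable [NeZero n]

theorem ucpvp_pd {D : Set (E n)} (hD : RelOpen D) (φ : V →L[ℝ] ℝ) {w : E n → V}
    (hw : ContDiffOn ℝ ∞ w D) {x : E n} (hx : x ∈ D) (k : Fin n) :
    pd k (fun y => φ (w y)) x = φ (pd k w x) := hD.pd_clm φ hw hx k

theorem ucpvp_pd2 {D : Set (E n)} (hD : RelOpen D) (φ : V →L[ℝ] ℝ) {w : E n → V}
    (hw : ContDiffOn ℝ ∞ w D) {x : E n} (hx : x ∈ D) (j k : Fin n) :
    pd j (pd k (fun y => φ (w y))) x = φ (pd j (pd k w) x) := by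
  rw [hD.pd_congr (g := fun y => φ (pd k w y)) (fun y hy => ucpvp_pd hD φ hw hy k) hx j]
  exact hD.pd_clm φ (hD.pd_smooth hw k) hx j

/-- The bound for the coordinates. -/
theorem ucpvp_bound {D : Set (E n)} (hD : RelOpen D) {a : Fin n → Fin n → E n → ℝ} {w : E n → V}
    (hw : ContDiffOn ℝ ∞ w D) {C : ℝ} {y : E n} (hy : y ∈ D)
    (h : ‖∑ j, ∑ k, a j k y • pd j (pd k w) y‖ ≤ C * (‖w y‖ + ∑ j, ‖pd j w y‖)) (i) :
    |∑ j, ∑ k, a j k y * pd j (pd k (fun y => ucpvp_co V i (w y))) y| ≤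
      ((∑ j, ‖ucpvp_co V j‖) * |C| * ∑ i, ‖Module.finBasis ℝ V i‖) *
        ∑ l, (|ucpvp_co V l (w y)| + ∑ k, |pd k (fun y => ucpvp_co V l (w y)) y|) := by
  have e1 : ∑ j, ∑ k, a j k y * pd j (pd k (fun y => ucpvp_co V i (w y))) y =
      ucpvp_co V i (∑ j, ∑ k, a j k y • pd j (pd k w) y) := by
    simp only [map_sum, map_smul, smul_eq_mul]
    exact Finset.sum_congr rfl fun j _ => Finset.sum_congr rfl fun k _ => by
      rw [ucpvp_pd2 hD (ucpvp_co V i) hw hy j k]
  have e2 : ∑ l, (|ucpvp_co V l (w y)| + ∑ k, |pd k (fun y => ucpvp_co V l (w y)) y|) =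
      ∑ l, |ucpvp_co V l (w y)| + ∑ k, ∑ l, |ucpvp_co V l (pd k w y)| := by
    rw [Finset.sum_add_distrib]
    congr 1
    rw [Finset.sum_comm]
    exact Finset.sum_congr rfl fun k _ => Finset.sum_congr rfl fun l _ => by
      rw [ucpvp_pd hD (ucpvp_co V l) hw hy k]
  rw [e1, e2]
  have h1 := ucpvp_co_le i (∑ j, ∑ k, a j k y • pd j (pd k w) y)
  have hA : 0 ≤ ∑ j, ‖ucpvp_co V j‖ := Finset.sum_nonneg fun j _ => norm_nonneg _
  have hs : 0 ≤ ‖w y‖ + ∑ j, ‖pd j w y‖ :=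
    add_nonneg (norm_nonneg _) (Finset.sum_nonneg fun j _ => norm_nonneg _)
  have h2 : ‖∑ j, ∑ k, a j k y • pd j (pd k w) y‖ ≤ |C| * (‖w y‖ + ∑ j, ‖pd j w y‖) :=
    h.trans (mul_le_mul_of_nonneg_right (le_abs_self C) hs)
  have h3 : ‖w y‖ + ∑ j, ‖pd j w y‖ ≤ (∑ i, ‖Module.finBasis ℝ V i‖) *
      (∑ l, |ucpvp_co V l (w y)| + ∑ k, ∑ l, |ucpvp_co V l (pd k w y)|) := by
    rw [mul_add, Finset.mul_sum (s := Finset.univ) (f := fun k => ∑ l, |ucpvp_co V l (pd k w y)|)]
    exact add_le_add (ucpvp_norm_le _) (Finset.sum_le_sum fun k _ => ucpvp_norm_le _)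
  calc |ucpvp_co V i (∑ j, ∑ k, a j k y • pd j (pd k w) y)|
      ≤ (∑ j, ‖ucpvp_co V j‖) * ‖∑ j, ∑ k, a j k y • pd j (pd k w) y‖ := h1
    _ ≤ (∑ j, ‖ucpvp_co V j‖) * (|C| * (‖w y‖ + ∑ j, ‖pd j w y‖)) :=
        mul_le_mul_of_nonneg_left h2 hA
    _ ≤ (∑ j, ‖ucpvp_co V j‖) * (|C| * ((∑ i, ‖Module.finBasis ℝ V i‖) *
      (∑ l, |ucpvp_co V l (w y)| + ∑ k, ∑ l, |ucpvp_co V l (pd k w y)|))) :=
        mul_le_mul_of_nonneg_left (mul_le_mul_of_nonneg_left h3 (abs_nonneg _)) hA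
    _ = _ := by ring

theorem ucpvp_quad {A : Matrix (Fin n) (Fin n) ℝ} (hA : A.PosDef) (ξ : Fin n → ℝ) (hξ : ξ ≠ 0) :
    0 < ∑ j, ∑ k, A j k * ξ j * ξ k := by
  have h1 := hA.dotProduct_mulVec_pos hξ
  have h2 : star ξ ⬝ᵥ A.mulVec ξ = ∑ j, ∑ k, A j k * ξ j * ξ k := by
    simp only [dotProduct, Matrix.mulVec, Pi.star_apply, star_trivial, Finset.mul_sum]
    exact Finset.sum_congr rfl fun j _ => Finset.sum_congr rfl fun k _ => by ring
  rwa [h2] at h1

end

theorem ucpV : UcpV_statement := by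
  intro n _ V _ _ _ a O hO hOp hOc ha hp w hw hb U hU hUO hUn hU0
  have hOH : O ⊆ Hs n := fun x hx => le_of_lt (show (0 : ℝ) < x 0 from hOp hx)
  have hR : RelOpen O := ⟨O, hO, (inter_eq_self_of_subset_left hOH).symm⟩
  have hnh : ∀ x ∈ O, 𝓝[Hs n] x = 𝓝 x := fun x hx =>
    nhdsWithin_eq_nhds.2 (mem_of_superset (hO.mem_nhds hx) hOH)
  have hpa : ∀ (f : E n → ℝ) (k : Fin n), ∀ x ∈ O, A.pa k f x = pd k f x := by
    intro f k x hx
    unfold pd A.pa
    rw [fderivWithin_of_mem_nhds (mem_of_superset (hO.mem_nhds hx) hOH)]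
  have hpa2 : ∀ (f : E n → ℝ) (j k : Fin n), ∀ x ∈ O, A.pa j (A.pa k f) x = pd j (pd k f) x := by
    intro f j k x hx
    rw [hpa _ j x hx]
    exact hR.pd_congr (fun y hy => hpa f k y hy) hx j
  have key := A.smooth_ucp (ι := Fin (Module.finrank ℝ V)) hO hOc (a := a)
    (fun j k => (ha j k).of_le ucpvp_two)
    (fun j k x hx => by
      have := (hp x hx).isHermitian.apply j k
      simpa using this.symm)
    (fun x hx ξ hξ => ucpvp_quad (hp x hx) ξ hξ)
    (w := fun i y => ucpvp_co V i (w y))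
    (fun i => ((ucpvp_co V i).contDiff.comp_contDiffOn hw).of_le ucpvp_two)
    (fun x hx => by
      obtain ⟨C, hC⟩ := hb x hx
      rw [hnh x hx] at hC
      refine ⟨(∑ j, ‖ucpvp_co V j‖) * |C| * ∑ i, ‖Module.finBasis ℝ V i‖, ?_⟩
      filter_upwards [hC, hO.mem_nhds hx] with y hy hyO i
      have h1 := ucpvp_bound hR hw hyO hy i
      simp only [hpa2 _ _ _ y hyO, hpa _ _ y hyO]
      exact h1)
    hU hUO hUn (fun x hx i => by
      show ucpvp_co V i (w x) = 0
      rw [hU0 x hx, map_zero])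
  exact fun x hx => ucpvp_zero fun i => key x hx i

theorem ucpVBd : UcpVBd_statement := by
  intro n _ V _ _ _ a z r hr hz ha hp w hw hb h0
  have hR : RelOpen (HB z r) := ⟨Metric.ball z r, Metric.isOpen_ball, rfl⟩
  have key := A.half_ucp (ι := Fin (Module.finrank ℝ V)) hz hr (a := a)
    (fun j k => (ha j k).of_le ucpvp_two)
    (fun j k x hx => by
      have := (hp x hx).isHermitian.apply j k
      simpa using this.symm)
    (fun x hx ξ hξ => ucpvp_quad (hp x hx) ξ hξ)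
    (w := fun i y => ucpvp_co V i (w y))
    (fun i => ((ucpvp_co V i).contDiff.comp_contDiffOn hw).of_le ucpvp_two)
    (fun x hx => by
      obtain ⟨C, hC⟩ := hb x hx
      refine ⟨(∑ j, ‖ucpvp_co V j‖) * |C| * ∑ i, ‖Module.finBasis ℝ V i‖, ?_⟩
      filter_upwards [hC, hR.mem_nhds hx] with y hy hyO i
      exact ucpvp_bound hR hw hyO hy i)
    (fun x hx hx0 i => by
      have hxH : x ∈ HB z r := ⟨hx, by show (0 : ℝ) ≤ x 0; rw [hx0]⟩
      obtain ⟨h1, h2⟩ := h0 x hxH hx0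
      refine ⟨?_, fun k => ?_⟩
      · show ucpvp_co V i (w x) = 0
        rw [h1, map_zero]
      · have h3 : A.ph k (fun y => ucpvp_co V i (w y)) x =
            pd k (fun y => ucpvp_co V i (w y)) x := rfl
        rw [h3, ucpvp_pd hR (ucpvp_co V i) hw hxH k, h2 k, map_zero])
  exact fun x hx => ucpvp_zero fun i => key x hx i

end Vale.Agent.P088.EYM
end
end

section

set_option linter.all false

/-!
# P088-EYM, block A: unique continuation for sequences, from the boundary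
-/

open MeasureTheory Set Filter Topology
open scoped ContDiff

noncomputable section

namespace Vale.Agent.P088.EYM

variable {n N : ℕ} [NeZero n] {L : LD n N}

theorem uh_pd_pa {x : E n} (hx : x ∈ Hs n) {φ : E n → ℝ} (hφ : ContDiff ℝ ∞ φ) (k : Fin n) :
    pd k φ x = A.pa k φ x :=
  pd_of_has hx ((hφ.differentiable (by simp)) x).hasFDerivAt.hasFDerivWithinAt k

theorem uh_meas (z : E n) (r : ℝ) : MeasurableSet (HB z r) :=
  measurableSet_ball.inter isClosed_Hs.measurableSet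

theorem uh_rel (z : E n) (r : ℝ) : RelOpen (HB z r) := ⟨_, Metric.isOpen_ball, rfl⟩

/-- integrability of a continuous function times a test function -/
theorem uh_int {z : E n} {r : ℝ} {f : E n → ℝ} (hf : ContinuousOn f (HB z r)) {K : Set (E n)}
    (hK : IsCompact K) (hKb : K ⊆ Metric.ball z r) (h0 : ∀ x, x ∉ K → f x = 0) :
    IntegrableOn f (HB z r) := by
  have h1 : IntegrableOn f (K ∩ Hs n) :=
    (hf.mono (inter_subset_inter_left _ hKb)).integrableOn_compact (hK.inter_right isClosed_Hs)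
  exact h1.of_forall_diff_eq_zero (uh_meas z r) fun x hx => h0 x fun hxK => hx.2 ⟨hxK, hx.1.2⟩

theorem uh_div {z : E n} {r : ℝ} {Y : E n → ℝ} (hY : ContDiffOn ℝ ∞ Y (HB z r))
    (hY0 : ∀ x ∈ Metric.ball z r, x 0 = 0 → Y x = 0)
    {φ : E n → ℝ} (hφ : A.TF (Metric.ball z r) φ) (k : Fin n) :
    IntegrableOn (fun x => Y x * pd k φ x + pd k Y x * φ x) (HB z r) ∧
      ∫ x in HB z r, (Y x * pd k φ x + pd k Y x * φ x) = 0 := by
  have hD := uh_rel z r
  obtain ⟨h1, h2, h3⟩ := hφ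
  have hpφ : ∀ x, x ∉ tsupport φ → A.pa k φ x = 0 := fun x hx =>
    image_eq_zero_of_notMem_tsupport fun h => hx (A.tsupport_pa_subset φ k h)
  have i1 : IntegrableOn (fun x => Y x * A.pa k φ x) (HB z r) := by
    refine uh_int (hY.continuousOn.mul (A.pa_contDiff_infty h1 k).continuous.continuousOn) h2 h3
      fun x hx => ?_
    rw [hpφ x hx, mul_zero]
  have i2 : IntegrableOn (fun x => pd k Y x * φ x) (HB z r) := by
    refine uh_int ((hD.pd_smooth hY k).continuousOn.mul h1.continuous.continuousOn) h2 h3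
      fun x hx => ?_
    rw [image_eq_zero_of_notMem_tsupport hx, mul_zero]
  have e0 : ∀ x ∈ HB z r, Y x * pd k φ x + pd k Y x * φ x
      = Y x * A.pa k φ x + pd k Y x * φ x := fun x hx => by rw [uh_pd_pa hx.2 h1 k]
  have i3 : IntegrableOn (fun x => Y x * A.pa k φ x + pd k Y x * φ x) (HB z r) := i1.add i2
  refine ⟨i3.congr_fun (fun x hx => (e0 x hx).symm) (uh_meas z r), ?_⟩
  rw [setIntegral_congr_fun (uh_meas z r) e0, integral_add i1 i2]
  have h4 := A.ibp_half (z := z) (r := r) (f := Y) (hY.of_le (by simp only [WithTop.one_le_coe, le_top])) hY0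
    (φ := φ) (h1.of_le (by simp)) h2 h3 k
  have h5 : ∫ x in HB z r, Y x * A.pa k φ x = - ∫ x in HB z r, pd k Y x * φ x := h4
  rw [h5]
  ring

theorem uh_energy {z : E n} {r : ℝ} (hL : L.Ok (HB z r)) {c : E n → Fib N}
    (hc : ContDiffOn ℝ ∞ c (HB z r)) (hc0 : ∀ x ∈ HB z r, x 0 = 0 → c x = 0)
    {φ : E n → ℝ} (hφ : A.TF (Metric.ball z r) φ) (p : Fin N × Bool) :
    ∫ x in HB z r, ((∑ j, ∑ k, gg L.g j k x * A.ph j (fun y => aInt_proj p (ur_w L c y)) x
        * A.pa k φ x)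
      + (∑ k, ∑ q, ur_Q L k p q x * A.ph k (fun y => aInt_proj q (ur_w L c y)) x) * φ x
      + (∑ q, ur_R L p q x * aInt_proj q (ur_w L c x)) * φ x)
      = (En L (HB z r) c (fun y => φ y • ur_eb p)).re := by
  have hDr := uh_rel z r
  have hDm := uh_meas z r
  have hψ : ContDiff ℝ ∞ (fun y => φ y • (ur_eb p : Fib N)) := hφ.1.smul contDiff_const
  have hz : ∀ x, x ∉ tsupport φ → (fun y => φ y • (ur_eb p : Fib N)) =ᶠ[𝓝 x] fun _ => 0 := by
    intro x hx
    filter_upwards [(isClosed_tsupport φ).isOpen_compl.mem_nhds hx] with y hy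
    rw [image_eq_zero_of_notMem_tsupport hy, zero_smul]
  have hint : IntegrableOn (ed L c (fun y => φ y • ur_eb p)) (HB z r) :=
    ui_ed_int hDr hL hDm hc hψ (hφ.2.1.isCompact.inter_right isClosed_Hs)
      (inter_subset_inter_left _ hφ.2.2) fun x hx hx' => ui_ed_zero (hz x fun h => hx' ⟨h, hx.2⟩)
  have hin : ∀ x ∈ HB z r,
      ((∑ j, ∑ k, gg L.g j k x * A.ph j (fun y => aInt_proj p (ur_w L c y)) x * A.pa k φ x)
      + (∑ k, ∑ q, ur_Q L k p q x * A.ph k (fun y => aInt_proj q (ur_w L c y)) x) * φ x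
      + (∑ q, ur_R L p q x * aInt_proj q (ur_w L c x)) * φ x)
      = (ed L c (fun y => φ y • ur_eb p) x).re
        + ∑ k, (ur_Y L c p k x * pd k φ x + pd k (ur_Y L c p k) x * φ x) := by
    intro x hx
    rw [← ur_main hDr hL hc hφ.1 p hx]
    simp only [uh_pd_pa hx.2 hφ.1]
    rfl
  rw [setIntegral_congr_fun hDm hin]
  have hY0 : ∀ k, ∀ x ∈ Metric.ball z r, x 0 = 0 → ur_Y L c p k x = 0 := by
    intro k x hx hx0
    have h1 : c x = 0 := hc0 x ⟨hx, by show 0 ≤ x 0; rw [hx0]⟩ hx0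
    unfold ur_Y ur_w
    rw [h1]
    simp only [map_zero, sum_apply, smul_apply, smul_zero, Finset.sum_const_zero]
  have hd := fun k => uh_div (ur_Y_smooth hDr hL hc p k) (hY0 k) hφ k
  have hre : Integrable (fun x => (ed L c (fun y => φ y • ur_eb p) x).re)
      (volume.restrict (HB z r)) := hint.re
  have hsum : Integrable (fun x => ∑ k, (ur_Y L c p k x * pd k φ x
      + pd k (ur_Y L c p k) x * φ x)) (volume.restrict (HB z r)) :=
    integrable_finsetSum _ fun k _ => (hd k).1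
  rw [integral_add hre hsum,
    integral_finsetSum _ fun k _ => (hd k).1, Finset.sum_eq_zero fun k _ => (hd k).2, add_zero]
  unfold En
  exact integral_re hint


theorem aUcpBd : AUcpBd_statement := by
  intro n N _ L z r hr hz hL w hw hw0 hC hI hψ
  have hDr := uh_rel z r
  set r₁ : ℝ := r / 2 with hr₁
  have hr₁0 : 0 < r₁ := by positivity
  have hr₁r : r₁ < r := by rw [hr₁]; linarith only [hr]
  have hsub : HB z r₁ ⊆ HB z r := inter_subset_inter_left _ (Metric.ball_subset_ball hr₁r.le)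
  set K₁ : Set (E n) := Metric.closedBall z r₁ ∩ Hs n with hK₁
  have hK₁c : IsCompact K₁ := (isCompact_closedBall z r₁).inter_right isClosed_Hs
  have hK₁s : K₁ ⊆ HB z r :=
    inter_subset_inter_left _ (Metric.closedBall_subset_ball hr₁r)
  have hHBK : HB z r₁ ⊆ K₁ := inter_subset_inter_left _ Metric.ball_subset_closedBall
  have hWs : ∀ m (p : Fin N × Bool),
      ContDiffOn ℝ ∞ (fun y => aInt_proj p (ur_w L (w m) y)) (HB z r) :=
    fun m p => (aInt_proj p).contDiff.comp_contDiffOn (ur_w_smooth hL (hw m))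
  have key := A.seq_half (ι := Fin N × Bool) (z := z) hz hr₁0 (a := fun j k => gg L.g j k)
    (fun j k => ((hDr.gg_smooth hL.g_smooth hL.g_pos j k).of_le (by norm_cast)).mono hsub)
    (fun j k x hx => eqs_gg_symm hL (hsub hx) j k)
    (fun x hx ξ hξ => ui_pos hL (hsub hx) ξ hξ)
    (Q := ur_Q L) (fun k p q => (ui_Q_cont hDr hL k p q).mono hsub)
    (Rc := ur_R L) (fun p q => (ui_R_cont hDr hL p q).mono hsub)
    (w := fun m p y => aInt_proj p (ur_w L (w m) y))
    (fun m p => ((hWs m p).of_le (by norm_cast)).mono hsub)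
    ?_ ?_ ?_
  · -- conclusion
    obtain ⟨r', hr'0, hr'r, hlim⟩ := key
    have hs' : HB z r' ⊆ K₁ := (inter_subset_inter_left _ (Metric.ball_subset_ball hr'r)).trans hHBK
    refine ⟨r', hr'0, hr'r.trans hr₁r.le, ?_⟩
    obtain ⟨C, hC0, hC2⟩ := ub_two (N := N) hL hK₁c hK₁s
    have hlim' : ∀ p : Fin N × Bool, Tendsto (fun m =>
        ∫ x in HB z r', (aInt_proj p (ur_w L (w m) x)) ^ 2) atTop (𝓝 0) := fun p => hlim p
    have h1 : Tendsto (fun m => C * ∑ p : Fin N × Bool,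
        ∫ x in HB z r', (aInt_proj p (ur_w L (w m) x)) ^ 2) atTop (𝓝 0) := by
      have := (tendsto_finsetSum (Finset.univ : Finset (Fin N × Bool)) fun p _ =>
        hlim' p).const_mul C
      simpa only [Finset.sum_const_zero, mul_zero] using this
    refine squeeze_zero (fun m => integral_nonneg fun x => sq_nonneg _) (fun m => ?_) h1
    have hi : ∀ p : Fin N × Bool,
        IntegrableOn (fun x => (aInt_proj p (ur_w L (w m) x)) ^ 2) (HB z r') :=
      fun p => ((((hWs m p).continuousOn.mono hK₁s).pow 2).integrableOn_compact hK₁c).mono_set hs'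
    rw [← integral_finsetSum _ fun p _ => hi p, ← integral_const_mul]
    refine setIntegral_mono_on ?_ ?_ (uh_meas z r') fun x hx => ?_
    · exact (((((hw m).continuousOn.mono hK₁s).norm).pow 2).integrableOn_compact hK₁c).mono_set hs'
    · exact (integrable_finsetSum _ fun p _ => hi p).const_mul C
    · exact hC2 x (hs' hx) (w m x)
  · -- zero boundary values
    intro m p x hx hx0
    have h1 : w m x = 0 :=
      hw0 m x ⟨Metric.ball_subset_ball hr₁r.le hx, by show 0 ≤ x 0; rw [hx0]⟩ hx0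
    show aInt_proj p (ur_w L (w m) x) = 0
    unfold ur_w
    rw [h1]
    simp
  · -- Cauchy
    intro K' hK' hKD'' ε hε
    have hKD' : K' ⊆ HB z r := hKD''.trans hsub
    obtain ⟨C, hC0, hC1⟩ := ub_one hDr hL hK' hKD'
    obtain ⟨M, hM⟩ := hC (ε / (C + 1)) (by (clear * - hε hC0; positivity))
    refine ⟨M, fun m hm m' hm' p => ?_⟩
    have hd : ContDiffOn ℝ ∞ (fun x => w m x - w m' x) (HB z r) := (hw m).sub (hw m')
    have e1 : ∀ x ∈ K', (aInt_proj p (ur_w L (w m) x) - aInt_proj p (ur_w L (w m') x)) ^ 2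
        + ∑ k, (A.ph k (fun y => aInt_proj p (ur_w L (w m) y)) x
          - A.ph k (fun y => aInt_proj p (ur_w L (w m') y)) x) ^ 2
        ≤ C * (‖w m x - w m' x‖ ^ 2 + ∑ k, ‖pd k (fun x => w m x - w m' x) x‖ ^ 2) := by
      intro x hx
      have h2 := hC1 _ hd x hx p
      have h3 : ∀ k, pd k (fun y => aInt_proj p (ur_w L (fun x => w m x - w m' x) y)) x
          = A.ph k (fun y => aInt_proj p (ur_w L (w m) y)) x
            - A.ph k (fun y => aInt_proj p (ur_w L (w m') y)) x := by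
        intro k
        have h4 := hDr.pd_sub (hWs m p) (hWs m' p) (hKD' hx) k
        refine Eq.trans ?_ h4
        congr 1
        funext y
        rw [ub_sub, map_sub]
      simp only [h3] at h2
      rw [ub_sub, map_sub] at h2
      exact h2
    have c0 : ∀ m, ContinuousOn (fun x => ‖w m x‖ ^ 2 + ∑ k, ‖pd k (w m) x‖ ^ 2) (HB z r) :=
      fun m => ((hw m).continuousOn.norm.pow 2).add (continuousOn_finsetSum _ fun k _ =>
        ((hDr.pd_smooth (hw m) k).continuousOn.norm).pow 2)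
    have c1 : ContinuousOn (fun x => ‖w m x - w m' x‖ ^ 2
        + ∑ k, ‖pd k (fun x => w m x - w m' x) x‖ ^ 2) (HB z r) :=
      (hd.continuousOn.norm.pow 2).add (continuousOn_finsetSum _ fun k _ =>
        ((hDr.pd_smooth hd k).continuousOn.norm).pow 2)
    have i0 : IntegrableOn (fun x => (‖w m x - w m' x‖ ^ 2
        + ∑ k, ‖pd k (fun x => w m x - w m' x) x‖ ^ 2)) (HB z r) := by
      refine Integrable.mono' (((hI m).const_mul 2).add ((hI m').const_mul 2))
        (c1.aestronglyMeasurable (uh_meas z r)) ?_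
      refine (ae_restrict_iff' (uh_meas z r)).2 (Eventually.of_forall fun x hx => ?_)
      have h5 : ∀ k, pd k (fun x => w m x - w m' x) x = pd k (w m) x - pd k (w m') x := fun k =>
        hDr.pd_sub (hw m) (hw m') hx k
      have h6 : ∀ a b : Fib N, ‖a - b‖ ^ 2 ≤ 2 * ‖a‖ ^ 2 + 2 * ‖b‖ ^ 2 := by
        intro a b
        have h7 := norm_sub_le a b
        nlinarith only [h7, norm_nonneg (a - b), sq_nonneg (‖a‖ - ‖b‖)]
      rw [Real.norm_of_nonneg (by (clear L z r hr hz hL hw hw0 hC hI hψ hDr r₁ hr₁ hr₁0 hr₁r hsub K₁ hK₁ hK₁c hK₁s hHBK hWs K' hK' hKD'' ε hε hKD' C hC0 hC1 M hM hm hm' p hd e1 c0 c1 hx h5 h6; positivity))]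
      simp only [h5, Pi.add_apply]
      have h8 : ∑ k, ‖pd k (w m) x - pd k (w m') x‖ ^ 2
          ≤ 2 * ∑ k, ‖pd k (w m) x‖ ^ 2 + 2 * ∑ k, ‖pd k (w m') x‖ ^ 2 := by
        rw [Finset.mul_sum, Finset.mul_sum, ← Finset.sum_add_distrib]
        exact Finset.sum_le_sum fun k _ => h6 _ _
      have h9 := h6 (w m x) (w m' x)
      (clear L z r hr hz hL hw hw0 hC hI hψ hDr r₁ hr₁ hr₁0 hr₁r hsub K₁ hK₁ hK₁c hK₁s hHBK hWs K' hK' hKD'' ε hε hKD' C hC0 hC1 M hM hm hm' p hd e1 c0 c1 hx h5; linarith)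
    have i1 : IntegrableOn (fun x => (‖w m x - w m' x‖ ^ 2
        + ∑ k, ‖pd k (fun x => w m x - w m' x) x‖ ^ 2)) K' := i0.mono_set hKD'
    have i2 : IntegrableOn (fun x =>
        (aInt_proj p (ur_w L (w m) x) - aInt_proj p (ur_w L (w m') x)) ^ 2
        + ∑ k, (A.ph k (fun y => aInt_proj p (ur_w L (w m) y)) x
          - A.ph k (fun y => aInt_proj p (ur_w L (w m') y)) x) ^ 2) K' := by
      refine ContinuousOn.integrableOn_compact hK' ?_
      have hpa : ∀ m k, ContinuousOn (A.ph k (fun y => aInt_proj p (ur_w L (w m) y))) K' :=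
        fun m k => (hDr.pd_smooth (hWs m p) k).continuousOn.mono hKD'
      refine ((((hWs m p).continuousOn.mono hKD').sub
        ((hWs m' p).continuousOn.mono hKD')).pow 2).add ?_
      exact continuousOn_finsetSum _ fun k _ => ((hpa m k).sub (hpa m' k)).pow 2
    calc _ ≤ ∫ x in K', C * (‖w m x - w m' x‖ ^ 2
          + ∑ k, ‖pd k (fun x => w m x - w m' x) x‖ ^ 2) :=
          setIntegral_mono_on i2 (i1.const_mul C) hK'.measurableSet e1
      _ = C * ∫ x in K', (‖w m x - w m' x‖ ^ 2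
          + ∑ k, ‖pd k (fun x => w m x - w m' x) x‖ ^ 2) := by rw [integral_const_mul]
      _ ≤ C * H1 (HB z r) (fun x => w m x - w m' x) := by
        refine mul_le_mul_of_nonneg_left ?_ hC0
        exact setIntegral_mono_set i0 (Eventually.of_forall fun x => by
          show 0 ≤ ‖w m x - w m' x‖ ^ 2 + ∑ k, ‖pd k (fun x => w m x - w m' x) x‖ ^ 2
          (clear L z r hr hz hL hw hw0 hC hI hψ hDr r₁ hr₁ hr₁0 hr₁r hsub K₁ hK₁ hK₁c hK₁s hHBK hWs K' hK' hKD'' ε hε hKD' C hC0 hC1 M hM hm hm' p hd e1 c0 c1 i0 i1 i2; positivity)) hKD'.eventuallyLE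
      _ ≤ C * (ε / (C + 1)) := mul_le_mul_of_nonneg_left (hM m hm m' hm') hC0
      _ ≤ ε := by
        rw [mul_div_assoc', div_le_iff₀ (by (clear * - hC0; positivity))]
        nlinarith only [hε]
  · -- equation
    intro p φ hφ
    have hφ' : A.TF (Metric.ball z r) φ :=
      ⟨hφ.1, hφ.2.1, hφ.2.2.trans (Metric.ball_subset_ball hr₁r.le)⟩
    have hT : Tst0 (Metric.ball z r) (fun y => φ y • (ur_eb p : Fib N)) := by
      refine ⟨hφ'.1.smul contDiff_const, hφ'.2.1.smul_right, ?_⟩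
      refine (closure_mono ?_).trans hφ'.2.2
      intro x hx hx0
      exact hx (by simp [hx0])
    have h1 := (Complex.continuous_re.tendsto 0).comp (hψ _ hT)
    refine Tendsto.congr (fun m => ?_) h1
    have h2 := uh_energy hL (hw m) (hw0 m) hφ' p
    have h3 : ∫ x in HB z r₁, ((∑ j, ∑ k, gg L.g j k x
          * A.ph j (fun y => aInt_proj p (ur_w L (w m) y)) x * A.pa k φ x)
        + (∑ k, ∑ q, ur_Q L k p q x * A.ph k (fun y => aInt_proj q (ur_w L (w m) y)) x) * φ x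
        + (∑ q, ur_R L p q x * aInt_proj q (ur_w L (w m) x)) * φ x)
        = ∫ x in HB z r, ((∑ j, ∑ k, gg L.g j k x
          * A.ph j (fun y => aInt_proj p (ur_w L (w m) y)) x * A.pa k φ x)
        + (∑ k, ∑ q, ur_Q L k p q x * A.ph k (fun y => aInt_proj q (ur_w L (w m) y)) x) * φ x
        + (∑ q, ur_R L p q x * aInt_proj q (ur_w L (w m) x)) * φ x) := by
      refine (setIntegral_eq_of_subset_of_forall_diff_eq_zero (uh_meas z r) hsub
        fun x hx => ?_).symm
      have hx' : x ∉ tsupport φ := fun h => hx.2 ⟨hφ.2.2 h, hx.1.2⟩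
      have g1 : φ x = 0 := image_eq_zero_of_notMem_tsupport hx'
      have g2 : ∀ k, A.pa k φ x = 0 := fun k =>
        image_eq_zero_of_notMem_tsupport fun h => hx' (A.tsupport_pa_subset φ k h)
      simp only [g1, g2, mul_zero, Finset.sum_const_zero, add_zero]
    exact (h3.trans h2).symm

end Vale.Agent.P088.EYM
end
end

section

/-!
# P088-EYM, block C: the global match on the interior
-/

open Bundle Manifold MeasureTheory Set Filter Topology
open scoped ContDiff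

noncomputable section

namespace Vale.Agent.P088.EYM

universe u

section basic

variable {n N : ℕ} [NeZero n] {M : Type u} [TopologicalSpace M]
  [ChartedSpace (EuclideanHalfSpace n) M] [IsManifold (𝓡∂ n) ∞ M]

/-- the metric as a function of points and vectors of the model space -/
def cGlobal_gI (g : Metric (𝓡∂ n) M) (x : M) (v w : E n) : ℝ := g.inner x v w

/-- the connection as a function of points and vectors of the model space -/
def cGlobal_aI (A : Connection (𝓡∂ n) N M) (x : M) (v : E n) : EndF N := A.form x v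

variable [MeasurableSpace M]

theorem cGlobal_congr {P Q : One n N M} {Γ O : Set M} {φ φ' : M → M} {V V' : M → EndF N}
    (h : LMatch P Q Γ O φ V) (h1 : ∀ x ∈ O, φ' x = φ x) (h2 : ∀ x ∈ O, V' x = V x) :
    LMatch P Q Γ O φ' V' := by
  have hev : ∀ x ∈ O, φ' =ᶠ[𝓝 x] φ := fun x hx => by
    filter_upwards [h.isOpen.mem_nhds hx] with y hy using h1 y hy
  have hevV : ∀ x ∈ O, V' =ᶠ[𝓝 x] V := fun x hx => by
    filter_upwards [h.isOpen.mem_nhds hx] with y hy using h2 y hy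
  refine ⟨h.isOpen, h.sub, fun x hx => ?_, h.smφ.congr h1, h.smV.congr h2, fun x hx => ?_,
    fun x hx v w => ?_, fun x hx v => ?_, fun u hu x hx => ?_⟩
  · rw [h1 x hx]; exact h.maps hx
  · rw [h2 x hx]; exact h.unit x hx
  · have e1 := h.met x hx v w
    have e2 : (mfderiv (𝓡∂ n) (𝓡∂ n) φ' x : E n →L[ℝ] E n) =
        (mfderiv (𝓡∂ n) (𝓡∂ n) φ x : E n →L[ℝ] E n) := (hev x hx).mfderiv_eq
    change cGlobal_gI Q.g x v w = cGlobal_gI P.g (φ' x)
      ((mfderiv (𝓡∂ n) (𝓡∂ n) φ' x : E n →L[ℝ] E n) v)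
      ((mfderiv (𝓡∂ n) (𝓡∂ n) φ' x : E n →L[ℝ] E n) w)
    rw [e2, h1 x hx]
    exact e1
  · have e1 := h.con x hx v
    have e2 : (mfderiv (𝓡∂ n) (𝓡∂ n) φ' x : E n →L[ℝ] E n) =
        (mfderiv (𝓡∂ n) (𝓡∂ n) φ x : E n →L[ℝ] E n) := (hev x hx).mfderiv_eq
    have e3 : (dmap (𝓡∂ n) V' x : E n →L[ℝ] EndF N) = (dmap (𝓡∂ n) V x : E n →L[ℝ] EndF N) := by
      unfold dmap
      exact (hevV x hx).mfderiv_eq
    change (dmap (𝓡∂ n) V' x : E n →L[ℝ] EndF N) v + Q.A.form x v ∘L V' x =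
      V' x ∘L cGlobal_aI P.A (φ' x) ((mfderiv (𝓡∂ n) (𝓡∂ n) φ' x : E n →L[ℝ] E n) v)
    rw [e2, e3, h1 x hx, h2 x hx]
    exact e1
  · rw [h1 x hx, h2 x hx]
    exact h.sol u hu x hx

theorem cGlobal_swap {P Q : One n N M} {Γ : Set M} {u : (M → Fib N) × (M → Fib N)}
    (hu : u ∈ PP P Q Γ) : u.swap ∈ PP Q P Γ := by
  obtain ⟨f, hf, h1, h2⟩ := hu
  exact ⟨f, hf, h2, h1⟩

theorem cGlobal_unit {V : EndF N} (hV : V ∈ unitary (EndF N)) {e : Fib N} (h : V e = 0) :
    e = 0 := by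
  have h1 := (Unitary.mem_iff.1 hV).1
  have h2 : (star V * V) e = e := by rw [h1]; rfl
  rw [← h2]
  change (star V) (V e) = 0
  rw [h, map_zero]

end basic

section uniq

variable {n N : ℕ} [NeZero n] {M : Type u} [TopologicalSpace M]
  [ChartedSpace (EuclideanHalfSpace n) M] [IsManifold (𝓡∂ n) ∞ M] [T2Space M] [CompactSpace M]
  [ConnectedSpace M] [MeasurableSpace M] [BorelSpace M]

/-- pairs of solutions with prescribed values of the first component -/
theorem cGlobal_values (hR : CRunge_statement.{u}) {P Q : One n N M} {Γ : Set M} (hn : 2 ≤ n)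
    (hΓ : RelBd n Γ) (hΓn : Γ.Nonempty) (hP : P.HasSol Γ) (hQ : Q.HasSol Γ) {x x' : M}
    (hx : x ∈ Mi n M) (hx' : x' ∈ Mi n M) (hne : x ≠ x') (a a' : Fib N) :
    ∃ u ∈ PP P Q Γ, u.1 x = a ∧ u.1 x' = a' := by
  obtain ⟨u, ⟨f, hf, hu⟩, h1, h2⟩ := hR n N M P Γ x x' a a' (fun _ => 0) (fun _ => 0) hn hΓ hΓn hP
    hx hx' hne
  obtain ⟨w, hw⟩ := hQ f hf
  exact ⟨(u, w), ⟨f, hf, hu, hw⟩, h1.1, h2.1⟩

omit [CompactSpace M] [MeasurableSpace M] [BorelSpace M] in
theorem cGlobal_second (hC : CConn_statement.{u}) {Γ : Set M} (hΓ : RelBd n Γ)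
    (hΓn : Γ.Nonempty) (x : M) (hx : x ∈ Mi n M) : ∃ b ∈ Mi n M, b ≠ x := by
  by_contra hcon
  push Not at hcon
  obtain ⟨p, hp⟩ := hΓn
  obtain ⟨O, hO, hΓO⟩ := hΓ
  have hpb : p ∈ (𝓡∂ n).boundary M := by
    rw [hΓO] at hp
    exact hp.2
  have h1 := (hC n M).2.2 p
  have h2 : closure (Mi n M) ⊆ {x} := by
    have h3 : Mi n M ⊆ {x} := fun b hb => hcon b hb
    exact closure_minimal h3 isClosed_singleton
  have h3 : p = x := h2 h1
  rw [h3] at hpb
  exact (ModelWithCorners.disjoint_interior_boundary (I := 𝓡∂ n) (M := M)).le_bot ⟨hx, hpb⟩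

/-- the uniqueness statement (U) -/
theorem cGlobal_uniq (hR : CRunge_statement.{u}) (hC : CConn_statement.{u}) {P Q : One n N M}
    {Γ : Set M} (hn : 2 ≤ n) (hN : 0 < N) (hΓ : RelBd n Γ) (hΓn : Γ.Nonempty) (hP : P.HasSol Γ)
    (hQ : Q.HasSol Γ) {a a' : M} (ha : a ∈ Mi n M) (ha' : a' ∈ Mi n M) {V V' : EndF N}
    (hV : V ∈ unitary (EndF N)) (h : ∀ u ∈ PP P Q Γ, V (u.1 a) = V' (u.1 a')) :
    a = a' ∧ V = V' := by
  have haa : a = a' := by
    by_contra hne
    let e : Fib N := EuclideanSpace.single ⟨0, hN⟩ (1 : ℂ)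
    obtain ⟨u, hu, h1, h2⟩ := cGlobal_values hR hn hΓ hΓn hP hQ ha ha' hne e 0
    have h3 := h u hu
    rw [h1, h2, map_zero] at h3
    have h4 := cGlobal_unit hV h3
    have h5 := congrArg (fun z : Fib N => z ⟨0, hN⟩) h4
    simp only [PiLp.single_eq_same, PiLp.zero_apply, one_ne_zero, e] at h5
  refine ⟨haa, ?_⟩
  subst haa
  obtain ⟨b, hb, hne⟩ := cGlobal_second hC hΓ hΓn a ha
  ext1 e
  obtain ⟨u, hu, h1, _⟩ := cGlobal_values hR hn hΓ hΓn hP hQ ha hb (Ne.symm hne) e 0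
  have h3 := h u hu
  rwa [h1] at h3

/-- gluing of the local matches -/
theorem cGlobal_glue (hR : CRunge_statement.{u}) (hC : CConn_statement.{u}) {P Q : One n N M}
    {Γ : Set M} (hn : 2 ≤ n) (hN : 0 < N) (hΓ : RelBd n Γ) (hΓn : Γ.Nonempty) (hP : P.HasSol Γ)
    (hQ : Q.HasSol Γ) (hG : ∀ x ∈ Mi n M, x ∈ Gd P Q Γ) :
    ∃ (Φ : M → M) (V : M → EndF N), ∀ x ∈ Mi n M, ∃ O, x ∈ O ∧ LMatch P Q Γ O Φ V := by
  classical
  have hG' : ∀ x : M, ∃ (O : Set M) (φ : M → M) (V : M → EndF N), x ∈ Mi n M →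
      (LMatch P Q Γ O φ V ∧ x ∈ O) := by
    intro x
    by_cases hx : x ∈ Mi n M
    · obtain ⟨O, φ, V, h1⟩ := hG x hx
      exact ⟨O, φ, V, fun _ => h1⟩
    · exact ⟨∅, id, fun _ => 1, fun h => absurd h hx⟩
  choose O φ V hOV using hG'
  refine ⟨fun x => φ x x, fun x => V x x, fun x hx => ⟨O x, (hOV x hx).2, ?_⟩⟩
  have hm := (hOV x hx).1
  have key : ∀ y ∈ O x, φ y y = φ x y ∧ V y y = V x y := by
    intro y hy
    have hyM : y ∈ Mi n M := hm.sub hy
    have hmy := (hOV y hyM).1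
    have hyy := (hOV y hyM).2
    refine cGlobal_uniq hR hC hn hN hΓ hΓn hP hQ (hmy.maps hyy) (hm.maps hy) (hmy.unit y hyy) ?_
    intro u hu
    rw [← hmy.sol u hu y hyy, ← hm.sol u hu y hy]
  exact cGlobal_congr hm (fun y hy => (key y hy).1) (fun y hy => (key y hy).2)

/-- all interior points are good -/
theorem cGlobal_good (hNear : CNear_statement.{u}) (hCl : CClosed_statement.{u})
    (hC : CConn_statement.{u}) {P Q : One n N M}
    {Γ : Set M} {κ₁ κ₂ α β : ℝ} (hn : 3 ≤ n) (hN : 0 < N) (hΓ : RelBd n Γ) (hΓn : Γ.Nonempty)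
    (hS : SameD P Q Γ) (h1 : EYMm κ₁ α β P.g P.A) (h2 : EYMm κ₂ α β Q.g Q.A) :
    ∀ x ∈ Mi n M, x ∈ Gd P Q Γ := by
  obtain ⟨rfl, O, φ, V, hm, hne⟩ := hNear n N M P Q Γ κ₁ κ₂ α β hn hN hΓ hΓn hS h1 h2
  have hopen : IsOpen (Gd P Q Γ) := by
    rw [isOpen_iff_mem_nhds]
    rintro x ⟨O', φ', V', hm', hx⟩
    filter_upwards [hm'.isOpen.mem_nhds hx] with y hy using ⟨O', φ', V', hm', hy⟩
  have hpre := (hC n M).2.1
  have hsub : Mi n M ⊆ Gd P Q Γ := by
    refine hpre.subset_of_closure_inter_subset hopen ?_ ?_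
    · obtain ⟨x, hx⟩ := hne
      exact ⟨x, hm.sub hx, O, φ, V, hm, hx⟩
    · rintro x ⟨hx1, hx2⟩
      exact hCl n N M P Q Γ κ₁ α β hn hN hΓ hΓn hS h1 h2 x hx2 hx1
  exact hsub

end uniq

theorem cGlobal : CNear_statement.{u} → CClosed_statement.{u} → CRunge_statement.{u} →
    CData_statement.{u} → CConn_statement.{u} → CUniq_statement.{u} → CGlobal_statement.{u} := by
  intro hNear hCl hR hD hC _ n N _ M _ _ _ _ _ _ _ _ P Q Γ κ₁ κ₂ α β hn hN hΓ hΓn hS h1 h2
  have hn2 : 2 ≤ n := le_trans (by norm_num) hn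
  obtain ⟨⟨hP, hQ, hS'⟩, _⟩ := hD n N M P Q Γ hΓ hΓn hS
  have hG := cGlobal_good hNear hCl hC hn hN hΓ hΓn hS h1 h2
  have hG' := cGlobal_good hNear hCl hC hn hN hΓ hΓn hS' h2 h1
  obtain ⟨Φ, V, hΦ⟩ := cGlobal_glue hR hC hn2 hN hΓ hΓn hP hQ hG
  obtain ⟨Ψ, V', hΨ⟩ := cGlobal_glue hR hC hn2 hN hΓ hΓn hQ hP hG'
  refine ⟨Φ, Ψ, V, V', hΦ, hΨ, ?_⟩
  have aux : ∀ {P Q : One n N M} {Φ Ψ : M → M} {V V' : M → EndF N}, P.HasSol Γ → Q.HasSol Γ →
      (∀ x ∈ Mi n M, ∃ O, x ∈ O ∧ LMatch P Q Γ O Φ V) →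
      (∀ x ∈ Mi n M, ∃ O, x ∈ O ∧ LMatch Q P Γ O Ψ V') → ∀ x ∈ Mi n M, Φ (Ψ x) = x := by
    intro P Q Φ Ψ V V' hP hQ hΦ hΨ x hx
    obtain ⟨O', hx', hm'⟩ := hΨ x hx
    have hy : Ψ x ∈ Mi n M := hm'.maps hx'
    obtain ⟨O, hyO, hm⟩ := hΦ (Ψ x) hy
    refine (cGlobal_uniq hR hC (P := P) (Q := Q) hn2 hN hΓ hΓn hP hQ hx (hm.maps hyO)
      (V := 1) (V' := V' x * V (Ψ x)) (one_mem _) ?_).1.symm
    intro u hu
    have e1 := hm'.sol _ (cGlobal_swap hu) x hx'
    have e2 := hm.sol u hu (Ψ x) hyO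
    change u.1 x = V' x (u.2 (Ψ x)) at e1
    change u.1 x = V' x (V (Ψ x) (u.1 (Φ (Ψ x))))
    rw [← e2]
    exact e1
  exact fun x hx => ⟨aux hP hQ hΦ hΨ x hx, aux hQ hP hΨ hΦ x hx⟩

end Vale.Agent.P088.EYM
end
end

section

/-! Assembly of all modules. -/

namespace Vale.Agent.P088.EYM

universe u

theorem assembly_of (hUcpInt : AUcpInt_statement) (hUcpBd : AUcpBd_statement)
    (hUV : UcpV_statement) (hUVBd : UcpVBd_statement) : CMain_statement.{u} := by
  -- local analysis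
  have lInt := aLinInt hUcpInt
  have lBd := aLinBd hUcpBd lInt
  have aI : AInt_statement := aInt (aIHigh aICacc aIProl) aISup aIReal
  have aP : APoincare_statement := aPoincare aHardy
  have bRI : BRigInt_statement := bRigInt hUV
  have bRB : BRigBd_statement := bRigBd hUVBd
  -- manifold part
  have loc : CLoc_statement.{u} := cLoc
  have cI : CInt_statement.{u} := cInt
  have en : CEnergy_statement.{u} := cEnergy cI
  have ext : CExt_statement.{u} := cExt
  have harm : CHarm_statement.{u} := cHarm aWeakStrong loc en ext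
  have poinc : CPoinc_statement.{u} := cPoinc aP loc en cI
  have form : CForm_statement.{u} := cForm cI
  have uniq : CUniq_statement.{u} := cUniq poinc form cI
  have conn : CConn_statement.{u} := cConn loc
  have ucp : CUcp_statement.{u} := cUcp lInt harm loc conn
  have rA : CRungeA_statement.{u} := cRungeA cHilb poinc form uniq cI
  have rB : CRungeB_statement.{u} := cRungeB hUcpInt hUcpBd conn loc en cI ext
  have rC : CRungeC_statement.{u} := cRungeC rA rB aGreen aDens cI en ext form loc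
  have runge : CRunge_statement.{u} := cRunge rC aI ES.aSolve uniq cI harm loc
  have data : CData_statement.{u} := cData uniq form
  have start : CStart_statement.{u} := cStart ucp lBd aFlux data ext en harm uniq loc
  have setup : CSetup_statement.{u} := cSetup start bModel harm uniq loc
  have rel1 : CRel1_statement.{u} := cRel1 aGreen aHardy bEnergy ext en uniq form loc
  have erel : CERel_statement.{u} := cERel rel1 aFlux bSol data harm uniq loc
  have mtch : CMatch_statement.{u} := cMatch bSymm bComp bIntr cChart loc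
  have near : CNear_statement.{u} := cNear setup erel dbd bRB lBd bSol mtch harm uniq loc
  have unm : CUnm_statement.{u} := cUnm cChart loc
  have lim : CLim_statement.{u} := cLim runge data loc conn
  have coord : CCoord_statement.{u} := cCoord runge unm data uniq loc conn
  have modeq : CModEq_statement.{u} := cModEq unm bIntr bSymm bComp
  have closed : CClosed_statement.{u} :=
    cClosed lim coord modeq bModel bRI lInt bSol mtch harm uniq loc
  have glob : CGlobal_statement.{u} := cGlobal near closed runge data conn uniq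
  have cont : CCont_statement.{u} := cCont unm loc conn
  have reg : CReg_statement.{u} := cReg aExtSys bChr unm loc conn
  have diff : CDiff_statement.{u} := cDiff cont reg conn
  have tens : CTensor_statement.{u} := cTensor cChart conn loc
  exact cMain glob diff tens conn data loc

/-- The main theorem in abstract form. -/
theorem cmain : CMain_statement.{u} := assembly_of aUcpInt aUcpBd ucpV ucpVBd

end Vale.Agent.P088.EYM
end

section

open Bundle Manifold MeasureTheory Set Filter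
open scoped ContDiff Topology ENNReal

noncomputable section

namespace Vale.Agent.P088

set_option linter.unusedSectionVars false

variable {n N : ℕ} {H : Type*} [TopologicalSpace H]
  {I : ModelWithCorners ℝ (EuclideanSpace ℝ (Fin n)) H}
  {M : Type*} [TopologicalSpace M] [ChartedSpace H M] [IsManifold I ∞ M]
variable {F G : Type*} [NormedAddCommGroup F] [NormedSpace ℝ F] [NormedAddCommGroup G] [NormedSpace ℝ G]
variable [T2Space M] [ConnectedSpace M] [CompactSpace M] [MeasurableSpace M] [BorelSpace M]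

end Vale.Agent.P088
end
end

section

open Bundle Manifold MeasureTheory Set Filter
open scoped ContDiff Topology ENNReal

noncomputable section

namespace Vale.Agent.P088

set_option linter.unusedSectionVars false

variable {n N : ℕ} {H : Type*} [TopologicalSpace H]
  {I : ModelWithCorners ℝ (EuclideanSpace ℝ (Fin n)) H}
  {M : Type*} [TopologicalSpace M] [ChartedSpace H M] [IsManifold I ∞ M]
variable {F G : Type*} [NormedAddCommGroup F] [NormedSpace ℝ F] [NormedAddCommGroup G] [NormedSpace ℝ G]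
variable [T2Space M] [ConnectedSpace M] [CompactSpace M] [MeasurableSpace M] [BorelSpace M]

end Vale.Agent.P088
end
end

section

open Bundle Manifold MeasureTheory Set Filter
open scoped ContDiff Topology ENNReal

noncomputable section

namespace Vale.Agent.P088

set_option linter.unusedSectionVars false

variable {n N : ℕ} {H : Type*} [TopologicalSpace H]
  {I : ModelWithCorners ℝ (EuclideanSpace ℝ (Fin n)) H}
  {M : Type*} [TopologicalSpace M] [ChartedSpace H M] [IsManifold I ∞ M]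
variable {F G : Type*} [NormedAddCommGroup F] [NormedSpace ℝ F] [NormedAddCommGroup G] [NormedSpace ℝ G]
variable [T2Space M] [ConnectedSpace M] [CompactSpace M] [MeasurableSpace M] [BorelSpace M]

end Vale.Agent.P088
end
end

section

/-!
# P088-EYM: from the compact statement to the first statement, the equations
-/

open Bundle Manifold MeasureTheory Set Filter
open scoped ContDiff Matrix Topology ENNReal

noncomputable section

namespace Vale.Agent.P088.B

universe u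

variable {n : ℕ} {N : ℕ} [NeZero n]

theorem brst1_dM (F : V n → Matrix (Fin N) (Fin N) ℂ) {y : V n} (hy : 0 ≤ y 0) (i : Fin n) :
    dM F y i = Vale.Agent.P088.S.dM F y i := by
  ext a b
  exact dj_old _ hy i

theorem brst1_chris (g : V n → Matrix (Fin n) (Fin n) ℝ) (k i j : Fin n) {y : V n} (hy : 0 ≤ y 0) :
    chris g k i j y = Vale.Agent.P088.S.chris g k i j y := by
  unfold chris Vale.Agent.P088.S.chris
  have h2 : (2 : ℝ)⁻¹ = 1 / 2 := by norm_num
  rw [h2]
  congr 1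
  refine Finset.sum_congr rfl fun l _ => ?_
  have e1 : dM g y i l j = Vale.Agent.P088.S.dj (fun z => g z l j) y i := dj_old _ hy i
  have e2 : dM g y j l i = Vale.Agent.P088.S.dj (fun z => g z l i) y j := dj_old _ hy j
  have e3 : dM g y l i j = Vale.Agent.P088.S.dj (fun z => g z i j) y l := dj_old _ hy l
  rw [e1, e2, e3, mul_comm]

theorem brst1_dj_chris (g : V n → Matrix (Fin n) (Fin n) ℝ) (k i j : Fin n) {y : V n}
    (hy : 0 ≤ y 0) (m : Fin n) : dj (fun z => chris g k i j z) y m =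
    Vale.Agent.P088.S.dj (Vale.Agent.P088.S.chris g k i j) y m := by
  rw [← dj_old (Vale.Agent.P088.S.chris g k i j) hy m]
  exact dj_congr m ((half_iff y).2 hy) fun z hz => brst1_chris g k i j ((half_iff z).1 hz)

theorem brst1_dchr (g : V n → Matrix (Fin n) (Fin n) ℝ) (i k a b : Fin n) {y : V n}
    (hy : 0 ≤ y 0) : dM (fun z => Matrix.of fun b c => chris g b i c z) y k a b =
      Vale.Agent.P088.S.dj (Vale.Agent.P088.S.chris g a i b) y k :=
  brst1_dj_chris g a i b hy k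

theorem brst1_ricci (g : V n → Matrix (Fin n) (Fin n) ℝ) (j k : Fin n) {y : V n} (hy : 0 ≤ y 0) :
    (∑ i, curv (fun a z => Matrix.of fun b c => chris g b a c z) i j y i k : ℝ) =
      Vale.Agent.P088.S.ricci g j k y := by
  unfold Vale.Agent.P088.S.ricci
  refine Finset.sum_congr rfl fun i _ => ?_
  unfold curv
  rw [Ring.lie_def, Matrix.add_apply, Matrix.sub_apply, Matrix.sub_apply, Matrix.mul_apply,
    Matrix.mul_apply, brst1_dchr g j i i k hy, brst1_dchr g i j i k hy, ← Finset.sum_sub_distrib]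
  congr 1
  refine Finset.sum_congr rfl fun l _ => ?_
  beta_reduce
  rw [Matrix.of_apply, Matrix.of_apply, Matrix.of_apply, Matrix.of_apply,
    brst1_chris g i i l hy, brst1_chris g l j k hy, brst1_chris g i j l hy,
    brst1_chris g l i k hy]

theorem brst1_curv (A : Fin n → V n → Matrix (Fin N) (Fin N) ℂ) (i j : Fin n) {y : V n}
    (hy : 0 ≤ y 0) : curv A i j y = Vale.Agent.P088.S.curv A i j y := by
  unfold curv Vale.Agent.P088.S.curv
  rw [Ring.lie_def, brst1_dM _ hy, brst1_dM _ hy]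

theorem brst1_dcurv (A : Fin n → V n → Matrix (Fin N) (Fin N) ℂ) (i j : Fin n) {y : V n}
    (hy : 0 ≤ y 0) (m : Fin n) : dM (curv A i j) y m =
      Vale.Agent.P088.S.dM (Vale.Agent.P088.S.curv A i j) y m := by
  rw [← brst1_dM _ hy]
  ext a b
  refine dj_congr m ((half_iff y).2 hy) fun z hz => ?_
  rw [brst1_curv A i j ((half_iff z).1 hz)]

theorem brst1_trace (G T : Matrix (Fin n) (Fin n) ℝ) (hs : ∀ a b, G a b = G b a) :
    (G * T).trace = ∑ a, ∑ b, G a b * T a b := by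
  have h1 : (G * T).trace = ∑ a, ∑ b, G a b * T b a := by
    simp only [Matrix.trace, Matrix.diag_apply, Matrix.mul_apply]
  rw [h1]
  conv_rhs => rw [Finset.sum_comm]
  refine Finset.sum_congr rfl fun a _ => Finset.sum_congr rfl fun b _ => ?_
  rw [hs a b]

theorem brst1_eqs {κ α β : ℝ} {g : V n → Matrix (Fin n) (Fin n) ℝ}
    {A : Fin n → V n → Matrix (Fin N) (Fin N) ℂ} {y : V n} (hy : 0 ≤ y 0)
    (hs : (g y)ᵀ = g y) (h : Eqs κ α β g A y) :
    (∀ j k, Vale.Agent.P088.S.ricci g j k y = κ * g y j k +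
      α * Vale.Agent.P088.S.stress g A j k y +
      β * (∑ a, ∑ b, (g y)⁻¹ a b * Vale.Agent.P088.S.stress g A a b y) * g y j k) ∧
    ∀ k, Vale.Agent.P088.S.divF g A k y = 0 := by
  obtain ⟨h1, h2⟩ := h
  have hT : (fun j k => -∑ a, ∑ b, (curv A j a y * curv A k b y).trace.re * (g y)⁻¹ a b :
      Matrix (Fin n) (Fin n) ℝ) =
      Matrix.of fun j k => Vale.Agent.P088.S.stress g A j k y := by
    funext j k
    rw [Matrix.of_apply]
    unfold Vale.Agent.P088.S.stress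
    congr 1
    refine Finset.sum_congr rfl fun a _ => Finset.sum_congr rfl fun b _ => ?_
    rw [brst1_curv A j a hy, brst1_curv A k b hy, mul_comm]
  have hR : (fun j k => ∑ i, curv (fun a z b c => chris g b a c z) i j y i k :
      Matrix (Fin n) (Fin n) ℝ) = Matrix.of fun j k => Vale.Agent.P088.S.ricci g j k y := by
    funext j k
    exact brst1_ricci g j k hy
  have hsi : ∀ a b, (g y)⁻¹ a b = (g y)⁻¹ b a := by
    intro a b
    have : ((g y)⁻¹)ᵀ = (g y)⁻¹ := by rw [Matrix.transpose_nonsing_inv, hs]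
    conv_lhs => rw [← this]
    rfl
  have h1' : (Matrix.of fun j k => Vale.Agent.P088.S.ricci g j k y) = κ • g y +
      α • (Matrix.of fun j k => Vale.Agent.P088.S.stress g A j k y) +
      (β * ((g y)⁻¹ * (Matrix.of fun j k => Vale.Agent.P088.S.stress g A j k y)).trace) • g y := by
    rw [← hT, ← hR]
    exact h1
  rw [brst1_trace _ _ hsi] at h1'
  refine ⟨fun j k => ?_, fun k => ?_⟩
  · have h3 := congrFun (congrFun h1' j) k
    rw [Matrix.add_apply, Matrix.add_apply, Matrix.smul_apply, Matrix.smul_apply,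
      Matrix.smul_apply, smul_eq_mul, smul_eq_mul, smul_eq_mul, Matrix.of_apply,
      Matrix.of_apply] at h3
    exact h3
  · have h3 := h2 k
    unfold Vale.Agent.P088.S.divF
    rw [← h3]
    refine Finset.sum_congr rfl fun i _ => Finset.sum_congr rfl fun j _ => ?_
    congr 1
    rw [brst1_dcurv A j k hy, brst1_curv A j k hy, Ring.lie_def]
    have e : ∑ l, (chris g l i j y • curv A l k y + chris g l i k y • curv A j l y) =
        ∑ l, (Vale.Agent.P088.S.chris g l i j y • Vale.Agent.P088.S.curv A l k y +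
          Vale.Agent.P088.S.chris g l i k y • Vale.Agent.P088.S.curv A j l y) := by
      refine Finset.sum_congr rfl fun l _ => ?_
      rw [brst1_chris g l i j hy, brst1_chris g l i k hy, brst1_curv A l k hy,
        brst1_curv A j l hy]
    rw [e]
    abel

variable {M : Type u} [TopologicalSpace M] [ChartedSpace (EuclideanHalfSpace n) M]
  [IsManifold (𝓡∂ n) ∞ M]

theorem eym_conv {P : Pair (at_ n M) N} {κ α β : ℝ} (h : EYM κ α β P) :
    Vale.Agent.P088.S.EYM κ α β (conv P) := by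
  intro p x hx
  have hg : gch (at_ n M) P.g p = Vale.Agent.P088.S.gch (conv P) p := by
    funext y
    exact at_gch P.g p y
  have hA : ach (at_ n M) P.A p = Vale.Agent.P088.S.ach (conv P) p := by
    funext j y
    exact at_ach P.A p j y
  have h1 := h p x hx
  rw [hg, hA] at h1
  refine brst1_eqs (at_nonneg p x) ?_ h1
  have hsym : (P.g x)ᵀ = P.g x := by
    have := (P.pos x).1.isHermitian
    rw [Matrix.IsHermitian, Matrix.conjTranspose_eq_transpose_of_trivial] at this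
    exact this
  unfold Vale.Agent.P088.S.gch Vale.Agent.P088.S.inChart
  have hpt : Vale.Agent.P088.S.pt n p (Vale.Agent.P088.S.ch n p x) = x := at_pt_ch hx
  rw [hpt, Matrix.transpose_mul, Matrix.transpose_mul, Matrix.transpose_transpose]
  change (Vale.Agent.P088.S.jac n p x)ᵀ * ((P.g x)ᵀ * _) = (Vale.Agent.P088.S.jac n p x)ᵀ * P.g x * _
  rw [hsym, Matrix.mul_assoc]

end Vale.Agent.P088.B
end
end

section

/-!
# P088-EYM: from the compact statement to the first statement, the conclusion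
-/

open Bundle Manifold MeasureTheory Set Filter
open scoped ContDiff Matrix Topology ENNReal

noncomputable section

namespace Vale.Agent.P088.B

universe u

variable {n : ℕ} {N : ℕ} [NeZero n]
variable {M : Type u} [TopologicalSpace M] [ChartedSpace (EuclideanHalfSpace n) M]

theorem brSt3_map [IsManifold (𝓡∂ n) ∞ M] {Φ : M → M} (hΦ : ContMDiff (𝓡∂ n) (𝓡∂ n) ∞ Φ) :
    SmMap (at_ n M) Φ := by
  refine ⟨hΦ.continuous, fun p i => ?_⟩
  have h1 : ContMDiffOn (𝓡∂ n) 𝓘(ℝ, EuclideanSpace ℝ (Fin n)) ∞ (extChartAt (𝓡∂ n) p)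
      (chartAt (EuclideanHalfSpace n) p).source := contMDiffOn_extChartAt
  have h2 : ContMDiffOn (𝓡∂ n) 𝓘(ℝ, EuclideanSpace ℝ (Fin n)) ∞
      (fun x => extChartAt (𝓡∂ n) p (Φ x)) (Φ ⁻¹' (chartAt (EuclideanHalfSpace n) p).source) :=
    h1.comp hΦ.contMDiffOn (fun x hx => hx)
  have h3 := (Complex.ofRealCLM.comp
    (EuclideanSpace.proj (𝕜 := ℝ) i : EuclideanSpace ℝ (Fin n) →L[ℝ] ℝ)).contMDiff.comp_contMDiffOn
      (n := ∞) h2
  exact h3

theorem brSt3_jac (Φ : M → M) (x : M) :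
    jac (at_ n M) Φ x (Φ x) x = Vale.Agent.P088.S.jacOf n Φ x := by
  ext i j
  exact dj_old _ (at_nonneg x x) j

theorem related_conv [IsManifold (𝓡∂ n) ∞ M] {G : Set M} {P Q : Pair (at_ n M) N}
    (h : Vale.Agent.P088.S.Related G (conv P) (conv Q)) : Related G P Q := by
  obtain ⟨Φ, U, hU, hfix, hg, hA⟩ := h
  refine ⟨Φ, Φ.symm, U, brSt3_map Φ.contMDiff, brSt3_map Φ.symm.contMDiff,
    fun x => ⟨Φ.symm_apply_apply x, Φ.apply_symm_apply x⟩, hU.1, hU.2, hfix, fun x => ?_⟩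
  rw [brSt3_jac]
  refine ⟨hg x, fun j => (hA x j).trans ?_⟩
  unfold Vale.Agent.P088.S.lgd
  rw [mul_add, mul_assoc]
  congr 2
  ext a b
  exact (dj_old (fun y => U (pt (at_ n M) x y) a b) (at_nonneg x x) j).symm

end Vale.Agent.P088.B
end
end

section

/-!
# P088-EYM: the final theorem for the compact statement
-/

open Manifold Set
open scoped ContDiff

namespace Vale.Agent.P088.B

universe u

theorem final2 {n N : ℕ} [NeZero n] (hn : 3 ≤ n) (hN : 1 ≤ N) {M : Type u} [TopologicalSpace M]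
    [ChartedSpace (EuclideanHalfSpace n) M] [IsManifold (𝓡∂ n) ∞ M] [T2Space M] [CompactSpace M]
    [ConnectedSpace M] (Z : At n M) (hZ : Z = at_ n M) (Γ O : Set M) (hO : IsOpen O)
    (hΓ : Γ = O ∩ bd Z) (hne : Γ.Nonempty) (P Q : Pair Z N) (κ₁ κ₂ α β : ℝ) (hP : EYM κ₁ α β P)
    (hQ : EYM κ₂ α β Q) (hdata : SameData Γ P Q) : Related Γ P Q := by
  subst hZ
  rw [bd_at] at hΓ
  exact related_conv (Vale.Agent.P088.S.final_of Vale.Agent.P088.EYM.cmain
    Vale.Agent.P088.EYM.cChart hn hN hO hΓ hne (eym_conv hP) (eym_conv hQ) (data_conv hdata))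

end Vale.Agent.P088.B
end
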